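import Crest.Agent.Iso.Basic

/-!
# Row 220: Taylor polynomials in one variable
-/

set_option autoImplicit false

open scoped ContDiff
open MeasureTheory Set

namespace Crest.Agent.Iso

/-- the `p`-Taylor polynomial of order `I` at `p = q` -/
noncomputable def TP (I : ℕ) (q : ℝ) (f : ℝ × ℝ → ℝ) (z : ℝ × ℝ) : ℝ :=
  ∑ i ∈ Finset.range (I + 1), dp^[i] f (z.1, q) * (z.2 - q) ^ i / (i.factorial : ℝ)

theorem contDiff_TP {I : ℕ} {q : ℝ} {f : ℝ × ℝ → ℝ} (hf : ContDiff ℝ ∞ f) :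
    ContDiff ℝ ∞ (TP I q f) := by
  unfold TP
  apply ContDiff.sum
  intro i _
  apply ContDiff.div_const
  apply ContDiff.mul
  · exact (cd_dp_iter hf i).comp (contDiff_fst.prodMk contDiff_const)
  · exact (contDiff_snd.sub contDiff_const).pow i

theorem dp_TP {I : ℕ} {q : ℝ} {f : ℝ × ℝ → ℝ} (hf : ContDiff ℝ ∞ f) :
    dp (TP (I + 1) q f) = TP I q (dp f) := by
  funext z
  have h1 := hasDerivAt_slice_p (diff_of_smooth (contDiff_TP (I := I + 1) (q := q) hf) z)
  refine h1.unique ?_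
  have h2 : ∀ i ∈ Finset.range (I + 1 + 1), HasDerivAt
      (fun t : ℝ => dp^[i] f (z.1, q) * (t - q) ^ i / (i.factorial : ℝ))
      (dp^[i] f (z.1, q) * (i * (z.2 - q) ^ (i - 1)) / (i.factorial : ℝ)) z.2 := by
    intro i _
    have h3 : HasDerivAt (fun t : ℝ => t - q) 1 z.2 := (hasDerivAt_id z.2).sub_const q
    have h4 := h3.fun_pow i
    rw [mul_one] at h4
    exact (h4.const_mul _).div_const _
  have h5 := HasDerivAt.fun_sum h2
  have e : (∑ i ∈ Finset.range (I + 1 + 1),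
      dp^[i] f (z.1, q) * (i * (z.2 - q) ^ (i - 1)) / (i.factorial : ℝ)) = TP I q (dp f) z := by
    rw [Finset.sum_range_succ']
    simp only [TP, Nat.cast_zero, zero_mul, mul_zero, zero_div, add_zero]
    apply Finset.sum_congr rfl
    intro i _
    rw [Function.iterate_succ_apply, Nat.factorial_succ, Nat.add_sub_cancel]
    have : (i.factorial : ℝ) ≠ 0 := by exact_mod_cast i.factorial_ne_zero
    have h' : ((i + 1 : ℕ) : ℝ) ≠ 0 := by exact_mod_cast Nat.succ_ne_zero i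
    push_cast at h' ⊢
    field_simp
  rw [e] at h5
  exact h5

theorem dp_iter_TP {I k : ℕ} {q : ℝ} {f : ℝ × ℝ → ℝ} (hf : ContDiff ℝ ∞ f) :
    dp^[k] (TP (I + k) q f) = TP I q (dp^[k] f) := by
  induction k generalizing f with
  | zero => rfl
  | succ k ih =>
    rw [Function.iterate_succ_apply, Function.iterate_succ_apply, ← add_assoc, dp_TP hf,
      ih (cd_dp hf)]

theorem dx_TP {I : ℕ} {q : ℝ} {f : ℝ × ℝ → ℝ} (hf : ContDiff ℝ ∞ f) :
    dx (TP I q f) = TP I q (dx f) := by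
  funext z
  have h1 := hasDerivAt_slice_x (diff_of_smooth (contDiff_TP (I := I) (q := q) hf) z)
  refine h1.unique ?_
  have h2 : ∀ i ∈ Finset.range (I + 1), HasDerivAt
      (fun t : ℝ => dp^[i] f (t, q) * (z.2 - q) ^ i / (i.factorial : ℝ))
      (dp^[i] (dx f) (z.1, q) * (z.2 - q) ^ i / (i.factorial : ℝ)) z.1 := by
    intro i _
    have h3 := hasDerivAt_slice_x (z := (z.1, q)) (diff_of_smooth (cd_dp_iter hf i) (z.1, q))
    rw [dx_dp_iter hf] at h3
    exact (h3.mul_const _).div_const _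
  exact HasDerivAt.fun_sum h2

theorem dx_iter_TP {I a : ℕ} {q : ℝ} {f : ℝ × ℝ → ℝ} (hf : ContDiff ℝ ∞ f) :
    dx^[a] (TP I q f) = TP I q (dx^[a] f) := by
  induction a generalizing f with
  | zero => rfl
  | succ a ih =>
    rw [Function.iterate_succ_apply, Function.iterate_succ_apply, dx_TP hf, ih (cd_dx hf)]

/-- the jets at `p = q` -/
theorem dp_iter_TP_at {I k : ℕ} (hk : k ≤ I) {q : ℝ} {f : ℝ × ℝ → ℝ} (hf : ContDiff ℝ ∞ f) (x : ℝ) :
    dp^[k] (TP I q f) (x, q) = dp^[k] f (x, q) := by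
  obtain ⟨J, rfl⟩ : ∃ J, I = J + k := ⟨I - k, by omega⟩
  rw [dp_iter_TP hf]
  unfold TP
  rw [Finset.sum_range_succ']
  simp

theorem dp_iter_zero (n : ℕ) : dp^[n] (fun _ => (0 : ℝ)) = fun _ => 0 := by
  induction n with
  | zero => rfl
  | succ n ih => rw [Function.iterate_succ_apply, dp_const, ih]

/-- high derivatives vanish -/
theorem dp_iter_TP_zero {I k : ℕ} (hk : I < k) {q : ℝ} {f : ℝ × ℝ → ℝ} (hf : ContDiff ℝ ∞ f)
    (z : ℝ × ℝ) : dp^[k] (TP I q f) z = 0 := by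
  obtain ⟨J, rfl⟩ : ∃ J, k = J + (1 + I) := ⟨k - (1 + I), by omega⟩
  rw [Function.iterate_add_apply, Function.iterate_add_apply]
  have h1 : dp^[I] (TP I q f) = TP 0 q (dp^[I] f) := by
    have := dp_iter_TP (I := 0) (k := I) (q := q) hf
    rwa [Nat.zero_add] at this
  rw [h1, Function.iterate_one]
  have h2 : dp (TP 0 q (dp^[I] f)) = fun _ => 0 := by
    funext w
    have h3 := hasDerivAt_slice_p (diff_of_smooth (contDiff_TP (I := 0) (q := q)
      (cd_dp_iter hf I)) w)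
    refine h3.unique ?_
    have e : (fun t => TP 0 q (dp^[I] f) (w.1, t)) = fun _ => dp^[I] f (w.1, q) := by
      funext t; simp [TP]
    rw [e]
    exact hasDerivAt_const _ _
  rw [h2, dp_iter_zero]

/-- Taylor's theorem -/
theorem TP_error {I : ℕ} {q M : ℝ} {f : ℝ × ℝ → ℝ} (hf : ContDiff ℝ ∞ f) (z : ℝ × ℝ)
    (h : ∀ t ∈ uIcc q z.2, |dp^[I + 1] f (z.1, t)| ≤ M) :
    |f z - TP I q f z| ≤ M * |z.2 - q| ^ (I + 1) := by
  have key : ∀ (I : ℕ) (f : ℝ × ℝ → ℝ), ContDiff ℝ ∞ f → ∀ x y : ℝ,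
      (∀ t ∈ uIcc q y, |dp^[I + 1] f (x, t)| ≤ M) →
      |f (x, y) - TP I q f (x, y)| ≤ M * |y - q| ^ (I + 1) := by
    intro I
    induction I with
    | zero =>
      intro f hf x y h
      have hd : ∀ t ∈ uIcc q y, HasDerivWithinAt (fun t => f (x, t)) (dp f (x, t)) (uIcc q y) t :=
        fun t _ => (hasDerivAt_slice_p (z := (x, t)) (diff_of_smooth hf (x, t))).hasDerivWithinAt
      have hb : ∀ t ∈ uIcc q y, ‖dp f (x, t)‖ ≤ M := fun t ht => by
        simpa using h t ht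
      have := (convex_uIcc q y).norm_image_sub_le_of_norm_hasDerivWithin_le hd hb left_mem_uIcc
        right_mem_uIcc
      simpa [TP] using this
    | succ I ih =>
      intro f hf x y h
      set r : ℝ × ℝ → ℝ := fun z => f z - TP (I + 1) q f z with hr
      have hrs : ContDiff ℝ ∞ r := hf.sub (contDiff_TP hf)
      have hdr : ∀ z, dp r z = dp f z - TP I q (dp f) z := by
        intro z
        rw [hr, dp_sub (diff_of_smooth hf z) (diff_of_smooth (contDiff_TP hf) z), dp_TP hf]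
      have hd : ∀ t ∈ uIcc q y, HasDerivWithinAt (fun t => r (x, t)) (dp r (x, t)) (uIcc q y) t :=
        fun t _ => (hasDerivAt_slice_p (z := (x, t)) (diff_of_smooth hrs (x, t))).hasDerivWithinAt
      have hM : 0 ≤ M := (abs_nonneg _).trans (h q left_mem_uIcc)
      have hb : ∀ t ∈ uIcc q y, ‖dp r (x, t)‖ ≤ M * |y - q| ^ (I + 1) := by
        intro t ht
        rw [Real.norm_eq_abs, hdr]
        have h1 := ih (dp f) (cd_dp hf) x t (by
          intro s hs
          have := h s (uIcc_subset_uIcc left_mem_uIcc ht hs)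
          rwa [Function.iterate_succ_apply] at this)
        refine h1.trans ?_
        gcongr M * ?_ ^ _
        exact abs_sub_left_of_mem_uIcc ht
      have h3 := (convex_uIcc q y).norm_image_sub_le_of_norm_hasDerivWithin_le hd hb left_mem_uIcc
        right_mem_uIcc
      have h4 : r (x, q) = 0 := by
        have := dp_iter_TP_at (I := I + 1) (k := 0) (Nat.zero_le _) (q := q) hf x
        simp only [Function.iterate_zero, id_eq] at this
        rw [hr]; simp only; rw [this, sub_self]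
      rw [h4, sub_zero, Real.norm_eq_abs, Real.norm_eq_abs] at h3
      rw [pow_succ, ← mul_assoc]
      exact h3
  exact key I f hf z.1 z.2 h

theorem TP_bound {I : ℕ} {q : ℝ} {f : ℝ × ℝ → ℝ} (z : ℝ × ℝ) :
    |TP I q f z| ≤ ∑ i ∈ Finset.range (I + 1), |dp^[i] f (z.1, q)| * |z.2 - q| ^ i := by
  unfold TP
  refine (Finset.abs_sum_le_sum_abs _ _).trans (Finset.sum_le_sum fun i _ => ?_)
  rw [abs_div, abs_mul, abs_pow, Nat.abs_cast]
  apply div_le_self (by positivity)
  exact_mod_cast Nat.one_le_iff_ne_zero.2 i.factorial_ne_zero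

/-- bound by jets at `p = q` and the top derivative -/
theorem abs_le_of_jet_p {I : ℕ} {q M : ℝ} {f : ℝ × ℝ → ℝ} (hf : ContDiff ℝ ∞ f) (z : ℝ × ℝ)
    (h : ∀ t ∈ uIcc q z.2, |dp^[I + 1] f (z.1, t)| ≤ M) :
    |f z| ≤ ∑ i ∈ Finset.range (I + 1), |dp^[i] f (z.1, q)| * |z.2 - q| ^ i
      + M * |z.2 - q| ^ (I + 1) := by
  have h1 := TP_error hf z h
  have h2 := TP_bound (I := I) (q := q) (f := f) z
  have h3 : |f z| ≤ |TP I q f z| + |f z - TP I q f z| := by
    have := abs_add_le (TP I q f z) (f z - TP I q f z)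
    rwa [add_sub_cancel] at this
  linarith

theorem dp_comp_swap {f : ℝ × ℝ → ℝ} (hf : ContDiff ℝ ∞ f) :
    dp (fun z => f (z.2, z.1)) = fun z => dx f (z.2, z.1) := by
  funext z
  have hs : ContDiff ℝ ∞ (fun z : ℝ × ℝ => f (z.2, z.1)) := hf.comp (contDiff_snd.prodMk contDiff_fst)
  have h1 := hasDerivAt_slice_p (diff_of_smooth hs z)
  exact h1.unique (hasDerivAt_slice_x (z := (z.2, z.1)) (diff_of_smooth hf _))

theorem dp_iter_comp_swap {f : ℝ × ℝ → ℝ} (hf : ContDiff ℝ ∞ f) (n : ℕ) :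
    dp^[n] (fun z => f (z.2, z.1)) = fun z => dx^[n] f (z.2, z.1) := by
  induction n generalizing f with
  | zero => rfl
  | succ n ih =>
    rw [Function.iterate_succ_apply, dp_comp_swap hf, ih (cd_dx hf)]
    rfl

/-- the same in the direction of `x` -/
theorem abs_le_of_jet_x {I : ℕ} {q M : ℝ} {f : ℝ × ℝ → ℝ} (hf : ContDiff ℝ ∞ f) (z : ℝ × ℝ)
    (h : ∀ t ∈ uIcc q z.1, |dx^[I + 1] f (t, z.2)| ≤ M) :
    |f z| ≤ ∑ i ∈ Finset.range (I + 1), |dx^[i] f (q, z.2)| * |z.1 - q| ^ i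
      + M * |z.1 - q| ^ (I + 1) := by
  have hs : ContDiff ℝ ∞ (fun z : ℝ × ℝ => f (z.2, z.1)) := hf.comp (contDiff_snd.prodMk contDiff_fst)
  have := abs_le_of_jet_p (I := I) (q := q) (M := M) hs (z.2, z.1) (by
    intro t ht
    rw [dp_iter_comp_swap hf]
    exact h t ht)
  simp only [dp_iter_comp_swap hf] at this
  exact this

end Crest.Agent.Iso
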