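import Crest.Agent.Iso.Mixed
import Crest.Agent.Iso.TaylorP

/-!
# Row 220: the residual of the `p`-Taylor polynomial of `w`
-/

set_option autoImplicit false

open scoped ContDiff
open MeasureTheory Set

namespace Crest.Agent.Iso

/-! ### equality of `p`-jets along the line `p = q` -/

/-- `f` and `g` are smooth and have the same `p`-jets of order `n` along `p = q` -/
def JetEq (n : ℕ) (q : ℝ) (f g : ℝ × ℝ → ℝ) : Prop :=
  ContDiff ℝ ∞ f ∧ ContDiff ℝ ∞ g ∧ ∀ k ≤ n, ∀ x : ℝ, dp^[k] f (x, q) = dp^[k] g (x, q)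

namespace JetEq
variable {n : ℕ} {q : ℝ} {f g f' g' : ℝ × ℝ → ℝ}

theorem refl (hf : ContDiff ℝ ∞ f) : JetEq n q f f := ⟨hf, hf, fun _ _ _ => rfl⟩

theorem mono {m : ℕ} (h : JetEq n q f g) (hm : m ≤ n) : JetEq m q f g :=
  ⟨h.1, h.2.1, fun k hk x => h.2.2 k (hk.trans hm) x⟩

theorem add (h : JetEq n q f g) (h' : JetEq n q f' g') :
    JetEq n q (fun z => f z + f' z) (fun z => g z + g' z) := by
  refine ⟨h.1.add h'.1, h.2.1.add h'.2.1, fun k hk x => ?_⟩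
  rw [dp_iter_add h.1 h'.1, dp_iter_add h.2.1 h'.2.1]
  simp only
  rw [h.2.2 k hk x, h'.2.2 k hk x]

theorem cmul (c : ℝ) (h : JetEq n q f g) : JetEq n q (fun z => c * f z) (fun z => c * g z) := by
  refine ⟨contDiff_const.mul h.1, contDiff_const.mul h.2.1, fun k hk x => ?_⟩
  rw [dp_iter_const_mul h.1, dp_iter_const_mul h.2.1]
  simp only
  rw [h.2.2 k hk x]

theorem sub (h : JetEq n q f g) (h' : JetEq n q f' g') :
    JetEq n q (fun z => f z - f' z) (fun z => g z - g' z) := by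
  have := h.add (h'.cmul (-1))
  have e1 : (fun z => f z + -1 * f' z) = fun z => f z - f' z := by funext z; ring
  have e2 : (fun z => g z + -1 * g' z) = fun z => g z - g' z := by funext z; ring
  rwa [e1, e2] at this

theorem mul (h : JetEq n q f g) (h' : JetEq n q f' g') :
    JetEq n q (fun z => f z * f' z) (fun z => g z * g' z) := by
  refine ⟨h.1.mul h'.1, h.2.1.mul h'.2.1, fun k hk x => ?_⟩
  rw [dp_iter_mul h.1 h'.1, dp_iter_mul h.2.1 h'.2.1]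
  refine Finset.sum_congr rfl fun i hi => ?_
  rw [Finset.mem_range] at hi
  rw [h.2.2 i (by omega) x, h'.2.2 (k - i) (by omega) x]

theorem pow (h : JetEq n q f g) (m : ℕ) : JetEq n q (fun z => f z ^ m) (fun z => g z ^ m) := by
  induction m with
  | zero => simpa using refl (n := n) (q := q) (f := fun _ : ℝ × ℝ => (1 : ℝ)) contDiff_const
  | succ m ih =>
    have := ih.mul h
    simpa only [pow_succ] using this

end JetEq

/-! ### the polynomial form of the operator -/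

/-- the polynomial form `E0 · opE`; `W = f_p`, `V = f_x`, `A = f_xx`, `B = f_xp`, `C = f_pp` -/
noncomputable def Phi (ϖ ε : ℝ) (W V A B C : ℝ × ℝ → ℝ) : ℝ × ℝ → ℝ := fun z =>
  (1 - 2 * ϖ * ε * P0 z.1 (W z)) * A z
    + (2 * ϖ * ε) * (Py z.1 (W z) * V z * B z)
    + (ϖ * ε) * (Px z.1 (W z) * V z)
    + (ϖ * ε) * ((1 - 2 * ϖ * ε * P0 z.1 (W z)) * (Py z.1 (W z) * z.2))
    + (ε * (((ϖ * ε) * Py z.1 (W z) ^ 2 + (1 - 2 * ϖ * ε * P0 z.1 (W z)) * kk z.1 (W z))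
        * (1 - ϖ * z.2 ^ 2)) - (ϖ * ε) * (kk z.1 (W z) * V z ^ 2)) * C z

theorem Phi_eq {ϖ ε : ℝ} (hϖ : 0 < ϖ) (w : ℝ × ℝ → ℝ) (z : ℝ × ℝ)
    (h : E0 ϖ ε (z.1, dp w z) ≠ 0) :
    Phi ϖ ε (dp w) (dx w) (dx (dx w)) (dp (dx w)) (dp (dp w)) z
      = E0 ϖ ε (z.1, dp w z) * opE ϖ (E0 ϖ ε) w z := by
  have hE : E0 ϖ ε (z.1, dp w z) = 1 - 2 * ϖ * ε * P0 z.1 (dp w z) := rfl
  unfold opE Phi
  rw [dp_dp_E0, dp_E0, dx_E0, ← hE]
  generalize E0 ϖ ε (z.1, dp w z) = e at h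
  simp only
  field_simp
  ring

theorem jet_Phi {n : ℕ} {q ϖ ε : ℝ} {W V A B C W' V' A' B' C' : ℝ × ℝ → ℝ}
    (hW : JetEq n q W W') (hV : JetEq n q V V') (hA : JetEq n q A A') (hB : JetEq n q B B')
    (hC : JetEq n q C C') : JetEq n q (Phi ϖ ε W V A B C) (Phi ϖ ε W' V' A' B' C') := by
  have cst : ∀ c : ℝ, JetEq n q (fun _ : ℝ × ℝ => c) (fun _ => c) :=
    fun c => JetEq.refl contDiff_const
  have jx : JetEq n q (fun z : ℝ × ℝ => z.1) (fun z => z.1) := JetEq.refl contDiff_fst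
  have jp : JetEq n q (fun z : ℝ × ℝ => z.2) (fun z => z.2) := JetEq.refl contDiff_snd
  have x2 := (jx.pow 2).sub (cst (1 / 4))
  have jP0 : JetEq n q (fun z => P0 z.1 (W z)) (fun z => P0 z.1 (W' z)) := by
    have h := ((x2.mul (hW.pow 2)).cmul (1 / 2)).add ((hW.pow 4).cmul (1 / 12))
    have e : ∀ W : ℝ × ℝ → ℝ, (fun z : ℝ × ℝ => 1 / 2 * ((z.1 ^ 2 - 1 / 4) * W z ^ 2)
        + 1 / 12 * W z ^ 4) = fun z => P0 z.1 (W z) := by
      intro W; funext z; unfold P0; ring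
    rwa [e, e] at h
  have jPx : JetEq n q (fun z => Px z.1 (W z)) (fun z => Px z.1 (W' z)) := jx.mul (hW.pow 2)
  have jPy : JetEq n q (fun z => Py z.1 (W z)) (fun z => Py z.1 (W' z)) := by
    have h := (x2.mul hW).add ((hW.pow 3).cmul (1 / 3))
    have e : ∀ W : ℝ × ℝ → ℝ, (fun z : ℝ × ℝ => (z.1 ^ 2 - 1 / 4) * W z + 1 / 3 * W z ^ 3)
        = fun z => Py z.1 (W z) := by
      intro W; funext z; unfold Py; ring
    rwa [e, e] at h
  have jkk : JetEq n q (fun z => kk z.1 (W z)) (fun z => kk z.1 (W' z)) := by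
    have h := x2.add (hW.pow 2)
    have e : ∀ W : ℝ × ℝ → ℝ, (fun z : ℝ × ℝ => z.1 ^ 2 - 1 / 4 + W z ^ 2)
        = fun z => kk z.1 (W z) := by
      intro W; funext z; unfold kk; ring
    rwa [e, e] at h
  have jE : JetEq n q (fun z => 1 - 2 * ϖ * ε * P0 z.1 (W z))
      (fun z => 1 - 2 * ϖ * ε * P0 z.1 (W' z)) := (cst 1).sub (jP0.cmul (2 * ϖ * ε))
  have jq : JetEq n q (fun z : ℝ × ℝ => 1 - ϖ * z.2 ^ 2) (fun z => 1 - ϖ * z.2 ^ 2) :=
    (cst 1).sub ((jp.pow 2).cmul ϖ)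
  have t1 := jE.mul hA
  have t2 := ((jPy.mul hV).mul hB).cmul (2 * ϖ * ε)
  have t3 := (jPx.mul hV).cmul (ϖ * ε)
  have t4 := (jE.mul (jPy.mul jp)).cmul (ϖ * ε)
  have t5 := ((((jPy.pow 2).cmul (ϖ * ε)).add (jE.mul jkk)).mul jq).cmul ε
  have t6 := (jkk.mul (hV.pow 2)).cmul (ϖ * ε)
  exact (((t1.add t2).add t3).add t4).add ((t5.sub t6).mul hC)

section MBs
variable {ι : Type*} {R : ι → ℝ} {D D' : ι → Set (ℝ × ℝ)} {A N : ℕ}

/-- the polynomial expression in the classes `MB` -/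
theorem MB_Phi (hR1 : ∀ t, 1 ≤ R t) (hD1 : ∀ t, ∀ z ∈ D t, |z.1| ≤ 1)
    (hD2 : ∀ t, ∀ z ∈ D t, |z.2| ≤ 1) {ϖ ε : ι → ℝ} (hϖ : ∀ t, |ϖ t| ≤ 1) (hε : ∀ t, |ε t| ≤ 1)
    {W V fA fB fC : ι → ℝ × ℝ → ℝ} (hW : MB R D (fun _ => 1) A N W)
    (hV : MB R D (fun _ => 1) A N V) (hA : MB R D R A N fA) (hB : MB R D R A N fB)
    (hC : MB R D R A N fC) :
    MB R D R A N (fun t => Phi (ϖ t) (ε t) (W t) (V t) (fA t) (fB t) (fC t)) := by
  have hR : ∀ t, 0 ≤ R t := fun t => zero_le_one.trans (hR1 t)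
  have bx := MB.fst (R := R) (D := D) (A := A) (N := N) hR1 hD1
  have bp := MB.snd (R := R) (D := D) (A := A) (N := N) hR1 hD2
  have hϖε : ∀ t, |ϖ t * ε t| ≤ 1 := fun t => by
    rw [abs_mul]; exact mul_le_one₀ (hϖ t) (abs_nonneg _) (hε t)
  have h2 : ∀ t, |2 * ϖ t * ε t| ≤ 2 := fun t => by
    rw [mul_assoc, abs_mul, abs_two]; linarith [hϖε t]
  have one : MB R D (fun _ => 1) A N (fun _ _ => (1 : ℝ)) :=
    mx_const hR (M := 1) zero_le_one (fun _ => by norm_num)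
  have x2 : MB R D (fun _ => 1) A N (fun _ z => z.1 ^ 2 - 1 / 4) :=
    mx_sub hR (bx.pow hR 2) (mx_const hR (M := 1 / 4) (by norm_num) (fun _ => by norm_num))
  have bP0 : MB R D (fun _ => 1) A N (fun t z => P0 z.1 (W t z)) := by
    have h1 := mx_cmul hR (c := fun _ => 1 / 2) (M := 1) zero_le_one
      (fun _ => by norm_num [abs_of_pos]) (x2.mul_one hR (hW.pow hR 2))
    have h2 := mx_cmul hR (c := fun _ => 1 / 12) (M := 1) zero_le_one
      (fun _ => by norm_num [abs_of_pos]) (hW.pow hR 4)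
    have h3 := mx_add hR h1 h2
    have e : (fun t z => P0 z.1 (W t z)) = fun t z =>
        1 / 2 * ((z.1 ^ 2 - 1 / 4) * W t z ^ 2) + 1 / 12 * W t z ^ 4 := by
      funext t z; unfold P0; ring
    rw [e]; exact h3
  have bPx : MB R D (fun _ => 1) A N (fun t z => Px z.1 (W t z)) := bx.mul_one hR (hW.pow hR 2)
  have bPy : MB R D (fun _ => 1) A N (fun t z => Py z.1 (W t z)) := by
    have h2 := mx_cmul hR (c := fun _ => 1 / 3) (M := 1) zero_le_one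
      (fun _ => by norm_num [abs_of_pos]) (hW.pow hR 3)
    have h3 := mx_add hR (x2.mul_one hR hW) h2
    have e : (fun t z => Py z.1 (W t z)) = fun t z =>
        (z.1 ^ 2 - 1 / 4) * W t z + 1 / 3 * W t z ^ 3 := by
      funext t z; unfold Py; ring
    rw [e]; exact h3
  have bkk : MB R D (fun _ => 1) A N (fun t z => kk z.1 (W t z)) := by
    have h3 := mx_add hR x2 (hW.pow hR 2)
    have e : (fun t z => kk z.1 (W t z)) = fun t z => (z.1 ^ 2 - 1 / 4) + W t z ^ 2 := by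
      funext t z; unfold kk; ring
    rw [e]; exact h3
  have bE : MB R D (fun _ => 1) A N (fun t z => 1 - 2 * ϖ t * ε t * P0 z.1 (W t z)) :=
    mx_sub hR one (mx_cmul hR (c := fun t => 2 * ϖ t * ε t) (M := 2) (by norm_num) h2 bP0)
  have bq : MB R D (fun _ => 1) A N (fun t z => 1 - ϖ t * z.2 ^ 2) :=
    mx_sub hR one (mx_cmul hR (c := ϖ) (M := 1) zero_le_one hϖ (bp.pow hR 2))
  -- the weight `R`
  have up : ∀ {f : ι → ℝ × ℝ → ℝ}, MB R D (fun _ => 1) A N f → MB R D R A N f := by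
    intro f hf
    exact hf.mono_rho hR 1 zero_le_one (fun t => by simpa using hR1 t)
  have mulR : ∀ {f g : ι → ℝ × ℝ → ℝ}, MB R D (fun _ => 1) A N f → MB R D R A N g →
      MB R D R A N (fun t z => f t z * g t z) := by
    intro f g hf hg
    exact (MB.mul hR (fun _ => zero_le_one) hR hf hg).mono_rho hR 1 zero_le_one
      (fun t => by simp)
  have cmulR : ∀ {f : ι → ℝ × ℝ → ℝ} {c : ι → ℝ} {M : ℝ}, 0 ≤ M → (∀ t, |c t| ≤ M) →
      MB R D R A N f → MB R D R A N (fun t z => c t * f t z) := by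
    intro f c M hM hc hf
    exact (hf.const_mul hR c).mono_rho hR M hM
      (fun t => mul_le_mul_of_nonneg_right (hc t) (hR t))
  have t1 := mulR bE hA
  have t2 := cmulR (c := fun t => 2 * ϖ t * ε t) (M := 2) (by norm_num) h2
    (mulR (bPy.mul_one hR hV) hB)
  have t3 := up (mx_cmul hR (c := fun t => ϖ t * ε t) (M := 1) zero_le_one hϖε
    (bPx.mul_one hR hV))
  have t4 := up (mx_cmul hR (c := fun t => ϖ t * ε t) (M := 1) zero_le_one hϖε
    (bE.mul_one hR (bPy.mul_one hR bp)))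
  have t5 := mx_cmul hR (c := ε) (M := 1) zero_le_one hε
    ((mx_add hR (mx_cmul hR (c := fun t => ϖ t * ε t) (M := 1) zero_le_one hϖε (bPy.pow hR 2))
      (bE.mul_one hR bkk)).mul_one hR bq)
  have t6 := mx_cmul hR (c := fun t => ϖ t * ε t) (M := 1) zero_le_one hϖε
    (bkk.mul_one hR (hV.pow hR 2))
  exact MB.add hR hR (MB.add hR hR (MB.add hR hR (MB.add hR hR t1 t2) t3) t4)
    (mulR (mx_sub hR t5 t6) hC)

/-- iterated commutation -/
theorem dp_iter_dx_iter {f : ℝ × ℝ → ℝ} (hf : ContDiff ℝ ∞ f) (j a : ℕ) :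
    dp^[j] (dx^[a] f) = dx^[a] (dp^[j] f) := by
  induction j generalizing f with
  | zero => rfl
  | succ j ih =>
    rw [Function.iterate_succ_apply, dp_dx_iter hf, ih (cd_dp hf), Function.iterate_succ_apply]

/-- Taylor polynomials at a point of `D` are bounded on `D'` -/
theorem MB_TP {f : ι → ℝ × ℝ → ℝ} {I : ℕ} {q : ι → ℝ} (hR1 : ∀ t, 1 ≤ R t)
    (hD : ∀ t, ∀ z ∈ D' t, (z.1, q t) ∈ D t) (hq : ∀ t, ∀ z ∈ D' t, R t * |z.2 - q t| ≤ 1)
    (hN : A + I ≤ N) (hf : MB R D (fun _ => 1) A N f) (N' : ℕ) :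
    MB R D' (fun _ => 1) A N' (fun t => TP I (q t) (f t)) := by
  have hR : ∀ t, 0 ≤ R t := fun t => zero_le_one.trans (hR1 t)
  obtain ⟨hs, C, hC, hb⟩ := hf
  refine ⟨fun t => contDiff_TP (hs t), (I + 1) * C, by positivity, fun a i ha _ t z hz => ?_⟩
  by_cases hi : i ≤ I
  · obtain ⟨J, rfl⟩ : ∃ J, I = J + i := ⟨I - i, by omega⟩
    rw [dp_iter_TP (hs t), dx_iter_TP (cd_dp_iter (hs t) i)]
    refine (TP_bound (f := dx^[a] (dp^[i] (f t))) z).trans ?_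
    have hterm : ∀ j ∈ Finset.range (J + 1),
        |dp^[j] (dx^[a] (dp^[i] (f t))) (z.1, q t)| * |z.2 - q t| ^ j ≤ C * R t ^ (a + i) := by
      intro j hj
      rw [Finset.mem_range] at hj
      rw [dp_iter_dx_iter (cd_dp_iter (hs t) i), ← Function.iterate_add_apply]
      have h1 := hb a (j + i) ha (by omega) t _ (hD t z hz)
      have h2 : (R t * |z.2 - q t|) ^ j ≤ 1 :=
        pow_le_one₀ (mul_nonneg (hR t) (abs_nonneg _)) (hq t z hz)
      calc |dx^[a] (dp^[j + i] (f t)) (z.1, q t)| * |z.2 - q t| ^ j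
          ≤ (C * 1 * R t ^ (a + (j + i))) * |z.2 - q t| ^ j :=
            mul_le_mul_of_nonneg_right h1 (by positivity)
        _ = (C * R t ^ (a + i)) * (R t * |z.2 - q t|) ^ j := by
            rw [mul_pow, show a + (j + i) = (a + i) + j by ring, pow_add]; ring
        _ ≤ (C * R t ^ (a + i)) * 1 :=
            mul_le_mul_of_nonneg_left h2 (mul_nonneg hC (pow_nonneg (hR t) _))
        _ = C * R t ^ (a + i) := mul_one _
    refine (Finset.sum_le_sum hterm).trans ?_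
    rw [Finset.sum_const, Finset.card_range, nsmul_eq_mul]
    have : ((J + 1 : ℕ) : ℝ) ≤ ((J + i : ℕ) : ℝ) + 1 := by push_cast; linarith [(Nat.cast_nonneg i : (0 : ℝ) ≤ i)]
    calc ((J + 1 : ℕ) : ℝ) * (C * R t ^ (a + i))
        ≤ (((J + i : ℕ) : ℝ) + 1) * (C * R t ^ (a + i)) :=
          mul_le_mul_of_nonneg_right this (mul_nonneg hC (pow_nonneg (hR t) _))
      _ = (((J + i : ℕ) : ℝ) + 1) * C * 1 * R t ^ (a + i) := by ring
  · have hz0 : dp^[i] (TP I (q t) (f t)) = fun _ => 0 := by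
      funext y
      exact dp_iter_TP_zero (by omega) (hs t) y
    have hx0 : ∀ a : ℕ, dx^[a] (fun _ : ℝ × ℝ => (0 : ℝ)) = fun _ => 0 := by
      intro a
      induction a with
      | zero => rfl
      | succ a ih => rw [Function.iterate_succ_apply, dx_const, ih]
    rw [hz0, hx0]
    simp only [abs_zero]
    have := hR t
    positivity

end MBs

/-- weakening of the closeness -/
def Sol.weak {δ δ' : ℝ} (h : δ ≤ δ') (S : Sol δ) : Sol δ' where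
  ε := S.ε
  ϖ := S.ϖ
  b := S.b
  w := S.w
  ε_pos := S.ε_pos
  ε_le := S.ε_le
  ϖ_pos := S.ϖ_pos
  ϖ_le := S.ϖ_le.trans h
  ϖ_le_one := S.ϖ_le_one
  b_ge := S.b_ge
  b_le := S.b_le
  smooth := S.smooth
  bdd := S.bdd
  close := fun a i hai z hz => (S.close a i hai z hz).trans h
  pde := S.pde

set_option maxHeartbeats 1000000 in
theorem approx_res_core (Rc : ℝ → ℝ → Set (ℝ × ℝ))
    (hR1 : ∀ ε b : ℝ, 0 < ε → ε ≤ 1 / 1000 → 0 < b → b ≤ ε ^ 3 → ∀ z ∈ Rc ε b, |z.1| ≤ 1)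
    (hR2 : ∀ ε b : ℝ, ∀ z ∈ Rc ε b, |z.2| < 10 * b)
    (hRx : ∀ ε b : ℝ, ∀ z ∈ Rc ε b, ∀ t : ℝ, |t| < 10 * b → (z.1, t) ∈ Rc ε b)
    (hDD : ∀ ε b : ℝ, 0 < ε → ε ≤ 1 / 1000 → 0 < b → b ≤ ε ^ 3 → ∀ z ∈ Rc ε b,
      7 * b ≤ |z.2| → z ∈ DD ε b 1) (N : ℕ) :
    ∃ I₀ : ℕ, ∀ I : ℕ, I₀ ≤ I → ∃ δ₀ : ℝ, 0 < δ₀ ∧ δ₀ ≤ 1 ∧
    ∃ ε₀ : ℝ, 0 < ε₀ ∧ ∀ δ : ℝ, δ ≤ δ₀ → ∀ S : Sol δ, S.ε ≤ ε₀ →
    ∀ z ∈ Rc S.ε S.b, |opE S.ϖ (E0 S.ϖ S.ε) (TP I (9 * S.b) S.w) z| ≤ S.ε ^ N := by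
  refine ⟨N + 5, fun I hI => ?_⟩
  obtain ⟨J, rfl⟩ : ∃ J, I = J + 2 := ⟨I - 2, by omega⟩
  have hJ : N + 3 ≤ J := by omega
  obtain ⟨δ₀, hδ₀, hδ1, ε₁, hε₁, hmix⟩ := mixed 1 (J + 3)
  obtain ⟨mW, mV⟩ := hmix δ₀ (min ε₁ (1 / 1000)) le_rfl (min_le_left _ _)
  -- basic facts on the index set
  have iε : ∀ S : SolI δ₀ (min ε₁ (1 / 1000)), S.1.ε ≤ 1 / 1000 :=
    fun S => S.2.trans (min_le_right _ _)
  have iR1 : ∀ S : SolI δ₀ (min ε₁ (1 / 1000)), 1 ≤ S.1.R := fun S => S.1.one_le_R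
  have iR : ∀ S : SolI δ₀ (min ε₁ (1 / 1000)), 0 ≤ S.1.R := fun S => zero_le_one.trans (iR1 S)
  have iq : ∀ S : SolI δ₀ (min ε₁ (1 / 1000)), ∀ z ∈ Rc S.1.ε S.1.b,
      (z.1, 9 * S.1.b) ∈ DD S.1.ε S.1.b 1 := by
    intro S z hz
    have hb := S.1.b_pos
    refine hDD _ _ S.1.ε_pos (iε S) hb S.1.b_le _ (hRx _ _ z hz _ ?_) ?_
    · rw [abs_of_pos (by positivity)]; linarith
    · simp only; rw [abs_of_pos (by positivity)]; linarith
  have iRb : ∀ S : SolI δ₀ (min ε₁ (1 / 1000)), S.1.R * S.1.b ≤ S.1.ε := by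
    intro S
    have hε := S.1.ε_pos
    unfold Sol.R
    calc (S.1.ε ^ 2)⁻¹ * S.1.b ≤ (S.1.ε ^ 2)⁻¹ * S.1.ε ^ 3 :=
          mul_le_mul_of_nonneg_left S.1.b_le (by positivity)
      _ = S.1.ε := by field_simp
  have ip : ∀ S : SolI δ₀ (min ε₁ (1 / 1000)), ∀ z ∈ Rc S.1.ε S.1.b,
      S.1.R * |z.2 - 9 * S.1.b| ≤ 20 * S.1.ε := by
    intro S z hz
    have hb := S.1.b_pos
    have h2 := abs_lt.1 (hR2 _ _ z hz)
    have h3 : |z.2 - 9 * S.1.b| ≤ 20 * S.1.b := by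
      rw [abs_le]; constructor <;> linarith [h2.1, h2.2]
    calc S.1.R * |z.2 - 9 * S.1.b| ≤ S.1.R * (20 * S.1.b) :=
          mul_le_mul_of_nonneg_left h3 (iR S)
      _ = 20 * (S.1.R * S.1.b) := by ring
      _ ≤ 20 * S.1.ε := mul_le_mul_of_nonneg_left (iRb S) (by norm_num)
  have ip1 : ∀ S : SolI δ₀ (min ε₁ (1 / 1000)), ∀ z ∈ Rc S.1.ε S.1.b,
      S.1.R * |z.2 - 9 * S.1.b| ≤ 1 := fun S z hz => (ip S z hz).trans (by linarith [iε S])
  have iD1 : ∀ S : SolI δ₀ (min ε₁ (1 / 1000)), ∀ z ∈ Rc S.1.ε S.1.b, |z.1| ≤ 1 :=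
    fun S z hz => hR1 _ _ S.1.ε_pos (iε S) S.1.b_pos S.1.b_le z hz
  have iD2 : ∀ S : SolI δ₀ (min ε₁ (1 / 1000)), ∀ z ∈ Rc S.1.ε S.1.b, |z.2| ≤ 1 := by
    intro S z hz
    have h1 := hR2 _ _ z hz
    have h2 := iRb S
    have h3 := iε S
    have h4 : S.1.b ≤ S.1.ε := by
      refine le_trans ?_ h2
      have := mul_le_mul_of_nonneg_right (iR1 S) S.1.b_pos.le
      linarith
    linarith
  have hϖ : ∀ S : SolI δ₀ (min ε₁ (1 / 1000)), |S.1.ϖ| ≤ 1 := fun S => by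
    rw [abs_of_pos S.1.ϖ_pos]; exact S.1.ϖ_le_one
  have hε' : ∀ S : SolI δ₀ (min ε₁ (1 / 1000)), |S.1.ε| ≤ 1 := fun S => by
    rw [abs_of_pos S.1.ε_pos]; exact S.1.ε_le.trans (by norm_num)
  -- bounds of the derivatives of `v`
  have bV := MB_TP (I := J + 2) (q := fun S : SolI δ₀ (min ε₁ (1 / 1000)) => 9 * S.1.b) iR1 iq ip1
    (by omega) mV (J + 2)
  have bW := MB_TP (I := J + 1) (q := fun S : SolI δ₀ (min ε₁ (1 / 1000)) => 9 * S.1.b) iR1 iq ip1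
    (by omega) mW (J + 2)
  have eV : (fun S : SolI δ₀ (min ε₁ (1 / 1000)) => TP (J + 2) (9 * S.1.b) (dx S.1.w))
      = fun S => dx (TP (J + 2) (9 * S.1.b) S.1.w) := by
    funext S; exact (dx_TP S.1.smooth).symm
  have eW : (fun S : SolI δ₀ (min ε₁ (1 / 1000)) => TP (J + 1) (9 * S.1.b) (dp S.1.w))
      = fun S => dp (TP (J + 2) (9 * S.1.b) S.1.w) := by
    funext S; exact (dp_TP S.1.smooth).symm
  rw [eV] at bV
  rw [eW] at bW
  have bA := (bV.dx').mono_rho (ρ' := fun S => S.1.R) iR 1 zero_le_one (fun S => by simp)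
  have bB := ((bV.dp').mono_rho (ρ' := fun S => S.1.R) iR 1 zero_le_one
    (fun S => by simp)).mono iR (Nat.zero_le 1) le_rfl
  have bC := ((bW.dp').mono_rho (ρ' := fun S => S.1.R) iR 1 zero_le_one
    (fun S => by simp)).mono iR (Nat.zero_le 1) le_rfl
  have bPhi := MB_Phi iR1 iD1 iD2 hϖ hε' (bW.mono iR (Nat.zero_le 1) (Nat.le_succ (J + 1)))
    (bV.mono iR (Nat.zero_le 1) (Nat.le_succ (J + 1))) bA bB bC
  obtain ⟨sPhi, C, hC, bC'⟩ := bPhi
  obtain ⟨-, K₀, hK₀, bK₀⟩ := bW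
  set K : ℝ := K₀ + 1 with hK
  have hK1 : 1 ≤ K := by linarith
  refine ⟨δ₀, hδ₀, hδ1, min (min ε₁ (1 / 1000)) (min (1 / (4 * K ^ 4))
    (1 / (2 * (C * 20 ^ (J + 1)) + 1))), ?_, ?_⟩
  · refine lt_min (lt_min hε₁ (by norm_num)) (lt_min (by positivity) (by positivity))
  intro δ hδ S hS z hz
  have hSe : S.ε ≤ min ε₁ (1 / 1000) := hS.trans (min_le_left _ _)
  have hSK : S.ε ≤ 1 / (4 * K ^ 4) := hS.trans ((min_le_right _ _).trans (min_le_left _ _))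
  have hSC : S.ε ≤ 1 / (2 * (C * 20 ^ (J + 1)) + 1) :=
    hS.trans ((min_le_right _ _).trans (min_le_right _ _))
  have hε := S.ε_pos
  have hb := S.b_pos
  have hw := S.smooth
  obtain ⟨S', hS'⟩ : ∃ S' : SolI δ₀ (min ε₁ (1 / 1000)), S'.1 = S.weak hδ := ⟨⟨S.weak hδ, hSe⟩, rfl⟩
  have e1 : S'.1.ε = S.ε := by rw [hS']; rfl
  have e2 : S'.1.ϖ = S.ϖ := by rw [hS']; rfl
  have e3 : S'.1.b = S.b := by rw [hS']; rfl
  have e4 : S'.1.w = S.w := by rw [hS']; rfl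
  have e5 : S'.1.R = (S.ε ^ 2)⁻¹ := by unfold Sol.R; rw [e1]
  set q : ℝ := 9 * S.b with hq
  set v : ℝ × ℝ → ℝ := TP (J + 2) q S.w with hv
  set R : ℝ := (S.ε ^ 2)⁻¹ with hR
  have hRpos : 0 < R := by positivity
  set F : ℝ × ℝ → ℝ := Phi S.ϖ S.ε (dp v) (dx v) (dx (dx v)) (dp (dx v)) (dp (dp v)) with hF
  set F' : ℝ × ℝ → ℝ := Phi S.ϖ S.ε (dp S.w) (dx S.w) (dx (dx S.w)) (dp (dx S.w))
    (dp (dp S.w)) with hF'
  have sF : ContDiff ℝ ∞ F := by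
    have := sPhi S'
    beta_reduce at this
    rw [e1, e2, e3, e4] at this
    exact this
  have sv : ContDiff ℝ ∞ v := contDiff_TP hw
  -- the jets
  have jv : JetEq (J + 2) q v S.w := ⟨sv, hw, fun k hk x => dp_iter_TP_at hk hw x⟩
  have jW : JetEq (J + 1) q (dp v) (dp S.w) := by
    refine ⟨cd_dp sv, cd_dp hw, fun k hk x => ?_⟩
    have := jv.2.2 (k + 1) (by omega) x
    rwa [Function.iterate_succ_apply, Function.iterate_succ_apply] at this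
  have jV : JetEq (J + 2) q (dx v) (dx S.w) := by
    refine ⟨cd_dx sv, cd_dx hw, fun k hk x => ?_⟩
    rw [hv, dx_TP hw]
    exact dp_iter_TP_at hk (cd_dx hw) x
  have jA : JetEq (J + 2) q (dx (dx v)) (dx (dx S.w)) := by
    refine ⟨cd_dx (cd_dx sv), cd_dx (cd_dx hw), fun k hk x => ?_⟩
    rw [hv, dx_TP hw, dx_TP (cd_dx hw)]
    exact dp_iter_TP_at hk (cd_dx (cd_dx hw)) x
  have jB : JetEq (J + 1) q (dp (dx v)) (dp (dx S.w)) := by
    refine ⟨cd_dp (cd_dx sv), cd_dp (cd_dx hw), fun k hk x => ?_⟩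
    have := jV.2.2 (k + 1) (by omega) x
    rwa [Function.iterate_succ_apply, Function.iterate_succ_apply] at this
  have jC : JetEq J q (dp (dp v)) (dp (dp S.w)) := by
    refine ⟨cd_dp (cd_dp sv), cd_dp (cd_dp hw), fun k hk x => ?_⟩
    have := jW.2.2 (k + 1) (by omega) x
    rwa [Function.iterate_succ_apply, Function.iterate_succ_apply] at this
  have jF : JetEq J q F F' := jet_Phi (jW.mono (by omega)) (jV.mono (by omega))
    (jA.mono (by omega)) (jB.mono (by omega)) jC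
  -- `F'` vanishes on `D(1)`
  have hF'0 : EqOn F' (fun _ => 0) (DD S.ε S.b 1) := by
    intro y hy
    have hne : E0 S.ϖ S.ε (y.1, dp S.w y) ≠ 0 := by
      have := sol_one_sub S y
      show (1 - 2 * S.ϖ * S.ε * P0 y.1 (dp S.w y)) ≠ 0
      linarith
    rw [hF', Phi_eq S.ϖ_pos S.w y hne, opE_E0 S.ϖ_pos S.w y hne,
      art_pde S zero_le_one le_rfl hy, mul_zero]
  have hjet0 : ∀ k ≤ J, ∀ y ∈ Rc S.ε S.b, dp^[k] F (y.1, q) = 0 := by
    intro k hk y hy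
    rw [jF.2.2 k hk y.1]
    have h1 := iq S' y (by rw [e1, e3]; exact hy)
    rw [e1, e3] at h1
    rw [dp_iter_congr (isOpen_DD _ _ _) hF'0 k h1]
    exact congrFun (art_dp_iter_zero k) _
  -- the top derivative
  have htop : ∀ t ∈ uIcc q z.2, |dp^[J + 1] F (z.1, t)| ≤ C * R * R ^ (J + 1) := by
    intro t ht
    have h2 := abs_lt.1 (hR2 _ _ z hz)
    have ht' : |t| < 10 * S.b := by
      rw [abs_lt]
      rw [mem_uIcc] at ht
      rcases ht with h | h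
      · constructor <;> linarith [h.1, h.2, h2.1, h2.2]
      · constructor <;> linarith [h.1, h.2, h2.1, h2.2]
    have hzt : (z.1, t) ∈ Rc S'.1.ε S'.1.b := by rw [e1, e3]; exact hRx _ _ z hz t ht'
    have := bC' 0 (J + 1) le_rfl (by omega) S' (z.1, t) hzt
    beta_reduce at this
    rw [e5, e1, e2, e3, e4, Function.iterate_zero, id_eq, zero_add] at this
    exact this
  have hmain := abs_le_of_jet_p (I := J) sF z htop
  rw [Finset.sum_eq_zero (fun i hi => by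
    rw [hjet0 i (by rw [Finset.mem_range] at hi; omega) z hz, abs_zero, zero_mul]), zero_add] at hmain
  -- numerics
  have hRp : R * |z.2 - q| ≤ 20 * S.ε := by
    have := ip S' z (by rw [e1, e3]; exact hz)
    rwa [e5, e1, e3] at this
  have hFz : |F z| ≤ S.ε ^ N / 2 := by
    refine hmain.trans ?_
    have h1 : C * R * R ^ (J + 1) * |z.2 - q| ^ (J + 1) = C * R * (R * |z.2 - q|) ^ (J + 1) := by
      rw [mul_pow]; ring
    rw [h1]
    have h2 : (R * |z.2 - q|) ^ (J + 1) ≤ (20 * S.ε) ^ (J + 1) :=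
      pow_le_pow_left₀ (by positivity) hRp _
    have hε1 : S.ε ≤ 1 := S.ε_le.trans (by norm_num)
    obtain ⟨m, hm⟩ : ∃ m, J = N + 3 + m := ⟨J - (N + 3), by omega⟩
    have h3 : R * S.ε ^ (J + 1) ≤ S.ε ^ N * S.ε := by
      have e : R * S.ε ^ (J + 1) = S.ε ^ N * S.ε * (S.ε * S.ε ^ m) := by
        rw [hR, hm]
        field_simp
        ring
      rw [e]
      have : S.ε * S.ε ^ m ≤ 1 := mul_le_one₀ hε1 (by positivity) (pow_le_one₀ hε.le hε1)
      exact mul_le_of_le_one_right (by positivity) this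
    have h4 : C * 20 ^ (J + 1) * S.ε ≤ 1 / 2 := by
      have hpos : 0 < 2 * (C * 20 ^ (J + 1)) + 1 := by positivity
      have h5 := (le_div_iff₀ hpos).1 hSC
      have h6 : 0 ≤ C * 20 ^ (J + 1) := by positivity
      nlinarith
    calc C * R * (R * |z.2 - q|) ^ (J + 1) ≤ C * R * (20 * S.ε) ^ (J + 1) :=
          mul_le_mul_of_nonneg_left h2 (by positivity)
      _ = C * 20 ^ (J + 1) * (R * S.ε ^ (J + 1)) := by rw [mul_pow]; ring
      _ ≤ C * 20 ^ (J + 1) * (S.ε ^ N * S.ε) := mul_le_mul_of_nonneg_left h3 (by positivity)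
      _ = S.ε ^ N * (C * 20 ^ (J + 1) * S.ε) := by ring
      _ ≤ S.ε ^ N * (1 / 2) := mul_le_mul_of_nonneg_left h4 (by positivity)
      _ = S.ε ^ N / 2 := by ring
  -- the coefficient `E0`
  have hvp : |dp v z| ≤ K := by
    have := bK₀ 0 0 (Nat.zero_le _) (Nat.zero_le _) S' z
      (show z ∈ Rc S'.1.ε S'.1.b by rw [e1, e3]; exact hz)
    beta_reduce at this
    rw [e3, e4] at this
    simp only [Function.iterate_zero, id_eq, add_zero, pow_zero, mul_one] at this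
    exact this.trans (by linarith)
  have hx1 : |z.1| ≤ 1 := iD1 S' z (by rw [e1, e3]; exact hz)
  have hP0 : |P0 z.1 (dp v z)| ≤ K ^ 4 := by
    unfold P0
    have a1 : (dp v z) ^ 2 ≤ K ^ 2 := by
      rw [← sq_abs]; exact pow_le_pow_left₀ (abs_nonneg _) hvp 2
    have a2 : (dp v z) ^ 4 ≤ K ^ 4 := by
      have : (dp v z) ^ 4 = |dp v z| ^ 4 := by
        rw [show (4 : ℕ) = 2 * 2 by norm_num, pow_mul, pow_mul, sq_abs]
      rw [this]; exact pow_le_pow_left₀ (abs_nonneg _) hvp 4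
    have a3 : z.1 ^ 2 ≤ 1 := by
      rw [← sq_abs]; exact pow_le_one₀ (abs_nonneg _) hx1
    have a4 : K ^ 2 ≤ K ^ 4 := pow_le_pow_right₀ hK1 (by norm_num)
    have a5 : 0 ≤ (dp v z) ^ 4 := by positivity
    have a6 := sq_nonneg (dp v z)
    have a7 := sq_nonneg z.1
    rw [abs_le]
    constructor
    · have : -(1 / 4) * (dp v z) ^ 2 ≤ (z.1 ^ 2 - 1 / 4) * (dp v z) ^ 2 :=
        mul_le_mul_of_nonneg_right (by linarith) a6
      nlinarith
    · have : (z.1 ^ 2 - 1 / 4) * (dp v z) ^ 2 ≤ 1 * (dp v z) ^ 2 :=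
        mul_le_mul_of_nonneg_right (by linarith) a6
      nlinarith
  have hEE : 1 / 2 ≤ E0 S.ϖ S.ε (z.1, dp v z) := by
    show 1 / 2 ≤ 1 - 2 * S.ϖ * S.ε * P0 z.1 (dp v z)
    have a1 : |2 * S.ϖ * S.ε * P0 z.1 (dp v z)| ≤ 1 / 2 := by
      rw [abs_mul, abs_mul, abs_mul, abs_two, abs_of_pos S.ϖ_pos, abs_of_pos hε]
      have a2 : S.ε * K ^ 4 ≤ 1 / 4 := by
        have := (le_div_iff₀ (by positivity : 0 < 4 * K ^ 4)).1 hSK
        linarith
      calc 2 * S.ϖ * S.ε * |P0 z.1 (dp v z)| ≤ 2 * 1 * S.ε * K ^ 4 := by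
            have := S.ϖ_le_one
            have := S.ϖ_pos
            gcongr
        _ = 2 * (S.ε * K ^ 4) := by ring
        _ ≤ 2 * (1 / 4) := by linarith
        _ = 1 / 2 := by norm_num
    linarith [(abs_le.1 a1).2]
  have hfin : F z = E0 S.ϖ S.ε (z.1, dp v z) * opE S.ϖ (E0 S.ϖ S.ε) v z :=
    Phi_eq S.ϖ_pos v z (by linarith)
  rw [hfin, abs_mul, abs_of_pos (by linarith)] at hFz
  have a0 := abs_nonneg (opE S.ϖ (E0 S.ϖ S.ε) v z)
  nlinarith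

end Crest.Agent.Iso
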