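import Crest.Agent.Iso.Mixed
import Crest.Agent.Iso.TaylorP
import Crest.Agent.Iso.ApproxResAux

/-!
# Row 220: the approximate solution inside the diamond

`v = TP I (9b) w`, the `p`-Taylor polynomial of `w` at `p = 9 b`.
-/

set_option autoImplicit false

open scoped ContDiff
open MeasureTheory Set

namespace Crest.Agent.Iso

/-- half width of the rectangle: for `|x| ≥ (4/5) X1` all points `(x,p)` are outside the diamond
of level `1` -/
noncomputable def X1 (ε b : ℝ) : ℝ := 300 * b / √ε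

def Rct (ε b : ℝ) : Set (ℝ × ℝ) := {z | |z.1| < X1 ε b ∧ |z.2| < 10 * b}

/-- the size of `X1` -/
theorem ap_X1_le {ε b : ℝ} (hε : 0 < ε) (hb1 : b ≤ ε ^ 3) :
    X1 ε b ≤ 300 * √ε ^ 5 := by
  unfold X1
  have hs : 0 < √ε := Real.sqrt_pos.2 hε
  rw [div_le_iff₀ hs]
  have h1 : √ε ^ 2 = ε := Real.sq_sqrt hε.le
  have h2 : ε ^ 3 = √ε ^ 5 * √ε := by
    rw [← h1]; ring_nf
    rw [Real.sqrt_sq hs.le]
  nlinarith

theorem ap_X1_pos {ε b : ℝ} (hε : 0 < ε) (hb : 0 < b) : 0 < X1 ε b := by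
  unfold X1
  have hs : 0 < √ε := Real.sqrt_pos.2 hε
  positivity

theorem ap_sqrt_le {ε : ℝ} (hε1 : ε ≤ 1 / 1000) : √ε ≤ 1 / 31 := by
  rw [show (1 : ℝ) / 31 = √((1 / 31) ^ 2) by rw [Real.sqrt_sq (by norm_num)]]
  exact Real.sqrt_le_sqrt (by norm_num; linarith)

theorem ap_X1_small {ε b : ℝ} (hε : 0 < ε) (hε1 : ε ≤ 1 / 1000) (hb1 : b ≤ ε ^ 3) :
    X1 ε b ≤ 1 / 1000 := by
  have h1 := ap_X1_le hε hb1
  have h2 : √ε ^ 5 ≤ (1 / 31) ^ 5 := pow_le_pow_left₀ (Real.sqrt_nonneg _) (ap_sqrt_le hε1) 5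
  calc X1 ε b ≤ 300 * √ε ^ 5 := h1
    _ ≤ 300 * (1 / 31) ^ 5 := by linarith
    _ ≤ 1 / 1000 := by norm_num

theorem ap_b_small {ε b : ℝ} (hε : 0 < ε) (hε1 : ε ≤ 1 / 1000) (hb1 : b ≤ ε ^ 3) :
    b ≤ 1 / 1000 ∧ b ≤ ε := by
  have h1 : ε ^ 3 ≤ ε := by
    calc ε ^ 3 = ε * ε ^ 2 := by ring
      _ ≤ ε * 1 := by
        apply mul_le_mul_of_nonneg_left _ hε.le
        exact pow_le_one₀ hε.le (by linarith)
      _ = ε := mul_one ε
  constructor <;> linarith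

/-- points of the rectangle outside the inner rectangle belong to `D(1)` -/
theorem mem_DD_of_Rct {ε b : ℝ} (hε : 0 < ε) (hε1 : ε ≤ 1 / 1000) (hb : 0 < b) (hb1 : b ≤ ε ^ 3)
    {z : ℝ × ℝ} (hz : z ∈ Rct ε b) (h : 7 * b ≤ |z.2| ∨ (3 / 4) * X1 ε b ≤ |z.1|) :
    z ∈ DD ε b 1 := by
  obtain ⟨hz1, hz2⟩ := hz
  have hX := ap_X1_small hε hε1 hb1
  have hbs := (ap_b_small hε hε1 hb1).1
  have hs : 0 < √ε := Real.sqrt_pos.2 hε
  refine ⟨?_, ?_⟩
  · have h1 : z.1 ^ 2 ≤ (1 / 1000) ^ 2 := by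
      rw [← sq_abs]; exact pow_le_pow_left₀ (abs_nonneg _) (hz1.le.trans hX) 2
    have h2 : z.2 ^ 2 ≤ (1 / 100) ^ 2 := by
      rw [← sq_abs]; exact pow_le_pow_left₀ (abs_nonneg _) (by linarith) 2
    nlinarith
  · unfold hh
    rcases h with h | h
    · have h1 : 0 < √ε * √(z.1 ^ 2 + b ^ 2) := by positivity
      linarith
    · have h1 : |z.1| ≤ √(z.1 ^ 2 + b ^ 2) := by
        apply Real.le_sqrt_of_sq_le
        rw [sq_abs]; nlinarith
      have h2 : √ε * ((3 / 4) * X1 ε b) = 225 * b := by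
        unfold X1; field_simp; norm_num
      have h3 : √ε * ((3 / 4) * X1 ε b) ≤ √ε * √(z.1 ^ 2 + b ^ 2) :=
        mul_le_mul_of_nonneg_left (h.trans h1) hs.le
      have h4 := abs_nonneg z.2
      linarith

/-! ### auxiliary lemmas -/

/-- the same solution with a larger `δ` -/
def Sol.up {δ δ' : ℝ} (h : δ ≤ δ') (S : Sol δ) : Sol δ' where
  ε := S.ε
  ϖ := S.ϖ
  b := S.b
  w := S.w
  ε_pos := S.ε_pos
  ε_le := S.ε_le
  ϖ_pos := S.ϖ_pos
  ϖ_le := S.ϖ_le.trans h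
  ϖ_le_one := S.ϖ_le_one
  b_ge := S.b_ge
  b_le := S.b_le
  smooth := S.smooth
  bdd := S.bdd
  close := fun a i hai z hz => (S.close a i hai z hz).trans h
  pde := S.pde

/-- derivative bounds with uniform constant -/
theorem ap_mixed (A N : ℕ) : ∃ C : ℝ, 0 ≤ C ∧ ∃ δ₀ : ℝ, 0 < δ₀ ∧ δ₀ ≤ 1 ∧ ∃ ε₀ : ℝ, 0 < ε₀ ∧
    ∀ δ : ℝ, δ ≤ δ₀ → ∀ S : Sol δ, S.ε ≤ ε₀ → ∀ z ∈ DD S.ε S.b 1, ∀ a i : ℕ, a ≤ A →
    1 ≤ a + i → a + i ≤ N + 1 → |dx^[a] (dp^[i] S.w) z| ≤ C * S.R ^ (a + i - 1) := by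
  obtain ⟨δ₀, hδ₀, hδ1, ε₀, hε₀, h⟩ := mixed A N
  obtain ⟨⟨-, C1, hC1, h1⟩, ⟨-, C2, hC2, h2⟩⟩ := h δ₀ ε₀ le_rfl le_rfl
  refine ⟨C1 + C2, by positivity, δ₀, hδ₀, hδ1, ε₀, hε₀, fun δ hδ S hS z hz a i ha hi hN => ?_⟩
  have hR : 0 ≤ S.R ^ (a + i - 1) := pow_nonneg (zero_le_one.trans S.one_le_R) _
  let T : SolI δ₀ ε₀ := ⟨S.up hδ, hS⟩
  rcases i with _ | i
  · rcases a with _ | a
    · omega
    · have h3 := h2 a 0 (by omega) (by omega) T z hz
      have h4 : |dx^[a] (dx S.w) z| ≤ C2 * 1 * S.R ^ (a + 0) := h3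
      simp only [Function.iterate_zero, id_eq, Function.iterate_succ_apply]
      refine h4.trans ?_
      have : a + 1 + 0 - 1 = a + 0 := by omega
      rw [this] at hR ⊢
      rw [mul_one]
      exact mul_le_mul_of_nonneg_right (by linarith) hR
  · have h3 := h1 a i ha (by omega) T z hz
    have h4 : |dx^[a] (dp^[i] (dp S.w)) z| ≤ C1 * 1 * S.R ^ (a + i) := h3
    rw [Function.iterate_succ_apply]
    refine h4.trans ?_
    have : a + (i + 1) - 1 = a + i := by omega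
    rw [this] at hR ⊢
    rw [mul_one]
    exact mul_le_mul_of_nonneg_right (by linarith) hR

theorem ap_comm {f : ℝ × ℝ → ℝ} (hf : ContDiff ℝ ∞ f) (a j : ℕ) :
    dp^[j] (dx^[a] f) = dx^[a] (dp^[j] f) := by
  induction j generalizing f with
  | zero => rfl
  | succ j ih =>
    rw [Function.iterate_succ_apply, Function.iterate_succ_apply, dp_dx_iter hf, ih (cd_dp hf)]

theorem ap_TP_deriv {I k a : ℕ} (hk : k ≤ I) {q : ℝ} {f : ℝ × ℝ → ℝ} (hf : ContDiff ℝ ∞ f) :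
    dx^[a] (dp^[k] (TP I q f)) = TP (I - k) q (dx^[a] (dp^[k] f)) := by
  have h1 : dp^[k] (TP I q f) = TP (I - k) q (dp^[k] f) := by
    have := dp_iter_TP (I := I - k) (k := k) (q := q) hf
    rwa [Nat.sub_add_cancel hk] at this
  rw [h1, dx_iter_TP (cd_dp_iter hf k)]

theorem ap_sub_deriv {f g : ℝ × ℝ → ℝ} (hf : ContDiff ℝ ∞ f) (hg : ContDiff ℝ ∞ g) (a k : ℕ) :
    dx^[a] (dp^[k] (fun z => f z - g z)) = fun z => dx^[a] (dp^[k] f) z - dx^[a] (dp^[k] g) z := by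
  have hng : ContDiff ℝ ∞ (fun z => (-1 : ℝ) * g z) := contDiff_const.mul hg
  have e : (fun z => f z - g z) = fun z => f z + (-1 : ℝ) * g z := by
    funext z; ring
  rw [e, dp_iter_add hf hng, dx_iter_add (cd_dp_iter hf k) (cd_dp_iter hng k),
    dp_iter_const_mul hg, dx_iter_const_mul (cd_dp_iter hg k)]
  funext z; ring

theorem ap_pow {ε : ℝ} (hε : 0 < ε) {n m : ℕ} (h : 2 * n ≤ m) :
    ((ε ^ 2)⁻¹) ^ n * ε ^ m = ε ^ (m - 2 * n) := by
  obtain ⟨r, rfl⟩ := Nat.exists_eq_add_of_le h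
  rw [Nat.add_sub_cancel_left, pow_add, pow_mul, inv_pow, ← mul_assoc,
    inv_mul_cancel₀ (by positivity), one_mul]

theorem ap_pow_le {ε : ℝ} (hε : 0 < ε) (hε1 : ε ≤ 1) {n m l : ℕ} (h : 2 * n + l ≤ m) :
    ((ε ^ 2)⁻¹) ^ n * ε ^ m ≤ ε ^ l := by
  rw [ap_pow hε (by omega)]
  exact pow_le_pow_of_le_one hε.le hε1 (by omega)

/-- the error of the Taylor polynomial -/
theorem ap_err {δ : ℝ} (S : Sol δ) (hε1 : S.ε ≤ 1 / 1000) {I k a : ℕ} (hk : k ≤ I) {C : ℝ}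
    (hC : 0 ≤ C)
    (hm : ∀ z ∈ DD S.ε S.b 1, |dx^[a] (dp^[I + 1] S.w) z| ≤ C * S.R ^ (a + I))
    {z : ℝ × ℝ} (hz : z ∈ Rct S.ε S.b) (h : 8 * S.b ≤ z.2 ∨ (3 / 4) * X1 S.ε S.b ≤ |z.1|) :
    |dx^[a] (dp^[k] (fun z => S.w z - TP I (9 * S.b) S.w z)) z| ≤
      C * S.R ^ (a + I) * (19 * S.b) ^ (I - k + 1) := by
  have hb := S.b_pos
  rw [ap_sub_deriv S.smooth (contDiff_TP S.smooth), ap_TP_deriv hk S.smooth]
  have hR : 0 ≤ S.R ^ (a + I) := pow_nonneg (zero_le_one.trans S.one_le_R) _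
  have h1 : |z.2 - 9 * S.b| ≤ 19 * S.b := by
    have := abs_lt.1 hz.2
    rw [abs_le]; constructor <;> linarith [this.1, this.2]
  refine (TP_error (M := C * S.R ^ (a + I)) (cd_dx_iter (cd_dp_iter S.smooth k) a) z ?_).trans ?_
  · intro t ht
    have e : dp^[I - k + 1] (dx^[a] (dp^[k] S.w)) = dx^[a] (dp^[I + 1] S.w) := by
      rw [ap_comm (cd_dp_iter S.smooth k), ← Function.iterate_add_apply dp,
        show I - k + 1 + k = I + 1 by omega]
    rw [e]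
    apply hm
    have ht2 : |t| < 10 * S.b := by
      have h3 := abs_lt.1 hz.2
      rcases mem_uIcc.1 ht with h4 | h4
      · rw [abs_lt]; constructor <;> linarith [h4.1, h4.2, h3.1, h3.2]
      · rw [abs_lt]; constructor <;> linarith [h4.1, h4.2, h3.1, h3.2]
    refine mem_DD_of_Rct S.ε_pos hε1 hb S.b_le ⟨hz.1, ht2⟩ ?_
    rcases h with h | h
    · left
      have : 8 * S.b ≤ t := by
        rcases mem_uIcc.1 ht with h4 | h4 <;> linarith [h4.1, h4.2]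
      show 7 * S.b ≤ |t|
      rw [abs_of_nonneg (by linarith)]; linarith
    · right; exact h
  · exact mul_le_mul_of_nonneg_left (pow_le_pow_left₀ (abs_nonneg _) h1 _) (by positivity)

/-- closeness of `v` and `w` above and on the sides: vertical segments from `p = 9 b` stay in `D(1)`.
`|∂_x^a ∂_p^k (w - v)| ≤ C R^{I+1+a} (20 b)^{I+1-k} ≤ ε^N` for `I` large. -/
theorem approx_side (N A K : ℕ) : ∃ I₀ : ℕ, ∀ I : ℕ, I₀ ≤ I → ∃ δ₀ : ℝ, 0 < δ₀ ∧ δ₀ ≤ 1 ∧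
    ∃ ε₀ : ℝ, 0 < ε₀ ∧ ∀ δ : ℝ, δ ≤ δ₀ → ∀ S : Sol δ, S.ε ≤ ε₀ → ∀ a k : ℕ, a ≤ A → k ≤ K →
    ∀ z ∈ Rct S.ε S.b, (8 * S.b ≤ z.2 ∨ (3 / 4) * X1 S.ε S.b ≤ |z.1|) →
    |dx^[a] (dp^[k] (fun z => S.w z - TP I (9 * S.b) S.w z)) z| ≤ S.ε ^ N := by
  refine ⟨N + 3 * K + 2 * A, fun I hI => ?_⟩
  obtain ⟨C, hC, δ₀, hδ₀, hδ1, ε₀, hε₀, hm⟩ := ap_mixed A (A + I)
  have hD : 0 < C * 19 ^ (I + 1) + 1 := by positivity
  refine ⟨δ₀, hδ₀, hδ1, min ε₀ (min (1 / 1000) (1 / (C * 19 ^ (I + 1) + 1))), by positivity, ?_⟩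
  intro δ hδ S hS a k ha hk z hz h
  have hS0 : S.ε ≤ ε₀ := hS.trans (min_le_left _ _)
  have hS1 : S.ε ≤ 1 / 1000 := hS.trans ((min_le_right _ _).trans (min_le_left _ _))
  have hS2 : S.ε ≤ 1 / (C * 19 ^ (I + 1) + 1) :=
    hS.trans ((min_le_right _ _).trans (min_le_right _ _))
  have hε := S.ε_pos
  have hb := S.b_pos
  have hkI : k ≤ I := by omega
  have h1 := ap_err S hS1 hkI hC (fun z hz => by
    have := hm δ hδ S hS0 z hz a (I + 1) ha (by omega) (by omega)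
    rwa [show a + (I + 1) - 1 = a + I by omega] at this) hz h
  refine h1.trans ?_
  have h2 : (19 * S.b) ^ (I - k + 1) ≤ 19 ^ (I + 1) * S.ε ^ (3 * (I - k + 1)) := by
    rw [mul_pow]
    apply mul_le_mul
    · exact pow_le_pow_right₀ (by norm_num) (by omega)
    · rw [pow_mul]
      exact pow_le_pow_left₀ hb.le S.b_le _
    · positivity
    · positivity
  have hR : 0 ≤ S.R ^ (a + I) := pow_nonneg (zero_le_one.trans S.one_le_R) _
  have h3 : S.R ^ (a + I) * S.ε ^ (3 * (I - k + 1)) ≤ S.ε ^ (N + 1) := by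
    unfold Sol.R
    exact ap_pow_le hε (by linarith) (by omega)
  have h4 : (C * 19 ^ (I + 1)) * S.ε ≤ 1 := by
    rw [le_div_iff₀ hD] at hS2
    nlinarith
  calc C * S.R ^ (a + I) * (19 * S.b) ^ (I - k + 1)
      ≤ C * S.R ^ (a + I) * (19 ^ (I + 1) * S.ε ^ (3 * (I - k + 1))) :=
        mul_le_mul_of_nonneg_left h2 (by positivity)
    _ = (C * 19 ^ (I + 1)) * (S.R ^ (a + I) * S.ε ^ (3 * (I - k + 1))) := by ring
    _ ≤ (C * 19 ^ (I + 1)) * S.ε ^ (N + 1) := mul_le_mul_of_nonneg_left h3 (by positivity)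
    _ = ((C * 19 ^ (I + 1)) * S.ε) * S.ε ^ N := by ring
    _ ≤ 1 * S.ε ^ N := mul_le_mul_of_nonneg_right h4 (by positivity)
    _ = S.ε ^ N := one_mul _

/-- bound of derivatives of the Taylor polynomial -/
theorem ap_TP_bound {δ : ℝ} (S : Sol δ) (hε1 : S.ε ≤ 1 / 1000) {I k a : ℕ} (hk : k ≤ I) {C : ℝ}
    (hC : 0 ≤ C) (hak : 1 ≤ a + k)
    (hm : ∀ z ∈ DD S.ε S.b 1, ∀ i ≤ I, |dx^[a] (dp^[k + i] S.w) z| ≤ C * S.R ^ (a + (k + i) - 1))
    {z : ℝ × ℝ} (hz : z ∈ Rct S.ε S.b) :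
    |dx^[a] (dp^[k] (TP I (9 * S.b) S.w)) z| ≤ (I + 1) * (C * S.R ^ (a + k - 1)) := by
  have hb := S.b_pos
  have hε := S.ε_pos
  have hR : 0 ≤ S.R := zero_le_one.trans S.one_le_R
  rw [ap_TP_deriv hk S.smooth]
  refine (TP_bound z).trans ?_
  have h1 : |z.2 - 9 * S.b| ≤ 19 * S.b := by
    have := abs_lt.1 hz.2
    rw [abs_le]; constructor <;> linarith [this.1, this.2]
  have hRb : S.R * (19 * S.b) ≤ 1 := by
    unfold Sol.R
    have h2 : S.b ≤ S.ε * S.ε ^ 2 := by rw [← pow_succ']; exact S.b_le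
    rw [inv_mul_le_iff₀ (by positivity)]
    nlinarith [pow_pos hε 2]
  have hmem : (z.1, 9 * S.b) ∈ DD S.ε S.b 1 := by
    refine mem_DD_of_Rct hε hε1 hb S.b_le ⟨hz.1, ?_⟩ (Or.inl ?_)
    · show |9 * S.b| < 10 * S.b
      rw [abs_of_pos (by positivity)]; linarith
    · show 7 * S.b ≤ |9 * S.b|
      rw [abs_of_pos (by positivity)]; linarith
  calc ∑ i ∈ Finset.range (I - k + 1), |dp^[i] (dx^[a] (dp^[k] S.w)) (z.1, 9 * S.b)|
        * |z.2 - 9 * S.b| ^ i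
      ≤ ∑ i ∈ Finset.range (I - k + 1), C * S.R ^ (a + k - 1) := by
        apply Finset.sum_le_sum
        intro i hi
        rw [Finset.mem_range] at hi
        have e : dp^[i] (dx^[a] (dp^[k] S.w)) = dx^[a] (dp^[k + i] S.w) := by
          rw [ap_comm (cd_dp_iter S.smooth k), ← Function.iterate_add_apply dp, add_comm i k]
        rw [e]
        have h3 := hm _ hmem i (by omega)
        calc |dx^[a] (dp^[k + i] S.w) (z.1, 9 * S.b)| * |z.2 - 9 * S.b| ^ i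
            ≤ (C * S.R ^ (a + (k + i) - 1)) * (19 * S.b) ^ i :=
              mul_le_mul h3 (pow_le_pow_left₀ (abs_nonneg _) h1 _) (by positivity) (by positivity)
          _ = C * S.R ^ (a + k - 1) * (S.R * (19 * S.b)) ^ i := by
              rw [show a + (k + i) - 1 = (a + k - 1) + i by omega, pow_add, mul_pow]; ring
          _ ≤ C * S.R ^ (a + k - 1) * 1 :=
              mul_le_mul_of_nonneg_left (pow_le_one₀ (by positivity) hRb) (by positivity)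
          _ = _ := mul_one _
    _ = (I - k + 1 : ℕ) * (C * S.R ^ (a + k - 1)) := by
        rw [Finset.sum_const, Finset.card_range, nsmul_eq_mul]
    _ ≤ (I + 1) * (C * S.R ^ (a + k - 1)) := by
        apply mul_le_mul_of_nonneg_right _ (by positivity)
        have : I - k + 1 ≤ I + 1 := by omega
        exact_mod_cast this

/-- closeness of `v` and `w` at the bottom, by Taylor expansion in `x` from `x = - (7/8) X1`, of
order `M` with `R^M (2 X1)^M ≤ (600 √ε)^M` tiny -/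
theorem approx_bottom (N : ℕ) : ∃ I₀ : ℕ, ∀ I : ℕ, I₀ ≤ I → ∃ δ₀ : ℝ, 0 < δ₀ ∧ δ₀ ≤ 1 ∧
    ∃ ε₀ : ℝ, 0 < ε₀ ∧ ∀ δ : ℝ, δ ≤ δ₀ → ∀ S : Sol δ, S.ε ≤ ε₀ → ∀ a k : ℕ, a + k ≤ 1 →
    ∀ z ∈ Rct S.ε S.b, z.2 ≤ - 8 * S.b →
    |dx^[a] (dp^[k] (fun z => S.w z - TP I (9 * S.b) S.w z)) z| ≤ S.ε ^ N := by
  obtain ⟨I₁, hside⟩ := approx_side (N + 1) (2 * N + 3) 1
  refine ⟨I₁ + 1, fun I hI => ?_⟩
  obtain ⟨δ₁, hδ₁, hδ11, ε₁, hε₁, hside⟩ := hside I (by omega)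
  obtain ⟨C, hC, δ₀, hδ₀, hδ01, ε₀, hε₀, hm⟩ := ap_mixed (2 * N + 3) (2 * N + 4 + I)
  set D : ℝ := (2 * N + 2) + C * (I + 2) * 600 ^ (2 * N + 2) + 1 with hD
  have hD0 : 0 < D := by positivity
  refine ⟨min δ₀ δ₁, by positivity, (min_le_left _ _).trans hδ01,
    min (min ε₀ ε₁) (min (1 / 1000) (1 / D)), by positivity, ?_⟩
  intro δ hδ S hS a k hak z hz hz2
  have hS0 : S.ε ≤ ε₀ := hS.trans ((min_le_left _ _).trans (min_le_left _ _))
  have hS1 : S.ε ≤ ε₁ := hS.trans ((min_le_left _ _).trans (min_le_right _ _))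
  have hS2 : S.ε ≤ 1 / 1000 := hS.trans ((min_le_right _ _).trans (min_le_left _ _))
  have hS3 : S.ε ≤ 1 / D := hS.trans ((min_le_right _ _).trans (min_le_right _ _))
  have hε := S.ε_pos
  have hb := S.b_pos
  have hR : 0 ≤ S.R := zero_le_one.trans S.one_le_R
  have hX0 : 0 < X1 S.ε S.b := ap_X1_pos hε hb
  have hX1 := ap_X1_small hε hS2 S.b_le
  set s := √S.ε with hs
  have hs0 : 0 < s := Real.sqrt_pos.2 hε
  have hs2 : s ^ 2 = S.ε := Real.sq_sqrt hε.le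
  have hX2 : X1 S.ε S.b ≤ 300 * s ^ 5 := ap_X1_le hε S.b_le
  set q : ℝ := - (7 / 8) * X1 S.ε S.b with hq
  -- the function
  set f : ℝ × ℝ → ℝ := dx^[a] (dp^[k] (fun z => S.w z - TP I (9 * S.b) S.w z)) with hf
  have hfs : ContDiff ℝ ∞ f :=
    cd_dx_iter (cd_dp_iter (S.smooth.sub (contDiff_TP S.smooth)) k) a
  have hfi : ∀ i, dx^[i] f = dx^[i + a] (dp^[k] (fun z => S.w z - TP I (9 * S.b) S.w z)) := by
    intro i; rw [hf, ← Function.iterate_add_apply]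
  have hzq : |z.1 - q| ≤ 2 * X1 S.ε S.b := by
    have := abs_lt.1 hz.1
    rw [abs_le]; constructor <;> linarith [this.1, this.2]
  have hz2' : 7 * S.b ≤ |z.2| := by
    rw [abs_of_nonpos (by linarith)]; linarith
  -- top derivative
  have htop : ∀ t ∈ uIcc q z.1, |dx^[2 * N + 1 + 1] f (t, z.2)| ≤
      C * (I + 2) * S.R ^ (2 * N + 2) := by
    intro t ht
    have ht1 : |t| < X1 S.ε S.b := by
      have h3 := abs_lt.1 hz.1
      rcases mem_uIcc.1 ht with h4 | h4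
      · rw [abs_lt]; constructor <;> linarith [h4.1, h4.2, h3.1, h3.2]
      · rw [abs_lt]; constructor <;> linarith [h4.1, h4.2, h3.1, h3.2]
    have hmem : (t, z.2) ∈ DD S.ε S.b 1 :=
      mem_DD_of_Rct hε hS2 hb S.b_le ⟨ht1, hz.2⟩ (Or.inl hz2')
    have hrct : (t, z.2) ∈ Rct S.ε S.b := ⟨ht1, hz.2⟩
    rw [hfi, ap_sub_deriv S.smooth (contDiff_TP S.smooth)]
    have e1 := hm δ (hδ.trans (min_le_left _ _)) S hS0 _ hmem (2 * N + 1 + 1 + a) k (by omega)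
      (by omega) (by omega)
    have e2 := ap_TP_bound S hS2 (I := I) (k := k) (a := 2 * N + 1 + 1 + a) (by omega) hC (by omega)
      (fun y hy i hi => hm δ (hδ.trans (min_le_left _ _)) S hS0 y hy (2 * N + 1 + 1 + a) (k + i)
        (by omega) (by omega) (by omega)) hrct
    have e3 : S.R ^ (2 * N + 1 + 1 + a + k - 1) ≤ S.R ^ (2 * N + 2) :=
      pow_le_pow_right₀ S.one_le_R (by omega)
    have e4 : C * S.R ^ (2 * N + 1 + 1 + a + k - 1) ≤ C * S.R ^ (2 * N + 2) :=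
      mul_le_mul_of_nonneg_left e3 hC
    calc _ ≤ |dx^[2 * N + 1 + 1 + a] (dp^[k] S.w) (t, z.2)| +
          |dx^[2 * N + 1 + 1 + a] (dp^[k] (TP I (9 * S.b) S.w)) (t, z.2)| := abs_sub _ _
      _ ≤ C * S.R ^ (2 * N + 1 + 1 + a + k - 1) +
          (I + 1) * (C * S.R ^ (2 * N + 1 + 1 + a + k - 1)) := add_le_add e1 e2
      _ = (I + 2) * (C * S.R ^ (2 * N + 1 + 1 + a + k - 1)) := by ring
      _ ≤ (I + 2) * (C * S.R ^ (2 * N + 2)) := mul_le_mul_of_nonneg_left e4 (by positivity)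
      _ = _ := by ring
  refine (abs_le_of_jet_x hfs z htop).trans ?_
  have hsum : ∑ i ∈ Finset.range (2 * N + 1 + 1), |dx^[i] f (q, z.2)| * |z.1 - q| ^ i ≤
      (2 * N + 2) * S.ε ^ (N + 1) := by
    calc _ ≤ ∑ i ∈ Finset.range (2 * N + 1 + 1), S.ε ^ (N + 1) := by
          apply Finset.sum_le_sum
          intro i hi
          rw [Finset.mem_range] at hi
          rw [hfi]
          have e1 := hside δ (hδ.trans (min_le_right _ _)) S hS1 (i + a) k (by omega) (by omega)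
            (q, z.2) ⟨by
              show |q| < _
              rw [hq, abs_lt]; constructor <;> linarith, hz.2⟩ (Or.inr (by
              show _ ≤ |q|
              rw [hq, abs_of_nonpos (by linarith)]; linarith))
          have e2 : |z.1 - q| ^ i ≤ 1 := pow_le_one₀ (abs_nonneg _) (by linarith)
          calc _ ≤ S.ε ^ (N + 1) * 1 := mul_le_mul e1 e2 (by positivity) (by positivity)
            _ = _ := mul_one _
      _ = _ := by
          rw [Finset.sum_const, Finset.card_range, nsmul_eq_mul]; push_cast; ring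
  have hlast : C * (I + 2) * S.R ^ (2 * N + 2) * |z.1 - q| ^ (2 * N + 1 + 1) ≤
      C * (I + 2) * 600 ^ (2 * N + 2) * S.ε ^ (N + 1) := by
    have h1 : S.R * |z.1 - q| ≤ 600 * s := by
      have h2 : S.R = (s ^ 4)⁻¹ := by
        unfold Sol.R; rw [← hs2]; ring
      rw [h2, inv_mul_le_iff₀ (by positivity)]
      calc |z.1 - q| ≤ 2 * X1 S.ε S.b := hzq
        _ ≤ 2 * (300 * s ^ 5) := by linarith
        _ = s ^ 4 * (600 * s) := by ring
    have h3 : (S.R * |z.1 - q|) ^ (2 * N + 2) ≤ (600 * s) ^ (2 * N + 2) :=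
      pow_le_pow_left₀ (by positivity) h1 _
    have h4 : (600 * s) ^ (2 * N + 2) = 600 ^ (2 * N + 2) * S.ε ^ (N + 1) := by
      rw [mul_pow, ← hs2, ← pow_mul]; ring_nf
    calc _ = C * (I + 2) * (S.R * |z.1 - q|) ^ (2 * N + 2) := by rw [mul_pow]; ring
      _ ≤ C * (I + 2) * (600 * s) ^ (2 * N + 2) := mul_le_mul_of_nonneg_left h3 (by positivity)
      _ = _ := by rw [h4]; ring
  have hfin : D * S.ε ≤ 1 := by
    rw [le_div_iff₀ hD0] at hS3; linarith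
  calc _ ≤ (2 * N + 2) * S.ε ^ (N + 1) + C * (I + 2) * 600 ^ (2 * N + 2) * S.ε ^ (N + 1) :=
        add_le_add hsum hlast
    _ ≤ (2 * N + 2) * S.ε ^ (N + 1) + C * (I + 2) * 600 ^ (2 * N + 2) * S.ε ^ (N + 1)
        + S.ε ^ (N + 1) := le_add_of_nonneg_right (by positivity)
    _ = (D * S.ε) * S.ε ^ N := by rw [hD]; ring
    _ ≤ 1 * S.ε ^ N := mul_le_mul_of_nonneg_right hfin (by positivity)
    _ = S.ε ^ N := one_mul _

/-- the derivatives of `p²/2` -/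
theorem ap_half (a k : ℕ) {z : ℝ × ℝ} (hz : |z.2| ≤ 1) :
    |dx^[a] (dp^[k] (fun z : ℝ × ℝ => z.2 ^ 2 / 2)) z| ≤ 1 := by
  have hx0 : ∀ n, dx^[n] (fun _ => (0 : ℝ)) = fun _ => (0 : ℝ) := fun n => by
    induction n with
    | zero => rfl
    | succ n ih => rw [Function.iterate_succ_apply, dx_const, ih]
  rcases k with _ | k
  · rcases a with _ | a
    · simp only [Function.iterate_zero, id_eq]
      rw [abs_of_nonneg (by positivity), ← sq_abs]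
      have : |z.2| ^ 2 ≤ 1 := pow_le_one₀ (abs_nonneg _) hz
      linarith
    · simp only [Function.iterate_zero, id_eq]
      rw [Function.iterate_succ_apply, art_dx_half, hx0]; simp
  · rw [Function.iterate_succ_apply, art_dp_half]
    rcases k with _ | k
    · rcases a with _ | a
      · simpa using hz
      · simp only [Function.iterate_zero, id_eq]
        rw [Function.iterate_succ_apply, dx_snd, hx0]; simp
    · rw [Function.iterate_succ_apply, dp_snd]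
      rcases k with _ | k
      · rcases a with _ | a
        · simp
        · simp only [Function.iterate_zero, id_eq]
          rw [Function.iterate_succ_apply, dx_const, hx0]; simp
      · rw [Function.iterate_succ_apply, dp_const, art_dp_iter_zero, hx0]; simp

/-- bound of low derivatives -/
theorem ap_low {δ : ℝ} (S : Sol δ) {a k : ℕ} (hak : a + k ≤ 10) {z : ℝ × ℝ}
    (hz : z.1 ^ 2 + z.2 ^ 2 < 0.81) : |dx^[a] (dp^[k] S.w) z| ≤ 1 + δ := by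
  have hcd : ContDiff ℝ ∞ (fun z => S.w z - z.2 ^ 2 / 2) := S.smooth.sub art_cd_half
  have h1 := S.close a k hak z hz
  rw [ap_sub_deriv S.smooth art_cd_half] at h1
  have h2 : |z.2| ≤ 1 := by
    rw [← sq_le_one_iff_abs_le_one]; nlinarith [sq_nonneg z.1]
  have h3 := ap_half a k h2
  have h4 := abs_sub_abs_le_abs_sub (dx^[a] (dp^[k] S.w) z)
    (dx^[a] (dp^[k] (fun z : ℝ × ℝ => z.2 ^ 2 / 2)) z)
  linarith

/-- bounds of `v` -/
theorem approx_bound (I : ℕ) : ∃ δ₀ : ℝ, 0 < δ₀ ∧ δ₀ ≤ 1 ∧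
    ∃ ε₀ : ℝ, 0 < ε₀ ∧ ∀ δ : ℝ, δ ≤ δ₀ → ∀ S : Sol δ, S.ε ≤ ε₀ → ∀ a k : ℕ, a + k ≤ 2 →
    ∀ z ∈ Rct S.ε S.b, |dx^[a] (dp^[k] (TP I (9 * S.b) S.w)) z| ≤ 2 := by
  obtain ⟨C, hC, δ₀, hδ₀, hδ01, ε₀, hε₀, hm⟩ := ap_mixed 2 (2 + I)
  set D : ℝ := 2 * (I * (38 + C * 19 ^ I)) + 1 with hD
  have hD0 : 0 < D := by positivity
  refine ⟨min δ₀ (1 / 2), by positivity, (min_le_left _ _).trans hδ01,
    min ε₀ (min (1 / 1000) (1 / D)), by positivity, ?_⟩
  intro δ hδ S hS a k hak z hz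
  have hδ' : δ ≤ 1 / 2 := hδ.trans (min_le_right _ _)
  have hS0 : S.ε ≤ ε₀ := hS.trans (min_le_left _ _)
  have hS2 : S.ε ≤ 1 / 1000 := hS.trans ((min_le_right _ _).trans (min_le_left _ _))
  have hS3 : S.ε ≤ 1 / D := hS.trans ((min_le_right _ _).trans (min_le_right _ _))
  have hε := S.ε_pos
  have hb := S.b_pos
  have hR : 0 ≤ S.R := zero_le_one.trans S.one_le_R
  obtain ⟨hb1, hb2⟩ := ap_b_small hε hS2 S.b_le
  have hX1 := ap_X1_small hε hS2 S.b_le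
  rcases Nat.lt_or_ge I k with hk | hk
  · -- the derivative vanishes identically
    have h0 : dp^[k] (TP I (9 * S.b) S.w) = fun _ => (0 : ℝ) := by
      funext y; exact dp_iter_TP_zero hk S.smooth y
    have hx0 : ∀ n, dx^[n] (fun _ => (0 : ℝ)) = fun _ => (0 : ℝ) := fun n => by
      induction n with
      | zero => rfl
      | succ n ih => rw [Function.iterate_succ_apply, dx_const, ih]
    rw [h0, hx0]; simp
  rw [ap_TP_deriv hk S.smooth]
  refine (TP_bound z).trans ?_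
  have h1 : |z.2 - 9 * S.b| ≤ 19 * S.b := by
    have := abs_lt.1 hz.2
    rw [abs_le]; constructor <;> linarith [this.1, this.2]
  have hmem : (z.1, 9 * S.b) ∈ DD S.ε S.b 1 := by
    refine mem_DD_of_Rct hε hS2 hb S.b_le ⟨hz.1, ?_⟩ (Or.inl ?_)
    · show |9 * S.b| < 10 * S.b
      rw [abs_of_pos (by positivity)]; linarith
    · show 7 * S.b ≤ |9 * S.b|
      rw [abs_of_pos (by positivity)]; linarith
  have hdisc := art_DD_disc zero_le_one le_rfl hmem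
  have hterm : ∀ i : ℕ, i + 1 ≤ I - k → |dp^[i + 1] (dx^[a] (dp^[k] S.w)) (z.1, 9 * S.b)|
      * |z.2 - 9 * S.b| ^ (i + 1) ≤ (38 + C * 19 ^ I) * S.ε := by
    intro i hi
    have e : dp^[i + 1] (dx^[a] (dp^[k] S.w)) = dx^[a] (dp^[k + (i + 1)] S.w) := by
      rw [ap_comm (cd_dp_iter S.smooth k), ← Function.iterate_add_apply dp, add_comm (i + 1) k]
    rw [e]
    rcases Nat.lt_or_ge 10 (a + (k + (i + 1))) with h10 | h10
    · have h3 := hm δ (hδ.trans (min_le_left _ _)) S hS0 _ hmem a (k + (i + 1)) (by omega)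
        (by omega) (by omega)
      have h4 : (19 * S.b) ^ (i + 1) ≤ 19 ^ I * S.ε ^ (3 * (i + 1)) := by
        rw [mul_pow]
        apply mul_le_mul
        · exact pow_le_pow_right₀ (by norm_num) (by omega)
        · rw [pow_mul]
          exact pow_le_pow_left₀ hb.le S.b_le _
        · positivity
        · positivity
      have h5 : S.R ^ (a + (k + (i + 1)) - 1) * S.ε ^ (3 * (i + 1)) ≤ S.ε ^ 1 := by
        unfold Sol.R
        exact ap_pow_le hε (by linarith) (by omega)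
      calc _ ≤ (C * S.R ^ (a + (k + (i + 1)) - 1)) * (19 * S.b) ^ (i + 1) :=
            mul_le_mul h3 (pow_le_pow_left₀ (abs_nonneg _) h1 _) (by positivity) (by positivity)
        _ ≤ (C * S.R ^ (a + (k + (i + 1)) - 1)) * (19 ^ I * S.ε ^ (3 * (i + 1))) :=
            mul_le_mul_of_nonneg_left h4 (by positivity)
        _ = (C * 19 ^ I) * (S.R ^ (a + (k + (i + 1)) - 1) * S.ε ^ (3 * (i + 1))) := by ring
        _ ≤ (C * 19 ^ I) * S.ε ^ 1 := mul_le_mul_of_nonneg_left h5 (by positivity)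
        _ ≤ (38 + C * 19 ^ I) * S.ε := by rw [pow_one]; nlinarith
    · have h3 := ap_low S h10 hdisc
      have h4 : (19 * S.b) ^ (i + 1) ≤ 19 * S.ε := by
        rw [pow_succ]
        have h6 : (19 * S.b) ^ i ≤ 1 := pow_le_one₀ (by positivity) (by linarith)
        calc (19 * S.b) ^ i * (19 * S.b) ≤ 1 * (19 * S.b) :=
              mul_le_mul_of_nonneg_right h6 (by positivity)
          _ ≤ 19 * S.ε := by linarith
      calc _ ≤ 2 * (19 * S.ε) :=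
            mul_le_mul (by linarith) ((pow_le_pow_left₀ (abs_nonneg _) h1 _).trans h4)
              (by positivity) (by norm_num)
        _ ≤ (38 + C * 19 ^ I) * S.ε := by
            have : 0 ≤ C * 19 ^ I * S.ε := by positivity
            linarith
  rw [Finset.sum_range_succ']
  have hfirst : |dp^[0] (dx^[a] (dp^[k] S.w)) (z.1, 9 * S.b)| * |z.2 - 9 * S.b| ^ 0 ≤ 3 / 2 := by
    simp only [Function.iterate_zero, id_eq, pow_zero, mul_one]
    have := ap_low S (a := a) (k := k) (by omega) hdisc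
    linarith
  have hsum : ∑ i ∈ Finset.range (I - k), |dp^[i + 1] (dx^[a] (dp^[k] S.w)) (z.1, 9 * S.b)|
      * |z.2 - 9 * S.b| ^ (i + 1) ≤ I * ((38 + C * 19 ^ I) * S.ε) := by
    calc _ ≤ ∑ i ∈ Finset.range (I - k), (38 + C * 19 ^ I) * S.ε := by
          apply Finset.sum_le_sum
          intro i hi
          rw [Finset.mem_range] at hi
          exact hterm i (by omega)
      _ = (I - k : ℕ) * ((38 + C * 19 ^ I) * S.ε) := by
          rw [Finset.sum_const, Finset.card_range, nsmul_eq_mul]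
      _ ≤ _ := by
          apply mul_le_mul_of_nonneg_right _ (by positivity)
          exact_mod_cast Nat.sub_le I k
  have hfin : D * S.ε ≤ 1 := by
    rw [le_div_iff₀ hD0] at hS3; linarith
  have : I * ((38 + C * 19 ^ I) * S.ε) ≤ 1 / 2 := by
    have e : D * S.ε = 2 * (I * ((38 + C * 19 ^ I) * S.ε)) + S.ε := by rw [hD]; ring
    linarith
  linarith

/-- the residual.  Multiply by `E0 (x, v_p)`: the polynomial expression
`E v_xx - E_y v_x v_xp - E_x v_x / 2 - E E_y p / 2 + [ϖ⁻¹ (E_y²/4 - E E_yy/2)(1 - ϖ p²) + E_yy v_x²/2] v_pp`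
has the same `p`-jet of order `I - 2` at `p = 9 b` as the one with `w`, which vanishes near `p = 9 b`;
its `(I-1)`-st `p`-derivative is `≤ C R^{I+1}` on the rectangle (`MB` algebra), so that it is
`≤ C R^{I+1} (20 b)^{I-1}`. -/
theorem approx_res (N : ℕ) : ∃ I₀ : ℕ, ∀ I : ℕ, I₀ ≤ I → ∃ δ₀ : ℝ, 0 < δ₀ ∧ δ₀ ≤ 1 ∧
    ∃ ε₀ : ℝ, 0 < ε₀ ∧ ∀ δ : ℝ, δ ≤ δ₀ → ∀ S : Sol δ, S.ε ≤ ε₀ →
    ∀ z ∈ Rct S.ε S.b, |opE S.ϖ (E0 S.ϖ S.ε) (TP I (9 * S.b) S.w) z| ≤ S.ε ^ N := by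
  refine approx_res_core Rct ?_ (fun ε b z hz => hz.2) (fun ε b z hz t ht => ⟨hz.1, ht⟩)
    (fun ε b hε hε1 hb hb1 z hz h => mem_DD_of_Rct hε hε1 hb hb1 hz (Or.inl h)) N
  intro ε b hε hε1 hb hb1 z hz
  refine hz.1.le.trans ?_
  have h1 : ε ≤ √ε := Real.le_sqrt_of_sq_le (by nlinarith)
  have h2 : 0 < √ε := Real.sqrt_pos.2 hε
  unfold X1
  rw [div_le_one h2]
  have h3 : ε ^ 3 ≤ ε * (1 / 1000) := by
    have h4 : ε * ε ≤ 1 / 1000 := by nlinarith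
    calc ε ^ 3 = ε * (ε * ε) := by ring
      _ ≤ ε * (1 / 1000) := mul_le_mul_of_nonneg_left h4 hε.le
  linarith

/-- summary -/
theorem approx (N : ℕ) : ∃ δ₀ : ℝ, 0 < δ₀ ∧ δ₀ ≤ 1 ∧ ∃ ε₀ : ℝ, 0 < ε₀ ∧ ∀ δ : ℝ, δ ≤ δ₀ →
    ∀ S : Sol δ, S.ε ≤ ε₀ → ∃ v : ℝ × ℝ → ℝ, ContDiff ℝ ∞ v ∧
    (∀ z ∈ Rct S.ε S.b, |dx v z| ≤ 2 ∧ |dp v z| ≤ 2 ∧ |dp (dx v) z| ≤ 2 ∧ |dp (dp v) z| ≤ 2) ∧
    (∀ z ∈ Rct S.ε S.b, |opE S.ϖ (E0 S.ϖ S.ε) v z| ≤ S.ε ^ N) ∧
    (∀ z ∈ Rct S.ε S.b, (8 * S.b ≤ |z.2| ∨ (3 / 4) * X1 S.ε S.b ≤ |z.1|) →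
      |S.w z - v z| ≤ S.ε ^ N ∧ |dx S.w z - dx v z| ≤ S.ε ^ N ∧ |dp S.w z - dp v z| ≤ S.ε ^ N) := by
  obtain ⟨I₁, h1⟩ := approx_side N 1 1
  obtain ⟨I₂, h2⟩ := approx_bottom N
  obtain ⟨I₃, h3⟩ := approx_res N
  set I := max I₁ (max I₂ I₃) with hI
  obtain ⟨δ₁, hδ₁, hδ11, ε₁, hε₁, h1⟩ := h1 I (le_max_left _ _)
  obtain ⟨δ₂, hδ₂, hδ21, ε₂, hε₂, h2⟩ := h2 I ((le_max_left _ _).trans (le_max_right _ _))
  obtain ⟨δ₃, hδ₃, hδ31, ε₃, hε₃, h3⟩ := h3 I ((le_max_right _ _).trans (le_max_right _ _))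
  obtain ⟨δ₄, hδ₄, hδ41, ε₄, hε₄, h4⟩ := approx_bound I
  refine ⟨min (min δ₁ δ₂) (min δ₃ δ₄), by positivity,
    (min_le_left _ _).trans ((min_le_left _ _).trans hδ11),
    min (min ε₁ ε₂) (min ε₃ ε₄), by positivity, ?_⟩
  intro δ hδ S hS
  have d1 : δ ≤ δ₁ := hδ.trans ((min_le_left _ _).trans (min_le_left _ _))
  have d2 : δ ≤ δ₂ := hδ.trans ((min_le_left _ _).trans (min_le_right _ _))
  have d3 : δ ≤ δ₃ := hδ.trans ((min_le_right _ _).trans (min_le_left _ _))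
  have d4 : δ ≤ δ₄ := hδ.trans ((min_le_right _ _).trans (min_le_right _ _))
  have s1 : S.ε ≤ ε₁ := hS.trans ((min_le_left _ _).trans (min_le_left _ _))
  have s2 : S.ε ≤ ε₂ := hS.trans ((min_le_left _ _).trans (min_le_right _ _))
  have s3 : S.ε ≤ ε₃ := hS.trans ((min_le_right _ _).trans (min_le_left _ _))
  have s4 : S.ε ≤ ε₄ := hS.trans ((min_le_right _ _).trans (min_le_right _ _))
  have hsm : ContDiff ℝ ∞ (TP I (9 * S.b) S.w) := contDiff_TP S.smooth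
  refine ⟨TP I (9 * S.b) S.w, hsm, fun z hz => ⟨?_, ?_, ?_, ?_⟩, fun z hz => h3 δ d3 S s3 z hz, ?_⟩
  · exact h4 δ d4 S s4 1 0 (by norm_num) z hz
  · exact h4 δ d4 S s4 0 1 (by norm_num) z hz
  · rw [← dx_dp_comm hsm]
    exact h4 δ d4 S s4 1 1 (by norm_num) z hz
  · exact h4 δ d4 S s4 0 2 (by norm_num) z hz
  · intro z hz h
    have key : ∀ a k : ℕ, a + k ≤ 1 →
        |dx^[a] (dp^[k] (fun z => S.w z - TP I (9 * S.b) S.w z)) z| ≤ S.ε ^ N := by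
      intro a k hak
      rcases h with h | h
      · rcases le_abs.1 h with h' | h'
        · exact h1 δ d1 S s1 a k (by omega) (by omega) z hz (Or.inl h')
        · exact h2 δ d2 S s2 a k hak z hz (by linarith)
      · exact h1 δ d1 S s1 a k (by omega) (by omega) z hz (Or.inr h)
    refine ⟨key 0 0 (by norm_num), ?_, ?_⟩
    · have := key 1 0 (by norm_num)
      rwa [ap_sub_deriv S.smooth hsm] at this
    · have := key 0 1 (by norm_num)
      rwa [ap_sub_deriv S.smooth hsm] at this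

end Crest.Agent.Iso
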