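import Crest.Agent.Iso.MultDef

/-!
# Row 220: the multiplier functions
-/

set_option autoImplicit false

open scoped ContDiff
open MeasureTheory Set

namespace Crest.Agent.Iso

/-! ### multiplier functions -/

/-- `Xi t = ∫_0^t clamp(s,0,1) ds` -/
noncomputable def Xi (t : ℝ) : ℝ := (max t 0) ^ 2 / 2 - (max (t - 1) 0) ^ 2 / 2

/-- `Lam t = clamp(t,0,1)` -/
noncomputable def Lam (t : ℝ) : ℝ := max t 0 - max (t - 1) 0

theorem Lam_nonneg (t : ℝ) : 0 ≤ Lam t := by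
  unfold Lam
  have : max (t - 1) 0 ≤ max t 0 := max_le_max (by linarith) le_rfl
  linarith

theorem Lam_le_one (t : ℝ) : Lam t ≤ 1 := by
  unfold Lam
  rcases le_total t 1 with h | h
  · rw [max_eq_right (by linarith : t - 1 ≤ 0)]
    have : max t 0 ≤ 1 := max_le h zero_le_one
    linarith
  · rw [max_eq_left (by linarith : 0 ≤ t - 1), max_eq_left (by linarith : 0 ≤ t)]; linarith

theorem Lam_eq_zero {t : ℝ} (h : t ≤ 0) : Lam t = 0 := by
  unfold Lam; rw [max_eq_right h, max_eq_right (by linarith)]; ring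

theorem Lam_eq_one {t : ℝ} (h : 1 ≤ t) : Lam t = 1 := by
  unfold Lam; rw [max_eq_left (by linarith), max_eq_left (by linarith)]; ring

theorem Xi_eq_zero {t : ℝ} (h : t ≤ 0) : Xi t = 0 := by
  unfold Xi; rw [max_eq_right h, max_eq_right (by linarith)]; ring

theorem hasDerivAt_sqmax (t : ℝ) :
    HasDerivAt (fun t : ℝ => (max t 0) ^ 2 / 2) (max t 0) t := by
  rcases lt_trichotomy t 0 with h | h | h
  · have h1 : (fun t : ℝ => (max t 0) ^ 2 / 2) =ᶠ[nhds t] fun _ => 0 := by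
      filter_upwards [Iio_mem_nhds h] with s hs
      rw [max_eq_right (le_of_lt hs)]; ring
    rw [max_eq_right h.le]
    exact (hasDerivAt_const t (0 : ℝ)).congr_of_eventuallyEq h1
  · subst h
    rw [max_self]
    rw [hasDerivAt_iff_isLittleO]
    have h2 : (fun x' : ℝ => (max x' 0) ^ 2 / 2 - (max (0 : ℝ) 0) ^ 2 / 2 - (x' - 0) • (0 : ℝ))
        = fun x' : ℝ => (max x' 0) ^ 2 / 2 := by
      funext x'; simp
    rw [h2]
    rw [Asymptotics.isLittleO_iff]
    intro c hc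
    filter_upwards [Ioo_mem_nhds (neg_lt_zero.2 hc) hc] with s hs
    rw [Real.norm_eq_abs, Real.norm_eq_abs, sub_zero, abs_of_nonneg (by positivity)]
    rcases le_total s 0 with hs0 | hs0
    · rw [max_eq_right hs0]
      have : 0 ≤ c * |s| := by positivity
      simpa using this
    · rw [max_eq_left hs0, abs_of_nonneg hs0]
      nlinarith [hs.2]
  · have h1 : (fun t : ℝ => (max t 0) ^ 2 / 2) =ᶠ[nhds t] fun t => t ^ 2 / 2 := by
      filter_upwards [Ioi_mem_nhds h] with s hs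
      rw [max_eq_left (le_of_lt hs)]
    rw [max_eq_left h.le]
    have h3 : HasDerivAt (fun t : ℝ => t ^ 2 / 2) t t := by
      have := (hasDerivAt_pow 2 t).div_const 2
      simpa using this
    exact h3.congr_of_eventuallyEq h1

theorem hasDerivAt_Xi (t : ℝ) : HasDerivAt Xi (Lam t) t := by
  have h1 := hasDerivAt_sqmax t
  have h2 : HasDerivAt (fun t : ℝ => (max (t - 1) 0) ^ 2 / 2) (max (t - 1) 0) t := by
    have h0 : HasDerivAt (fun t : ℝ => t - 1) 1 t := (hasDerivAt_id t).sub_const 1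
    have := (hasDerivAt_sqmax (t - 1)).comp t h0
    simpa [Function.comp_def] using this
  exact h1.sub h2

theorem continuous_Lam : Continuous Lam := by
  unfold Lam; fun_prop

theorem contDiff_Xi : ContDiff ℝ 1 Xi := by
  rw [contDiff_one_iff_deriv]
  refine ⟨fun t => (hasDerivAt_Xi t).differentiableAt, ?_⟩
  have : deriv Xi = Lam := funext fun t => (hasDerivAt_Xi t).deriv
  rw [this]; exact continuous_Lam

theorem monotone_Xi : Monotone Xi :=
  monotone_of_deriv_nonneg (fun t => (hasDerivAt_Xi t).differentiableAt)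
    fun t => by rw [(hasDerivAt_Xi t).deriv]; exact Lam_nonneg t

theorem monotone_Lam : Monotone Lam := by
  intro a b hab
  unfold Lam
  rcases le_total b 0 with h | h <;> rcases le_total a 0 with h' | h' <;>
  rcases le_total (b - 1) 0 with h2 | h2 <;> rcases le_total (a - 1) 0 with h3 | h3 <;>
  simp only [max_eq_left, max_eq_right, h, h', h2, h3] <;> linarith

theorem Xi_sub_le {a b : ℝ} (h : b ≤ a) : Xi a - Xi b ≤ (a - b) * Lam a := by
  have hm : MonotoneOn (fun t => t * Lam a - Xi t) (Set.Iic a) := by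
    have hd : ∀ t, HasDerivAt (fun t => t * Lam a - Xi t) (Lam a - Lam t) t := by
      intro t
      have h0 : HasDerivAt (fun t : ℝ => t * Lam a) (Lam a) t := by
        simpa using (hasDerivAt_id t).mul_const (Lam a)
      exact h0.sub (hasDerivAt_Xi t)
    refine monotoneOn_of_deriv_nonneg (convex_Iic a)
      (fun t _ => (hd t).continuousAt.continuousWithinAt)
      (fun t _ => (hd t).differentiableAt.differentiableWithinAt) ?_
    intro t ht
    rw [interior_Iic] at ht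
    rw [(hd t).deriv]
    have := monotone_Lam (le_of_lt ht)
    linarith
  have := hm (Set.mem_Iic.2 h) (Set.mem_Iic.2 le_rfl) h
  simp only at this
  nlinarith

theorem Xi_nonneg (t : ℝ) : 0 ≤ Xi t := by
  rcases le_total t 0 with h | h
  · rw [Xi_eq_zero h]
  · have := monotone_Xi h
    rwa [Xi_eq_zero le_rfl] at this

theorem le_Xi (t : ℝ) : t - 1 ≤ Xi t := by
  unfold Xi
  rcases le_total t 0 with h | h
  · rw [max_eq_right h, max_eq_right (by linarith)]; linarith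
  · rcases le_total t 1 with h1 | h1
    · rw [max_eq_left h, max_eq_right (by linarith)]; nlinarith
    · rw [max_eq_left h, max_eq_left (by linarith)]; nlinarith

theorem Xi_le (t : ℝ) : Xi t ≤ max t 0 := by
  rcases le_total t 0 with h | h
  · rw [Xi_eq_zero h, max_eq_right h]
  · rw [max_eq_left h]
    have := Xi_sub_le h
    rw [Xi_eq_zero le_rfl] at this
    have h2 := Lam_le_one t
    nlinarith

/-- the `x`-multiplier: `0` for `|x| ≤ 1/8`, slope `3/4` for `|x| ≥ 1/4` -/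
noncomputable def bb (z : ℝ × ℝ) : ℝ := (3 / 32) * (Xi (8 * z.1 - 1) - Xi (-8 * z.1 - 1))

/-- the diamond height -/
noncomputable def hh (ε b s x : ℝ) : ℝ := b * (4 + 3 * s) - (1 / 32) * √ε * √(x ^ 2 + b ^ 2)

/-- the `p`-multiplier vanishing on the diamond `|p| ≤ hh ε b s x`, `τ = 3 b (s' - s)` -/
noncomputable def cc (ε b s τ : ℝ) (z : ℝ × ℝ) : ℝ :=
  τ * (Xi ((z.2 - hh ε b s z.1) / τ) - Xi ((-z.2 - hh ε b s z.1) / τ))

section
variable {ε b s τ : ℝ}

theorem contDiff_bb : ContDiff ℝ 1 bb := by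
  unfold bb
  have h1 : ContDiff ℝ 1 (fun z : ℝ × ℝ => Xi (8 * z.1 - 1)) :=
    contDiff_Xi.comp (by fun_prop)
  have h2 : ContDiff ℝ 1 (fun z : ℝ × ℝ => Xi (-8 * z.1 - 1)) :=
    contDiff_Xi.comp (by fun_prop)
  exact contDiff_const.mul (h1.sub h2)

theorem dp_bb (z : ℝ × ℝ) : dp bb z = 0 := by
  have h1 := hasDerivAt_slice_p (contDiff_bb.differentiable (by norm_num) z)
  have h2 : HasDerivAt (fun t => bb (z.1, t)) 0 z.2 := by
    show HasDerivAt (fun _ : ℝ => (3 / 32 : ℝ) * (Xi (8 * z.1 - 1) - Xi (-8 * z.1 - 1))) 0 z.2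
    exact hasDerivAt_const z.2 _
  exact h1.unique h2

theorem dx_bb (z : ℝ × ℝ) : dx bb z = (3 / 4) * (Lam (8 * z.1 - 1) + Lam (-8 * z.1 - 1)) := by
  have h1 := hasDerivAt_slice_x (contDiff_bb.differentiable (by norm_num) z)
  have h3 : HasDerivAt (fun t : ℝ => 8 * t - 1) 8 z.1 := by
    simpa using ((hasDerivAt_id z.1).const_mul (8 : ℝ)).sub_const 1
  have h4 : HasDerivAt (fun t : ℝ => -8 * t - 1) (-8) z.1 := by
    simpa using ((hasDerivAt_id z.1).const_mul (-8 : ℝ)).sub_const 1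
  have h5 := (hasDerivAt_Xi (8 * z.1 - 1)).comp z.1 h3
  have h6 := (hasDerivAt_Xi (-8 * z.1 - 1)).comp z.1 h4
  have h2 := (h5.sub h6).const_mul (3 / 32 : ℝ)
  have h7 := h1.unique (f := fun t => bb (t, z.2)) h2
  rw [h7]; ring

theorem contDiff_hh (hb : 0 < b) : ContDiff ℝ 1 (hh ε b s) := by
  unfold hh
  have h1 : ContDiff ℝ 1 (fun x : ℝ => √(x ^ 2 + b ^ 2)) := by
    refine ContDiff.sqrt (by fun_prop) fun x => ?_
    positivity
  exact contDiff_const.sub (contDiff_const.mul h1)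

theorem hasDerivAt_hh (hb : 0 < b) (x : ℝ) :
    HasDerivAt (hh ε b s) (-((1 / 32) * √ε * (x / √(x ^ 2 + b ^ 2)))) x := by
  unfold hh
  have hp : 0 < x ^ 2 + b ^ 2 := by positivity
  have h1 : HasDerivAt (fun x : ℝ => x ^ 2 + b ^ 2) (2 * x) x := by
    simpa using (hasDerivAt_pow 2 x).add_const (b ^ 2)
  have h2 := h1.sqrt hp.ne'
  have h3 := (h2.const_mul ((1 / 32) * √ε)).const_sub (b * (4 + 3 * s))
  rw [mul_div_mul_left _ _ two_ne_zero] at h3
  exact h3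

theorem abs_deriv_hh_le (hb : 0 < b) (x : ℝ) :
    |(-((1 / 32) * √ε * (x / √(x ^ 2 + b ^ 2))))| ≤ (1 / 32) * √ε := by
  have hp : 0 < √(x ^ 2 + b ^ 2) := Real.sqrt_pos.2 (by positivity)
  have h1 : |x / √(x ^ 2 + b ^ 2)| ≤ 1 := by
    rw [abs_div, abs_of_pos hp, div_le_one hp]
    exact Real.abs_le_sqrt (by nlinarith [sq_nonneg b])
  rw [abs_neg, abs_mul, abs_of_nonneg (by positivity)]
  have : (0 : ℝ) ≤ 1 / 32 * √ε := by positivity
  nlinarith

theorem contDiff_cc (hb : 0 < b) (hτ : 0 < τ) : ContDiff ℝ 1 (cc ε b s τ) := by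
  unfold cc
  have h0 : ContDiff ℝ 1 (fun z : ℝ × ℝ => hh ε b s z.1) :=
    (contDiff_hh hb).comp contDiff_fst
  have h1 : ContDiff ℝ 1 (fun z : ℝ × ℝ => Xi ((z.2 - hh ε b s z.1) / τ)) :=
    contDiff_Xi.comp ((contDiff_snd.sub h0).div_const τ)
  have h2 : ContDiff ℝ 1 (fun z : ℝ × ℝ => Xi ((-z.2 - hh ε b s z.1) / τ)) :=
    contDiff_Xi.comp ((contDiff_snd.neg.sub h0).div_const τ)
  exact contDiff_const.mul (h1.sub h2)

theorem dp_cc (hb : 0 < b) (hτ : 0 < τ) (z : ℝ × ℝ) : dp (cc ε b s τ) z =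
    Lam ((z.2 - hh ε b s z.1) / τ) + Lam ((-z.2 - hh ε b s z.1) / τ) := by
  have h1 := hasDerivAt_slice_p ((contDiff_cc (ε := ε) (s := s) hb hτ).differentiable (by norm_num) z)
  have h3 : HasDerivAt (fun t : ℝ => (t - hh ε b s z.1) / τ) (1 / τ) z.2 :=
    ((hasDerivAt_id z.2).sub_const _).div_const τ
  have h4 : HasDerivAt (fun t : ℝ => (-t - hh ε b s z.1) / τ) (-1 / τ) z.2 :=
    ((hasDerivAt_id z.2).neg.sub_const _).div_const τ
  have h5 := (hasDerivAt_Xi ((z.2 - hh ε b s z.1) / τ)).comp z.2 h3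
  have h6 := (hasDerivAt_Xi ((-z.2 - hh ε b s z.1) / τ)).comp z.2 h4
  have h2 := (h5.sub h6).const_mul τ
  have h7 := h1.unique (f := fun t => cc ε b s τ (z.1, t)) h2
  rw [h7]; field_simp; ring

theorem dx_cc (hb : 0 < b) (hτ : 0 < τ) (z : ℝ × ℝ) : dx (cc ε b s τ) z =
    ((1 / 32) * √ε * (z.1 / √(z.1 ^ 2 + b ^ 2))) *
      (Lam ((z.2 - hh ε b s z.1) / τ) - Lam ((-z.2 - hh ε b s z.1) / τ)) := by
  have h1 := hasDerivAt_slice_x ((contDiff_cc (ε := ε) (s := s) hb hτ).differentiable (by norm_num) z)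
  have hh1 := hasDerivAt_hh (ε := ε) (s := s) hb z.1
  have h3 := (hh1.const_sub z.2).div_const τ
  have h4 := (hh1.const_sub (-z.2)).div_const τ
  have h5 := (hasDerivAt_Xi ((z.2 - hh ε b s z.1) / τ)).comp z.1 h3
  have h6 := (hasDerivAt_Xi ((-z.2 - hh ε b s z.1) / τ)).comp z.1 h4
  have h2 := (h5.sub h6).const_mul τ
  have h7 := h1.unique (f := fun t => cc ε b s τ (t, z.2)) h2
  rw [h7]; field_simp

/-- `|c_x| ≤ (1/32) √ε c_p` -/
theorem abs_dx_cc_le (hε : 0 ≤ ε) (hb : 0 < b) (hτ : 0 < τ) (z : ℝ × ℝ) :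
    |dx (cc ε b s τ) z| ≤ (1 / 32) * √ε * dp (cc ε b s τ) z := by
  rw [dx_cc hb hτ, dp_cc hb hτ, abs_mul]
  have h1 := abs_deriv_hh_le (ε := ε) hb z.1
  rw [abs_neg] at h1
  have h2 := Lam_nonneg ((z.2 - hh ε b s z.1) / τ)
  have h3 := Lam_nonneg ((-z.2 - hh ε b s z.1) / τ)
  have h4 : |Lam ((z.2 - hh ε b s z.1) / τ) - Lam ((-z.2 - hh ε b s z.1) / τ)| ≤
      Lam ((z.2 - hh ε b s z.1) / τ) + Lam ((-z.2 - hh ε b s z.1) / τ) := by
    rw [abs_le]; constructor <;> linarith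
  exact mul_le_mul h1 h4 (abs_nonneg _) (by positivity)

theorem dp_cc_nonneg (hb : 0 < b) (hτ : 0 < τ) (z : ℝ × ℝ) : 0 ≤ dp (cc ε b s τ) z := by
  rw [dp_cc hb hτ]
  exact add_nonneg (Lam_nonneg _) (Lam_nonneg _)

theorem dp_cc_le_two (hb : 0 < b) (hτ : 0 < τ) (z : ℝ × ℝ) : dp (cc ε b s τ) z ≤ 2 := by
  rw [dp_cc hb hτ]
  have h2 := Lam_le_one ((z.2 - hh ε b s z.1) / τ)
  have h3 := Lam_le_one ((-z.2 - hh ε b s z.1) / τ)
  linarith

/-- outside the bigger diamond `c_p ≥ 1` -/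
theorem one_le_dp_cc (hb : 0 < b) (hτ : 0 < τ) {z : ℝ × ℝ} (h : hh ε b s z.1 + τ ≤ |z.2|) :
    1 ≤ dp (cc ε b s τ) z := by
  rw [dp_cc hb hτ]
  have h2 := Lam_nonneg ((z.2 - hh ε b s z.1) / τ)
  have h3 := Lam_nonneg ((-z.2 - hh ε b s z.1) / τ)
  rcases abs_cases z.2 with ⟨h4, _⟩ | ⟨h4, _⟩
  · rw [h4] at h
    have : 1 ≤ (z.2 - hh ε b s z.1) / τ := by rw [le_div_iff₀ hτ]; linarith
    rw [Lam_eq_one this]; linarith
  · rw [h4] at h
    have : 1 ≤ (-z.2 - hh ε b s z.1) / τ := by rw [le_div_iff₀ hτ]; linarith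
    rw [Lam_eq_one this]; linarith

/-- inside the diamond everything vanishes -/
theorem dp_cc_eq_zero (hb : 0 < b) (hτ : 0 < τ) {z : ℝ × ℝ} (h : |z.2| ≤ hh ε b s z.1) :
    dp (cc ε b s τ) z = 0 := by
  rw [dp_cc hb hτ]
  have h1 := le_abs_self z.2
  have h2 := neg_le_abs z.2
  rw [Lam_eq_zero (div_nonpos_of_nonpos_of_nonneg (by linarith) hτ.le),
    Lam_eq_zero (div_nonpos_of_nonpos_of_nonneg (by linarith) hτ.le), add_zero]

/-- `|c| ≤ 2 |p| c_p` -/
theorem abs_cc_le (hb : 0 < b) (hτ : 0 < τ) (z : ℝ × ℝ) :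
    |cc ε b s τ z| ≤ 2 * |z.2| * dp (cc ε b s τ) z := by
  rw [dp_cc hb hτ, cc, abs_mul, abs_of_pos hτ]
  have h2 := Lam_nonneg ((z.2 - hh ε b s z.1) / τ)
  have h3 := Lam_nonneg ((-z.2 - hh ε b s z.1) / τ)
  rcases le_total 0 z.2 with h | h
  · have hle : (-z.2 - hh ε b s z.1) / τ ≤ (z.2 - hh ε b s z.1) / τ :=
      div_le_div_of_nonneg_right (by linarith) hτ.le
    have h5 := Xi_sub_le hle
    have h6 := monotone_Xi hle
    rw [abs_of_nonneg (by linarith), abs_of_nonneg h]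
    have h7 : τ * ((z.2 - hh ε b s z.1) / τ - (-z.2 - hh ε b s z.1) / τ) = 2 * z.2 := by
      field_simp; ring
    have h8 := mul_le_mul_of_nonneg_left h5 hτ.le
    rw [← mul_assoc, h7] at h8
    nlinarith [mul_nonneg h h3]
  · have hle : (z.2 - hh ε b s z.1) / τ ≤ (-z.2 - hh ε b s z.1) / τ :=
      div_le_div_of_nonneg_right (by linarith) hτ.le
    have h5 := Xi_sub_le hle
    have h6 := monotone_Xi hle
    rw [abs_of_nonpos (by linarith), abs_of_nonpos h]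
    have h7 : τ * ((-z.2 - hh ε b s z.1) / τ - (z.2 - hh ε b s z.1) / τ) = 2 * -z.2 := by
      field_simp; ring
    have h8 := mul_le_mul_of_nonneg_left h5 hτ.le
    rw [← mul_assoc, h7] at h8
    nlinarith [mul_nonneg (neg_nonneg.2 h) h2]

/-- `c p ≥ |p| (|p| - (h⁺ + τ))`, `h ≤ 7 b` -/
theorem mul_cc_ge (hε : 0 ≤ ε) (hb : 0 < b) (hτ : 0 < τ) (hs : 0 ≤ s) (hs1 : s ≤ 1) (hτ1 : τ ≤ 3 * b)
    (z : ℝ × ℝ) :
    |z.2| * (|z.2| - 10 * b) ≤ z.2 * cc ε b s τ z ∧ 0 ≤ z.2 * cc ε b s τ z := by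
  have hH : hh ε b s z.1 ≤ 7 * b := by
    unfold hh
    have : 0 ≤ 1 / 32 * √ε * √(z.1 ^ 2 + b ^ 2) := by positivity
    nlinarith
  have key : ∀ (p H : ℝ), 0 ≤ p → H ≤ 7 * b →
      p - 10 * b ≤ τ * (Xi ((p - H) / τ) - Xi ((-p - H) / τ)) ∧
        0 ≤ τ * (Xi ((p - H) / τ) - Xi ((-p - H) / τ)) := by
    intro p H hp hH
    have hle : (-p - H) / τ ≤ (p - H) / τ := div_le_div_of_nonneg_right (by linarith) hτ.le
    have h6 := monotone_Xi hle
    refine ⟨?_, mul_nonneg hτ.le (by linarith)⟩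
    have h1 := mul_le_mul_of_nonneg_left (le_Xi ((p - H) / τ)) hτ.le
    have h2 := mul_le_mul_of_nonneg_left (Xi_le ((-p - H) / τ)) hτ.le
    have h3 : τ * ((p - H) / τ - 1) = p - H - τ := by field_simp
    rw [h3] at h1
    rcases le_total (-p - H) 0 with h4 | h4
    · rw [max_eq_right (div_nonpos_of_nonpos_of_nonneg h4 hτ.le), mul_zero] at h2
      rw [mul_sub]
      linarith
    · rw [max_eq_left (div_nonneg h4 hτ.le), mul_div_cancel₀ _ hτ.ne'] at h2
      rw [mul_sub]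
      linarith
  rcases le_total 0 z.2 with h | h
  · obtain ⟨h1, h2⟩ := key z.2 (hh ε b s z.1) h hH
    rw [abs_of_nonneg h]
    exact ⟨mul_le_mul_of_nonneg_left h1 h, mul_nonneg h h2⟩
  · obtain ⟨h1, h2⟩ := key (-z.2) (hh ε b s z.1) (neg_nonneg.2 h) hH
    rw [neg_neg] at h1 h2
    rw [abs_of_nonpos h]
    have h3 : z.2 * cc ε b s τ z =
        -z.2 * (τ * (Xi ((-z.2 - hh ε b s z.1) / τ) - Xi ((z.2 - hh ε b s z.1) / τ))) := by
      unfold cc; ring
    rw [h3]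
    exact ⟨mul_le_mul_of_nonneg_left h1 (neg_nonneg.2 h), mul_nonneg (neg_nonneg.2 h) h2⟩

end

end Crest.Agent.Iso
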