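import Crest.Agent.Iso.CoefAlg
import Crest.Agent.Iso.Mult

/-!
# Row 220: the commuted equation
-/

set_option autoImplicit false

open scoped ContDiff
open MeasureTheory Set

namespace Crest.Agent.Iso

section
variable {ι : Type*} {R : ι → ℝ} {D : ι → Set (ℝ × ℝ)} {w : ι → ℝ × ℝ → ℝ}

/-- the commuted equation: `LL φ = F_j` has order `j` (in `L²(D t)`), `φ = ∂_p^j w` -/
theorem commuted (hD : Dom R D) {j : ℕ} (hj : 2 ≤ j)
    {g1 g1W g1V g2 g2W g2V g3 g3W g3V : ι → ℝ × ℝ → ℝ}
    (hws : ∀ t, ContDiff ℝ ∞ (w t))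
    (h1 : Coef R D w j g1 g1W g1V) (h2 : Coef R D w j g2 g2W g2V) (h3 : Coef R D w j g3 g3W g3V)
    (hw : Tame R D 1 j (fun t => dp (w t))) (hv : Tame R D 1 j (fun t => dx (w t)))
    (pde : ∀ t, ∀ z ∈ D t, dx (dx (w t)) z + g1 t z * dp (dx (w t)) z + g2 t z * dp (dp (w t)) z
      + g3 t z = 0) :
    B2 R D j (fun t => LL (g1 t) (g2 t) (al1 (w t) (g2 t) (g1W t) (g2W t) (g3W t) j)
        (al2 (w t) (g1 t) (g1V t) (g2V t) (g3V t) j) (dp^[j] (w t))) := by
  have r1 := Coef.rem_r hD hj hws h1 hw hv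
  have r2 := Coef.rem_t hD hj hws h2 hw hv
  have r3 := Coef.rem hD hj hws h3 hw hv
  have sx := fun t => cd_dx (hws t)
  have sp := fun t => cd_dp (hws t)
  have c1 : ∀ t, Continuous (fun z => dp^[j] (fun z => g1 t z * dp (dx (w t)) z) z
      - (g1 t z * dp^[j + 1] (dx (w t)) z + j * dp (g1 t) z * dp^[j] (dx (w t)) z
        + (g1W t z * dp^[j + 1] (w t) z + g1V t z * dp^[j] (dx (w t)) z) * dp (dx (w t)) z)) :=
    fun t => by
      have a1 := (cd_dp_iter ((h1.tame.smooth t).mul (cd_dp (sx t))) j).continuous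
      have a2 := (h1.tame.smooth t).continuous
      have a3 := (cd_dp_iter (sx t) (j + 1)).continuous
      have a4 := (cd_dp (h1.tame.smooth t)).continuous
      have a5 := (cd_dp_iter (sx t) j).continuous
      have a6 := (h1.tameW.smooth t).continuous
      have a7 := (cd_dp_iter (hws t) (j + 1)).continuous
      have a8 := (h1.tameV.smooth t).continuous
      have a9 := (cd_dp (sx t)).continuous
      fun_prop
  have c2 : ∀ t, Continuous (fun z => dp^[j] (fun z => g2 t z * dp (dp (w t)) z) z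
      - (g2 t z * dp^[j + 2] (w t) z + j * dp (g2 t) z * dp^[j + 1] (w t) z
        + (g2W t z * dp^[j + 1] (w t) z + g2V t z * dp^[j] (dx (w t)) z) * dp (dp (w t)) z)) :=
    fun t => by
      have a1 := (cd_dp_iter ((h2.tame.smooth t).mul (cd_dp (sp t))) j).continuous
      have a2 := (h2.tame.smooth t).continuous
      have a3 := (cd_dp_iter (hws t) (j + 2)).continuous
      have a4 := (cd_dp (h2.tame.smooth t)).continuous
      have a5 := (cd_dp_iter (sx t) j).continuous
      have a6 := (h2.tameW.smooth t).continuous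
      have a7 := (cd_dp_iter (hws t) (j + 1)).continuous
      have a8 := (h2.tameV.smooth t).continuous
      have a9 := (cd_dp (sp t)).continuous
      fun_prop
  have c3 : ∀ t, Continuous (fun z => dp^[j] (g3 t) z - g3W t z * dp^[j + 1] (w t) z
      - g3V t z * dp^[j] (dx (w t)) z) :=
    fun t => by
      have a1 := (cd_dp_iter (h3.tame.smooth t) j).continuous
      have a5 := (cd_dp_iter (sx t) j).continuous
      have a6 := (h3.tameW.smooth t).continuous
      have a7 := (cd_dp_iter (hws t) (j + 1)).continuous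
      have a8 := (h3.tameV.smooth t).continuous
      fun_prop
  have r := B2.const_mul hD (fun _ => (-1 : ℝ)) ⟨1, fun _ => by simp⟩
    (B2.add hD (fun t => (c1 t).add (c2 t)) c3 (B2.add hD c1 c2 r1 r2) r3)
  refine B2.congr hD r ?_
  intro t z hz
  -- the differentiated pde
  have hs1 : ContDiff ℝ ∞ (fun z => g1 t z * dp (dx (w t)) z) :=
    (h1.tame.smooth t).mul (cd_dp (sx t))
  have hs2 : ContDiff ℝ ∞ (fun z => g2 t z * dp (dp (w t)) z) :=
    (h2.tame.smooth t).mul (cd_dp (sp t))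
  have hs3 := h3.tame.smooth t
  have key : dp^[j] (dx (dx (w t))) z + dp^[j] (fun z => g1 t z * dp (dx (w t)) z) z
      + dp^[j] (fun z => g2 t z * dp (dp (w t)) z) z + dp^[j] (g3 t) z = 0 := by
    have e := dp_iter_congr (hD.isOpen t)
      (f := fun z => ((dx (dx (w t)) z + g1 t z * dp (dx (w t)) z) + g2 t z * dp (dp (w t)) z)
        + g3 t z) (g := fun _ => (0 : ℝ)) (fun z hz => pde t z hz) j hz
    have e0 : ∀ n : ℕ, dp^[n] (fun _ : ℝ × ℝ => (0 : ℝ)) = fun _ => 0 := by
      intro n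
      induction n with
      | zero => rfl
      | succ n ih => rw [Function.iterate_succ_apply, dp_const, ih]
    rw [e0, dp_iter_add (((cd_dx (sx t)).add hs1).add hs2) hs3] at e
    simp only at e
    rw [dp_iter_add ((cd_dx (sx t)).add hs1) hs2] at e
    simp only at e
    rw [dp_iter_add (cd_dx (sx t)) hs1] at e
    exact e
  have i1 : dx (dx (dp^[j] (w t))) = dp^[j] (dx (dx (w t))) := by
    rw [dx_dp_iter (hws t), dx_dp_iter (sx t)]
  have i2 : dp (dx (dp^[j] (w t))) = dp^[j + 1] (dx (w t)) := by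
    rw [dx_dp_iter (hws t), Function.iterate_succ_apply']
  have i3 : dp (dp (dp^[j] (w t))) = dp^[j + 2] (w t) := by
    rw [Function.iterate_succ_apply', Function.iterate_succ_apply']
  have i4 : dp (dp^[j] (w t)) = dp^[j + 1] (w t) := by
    rw [Function.iterate_succ_apply']
  have i5 : dx (dp^[j] (w t)) = dp^[j] (dx (w t)) := dx_dp_iter (hws t) j
  simp only [LL, al1, al2, Pi.add_apply]
  rw [i1, i2, i3, i4, i5]
  linear_combination (-1 : ℝ) * key

/-- consequence of the pde for the order of `w_xx`: `∂_p^i w_xx` has order `i+2`, sup and `L²` -/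
theorem tame_xx (hD : Dom R D) {N : ℕ}
    {g1 g1W g1V g2 g2W g2V g3 g3W g3V : ι → ℝ × ℝ → ℝ}
    (hws : ∀ t, ContDiff ℝ ∞ (w t))
    (h1 : Coef R D w N g1 g1W g1V) (h2 : Coef R D w N g2 g2W g2V) (h3 : Coef R D w N g3 g3W g3V)
    (hw : Tame R D 1 N (fun t => dp (w t))) (hv : Tame R D 1 N (fun t => dx (w t)))
    (pde : ∀ t, ∀ z ∈ D t, dx (dx (w t)) z + g1 t z * dp (dx (w t)) z + g2 t z * dp (dp (w t)) z
      + g3 t z = 0) :
    Tame R D 2 N (fun t => dx (dx (w t))) := by
  have m1 := Tame.mul hD (by norm_num) (h1.tame.mono hD (show 1 ≤ 2 by norm_num)) hv.dp'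
  have m2 := Tame.mul hD (by norm_num) (h2.tame.mono hD (show 1 ≤ 2 by norm_num)) hw.dp'
  have m3 := h3.tame.mono hD (show 1 ≤ 2 by norm_num)
  have m := Tame.const_mul hD (fun _ => (-1 : ℝ)) ⟨1, fun _ => by simp⟩ ((m1.add hD m2).add hD m3)
  have he : ∀ t, EqOn (fun z => -1 * (g1 t z * dp (dx (w t)) z + g2 t z * dp (dp (w t)) z
      + g3 t z)) (dx (dx (w t))) (D t) := by
    intro t z hz
    have := pde t z hz
    simp only
    linarith
  exact ⟨fun t => cd_dx (cd_dx (hws t)),
    fun i hi => B2.congr hD (m.b2 i hi) (fun t => dp_iter_congr (hD.isOpen t) (he t) i),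
    fun i hi => BS.congr (m.bs i hi) (fun t => dp_iter_congr (hD.isOpen t) (he t) i)⟩

end

end Crest.Agent.Iso
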