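import Crest.Agent.Iso.MultFun

/-!
# Row 220: domains, cutoffs, Sobolev on boxes
-/

set_option autoImplicit false

open scoped ContDiff
open MeasureTheory Set

namespace Crest.Agent.Iso

/-- the domains `D(s)`, `0 ≤ s ≤ 1`: disc of radius `0.85 - 0.2 s` minus the diamond -/
def DD (ε b s : ℝ) : Set (ℝ × ℝ) :=
  {z | z.1 ^ 2 + z.2 ^ 2 < (0.85 - 0.2 * s) ^ 2 ∧ hh ε b s z.1 < |z.2|}

theorem isOpen_DD (ε b s : ℝ) : IsOpen (DD ε b s) := by
  have h1 : Continuous (fun z : ℝ × ℝ => z.1 ^ 2 + z.2 ^ 2) := by fun_prop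
  have h2 : Continuous (fun z : ℝ × ℝ => hh ε b s z.1) := by unfold hh; fun_prop
  have h3 : Continuous (fun z : ℝ × ℝ => |z.2|) := by fun_prop
  exact (isOpen_lt h1 continuous_const).inter (isOpen_lt h2 h3)

/-- radial annulus `r < |z| < r'` (Euclidean norm) -/
def Ann (r r' : ℝ) : Set (ℝ × ℝ) := {z | r ^ 2 < z.1 ^ 2 + z.2 ^ 2 ∧ z.1 ^ 2 + z.2 ^ 2 < r' ^ 2}

/-- radial cutoff functions with bounded first and second derivatives -/
theorem exists_cutoff {r r' : ℝ} (hr : 0 < r) (h : r < r') : ∃ χ : ℝ × ℝ → ℝ, ∃ C : ℝ,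
    ContDiff ℝ ∞ χ ∧ (∀ z, 0 ≤ χ z ∧ χ z ≤ 1) ∧ (∀ z, z.1 ^ 2 + z.2 ^ 2 ≤ r ^ 2 → χ z = 1) ∧
    (∀ z, r' ^ 2 ≤ z.1 ^ 2 + z.2 ^ 2 → χ z = 0) ∧
    (∀ z, |dx χ z| ≤ C ∧ |dp χ z| ≤ C ∧ |dx (dx χ) z| ≤ C ∧ |dp (dx χ) z| ≤ C ∧
      |dp (dp χ) z| ≤ C) := by
  have hr' : 0 < r' := hr.trans h
  have hD : 0 < r' ^ 2 - r ^ 2 := by nlinarith
  set χ : ℝ × ℝ → ℝ := fun z =>
    Real.smoothTransition ((r' ^ 2 - (z.1 ^ 2 + z.2 ^ 2)) / (r' ^ 2 - r ^ 2)) with hχ
  have hcd : ContDiff ℝ ∞ χ := by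
    refine Real.smoothTransition.contDiff.comp ?_
    fun_prop
  have h0 : ∀ z : ℝ × ℝ, r' ^ 2 ≤ z.1 ^ 2 + z.2 ^ 2 → χ z = 0 := by
    intro z hz
    exact Real.smoothTransition.zero_of_nonpos
      (div_nonpos_of_nonpos_of_nonneg (by linarith) hD.le)
  have hcs : HasCompactSupport χ := by
    refine HasCompactSupport.intro (K := Metric.closedBall (0 : ℝ × ℝ) r')
      (isCompact_closedBall _ _) (fun z hz => h0 z ?_)
    rw [Metric.mem_closedBall, dist_zero_right, Prod.norm_def, not_le, lt_max_iff,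
      Real.norm_eq_abs, Real.norm_eq_abs] at hz
    rcases hz with hz | hz
    · have := sq_lt_sq' (by linarith [abs_nonneg z.1]) hz
      rw [sq_abs] at this
      nlinarith [sq_nonneg z.2]
    · have := sq_lt_sq' (by linarith [abs_nonneg z.2]) hz
      rw [sq_abs] at this
      nlinarith [sq_nonneg z.1]
  have hbd : ∀ f : ℝ × ℝ → ℝ, ContDiff ℝ ∞ f → HasCompactSupport f → ∃ C, ∀ z, |f z| ≤ C := by
    intro f hf hc
    obtain ⟨C, hC⟩ := hc.exists_bound_of_continuous hf.continuous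
    exact ⟨C, fun z => by simpa using hC z⟩
  have hcx : ∀ f : ℝ × ℝ → ℝ, HasCompactSupport f → HasCompactSupport (dx f) :=
    fun f hf => hf.fderiv_apply (𝕜 := ℝ) _
  have hcp : ∀ f : ℝ × ℝ → ℝ, HasCompactSupport f → HasCompactSupport (dp f) :=
    fun f hf => hf.fderiv_apply (𝕜 := ℝ) _
  obtain ⟨C1, h1⟩ := hbd _ (cd_dx hcd) (hcx _ hcs)
  obtain ⟨C2, h2⟩ := hbd _ (cd_dp hcd) (hcp _ hcs)
  obtain ⟨C3, h3⟩ := hbd _ (cd_dx (cd_dx hcd)) (hcx _ (hcx _ hcs))
  obtain ⟨C4, h4⟩ := hbd _ (cd_dp (cd_dx hcd)) (hcp _ (hcx _ hcs))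
  obtain ⟨C5, h5⟩ := hbd _ (cd_dp (cd_dp hcd)) (hcp _ (hcp _ hcs))
  refine ⟨χ, max C1 (max C2 (max C3 (max C4 C5))), hcd,
    fun z => ⟨Real.smoothTransition.nonneg _, Real.smoothTransition.le_one _⟩, ?_, h0, fun z =>
    ⟨(h1 z).trans ?_, (h2 z).trans ?_, (h3 z).trans ?_, (h4 z).trans ?_, (h5 z).trans ?_⟩⟩
  · intro z hz
    refine Real.smoothTransition.one_of_one_le ?_
    rw [le_div_iff₀ hD]
    linarith
  all_goals simp

/-- one-dimensional Sobolev inequality -/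
theorem sob1 {g g' : ℝ → ℝ} (hg : ∀ t, HasDerivAt g (g' t) t) (hg' : Continuous g') {l : ℝ}
    (hl : 0 < l) (hl1 : l ≤ 1) (x : ℝ) :
    g x ^ 2 ≤ 4 / l * ∫ t in Metric.ball x l, (g t ^ 2 + g' t ^ 2) := by
  have hgc : Continuous g := continuous_iff_continuousAt.2 fun t => (hg t).continuousAt
  have hc : Continuous (fun t => g t ^ 2 + g' t ^ 2) := by fun_prop
  set I := ∫ t in x..(x + l), (g t ^ 2 + g' t ^ 2) with hI
  have hI0 : 0 ≤ I := intervalIntegral.integral_nonneg (by linarith) (fun t _ => by positivity)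
  have hIle : I ≤ ∫ t in Metric.ball x l, (g t ^ 2 + g' t ^ 2) := by
    rw [hI, intervalIntegral.integral_of_le (by linarith), integral_Ioc_eq_integral_Ioo,
      Real.ball_eq_Ioo]
    refine setIntegral_mono_set ?_ ?_ ?_
    · exact (hc.continuousOn.integrableOn_Icc (a := x - l) (b := x + l)).mono_set Ioo_subset_Icc_self
    · exact Filter.Eventually.of_forall (fun t => by positivity)
    · exact Filter.Eventually.of_forall (fun t ht => ⟨by linarith [ht.1], ht.2⟩)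
  have hpt : ∀ t ∈ Icc x (x + l), g x ^ 2 ≤ g t ^ 2 + I := by
    intro t ht
    have h1 : ∫ u in x..t, 2 * g u * g' u = g t ^ 2 - g x ^ 2 := by
      refine intervalIntegral.integral_eq_sub_of_hasDerivAt (f := fun u => g u ^ 2) ?_ ?_
      · intro u _
        have h := (hg u).fun_pow 2
        refine h.congr_deriv ?_
        simp
      · exact Continuous.intervalIntegrable (by fun_prop) _ _
    have h2 : -(∫ u in x..t, (g u ^ 2 + g' u ^ 2)) ≤ ∫ u in x..t, 2 * g u * g' u := by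
      rw [← intervalIntegral.integral_neg]
      refine intervalIntegral.integral_mono_on ht.1 ?_ ?_ (fun u _ => ?_)
      · exact Continuous.intervalIntegrable (by fun_prop) _ _
      · exact Continuous.intervalIntegrable (by fun_prop) _ _
      · nlinarith [sq_nonneg (g u + g' u)]
    have h3 : ∫ u in x..t, (g u ^ 2 + g' u ^ 2) ≤ I := by
      rw [hI]
      refine intervalIntegral.integral_mono_interval le_rfl ht.1 ht.2 ?_
        (hc.intervalIntegrable _ _)
      exact Filter.Eventually.of_forall (fun t => by positivity)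
    linarith
  have hint : l * g x ^ 2 ≤ (∫ t in x..(x + l), g t ^ 2) + l * I := by
    have h1 : ∫ t in x..(x + l), g x ^ 2 ≤ ∫ t in x..(x + l), (g t ^ 2 + I) :=
      intervalIntegral.integral_mono_on (by linarith)
        (continuous_const.intervalIntegrable _ _)
        (Continuous.intervalIntegrable (by fun_prop) _ _) hpt
    rw [intervalIntegral.integral_const, intervalIntegral.integral_add
      (Continuous.intervalIntegrable (by fun_prop) _ _) (continuous_const.intervalIntegrable _ _),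
      intervalIntegral.integral_const] at h1
    simpa using h1
  have h4 : ∫ t in x..(x + l), g t ^ 2 ≤ I := by
    rw [hI]
    refine intervalIntegral.integral_mono_on (by linarith)
      (Continuous.intervalIntegrable (by fun_prop) _ _) (hc.intervalIntegrable _ _) (fun u _ => ?_)
    nlinarith [sq_nonneg (g' u)]
  have h5 : l * g x ^ 2 ≤ 2 * I := by nlinarith
  have h6 : g x ^ 2 ≤ 2 / l * I := by
    rw [div_mul_eq_mul_div, le_div_iff₀ hl]
    linarith
  refine h6.trans ?_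
  have h7 : 0 ≤ 2 / l := by positivity
  have h8 : 2 / l ≤ 4 / l := by gcongr; norm_num
  calc 2 / l * I ≤ 4 / l * I := mul_le_mul_of_nonneg_right h8 hI0
    _ ≤ _ := mul_le_mul_of_nonneg_left hIle (by positivity)

theorem integrableOn_ball_of_continuous {F : ℝ × ℝ → ℝ} (hF : Continuous F) (z : ℝ × ℝ) (l : ℝ) :
    IntegrableOn F (Metric.ball z l) :=
  (hF.continuousOn.integrableOn_compact (isCompact_closedBall z l)).mono_set
    Metric.ball_subset_closedBall

/-- Sobolev inequality on a box (sup-norm ball) -/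
theorem sup_le_box {f : ℝ × ℝ → ℝ} (hf : ContDiff ℝ ∞ f) {l : ℝ} (hl : 0 < l) (hl1 : l ≤ 1)
    (z : ℝ × ℝ) : f z ^ 2 ≤ 16 / l ^ 2 * ∫ y in Metric.ball z l,
      (f y ^ 2 + dx f y ^ 2 + dp f y ^ 2 + dp (dx f) y ^ 2) := by
  have hfd : Differentiable ℝ f := diff_of_smooth hf
  have hfxd : Differentiable ℝ (dx f) := diff_of_smooth (cd_dx hf)
  have c0 : Continuous f := hf.continuous
  have c1 : Continuous (dx f) := (cd_dx hf).continuous
  have c2 : Continuous (dp f) := (cd_dp hf).continuous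
  have c3 : Continuous (dp (dx f)) := (cd_dp (cd_dx hf)).continuous
  set F : ℝ × ℝ → ℝ := fun y => f y ^ 2 + dx f y ^ 2 + dp f y ^ 2 + dp (dx f) y ^ 2 with hF
  have hFc : Continuous F := by rw [hF]; fun_prop
  have hball : Metric.ball z l = Metric.ball z.1 l ×ˢ Metric.ball z.2 l := by
    rw [ball_prod_same]
  have hFi : IntegrableOn F (Metric.ball z.1 l ×ˢ Metric.ball z.2 l)
      ((volume : Measure ℝ).prod (volume : Measure ℝ)) := by
    rw [← hball, ← Measure.volume_eq_prod]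
    exact integrableOn_ball_of_continuous hFc z l
  have hFub : ∫ y in Metric.ball z l, F y =
      ∫ t in Metric.ball z.1 l, ∫ u in Metric.ball z.2 l, F (t, u) := by
    rw [hball, Measure.volume_eq_prod]
    exact setIntegral_prod F hFi
  have h1 := sob1 (g := fun t => f (t, z.2)) (g' := fun t => dx f (t, z.2))
    (fun t => hasDerivAt_slice_x (z := (t, z.2)) (hfd _)) (by fun_prop) hl hl1 z.1
  have h2 : ∀ t : ℝ, f (t, z.2) ^ 2 + dx f (t, z.2) ^ 2 ≤
      4 / l * ∫ u in Metric.ball z.2 l, F (t, u) := by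
    intro t
    have a1 := sob1 (g := fun u => f (t, u)) (g' := fun u => dp f (t, u))
      (fun u => hasDerivAt_slice_p (z := (t, u)) (hfd _)) (by fun_prop) hl hl1 z.2
    have a2 := sob1 (g := fun u => dx f (t, u)) (g' := fun u => dp (dx f) (t, u))
      (fun u => hasDerivAt_slice_p (z := (t, u)) (hfxd _)) (by fun_prop) hl hl1 z.2
    have hi : ∀ G : ℝ → ℝ, Continuous G → IntegrableOn G (Metric.ball z.2 l) := fun G hG =>
      (hG.continuousOn.integrableOn_compact (isCompact_closedBall z.2 l)).mono_set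
        Metric.ball_subset_closedBall
    have a3 : ∫ u in Metric.ball z.2 l, F (t, u) =
        (∫ u in Metric.ball z.2 l, (f (t, u) ^ 2 + dp f (t, u) ^ 2)) +
        ∫ u in Metric.ball z.2 l, (dx f (t, u) ^ 2 + dp (dx f) (t, u) ^ 2) := by
      rw [← integral_add (hi _ (by fun_prop)) (hi _ (by fun_prop))]
      refine integral_congr_ae (Filter.Eventually.of_forall (fun u => ?_))
      simp only [hF]
      ring
    rw [a3, mul_add]
    exact add_le_add a1 a2
  have hFi' : Integrable F ((volume.restrict (Metric.ball z.1 l)).prod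
      (volume.restrict (Metric.ball z.2 l))) := by
    rw [Measure.prod_restrict]
    exact hFi
  have h3 : ∫ t in Metric.ball z.1 l, (f (t, z.2) ^ 2 + dx f (t, z.2) ^ 2) ≤
      ∫ t in Metric.ball z.1 l, 4 / l * ∫ u in Metric.ball z.2 l, F (t, u) := by
    refine integral_mono_of_nonneg (Filter.Eventually.of_forall (fun t => by positivity)) ?_
      (Filter.Eventually.of_forall h2)
    exact hFi'.integral_prod_left.const_mul _
  rw [integral_const_mul, ← hFub] at h3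
  have h4 : (0 : ℝ) ≤ 4 / l := by positivity
  calc f z ^ 2 ≤ 4 / l * ∫ t in Metric.ball z.1 l, (f (t, z.2) ^ 2 + dx f (t, z.2) ^ 2) := h1
    _ ≤ 4 / l * (4 / l * ∫ y in Metric.ball z l, F y) := mul_le_mul_of_nonneg_left h3 h4
    _ = _ := by ring

theorem sqrt_lip (x y b : ℝ) : √(x ^ 2 + b ^ 2) ≤ √(y ^ 2 + b ^ 2) + |x - y| := by
  have h1 : |y| ≤ √(y ^ 2 + b ^ 2) := Real.abs_le_sqrt (by nlinarith [sq_nonneg b])
  have h2 : 0 ≤ √(y ^ 2 + b ^ 2) := Real.sqrt_nonneg _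
  have h3 : √(y ^ 2 + b ^ 2) ^ 2 = y ^ 2 + b ^ 2 := Real.sq_sqrt (by positivity)
  refine Real.sqrt_le_iff.2 ⟨by positivity, ?_⟩
  have h4 : |y| * |x - y| ≤ √(y ^ 2 + b ^ 2) * |x - y| :=
    mul_le_mul_of_nonneg_right h1 (abs_nonneg _)
  have h5 : y * (x - y) ≤ |y| * |x - y| := by rw [← abs_mul]; exact le_abs_self _
  have h6 : |x - y| ^ 2 = (x - y) ^ 2 := sq_abs _
  nlinarith

/-- boxes of size `~ (s'-s) b` around points of `D(s')` are contained in `D(s)` -/
theorem ball_subset_DD {ε b s s' : ℝ} (hε : 0 < ε) (hε1 : ε ≤ 1) (hb : 0 < b) (hb1 : b ≤ 1)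
    (h0 : 0 ≤ s) (h01 : s < s') (h1 : s' ≤ 1) {z : ℝ × ℝ} (hz : z ∈ DD ε b s') :
    Metric.ball z ((s' - s) * b / 10) ⊆ DD ε b s := by
  intro y hy
  obtain ⟨hz1, hz2⟩ := hz
  set ρ := (s' - s) * b / 10 with hρ
  have hρ0 : 0 < ρ := by
    have : 0 < s' - s := by linarith
    positivity
  have hρ1 : ρ ≤ (s' - s) / 10 := by
    have : (s' - s) * b ≤ (s' - s) * 1 := mul_le_mul_of_nonneg_left hb1 (by linarith)
    linarith
  rw [Metric.mem_ball, Prod.dist_eq, max_lt_iff, Real.dist_eq, Real.dist_eq] at hy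
  obtain ⟨hy1, hy2⟩ := hy
  constructor
  · set a := y.1 - z.1 with ha
    set c := y.2 - z.2 with hc
    have e1 : y.1 = z.1 + a := by rw [ha]; ring
    have e2 : y.2 = z.2 + c := by rw [hc]; ring
    have ha2 : a ^ 2 ≤ ρ ^ 2 := by
      rw [← sq_abs a]; exact pow_le_pow_left₀ (abs_nonneg _) hy1.le 2
    have hc2 : c ^ 2 ≤ ρ ^ 2 := by
      rw [← sq_abs c]; exact pow_le_pow_left₀ (abs_nonneg _) hy2.le 2
    set R := (0.85 - 0.2 * s' : ℝ) with hR
    have hR0 : 0 < R := by rw [hR]; linarith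
    have hcs : z.1 * a + z.2 * c ≤ R * (1.5 * ρ) := by
      refine abs_le_of_sq_le_sq' ?_ (by positivity) |>.2
      have h1 : (z.1 * a + z.2 * c) ^ 2 ≤ (z.1 ^ 2 + z.2 ^ 2) * (a ^ 2 + c ^ 2) := by
        nlinarith [sq_nonneg (z.1 * c - z.2 * a)]
      have h2 : (z.1 ^ 2 + z.2 ^ 2) * (a ^ 2 + c ^ 2) ≤ R ^ 2 * (2 * ρ ^ 2) :=
        mul_le_mul hz1.le (by linarith) (by positivity) (by positivity)
      nlinarith [sq_nonneg (R * ρ)]
    have hsum : y.1 ^ 2 + y.2 ^ 2 < (R + 1.5 * ρ) ^ 2 := by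
      rw [e1, e2]
      nlinarith
    refine hsum.trans_le ?_
    refine pow_le_pow_left₀ (by positivity) ?_ 2
    rw [hR]
    linarith
  · have hε' : √ε ≤ 1 := Real.sqrt_le_one.2 hε1
    have hε0 : 0 ≤ √ε := Real.sqrt_nonneg _
    have hl := sqrt_lip z.1 y.1 b
    rw [abs_sub_comm] at hl
    have h2 : √ε * √(z.1 ^ 2 + b ^ 2) ≤ √ε * √(y.1 ^ 2 + b ^ 2) + ρ := by
      have h3 := mul_le_mul_of_nonneg_left hl hε0
      have h4 : √ε * |y.1 - z.1| ≤ 1 * ρ := mul_le_mul hε' hy1.le (abs_nonneg _) (by norm_num)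
      linarith
    have h5 : |z.2| ≤ |y.2| + ρ := by
      have h6 := abs_sub_abs_le_abs_sub z.2 y.2
      rw [abs_sub_comm] at hy2
      linarith
    unfold hh at hz2 ⊢
    have h7 : b * (4 + 3 * s') = b * (4 + 3 * s) + 30 * ρ := by rw [hρ]; ring
    linarith

end Crest.Agent.Iso
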