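import Crest.Agent.Iso.Pos
import Crest.Agent.Iso.Geom

/-!
# Row 220: Caccioppoli inequality
-/

set_option autoImplicit false

open scoped ContDiff
open MeasureTheory Set

namespace Crest.Agent.Iso

theorem ci_key (a b : ℝ) : a * b ≤ 1 / 50 * b ^ 2 + 50 * a ^ 2 := by
  nlinarith [sq_nonneg (b - 50 * a), sq_nonneg a]

theorem ci_ab (a b : ℝ) : 1 / 100 * b * a ≤ 1 / 200 * (a ^ 2 + b ^ 2) := by
  nlinarith [sq_nonneg (a - b)]

theorem ci_fF (χ f F : ℝ) (h0 : 0 ≤ χ) (h1 : χ ≤ 1) : |χ ^ 2 * f * F| ≤ (f ^ 2 + F ^ 2) / 2 := by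
  rw [abs_mul, abs_mul, abs_of_nonneg (by positivity : 0 ≤ χ ^ 2)]
  have h1 : χ ^ 2 ≤ 1 := by nlinarith
  have h2 : χ ^ 2 * |f| * |F| ≤ |f| * |F| := by
    have h3 : χ ^ 2 * (|f| * |F|) ≤ 1 * (|f| * |F|) :=
      mul_le_mul_of_nonneg_right h1 (mul_nonneg (abs_nonneg f) (abs_nonneg F))
    linarith
  nlinarith [sq_nonneg (|f| - |F|), sq_abs f, sq_abs F]

theorem ci_g2 (χ ε g2 Y : ℝ) (h : ε / 10 ≤ g2) :
    1 / 10 * (χ ^ 2 * (ε * Y ^ 2)) ≤ χ ^ 2 * (g2 * Y ^ 2) := by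
  have h1 : 0 ≤ χ ^ 2 * Y ^ 2 := by positivity
  nlinarith

/-- pointwise inequality -/
theorem cacc_pointwise (J K : ℝ) (hJ : 0 ≤ J) (hK : 0 ≤ K) (ε : ℝ) (hε : 0 < ε) (hε1 : ε ≤ 1)
    (χ χx χp f F X Y g1 g2 g1p g2p a1 a2 : ℝ) (hχ0 : 0 ≤ χ) (hχ1 : χ ≤ 1)
    (hχx : |χx| ≤ K) (hχp : |χp| ≤ K) (hg1 : |g1| ≤ 1 / 100 * ε) (hg1p : |g1p| ≤ 1 / 100 * ε)
    (hg2 : ε / 10 ≤ g2) (hg2' : g2 ≤ ε) (hg2p : |g2p| ≤ 3 * ε) (ha1 : |a1| ≤ 3 * (J + 1) * ε)
    (ha2 : |a2| ≤ (J + 1) * ε) :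
    1 / 20 * (χ ^ 2 * (X ^ 2 + ε * Y ^ 2)) ≤
      (χ ^ 2 * f * (F - a1 * Y - a2 * X) + χ ^ 2 * (X ^ 2 + g1 * Y * X + g2 * Y ^ 2)
        + 2 * χ * χx * f * X + 2 * χ * χp * f * (g1 * X + g2 * Y)
        + χ ^ 2 * f * (g1p * X + g2p * Y)) + (100 * (4 * K + 3 * J + 7) ^ 2 + 1) * (f ^ 2 + F ^ 2) := by
  set s := √ε with hs
  have hs0 : 0 < s := Real.sqrt_pos.2 hε
  have hs2 : s ^ 2 = ε := Real.sq_sqrt hε.le
  have hs1 : s ≤ 1 := by rw [hs, Real.sqrt_le_one]; exact hε1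
  have hεs : ε ≤ s := by nlinarith
  set u := |f| with hu
  set A := χ * |X| with hA
  set B := χ * (s * |Y|) with hB
  have hu0 : 0 ≤ u := abs_nonneg _
  have hA0 : 0 ≤ A := by positivity
  have hB0 : 0 ≤ B := by positivity
  have hu2 : u ^ 2 = f ^ 2 := sq_abs f
  have hA2 : A ^ 2 = χ ^ 2 * X ^ 2 := by rw [hA, mul_pow, sq_abs]
  have hB2 : B ^ 2 = χ ^ 2 * (ε * Y ^ 2) := by rw [hB, mul_pow, mul_pow, sq_abs, hs2]
  have hχX : |χ * X| = A := by rw [abs_mul, abs_of_nonneg hχ0]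
  have hχY : ε * |χ * Y| = s * B := by
    rw [abs_mul, abs_of_nonneg hχ0, hB, ← hs2]; ring
  have hsB : s * B ≤ B := by nlinarith
  -- individual terms
  have hYb : ∀ c : ℝ, 0 ≤ c → ∀ w : ℝ, |w| ≤ c * ε → |w * (χ * Y)| ≤ c * B := by
    intro c hc w hw
    rw [abs_mul]
    calc |w| * |χ * Y| ≤ (c * ε) * |χ * Y| := mul_le_mul_of_nonneg_right hw (abs_nonneg _)
      _ = c * (ε * |χ * Y|) := by ring
      _ ≤ c * B := by rw [hχY]; exact mul_le_mul_of_nonneg_left hsB hc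
  have hXb : ∀ c : ℝ, 0 ≤ c → ∀ w : ℝ, |w| ≤ c → |w * (χ * X)| ≤ c * A := by
    intro c hc w hw
    rw [abs_mul, hχX]
    exact mul_le_mul_of_nonneg_right hw hA0
  have hfb : ∀ v c : ℝ, |v| ≤ c → ∀ t : ℝ, 0 ≤ t → t ≤ 1 → |t * f * v| ≤ u * c := by
    intro v c hv t ht ht1
    rw [abs_mul, abs_mul, abs_of_nonneg ht, ← hu]
    have h1 : t * u ≤ u := by nlinarith
    have hc : 0 ≤ c := (abs_nonneg v).trans hv
    exact mul_le_mul h1 hv (abs_nonneg _) hu0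
  have t1 := hfb _ _ (hYb (3 * (J + 1)) (by positivity) a1 ha1) χ hχ0 hχ1
  have t2 := hfb _ _ (hXb (J + 1) (by positivity) a2 (ha2.trans (by nlinarith))) χ hχ0 hχ1
  have t3 := hfb _ _ (hXb (2 * K) (by positivity) (2 * χx) (by
    rw [abs_mul, abs_two]; linarith)) 1 zero_le_one le_rfl
  have t4 := hfb _ _ (hXb (2 * K) (by positivity) (2 * χp * g1) (by
    rw [abs_mul, abs_mul, abs_two]
    have : |χp| * |g1| ≤ K * 1 := mul_le_mul hχp (hg1.trans (by linarith)) (abs_nonneg _) hK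
    linarith)) 1 zero_le_one le_rfl
  have t5 := hfb _ _ (hYb (2 * K) (by positivity) (2 * χp * g2) (by
    rw [abs_mul, abs_mul, abs_two]
    have hg : |g2| ≤ ε := by rw [abs_le]; constructor <;> linarith
    have : |χp| * |g2| ≤ K * ε := mul_le_mul hχp hg (abs_nonneg _) hK
    linarith)) 1 zero_le_one le_rfl
  have t6 := hfb _ _ (hXb 1 zero_le_one g1p (hg1p.trans (by linarith))) χ hχ0 hχ1
  have t7 := hfb _ _ (hYb 3 (by norm_num) g2p hg2p) χ hχ0 hχ1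
  have t8 : |χ ^ 2 * (g1 * Y * X)| ≤ 1 / 200 * (A ^ 2 + B ^ 2) := by
    have e : χ ^ 2 * (g1 * Y * X) = (g1 * (χ * Y)) * (χ * X) := by ring
    rw [e, abs_mul, hχX]
    have h1 := hYb (1 / 100) (by norm_num) g1 hg1
    exact (mul_le_mul_of_nonneg_right h1 hA0).trans (ci_ab A B)
  have t9 := ci_fF χ f F hχ0 hχ1
  have t10 : 1 / 10 * B ^ 2 ≤ χ ^ 2 * (g2 * Y ^ 2) := by
    rw [hB2]
    exact ci_g2 χ ε g2 Y hg2
  have hM : 0 ≤ 4 * K + 3 * J + 7 := by positivity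
  set M := 4 * K + 3 * J + 7 with hMdef
  have hsum : u * (3 * (J + 1) * B) + u * ((J + 1) * A) + u * (2 * K * A) + u * (2 * K * A) +
      u * (2 * K * B) + u * (1 * A) + u * (3 * B) ≤ M * u * A + M * u * B := by
    have h1 : 0 ≤ (2 * J + 5) * (u * A) + (2 * K + 1) * (u * B) := by positivity
    have h2 : M * u * A + M * u * B - (u * (3 * (J + 1) * B) + u * ((J + 1) * A) +
      u * (2 * K * A) + u * (2 * K * A) + u * (2 * K * B) + u * (1 * A) + u * (3 * B)) =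
      (2 * J + 5) * (u * A) + (2 * K + 1) * (u * B) := by rw [hMdef]; ring
    linarith
  have hAu : M * u * A ≤ 1 / 50 * A ^ 2 + 50 * M ^ 2 * u ^ 2 := by
    have h1 := ci_key (M * u) A
    have h2 : 50 * (M * u) ^ 2 = 50 * M ^ 2 * u ^ 2 := by ring
    rwa [h2] at h1
  have hBu : M * u * B ≤ 1 / 50 * B ^ 2 + 50 * M ^ 2 * u ^ 2 := by
    have h1 := ci_key (M * u) B
    have h2 : 50 * (M * u) ^ 2 = 50 * M ^ 2 * u ^ 2 := by ring
    rwa [h2] at h1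
  have b1 := (abs_le.1 t1).2
  have b2 := (abs_le.1 t2).2
  have b3 := (abs_le.1 t3).1
  have b4 := (abs_le.1 t4).1
  have b5 := (abs_le.1 t5).1
  have b6 := (abs_le.1 t6).1
  have b7 := (abs_le.1 t7).1
  have b8 := (abs_le.1 t8).1
  have b9 := (abs_le.1 t9).1
  have e0 : χ ^ 2 * f * (F - a1 * Y - a2 * X) + χ ^ 2 * (X ^ 2 + g1 * Y * X + g2 * Y ^ 2)
        + 2 * χ * χx * f * X + 2 * χ * χp * f * (g1 * X + g2 * Y)
        + χ ^ 2 * f * (g1p * X + g2p * Y) =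
      χ ^ 2 * f * F - χ * f * (a1 * (χ * Y)) - χ * f * (a2 * (χ * X)) + A ^ 2 +
        χ ^ 2 * (g1 * Y * X) + χ ^ 2 * (g2 * Y ^ 2) + 1 * f * (2 * χx * (χ * X)) +
        1 * f * (2 * χp * g1 * (χ * X)) + 1 * f * (2 * χp * g2 * (χ * Y)) +
        χ * f * (g1p * (χ * X)) + χ * f * (g2p * (χ * Y)) := by
    rw [hA2]; ring
  have e1 : χ ^ 2 * (X ^ 2 + ε * Y ^ 2) = A ^ 2 + B ^ 2 := by rw [hA2, hB2]; ring
  rw [e0, e1]
  have hM2 : 0 ≤ M ^ 2 * F ^ 2 := by positivity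
  have e3 : (100 * M ^ 2 + 1) * (f ^ 2 + F ^ 2) =
    100 * (M ^ 2 * u ^ 2) + 100 * (M ^ 2 * F ^ 2) + f ^ 2 + F ^ 2 := by rw [hu2]; ring
  rw [e3]
  have hA3 : 0 ≤ A ^ 2 := sq_nonneg _
  have hB3 : 0 ≤ B ^ 2 := sq_nonneg _
  have hf3 : 0 ≤ f ^ 2 := sq_nonneg _
  have hF3 : 0 ≤ F ^ 2 := sq_nonneg _
  have e4 : 50 * M ^ 2 * u ^ 2 = 50 * (M ^ 2 * u ^ 2) := by ring
  rw [e4] at hAu hBu
  linarith

theorem ann_subset {r r' s s' : ℝ} (h0 : 0 ≤ s) (h1 : s ≤ r) (h2 : r' ≤ s') (h3 : 0 ≤ r') :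
    Ann r r' ⊆ Ann s s' := by
  intro z hz
  constructor
  · exact lt_of_le_of_lt (by nlinarith) hz.1
  · exact lt_of_lt_of_le hz.2 (by nlinarith)

theorem isOpen_Ann (r r' : ℝ) : IsOpen (Ann r r') := by
  have hc : Continuous (fun z : ℝ × ℝ => z.1 ^ 2 + z.2 ^ 2) := by fun_prop
  exact (isOpen_lt continuous_const hc).inter (isOpen_lt hc continuous_const)

theorem isBounded_Ann (r r' : ℝ) : Bornology.IsBounded (Ann r r') := by
  rw [isBounded_iff_forall_norm_le]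
  refine ⟨|r'|, fun z hz => ?_⟩
  have h := hz.2
  rw [Prod.norm_def, max_le_iff, Real.norm_eq_abs, Real.norm_eq_abs, ← sq_le_sq, ← sq_le_sq]
  constructor <;> nlinarith [sq_nonneg z.1, sq_nonneg z.2]

theorem integrableOn_Ann {f : ℝ × ℝ → ℝ} (hf : Continuous f) (r r' : ℝ) :
    IntegrableOn f (Ann r r') := by
  have h1 : IsCompact (closure (Ann r r')) := (isBounded_Ann r r').isCompact_closure
  exact (hf.continuousOn.integrableOn_compact h1).mono_set subset_closure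

/-- a `C¹` cutoff for annuli -/
theorem exists_cutoff_ann {r₀ r₁ r₂ r₃ : ℝ} (h0 : 0 < r₀) (h01 : r₀ < r₁) (h12 : r₁ < r₂)
    (h23 : r₂ < r₃) : ∃ χ : ℝ × ℝ → ℝ, ∃ K : ℝ, 0 ≤ K ∧ ContDiff ℝ ∞ χ ∧
      (∀ z, 0 ≤ χ z ∧ χ z ≤ 1) ∧ (∀ z ∈ Ann r₁ r₂, χ z = 1) ∧ (∀ z, z ∉ Ann r₀ r₃ → χ z = 0) ∧
      ∀ z, |dx χ z| ≤ K ∧ |dp χ z| ≤ K := by
  obtain ⟨χo, Co, hos, ho01, ho1, ho0, hoC⟩ := exists_cutoff (r := r₂) (r' := r₃) (by linarith) h23
  obtain ⟨χi, Ci, his, hi01, hi1, hi0, hiC⟩ := exists_cutoff (r := r₀) (r' := r₁) h0 h01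
  have hCo : 0 ≤ Co := (abs_nonneg _).trans (hoC 0).1
  have hCi : 0 ≤ Ci := (abs_nonneg _).trans (hiC 0).1
  refine ⟨fun z => χo z * (1 - χi z), Co + Ci, by positivity, hos.mul (contDiff_const.sub his),
    ?_, ?_, ?_, ?_⟩
  · intro z
    have h1 := ho01 z
    have h2 := hi01 z
    constructor
    · exact mul_nonneg h1.1 (by linarith)
    · calc χo z * (1 - χi z) ≤ 1 * 1 := mul_le_mul h1.2 (by linarith) (by linarith) zero_le_one
        _ = 1 := one_mul 1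
  · intro z hz
    simp only
    rw [ho1 z hz.2.le, hi0 z hz.1.le]
    ring
  · intro z hz
    simp only
    by_cases h : r₀ ^ 2 < z.1 ^ 2 + z.2 ^ 2
    · have h2 : r₃ ^ 2 ≤ z.1 ^ 2 + z.2 ^ 2 := by
        by_contra h3
        exact hz ⟨h, not_le.1 h3⟩
      rw [ho0 z h2, zero_mul]
    · rw [hi1 z (not_lt.1 h)]
      ring
  · intro z
    have hdo := diff_of_smooth hos z
    have hdi : DifferentiableAt ℝ (fun z => 1 - χi z) z :=
      (differentiableAt_const _).sub (diff_of_smooth his z)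
    have ex : dx (fun z => 1 - χi z) z = - dx χi z := by
      have := dx_sub (f := fun _ => (1 : ℝ)) (g := χi) (z := z) (differentiableAt_const _)
        (diff_of_smooth his z)
      rw [this, dx_const]
      ring
    have ep : dp (fun z => 1 - χi z) z = - dp χi z := by
      have := dp_sub (f := fun _ => (1 : ℝ)) (g := χi) (z := z) (differentiableAt_const _)
        (diff_of_smooth his z)
      rw [this, dp_const]
      ring
    have h1 := ho01 z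
    have h2 := hi01 z
    have key : ∀ a b : ℝ, |a| ≤ Co → |b| ≤ Ci →
        |a * (1 - χi z) + χo z * (-b)| ≤ Co + Ci := by
      intro a b ha hb
      refine (abs_add_le _ _).trans (add_le_add ?_ ?_)
      · rw [abs_mul, abs_of_nonneg (by linarith : 0 ≤ 1 - χi z)]
        calc |a| * (1 - χi z) ≤ Co * 1 := mul_le_mul ha (by linarith) (by linarith) hCo
          _ = Co := mul_one _
      · rw [abs_mul, abs_neg, abs_of_nonneg h1.1]
        calc χo z * |b| ≤ 1 * Ci := mul_le_mul h1.2 hb (abs_nonneg _) zero_le_one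
          _ = Ci := one_mul _
    constructor
    · rw [dx_mul hdo hdi, ex]
      exact key _ _ (hoC z).1 (hiC z).1
    · rw [dp_mul hdo hdi, ep]
      exact key _ _ (hoC z).2.1 (hiC z).2.1

/-- **Caccioppoli** on elliptic annuli (there `g2 ≥ ε/10`).  Multiply by `-χ² φ`. -/
theorem caccioppoli (J : ℕ) {r₀ r₁ r₂ r₃ : ℝ} (h0 : 0.61 ≤ r₀) (h01 : r₀ < r₁) (h12 : r₁ < r₂)
    (h23 : r₂ < r₃) (h3 : r₃ ≤ 0.85) :
    ∃ σ : ℝ, 0 < σ ∧ ∃ ε₁ : ℝ, 0 < ε₁ ∧ ∃ C : ℝ, 0 < C ∧ ∀ ε : ℝ, 0 < ε → ε ≤ ε₁ → ∀ j ≤ J,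
    ∀ (g1 g2 a1 a2 φ : ℝ × ℝ → ℝ), ContDiff ℝ ∞ φ → ContDiff ℝ 1 g1 → ContDiff ℝ 1 g2 →
    Continuous a1 → Continuous a2 →
    (∀ z, z.1 ^ 2 + z.2 ^ 2 < 0.81 → Small σ ε j g1 g2 a1 a2 z) →
    ∫ z in Ann r₁ r₂, (dx φ z ^ 2 + ε * dp φ z ^ 2) ≤
      C * ∫ z in Ann r₀ r₃, (φ z ^ 2 + LL g1 g2 a1 a2 φ z ^ 2) := by
  obtain ⟨χ, K, hK, hχs, hχ01, hχ1, hχ0, hχK⟩ := exists_cutoff_ann (by linarith : 0 < r₀) h01 h12 h23
  refine ⟨1 / 100, by norm_num, 1, one_pos, 20 * (100 * (4 * K + 3 * J + 7) ^ 2 + 1),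
    by positivity, ?_⟩
  intro ε hε hε1 j hj g1 g2 a1 a2 φ hφ hg1 hg2 ha1 ha2 hsmall
  have hχd := diff_of_smooth hχs
  have hφd := diff_of_smooth hφ
  have hxs := cd_dx hφ
  have hps := cd_dp hφ
  have hg1d : Differentiable ℝ g1 := hg1.differentiable (by norm_num)
  have hg2d : Differentiable ℝ g2 := hg2.differentiable (by norm_num)
  have hsm1 : ∀ {f : ℝ × ℝ → ℝ}, ContDiff ℝ ∞ f → ContDiff ℝ 1 f := fun hf =>
    hf.of_le (by exact_mod_cast le_top)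
  -- the vector field
  let V1 : ℝ × ℝ → ℝ := fun z => χ z * χ z * φ z * dx φ z
  let V2 : ℝ × ℝ → ℝ := fun z => χ z * χ z * φ z * (g1 z * dx φ z + g2 z * dp φ z)
  have hV1 : ContDiff ℝ 1 V1 :=
    (((hsm1 hχs).mul (hsm1 hχs)).mul (hsm1 hφ)).mul (hsm1 hxs)
  have hV2 : ContDiff ℝ 1 V2 :=
    (((hsm1 hχs).mul (hsm1 hχs)).mul (hsm1 hφ)).mul ((hg1.mul (hsm1 hxs)).add (hg2.mul (hsm1 hps)))
  have hsupp : ∀ W : ℝ × ℝ → ℝ, HasCompactSupport (fun z => χ z * χ z * W z) := by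
    intro W
    apply HasCompactSupport.intro (isBounded_Ann r₀ r₃).isCompact_closure
    intro z hz
    have : z ∉ Ann r₀ r₃ := fun h => hz (subset_closure h)
    rw [hχ0 z this]
    ring
  have hV1c : HasCompactSupport V1 := by
    have := hsupp (fun z => φ z * dx φ z)
    simpa only [V1, mul_assoc] using this
  have hV2c : HasCompactSupport V2 := by
    have := hsupp (fun z => φ z * (g1 z * dx φ z + g2 z * dp φ z))
    simpa only [V2, mul_assoc] using this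
  have hI1 := integral_dx_eq_zero hV1 hV1c
  have hI2 := integral_dp_eq_zero hV2 hV2c
  -- derivatives
  have hdV1 : ∀ z, dx V1 z = (2 * χ z * dx χ z * φ z + χ z * χ z * dx φ z) * dx φ z +
      χ z * χ z * φ z * dx (dx φ) z := by
    intro z
    have h1 := dx_mul (f := fun z => χ z * χ z * φ z) (g := dx φ) (z := z)
      (((hχd z).mul (hχd z)).mul (hφd z)) (diff_of_smooth hxs z)
    have h2 := dx_mul (f := fun z => χ z * χ z) (g := φ) (z := z) ((hχd z).mul (hχd z)) (hφd z)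
    have h4 := dx_mul (f := χ) (g := χ) (z := z) (hχd z) (hχd z)
    show dx (fun z => χ z * χ z * φ z * dx φ z) z = _
    rw [h1, h2, h4]
    ring
  have hdV2 : ∀ z, dp V2 z = (2 * χ z * dp χ z * φ z + χ z * χ z * dp φ z) *
      (g1 z * dx φ z + g2 z * dp φ z) + χ z * χ z * φ z * (dp g1 z * dx φ z + g1 z * dp (dx φ) z +
        (dp g2 z * dp φ z + g2 z * dp (dp φ) z)) := by
    intro z
    have hdx := diff_of_smooth hxs z
    have hdp := diff_of_smooth hps z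
    have h1 := dp_mul (f := fun z => χ z * χ z * φ z)
      (g := fun z => g1 z * dx φ z + g2 z * dp φ z) (z := z)
      (((hχd z).mul (hχd z)).mul (hφd z)) (((hg1d z).mul hdx).add ((hg2d z).mul hdp))
    have h2 := dp_mul (f := fun z => χ z * χ z) (g := φ) (z := z) ((hχd z).mul (hχd z)) (hφd z)
    have h4 := dp_mul (f := χ) (g := χ) (z := z) (hχd z) (hχd z)
    have h5 := dp_add (f := fun z => g1 z * dx φ z) (g := fun z => g2 z * dp φ z) (z := z)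
      ((hg1d z).mul hdx) ((hg2d z).mul hdp)
    have h6 := dp_mul (f := g1) (g := dx φ) (z := z) (hg1d z) hdx
    have h7 := dp_mul (f := g2) (g := dp φ) (z := z) (hg2d z) hdp
    show dp (fun z => χ z * χ z * φ z * (g1 z * dx φ z + g2 z * dp φ z)) z = _
    rw [h1, h2, h4, h5, h6, h7]
    ring
  -- continuity
  have cχ := hχs.continuous
  have cφ := hφ.continuous
  have cx := hxs.continuous
  have cp := hps.continuous
  have cLL : Continuous (LL g1 g2 a1 a2 φ) := by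
    have h1 := (cd_dx hxs).continuous
    have h2 := (cd_dp hxs).continuous
    have h3 := (cd_dp hps).continuous
    have h4 := hg1.continuous
    have h5 := hg2.continuous
    unfold LL
    fun_prop
  have cdV1 : Continuous (dx V1) := by
    unfold dx
    exact (hV1.continuous_fderiv (by norm_num)).clm_apply continuous_const
  have cdV2 : Continuous (dp V2) := by
    unfold dp
    exact (hV2.continuous_fderiv (by norm_num)).clm_apply continuous_const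
  -- pointwise inequality on the annulus
  set C' : ℝ := 100 * (4 * K + 3 * J + 7) ^ 2 + 1 with hC'
  have hpt : ∀ z ∈ Ann r₀ r₃, 1 / 20 * (χ z ^ 2 * (dx φ z ^ 2 + ε * dp φ z ^ 2)) ≤
      (dx V1 z + dp V2 z) + C' * (φ z ^ 2 + LL g1 g2 a1 a2 φ z ^ 2) := by
    intro z hz
    have hz1 : 0.3721 < z.1 ^ 2 + z.2 ^ 2 := lt_of_le_of_lt (by nlinarith) hz.1
    have hz2 : z.1 ^ 2 + z.2 ^ 2 < 0.7225 := lt_of_lt_of_le hz.2 (by nlinarith)
    have hS := hsmall z (by linarith)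
    have hp1 : |z.2| ≤ 1 := by
      rw [← sq_le_one_iff_abs_le_one]
      nlinarith [sq_nonneg z.1]
    have hJj : (j : ℝ) ≤ J := by exact_mod_cast hj
    have hj0 : (0 : ℝ) ≤ j := Nat.cast_nonneg j
    have hεp : |2 * ε * z.2| ≤ 2 * ε := by
      rw [abs_mul, abs_of_nonneg (by positivity : 0 ≤ 2 * ε)]
      nlinarith
    have h2 := abs_le.1 hS.h2
    have h2p := abs_le.1 hS.h2p
    have ha1' := abs_le.1 hS.ha1
    have hεp' := abs_le.1 hεp
    have key := cacc_pointwise J K (Nat.cast_nonneg J) hK ε hε hε1 (χ z) (dx χ z) (dp χ z) (φ z)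
      (LL g1 g2 a1 a2 φ z) (dx φ z) (dp φ z) (g1 z) (g2 z) (dp g1 z) (dp g2 z) (a1 z) (a2 z)
      (hχ01 z).1 (hχ01 z).2 (hχK z).1 (hχK z).2 hS.h1 hS.h1p
      (by nlinarith) (by nlinarith) (by rw [abs_le]; constructor <;> linarith)
      (by
        have e1 : |(j + 1 : ℝ) * (2 * ε * z.2)| ≤ (j + 1) * (2 * ε) := by
          rw [abs_mul, abs_of_nonneg (by positivity : (0 : ℝ) ≤ j + 1)]
          exact mul_le_mul_of_nonneg_left hεp (by positivity)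
        have e2 : |a1 z| ≤ (j + 1) * (1 / 100 * ε) + (j + 1) * (2 * ε) := by
          have : a1 z = (a1 z - (j + 1) * (2 * ε * z.2)) + (j + 1) * (2 * ε * z.2) := by ring
          rw [this]
          exact (abs_add_le _ _).trans (add_le_add hS.ha1 e1)
        nlinarith)
      (by
        refine hS.ha2.trans ?_
        nlinarith)
    refine key.trans (le_of_eq ?_)
    rw [hdV1, hdV2]
    unfold LL
    ring
  have hdiv0 : ∀ z, z ∉ Ann r₀ r₃ → dx V1 z + dp V2 z = 0 := by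
    intro z hz
    rw [hdV1, hdV2, hχ0 z hz]
    ring
  -- integrate
  have hsub : Ann r₁ r₂ ⊆ Ann r₀ r₃ := ann_subset (by linarith) h01.le h23.le (by linarith)
  have i1 : IntegrableOn (fun z => χ z ^ 2 * (dx φ z ^ 2 + ε * dp φ z ^ 2)) (Ann r₀ r₃) :=
    integrableOn_Ann (by fun_prop) _ _
  have i2 : IntegrableOn (fun z => dx V1 z + dp V2 z) (Ann r₀ r₃) :=
    integrableOn_Ann (cdV1.add cdV2) _ _
  have i3 : IntegrableOn (fun z => φ z ^ 2 + LL g1 g2 a1 a2 φ z ^ 2) (Ann r₀ r₃) :=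
    integrableOn_Ann (by fun_prop) _ _
  have s1 : ∫ z in Ann r₁ r₂, (dx φ z ^ 2 + ε * dp φ z ^ 2) =
      ∫ z in Ann r₁ r₂, χ z ^ 2 * (dx φ z ^ 2 + ε * dp φ z ^ 2) := by
    apply setIntegral_congr_fun (isOpen_Ann _ _).measurableSet
    intro z hz
    simp only
    rw [hχ1 z hz]
    ring
  have s2 : ∫ z in Ann r₁ r₂, χ z ^ 2 * (dx φ z ^ 2 + ε * dp φ z ^ 2) ≤
      ∫ z in Ann r₀ r₃, χ z ^ 2 * (dx φ z ^ 2 + ε * dp φ z ^ 2) := by
    apply setIntegral_mono_set i1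
    · exact Filter.Eventually.of_forall fun z => by
        have := hε.le
        positivity
    · exact hsub.eventuallyLE
  have s3 : ∫ z in Ann r₀ r₃, 1 / 20 * (χ z ^ 2 * (dx φ z ^ 2 + ε * dp φ z ^ 2)) ≤
      ∫ z in Ann r₀ r₃, ((dx V1 z + dp V2 z) + C' * (φ z ^ 2 + LL g1 g2 a1 a2 φ z ^ 2)) :=
    setIntegral_mono_on (i1.const_mul _) (i2.add (i3.const_mul _))
      (isOpen_Ann _ _).measurableSet hpt
  rw [integral_add i2 (i3.const_mul _), integral_const_mul, integral_const_mul,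
    setIntegral_eq_integral_of_forall_compl_eq_zero hdiv0] at s3
  have s4 : ∫ z, (dx V1 z + dp V2 z) = 0 := by
    rw [integral_add, hI1, hI2, add_zero]
    · exact cdV1.integrable_of_hasCompactSupport (hV1c.fderiv_apply (𝕜 := ℝ) (1, 0))
    · exact cdV2.integrable_of_hasCompactSupport (hV2c.fderiv_apply (𝕜 := ℝ) (0, 1))
  rw [s4, zero_add] at s3
  rw [s1]
  have e : 20 * C' * ∫ z in Ann r₀ r₃, (φ z ^ 2 + LL g1 g2 a1 a2 φ z ^ 2) =
    20 * (C' * ∫ z in Ann r₀ r₃, (φ z ^ 2 + LL g1 g2 a1 a2 φ z ^ 2)) := by ring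
  rw [e]
  linarith

end Crest.Agent.Iso
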