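import Crest.Agent.Iso.MultDef

/-!
# Row 220: the multiplier identity
-/

set_option autoImplicit false

open scoped ContDiff
open MeasureTheory Set

namespace Crest.Agent.Iso

private theorem mid_cd_dx {f : ℝ × ℝ → ℝ} (hf : ContDiff ℝ 1 f) : Continuous (dx f) := by
  unfold dx
  exact (hf.continuous_fderiv (by norm_num)).clm_apply continuous_const

private theorem mid_cd_dp {f : ℝ × ℝ → ℝ} (hf : ContDiff ℝ 1 f) : Continuous (dp f) := by
  unfold dp
  exact (hf.continuous_fderiv (by norm_num)).clm_apply continuous_const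

private theorem mid_hc_dx {f : ℝ × ℝ → ℝ} (hc : HasCompactSupport f) :
    HasCompactSupport (dx f) := hc.fderiv_apply (𝕜 := ℝ) _

private theorem mid_hc_dp {f : ℝ × ℝ → ℝ} (hc : HasCompactSupport f) :
    HasCompactSupport (dp f) := hc.fderiv_apply (𝕜 := ℝ) _

/-- **Multiplier identity.**  `b` does not depend on `p`.  Integrate by parts:
`φ_xx b φ_x → -b' φ_x²/2`, `φ_xx c φ_p → -c_x φ_x φ_p + c_p φ_x²/2`,
`g2 φ_pp b φ_x → -(g2)_p b φ_x φ_p + (g2 b)_x φ_p²/2`, `g2 φ_pp c φ_p → -(g2 c)_p φ_p²/2`,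
`g1 φ_xp b φ_x → -(g1 b)_p φ_x²/2`, `g1 φ_xp c φ_p → -(g1 c)_x φ_p²/2`. -/
theorem mult_identity {g1 g2 a1 a2 b c φ : ℝ × ℝ → ℝ} (hφ : ContDiff ℝ ∞ φ)
    (hc : HasCompactSupport φ) (hg1 : ContDiff ℝ 1 g1) (hg2 : ContDiff ℝ 1 g2)
    (ha1 : Continuous a1) (ha2 : Continuous a2)
    (hb : ContDiff ℝ 1 b) (hbp : ∀ z, dp b z = 0) (hcc : ContDiff ℝ 1 c) :
    ∫ z, LL g1 g2 a1 a2 φ z * (b z * dx φ z + c z * dp φ z) =
      ∫ z, (Axx g1 a2 b c z * dx φ z ^ 2 + App g1 g2 a1 b c z * dp φ z ^ 2
        + Axp g2 a1 a2 b c z * (dx φ z * dp φ z)) := by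
  have hu : ContDiff ℝ ∞ (dx φ) := cd_dx hφ
  have hv : ContDiff ℝ ∞ (dp φ) := cd_dp hφ
  have hu1 : ContDiff ℝ 1 (dx φ) := hu.of_le (by norm_cast)
  have hv1 : ContDiff ℝ 1 (dp φ) := hv.of_le (by norm_cast)
  have huc : HasCompactSupport (dx φ) := mid_hc_dx hc
  have hvc : HasCompactSupport (dp φ) := mid_hc_dp hc
  have hcomm : dx (dp φ) = dp (dx φ) := dx_dp_comm hφ
  -- the two primitives
  set u := dx φ with hudef
  set v := dp φ with hvdef
  let A : ℝ × ℝ → ℝ := fun z =>
    (1 / 2 * (b z * (u z * u z)) + c z * (u z * v z)) + (1 / 2 * (g1 z * c z * (v z * v z))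
      - 1 / 2 * (g2 z * b z * (v z * v z)))
  let B : ℝ × ℝ → ℝ := fun z =>
    (1 / 2 * (g1 z * b z * (u z * u z)) - 1 / 2 * (c z * (u z * u z))) + (g2 z * b z * (u z * v z)
      + 1 / 2 * (g2 z * c z * (v z * v z)))
  have hA : ContDiff ℝ 1 A := by
    have := hb; have := hcc
    fun_prop
  have hB : ContDiff ℝ 1 B := by
    fun_prop
  have hAc : HasCompactSupport A := by
    have h1 : HasCompactSupport (fun z => u z * (b z * u z / 2 + c z * v z)) := huc.mul_right
    have h2 : HasCompactSupport (fun z => v z * (g1 z * c z * v z / 2 - g2 z * b z * v z / 2)) :=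
      hvc.mul_right
    have h3 := h1.add h2
    have e : A = (fun z => u z * (b z * u z / 2 + c z * v z)) + (fun z => v z *
        (g1 z * c z * v z / 2 - g2 z * b z * v z / 2)) := by
      funext z
      simp only [A, Pi.add_apply]
      ring
    rw [e]; exact h3
  have hBc : HasCompactSupport B := by
    have h1 : HasCompactSupport (fun z => u z * (g1 z * b z * u z / 2 - c z * u z / 2
      + g2 z * b z * v z)) := huc.mul_right
    have h2 : HasCompactSupport (fun z => v z * (g2 z * c z * v z / 2)) :=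
      hvc.mul_right
    have h3 := h1.add h2
    have e : B = (fun z => u z * (g1 z * b z * u z / 2 - c z * u z / 2
      + g2 z * b z * v z)) + (fun z => v z * (g2 z * c z * v z / 2)) := by
      funext z
      simp only [B, Pi.add_apply]
      ring
    rw [e]; exact h3
  -- pointwise identity
  have db : ∀ z, DifferentiableAt ℝ b z := fun z => hb.differentiable (by norm_num) z
  have dc : ∀ z, DifferentiableAt ℝ c z := fun z => hcc.differentiable (by norm_num) z
  have dg1 : ∀ z, DifferentiableAt ℝ g1 z := fun z => hg1.differentiable (by norm_num) z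
  have dg2 : ∀ z, DifferentiableAt ℝ g2 z := fun z => hg2.differentiable (by norm_num) z
  have du : ∀ z, DifferentiableAt ℝ u z := fun z => hu1.differentiable (by norm_num) z
  have dv : ∀ z, DifferentiableAt ℝ v z := fun z => hv1.differentiable (by norm_num) z
  have key : ∀ (w : ℝ × ℝ) (z : ℝ × ℝ),
      fderiv ℝ A z w =
        fderiv ℝ b z w * (u z * u z) / 2 + b z * (u z * fderiv ℝ u z w)
        + (fderiv ℝ c z w * (u z * v z) + c z * (fderiv ℝ u z w * v z + u z * fderiv ℝ v z w))
        + ((fderiv ℝ g1 z w * c z + g1 z * fderiv ℝ c z w) * (v z * v z) / 2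
          + g1 z * c z * (v z * fderiv ℝ v z w))
        - ((fderiv ℝ g2 z w * b z + g2 z * fderiv ℝ b z w) * (v z * v z) / 2
          + g2 z * b z * (v z * fderiv ℝ v z w)) := by
    intro w z
    have Hb := (db z).hasFDerivAt
    have Hc := (dc z).hasFDerivAt
    have Hg1 := (dg1 z).hasFDerivAt
    have Hg2 := (dg2 z).hasFDerivAt
    have Hu := (du z).hasFDerivAt
    have Hv := (dv z).hasFDerivAt
    have HA := (((Hb.mul (Hu.mul Hu)).const_mul (1 / 2)).add (Hc.mul (Hu.mul Hv))).add
      ((((Hg1.mul Hc).mul (Hv.mul Hv)).const_mul (1 / 2)).sub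
        (((Hg2.mul Hb).mul (Hv.mul Hv)).const_mul (1 / 2)))
    have HA' : HasFDerivAt A _ z := HA
    rw [HA'.fderiv]
    simp only [_root_.add_apply, _root_.sub_apply,
      _root_.smul_apply, smul_eq_mul, Pi.mul_apply]
    ring
  have keyB : ∀ (w : ℝ × ℝ) (z : ℝ × ℝ),
      fderiv ℝ B z w =
        ((fderiv ℝ g1 z w * b z + g1 z * fderiv ℝ b z w) * (u z * u z) / 2
          + g1 z * b z * (u z * fderiv ℝ u z w))
        - (fderiv ℝ c z w * (u z * u z) / 2 + c z * (u z * fderiv ℝ u z w))
        + ((fderiv ℝ g2 z w * b z + g2 z * fderiv ℝ b z w) * (u z * v z)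
          + g2 z * b z * (fderiv ℝ u z w * v z + u z * fderiv ℝ v z w))
        + ((fderiv ℝ g2 z w * c z + g2 z * fderiv ℝ c z w) * (v z * v z) / 2
          + g2 z * c z * (v z * fderiv ℝ v z w)) := by
    intro w z
    have Hb := (db z).hasFDerivAt
    have Hc := (dc z).hasFDerivAt
    have Hg1 := (dg1 z).hasFDerivAt
    have Hg2 := (dg2 z).hasFDerivAt
    have Hu := (du z).hasFDerivAt
    have Hv := (dv z).hasFDerivAt
    have HB := ((((Hg1.mul Hb).mul (Hu.mul Hu)).const_mul (1 / 2)).sub
        ((Hc.mul (Hu.mul Hu)).const_mul (1 / 2))).add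
      (((Hg2.mul Hb).mul (Hu.mul Hv)).add (((Hg2.mul Hc).mul (Hv.mul Hv)).const_mul (1 / 2)))
    have HB' : HasFDerivAt B _ z := HB
    rw [HB'.fderiv]
    simp only [_root_.add_apply, _root_.sub_apply,
      _root_.smul_apply, smul_eq_mul, Pi.mul_apply]
    ring
  have hpt : ∀ z, LL g1 g2 a1 a2 φ z * (b z * u z + c z * v z) =
      (Axx g1 a2 b c z * u z ^ 2 + App g1 g2 a1 b c z * v z ^ 2
        + Axp g2 a1 a2 b c z * (u z * v z)) + (dx A z + dp B z) := by
    intro z
    have hx : dx A z = dx b z * (u z * u z) / 2 + b z * (u z * dx u z)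
        + (dx c z * (u z * v z) + c z * (dx u z * v z + u z * dx v z))
        + ((dx g1 z * c z + g1 z * dx c z) * (v z * v z) / 2
          + g1 z * c z * (v z * dx v z))
        - ((dx g2 z * b z + g2 z * dx b z) * (v z * v z) / 2
          + g2 z * b z * (v z * dx v z)) := key (1, 0) z
    have hp : dp B z = ((dp g1 z * b z + g1 z * dp b z) * (u z * u z) / 2
          + g1 z * b z * (u z * dp u z))
        - (dp c z * (u z * u z) / 2 + c z * (u z * dp u z))
        + ((dp g2 z * b z + g2 z * dp b z) * (u z * v z)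
          + g2 z * b z * (dp u z * v z + u z * dp v z))
        + ((dp g2 z * c z + g2 z * dp c z) * (v z * v z) / 2
          + g2 z * c z * (v z * dp v z)) := keyB (0, 1) z
    have hxv : dx v z = dp u z := congrFun hcomm z
    rw [hx, hp, hbp z, hxv]
    simp only [LL, Axx, App, Axp, ← hudef, ← hvdef]
    ring
  -- integrability
  have iA : Integrable (dx A) :=
    (mid_cd_dx hA).integrable_of_hasCompactSupport (mid_hc_dx hAc)
  have iB : Integrable (dp B) :=
    (mid_cd_dp hB).integrable_of_hasCompactSupport (mid_hc_dp hBc)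
  have cu : Continuous u := hu1.continuous
  have cv : Continuous v := hv1.continuous
  have cAxx : Continuous (Axx g1 a2 b c) := by
    unfold Axx
    have h1 := mid_cd_dp hcc; have h2 := mid_cd_dx hb; have h3 := mid_cd_dp hg1
    have h4 := hb.continuous
    fun_prop
  have cApp : Continuous (App g1 g2 a1 b c) := by
    unfold App
    have h1 := mid_cd_dp hcc; have h2 := mid_cd_dx hb; have h3 := mid_cd_dx hg2
    have h4 := hb.continuous; have h5 := hg2.continuous; have h6 := hcc.continuous
    have h7 := mid_cd_dp hg2; have h8 := mid_cd_dx hcc; have h9 := hg1.continuous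
    have h10 := mid_cd_dx hg1
    fun_prop
  have cAxp : Continuous (Axp g2 a1 a2 b c) := by
    unfold Axp
    have h1 := mid_cd_dx hcc; have h2 := mid_cd_dp hg2
    have h4 := hb.continuous; have h6 := hcc.continuous
    fun_prop
  have iR : Integrable (fun z => Axx g1 a2 b c z * u z ^ 2 + App g1 g2 a1 b c z * v z ^ 2
        + Axp g2 a1 a2 b c z * (u z * v z)) := by
    apply Continuous.integrable_of_hasCompactSupport
    · fun_prop
    · have h1 : HasCompactSupport (fun z => u z * (Axx g1 a2 b c z * u z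
        + Axp g2 a1 a2 b c z * v z)) := huc.mul_right
      have h2 : HasCompactSupport (fun z => v z * (App g1 g2 a1 b c z * v z)) :=
        hvc.mul_right
      have h3 := h1.add h2
      have e : (fun z => Axx g1 a2 b c z * u z ^ 2 + App g1 g2 a1 b c z * v z ^ 2
        + Axp g2 a1 a2 b c z * (u z * v z)) = (fun z => u z * (Axx g1 a2 b c z * u z
        + Axp g2 a1 a2 b c z * v z)) + (fun z => v z * (App g1 g2 a1 b c z * v z)) := by
        funext z
        simp only [Pi.add_apply]
        ring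
      rw [e]; exact h3
  calc ∫ z, LL g1 g2 a1 a2 φ z * (b z * u z + c z * v z)
      = ∫ z, ((Axx g1 a2 b c z * u z ^ 2 + App g1 g2 a1 b c z * v z ^ 2
        + Axp g2 a1 a2 b c z * (u z * v z)) + (dx A z + dp B z)) := by
        congr 1; funext z; exact hpt z
    _ = (∫ z, (Axx g1 a2 b c z * u z ^ 2 + App g1 g2 a1 b c z * v z ^ 2
        + Axp g2 a1 a2 b c z * (u z * v z))) + ∫ z, (dx A z + dp B z) :=
        integral_add iR (iA.add iB)
    _ = (∫ z, (Axx g1 a2 b c z * u z ^ 2 + App g1 g2 a1 b c z * v z ^ 2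
        + Axp g2 a1 a2 b c z * (u z * v z))) + ((∫ z, dx A z) + ∫ z, dp B z) := by
        rw [integral_add iA iB]
    _ = _ := by
        rw [integral_dx_eq_zero hA hAc, integral_dp_eq_zero hB hBc]
        simp

end Crest.Agent.Iso
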