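import Crest.Agent.Iso.Pos
import Crest.Agent.Iso.Geom
import Crest.Agent.Iso.Cacc
import Crest.Agent.Iso.MultId

/-!
# Row 220: the level estimate
-/

set_option autoImplicit false

open scoped ContDiff
open MeasureTheory Set

namespace Crest.Agent.Iso

section aux

variable {g1 g2 a1 a2 φ χ : ℝ × ℝ → ℝ}

theorem lv_LL_mul (hχ : ContDiff ℝ ∞ χ) (hφ : ContDiff ℝ ∞ φ) (z : ℝ × ℝ) :
    LL g1 g2 a1 a2 (fun z => χ z * φ z) z = χ z * LL g1 g2 a1 a2 φ z +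
      ((2 * dx χ z * dx φ z + g1 z * (dx χ z * dp φ z + dp χ z * dx φ z) +
        2 * g2 z * dp χ z * dp φ z) +
      φ z * (dx (dx χ) z + g1 z * dp (dx χ) z + g2 z * dp (dp χ) z + a1 z * dp χ z +
        a2 z * dx χ z)) := by
  have h1 : dx (fun z => χ z * φ z) = fun z => dx χ z * φ z + χ z * dx φ z := by
    funext z
    exact dx_mul (diff_of_smooth hχ z) (diff_of_smooth hφ z)
  have h2 : dp (fun z => χ z * φ z) = fun z => dp χ z * φ z + χ z * dp φ z := by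
    funext z
    exact dp_mul (diff_of_smooth hχ z) (diff_of_smooth hφ z)
  have hxχ := diff_of_smooth (cd_dx hχ)
  have hpχ := diff_of_smooth (cd_dp hχ)
  have hxφ := diff_of_smooth (cd_dx hφ)
  have hpφ := diff_of_smooth (cd_dp hφ)
  have hdχ := diff_of_smooth hχ
  have hdφ := diff_of_smooth hφ
  have h3 : dx (dx (fun z => χ z * φ z)) z = dx (dx χ) z * φ z + 2 * (dx χ z * dx φ z) +
      χ z * dx (dx φ) z := by
    rw [h1, dx_add ((hxχ z).fun_mul (hdφ z)) ((hdχ z).fun_mul (hxφ z)), dx_mul (hxχ z) (hdφ z),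
      dx_mul (hdχ z) (hxφ z)]
    ring
  have h4 : dp (dx (fun z => χ z * φ z)) z = dp (dx χ) z * φ z + dx χ z * dp φ z +
      dp χ z * dx φ z + χ z * dp (dx φ) z := by
    rw [h1, dp_add ((hxχ z).fun_mul (hdφ z)) ((hdχ z).fun_mul (hxφ z)), dp_mul (hxχ z) (hdφ z),
      dp_mul (hdχ z) (hxφ z)]
    ring
  have h5 : dp (dp (fun z => χ z * φ z)) z = dp (dp χ) z * φ z + 2 * (dp χ z * dp φ z) +
      χ z * dp (dp φ) z := by
    rw [h2, dp_add ((hpχ z).fun_mul (hdφ z)) ((hdχ z).fun_mul (hpφ z)), dp_mul (hpχ z) (hdφ z),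
      dp_mul (hdχ z) (hpφ z)]
    ring
  simp only [LL]
  rw [h3, h4, h5, h1, h2]
  ring

theorem lv_cont_LL (hφ : ContDiff ℝ ∞ φ) (hg1 : Continuous g1) (hg2 : Continuous g2)
    (ha1 : Continuous a1) (ha2 : Continuous a2) : Continuous (LL g1 g2 a1 a2 φ) := by
  unfold LL
  have h1 := (cd_dx (cd_dx hφ)).continuous
  have h2 := (cd_dp (cd_dx hφ)).continuous
  have h3 := (cd_dp (cd_dp hφ)).continuous
  have h4 := (cd_dp hφ).continuous
  have h5 := (cd_dx hφ).continuous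
  fun_prop

theorem lv_cont_dx {f : ℝ × ℝ → ℝ} (hf : ContDiff ℝ 1 f) : Continuous (dx f) :=
  (hf.continuous_fderiv (by norm_num)).clm_apply continuous_const

theorem lv_cont_dp {f : ℝ × ℝ → ℝ} (hf : ContDiff ℝ 1 f) : Continuous (dp f) :=
  (hf.continuous_fderiv (by norm_num)).clm_apply continuous_const

/-- all derivatives vanish where the function vanishes locally -/
theorem lv_LL_zero {U : Set (ℝ × ℝ)} (hU : IsOpen U) {f : ℝ × ℝ → ℝ} (h : ∀ z ∈ U, f z = 0) :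
    ∀ z ∈ U, dx f z = 0 ∧ dp f z = 0 ∧ dx (dx f) z = 0 ∧ dp (dx f) z = 0 ∧ dp (dp f) z = 0 := by
  have h0 : EqOn f (fun _ => (0 : ℝ)) U := h
  have h1 : EqOn (dx f) (fun _ => (0 : ℝ)) U := by
    have := dx_congr hU h0
    rwa [dx_const] at this
  have h2 : EqOn (dp f) (fun _ => (0 : ℝ)) U := by
    have := dp_congr hU h0
    rwa [dp_const] at this
  have h3 : EqOn (dx (dx f)) (fun _ => (0 : ℝ)) U := by
    have := dx_congr hU h1
    rwa [dx_const] at this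
  have h4 : EqOn (dp (dx f)) (fun _ => (0 : ℝ)) U := by
    have := dp_congr hU h1
    rwa [dp_const] at this
  have h5 : EqOn (dp (dp f)) (fun _ => (0 : ℝ)) U := by
    have := dp_congr hU h2
    rwa [dp_const] at this
  exact fun z hz => ⟨h1 hz, h2 hz, h3 hz, h4 hz, h5 hz⟩

theorem lv_one {U : Set (ℝ × ℝ)} (hU : IsOpen U) {f : ℝ × ℝ → ℝ} (h : ∀ z ∈ U, f z = 1) :
    ∀ z ∈ U, dx f z = 0 ∧ dp f z = 0 ∧ dx (dx f) z = 0 ∧ dp (dx f) z = 0 ∧ dp (dp f) z = 0 := by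
  have h0 : EqOn f (fun _ => (1 : ℝ)) U := h
  have h1 : EqOn (dx f) (fun _ => (0 : ℝ)) U := by
    have := dx_congr hU h0
    rwa [dx_const] at this
  have h2 : EqOn (dp f) (fun _ => (0 : ℝ)) U := by
    have := dp_congr hU h0
    rwa [dp_const] at this
  have h3 : EqOn (dx (dx f)) (fun _ => (0 : ℝ)) U := by
    have := dx_congr hU h1
    rwa [dx_const] at this
  have h4 : EqOn (dp (dx f)) (fun _ => (0 : ℝ)) U := by
    have := dp_congr hU h1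
    rwa [dp_const] at this
  have h5 : EqOn (dp (dp f)) (fun _ => (0 : ℝ)) U := by
    have := dp_congr hU h2
    rwa [dp_const] at this
  exact fun z hz => ⟨h1 hz, h2 hz, h3 hz, h4 hz, h5 hz⟩

theorem lv_isOpen_lt (r : ℝ) : IsOpen {z : ℝ × ℝ | z.1 ^ 2 + z.2 ^ 2 < r} :=
  isOpen_lt (by fun_prop) continuous_const

theorem lv_isOpen_gt (r : ℝ) : IsOpen {z : ℝ × ℝ | r < z.1 ^ 2 + z.2 ^ 2} :=
  isOpen_lt continuous_const (by fun_prop)

theorem lv_isOpen_Ann (r r' : ℝ) : IsOpen (Ann r r') := (lv_isOpen_gt _).inter (lv_isOpen_lt _)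

theorem lv_compact : IsCompact {z : ℝ × ℝ | z.1 ^ 2 + z.2 ^ 2 ≤ 1} := by
  refine Metric.isCompact_of_isClosed_isBounded (isClosed_le (by fun_prop) continuous_const) ?_
  refine (Metric.isBounded_closedBall (x := (0 : ℝ × ℝ)) (r := 1)).subset fun z hz => ?_
  rw [Metric.mem_closedBall, dist_zero_right, Prod.norm_def]
  have hz' : z.1 ^ 2 + z.2 ^ 2 ≤ 1 := hz
  refine max_le ?_ ?_
  · rw [Real.norm_eq_abs]
    exact abs_le_of_sq_le_sq' (by nlinarith [sq_nonneg z.2]) zero_le_one |> abs_le.2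
  · rw [Real.norm_eq_abs]
    exact abs_le_of_sq_le_sq' (by nlinarith [sq_nonneg z.1]) zero_le_one |> abs_le.2

theorem lv_integrableOn {f : ℝ × ℝ → ℝ} (hf : Continuous f) {D : Set (ℝ × ℝ)}
    (hD : D ⊆ {z : ℝ × ℝ | z.1 ^ 2 + z.2 ^ 2 ≤ 1}) : IntegrableOn f D :=
  (hf.continuousOn.integrableOn_compact lv_compact).mono_set hD

theorem lv_integrable {f : ℝ × ℝ → ℝ} (hf : Continuous f)
    (h0 : ∀ z : ℝ × ℝ, 1 < z.1 ^ 2 + z.2 ^ 2 → f z = 0) : Integrable f :=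
  hf.integrable_of_hasCompactSupport (HasCompactSupport.intro lv_compact fun z hz =>
    h0 z (not_le.1 hz))

theorem Small.mono {σ σ' ε : ℝ} {j : ℕ} {z : ℝ × ℝ} (hε : 0 < ε) (h : σ ≤ σ')
    (hS : Small σ ε j g1 g2 a1 a2 z) : Small σ' ε j g1 g2 a1 a2 z := by
  have h1 : σ * ε ≤ σ' * ε := mul_le_mul_of_nonneg_right h hε.le
  have h2 : ((j : ℝ) + 1) * (σ * ε) ≤ (j + 1) * (σ' * ε) :=
    mul_le_mul_of_nonneg_left h1 (by positivity : (0 : ℝ) ≤ (j : ℝ) + 1)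
  exact ⟨hS.h1.trans h1, hS.h1x.trans h1, hS.h1p.trans h1, hS.h2.trans h1, hS.h2x.trans h1,
    hS.h2p.trans h1, hS.ha1.trans h2, hS.ha2.trans h2⟩

theorem lv_Xi_nonneg (t : ℝ) : 0 ≤ Xi t := by
  unfold Xi
  rcases le_total t 0 with h | h
  · rw [max_eq_right h, max_eq_right (by linarith)]; simp
  · rcases le_total t 1 with h' | h'
    · rw [max_eq_left h, max_eq_right (by linarith)]; nlinarith [sq_nonneg t]
    · rw [max_eq_left h, max_eq_left (by linarith)]; nlinarith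

theorem lv_Xi_le {t : ℝ} (ht : 0 ≤ t) : Xi t ≤ t := by
  unfold Xi
  rcases le_total t 1 with h' | h'
  · rw [max_eq_left ht, max_eq_right (by linarith)]; nlinarith
  · rw [max_eq_left ht, max_eq_left (by linarith)]; nlinarith

theorem lv_bb_zero {z : ℝ × ℝ} (hz : |z.1| ≤ 1 / 8) : bb z = 0 := by
  unfold bb
  rw [Xi_eq_zero (by have := (abs_le.1 hz).2; linarith),
    Xi_eq_zero (by have := (abs_le.1 hz).1; linarith)]
  ring

theorem lv_bb_le {z : ℝ × ℝ} (hz : |z.1| ≤ 1) : |bb z| ≤ 1 := by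
  unfold bb
  obtain ⟨h1, h2⟩ := abs_le.1 hz
  have e1 : Xi (8 * z.1 - 1) ≤ 7 := by
    rcases le_total (8 * z.1 - 1) 0 with h | h
    · rw [Xi_eq_zero h]; norm_num
    · exact (lv_Xi_le h).trans (by linarith)
  have e2 : Xi (-8 * z.1 - 1) ≤ 7 := by
    rcases le_total (-8 * z.1 - 1) 0 with h | h
    · rw [Xi_eq_zero h]; norm_num
    · exact (lv_Xi_le h).trans (by linarith)
  have e3 := lv_Xi_nonneg (8 * z.1 - 1)
  have e4 := lv_Xi_nonneg (-8 * z.1 - 1)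
  rw [abs_le]
  constructor <;> linarith

/-- away from the axis `x = 0` the diamond is empty -/
theorem lv_hh_neg {ε b s x : ℝ} (hε : 0 < ε) (hε1 : ε ≤ 1 / 100) (hb : 0 < b) (hb1 : b ≤ ε ^ 3)
    (hs1 : s ≤ 1) (hx : 1 / 8 ≤ |x|) : hh ε b s x + 3 * b ≤ 0 := by
  unfold hh
  have h1 : (1 / 8 : ℝ) ≤ √(x ^ 2 + b ^ 2) := by
    apply Real.le_sqrt_of_sq_le
    nlinarith [sq_abs x, sq_nonneg b]
  have h2 : ε ≤ √ε := by
    apply Real.le_sqrt_of_sq_le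
    nlinarith
  have h3 : ε * (1 / 8) ≤ √ε * √(x ^ 2 + b ^ 2) :=
    mul_le_mul h2 h1 (by norm_num) (Real.sqrt_nonneg _)
  have h4 : b ≤ ε * (1 / 10000) := by
    refine hb1.trans ?_
    nlinarith [mul_pos hε hε]
  nlinarith

theorem lv_hh_le {ε b s x : ℝ} (hb : 0 < b) (hs1 : s ≤ 1) : hh ε b s x ≤ 7 * b := by
  unfold hh
  have : 0 ≤ √ε * √(x ^ 2 + b ^ 2) := by positivity
  nlinarith

/-- pure algebra: the cross term of the multiplier is absorbed -/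
theorem lv_P2 {ε p B C L X Y : ℝ} (hε : 0 < ε) (hε1 : ε ≤ 1) (hp : 0 ≤ p) (hB : |B| ≤ p)
    (hC : |C| ≤ 2 * p) :
    L * (B * X + C * Y) ≤ (1 / 400) * p * (X ^ 2 + ε * Y ^ 2) + 500 / ε * (p * L ^ 2) := by
  have h1 : L * (B * X) ≤ p * (X ^ 2 / 400 + 100 * L ^ 2) := by
    calc L * (B * X) ≤ |L * (B * X)| := le_abs_self _
      _ = |B| * (|L| * |X|) := by rw [abs_mul, abs_mul]; ring
      _ ≤ p * (|L| * |X|) := mul_le_mul_of_nonneg_right hB (by positivity)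
      _ ≤ p * (X ^ 2 / 400 + 100 * L ^ 2) := by
          refine mul_le_mul_of_nonneg_left ?_ hp
          nlinarith [sq_nonneg (|X| / 20 - 10 * |L|), sq_abs X, sq_abs L]
  have h2 : L * (C * Y) ≤ p * (ε * Y ^ 2 / 400 + 400 / ε * L ^ 2) := by
    calc L * (C * Y) ≤ |L * (C * Y)| := le_abs_self _
      _ = |C| * (|L| * |Y|) := by rw [abs_mul, abs_mul]; ring
      _ ≤ 2 * p * (|L| * |Y|) := mul_le_mul_of_nonneg_right hC (by positivity)
      _ = p * (2 * |L| * |Y|) := by ring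
      _ ≤ p * (ε * Y ^ 2 / 400 + 400 / ε * L ^ 2) := by
          refine mul_le_mul_of_nonneg_left ?_ hp
          have e : ε * Y ^ 2 / 400 + 400 / ε * L ^ 2 - 2 * |L| * |Y| =
              1 / (400 * ε) * (ε * |Y| - 400 * |L|) ^ 2 := by
            rw [← sq_abs Y, ← sq_abs L]
            field_simp
            ring
          have : 0 ≤ 1 / (400 * ε) * (ε * |Y| - 400 * |L|) ^ 2 := by positivity
          linarith
  have h3 : 100 * (p * L ^ 2) ≤ 100 / ε * (p * L ^ 2) := by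
    refine mul_le_mul_of_nonneg_right ?_ (by positivity)
    rw [le_div_iff₀ hε]; linarith
  calc L * (B * X + C * Y) = L * (B * X) + L * (C * Y) := by ring
    _ ≤ p * (X ^ 2 / 400 + 100 * L ^ 2) + p * (ε * Y ^ 2 / 400 + 400 / ε * L ^ 2) :=
        add_le_add h1 h2
    _ = (1 / 400) * p * (X ^ 2 + ε * Y ^ 2) + (100 * (p * L ^ 2) + 400 / ε * (p * L ^ 2)) := by
        ring
    _ ≤ (1 / 400) * p * (X ^ 2 + ε * Y ^ 2) + (100 / ε * (p * L ^ 2) + 400 / ε * (p * L ^ 2)) := by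
        linarith
    _ = _ := by ring

/-- pure algebra: the error term created by the cutoff -/
theorem lv_E {M ε J cx cp cxx cxp cpp g1 g2 a1 a2 f fx fp : ℝ} (hM : 0 ≤ M) (hε : 0 < ε)
    (hε1 : ε ≤ 1) (hJ : 0 ≤ J) (hcx : |cx| ≤ M) (hcp : |cp| ≤ M) (hcxx : |cxx| ≤ M)
    (hcxp : |cxp| ≤ M) (hcpp : |cpp| ≤ M) (hg1 : |g1| ≤ ε) (hg2 : |g2| ≤ 2 * ε)
    (ha1 : |a1| ≤ 3 * (J + 1) * ε) (ha2 : |a2| ≤ (J + 1) * ε) :
    ((2 * cx * fx + g1 * (cx * fp + cp * fx) + 2 * g2 * cp * fp) +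
      f * (cxx + g1 * cxp + g2 * cpp + a1 * cp + a2 * cx)) ^ 2 ≤
      3 * M ^ 2 * (25 + (4 * J + 8) ^ 2) * (f ^ 2 + (fx ^ 2 + ε * fp ^ 2)) := by
  have mm : ∀ {a b A B : ℝ}, |a| ≤ A → |b| ≤ B → |a * b| ≤ A * B := by
    intro a b A B ha hb
    rw [abs_mul]
    exact mul_le_mul ha hb (abs_nonneg _) ((abs_nonneg _).trans ha)
  have t1 : |2 * cx * fx| ≤ 2 * M * |fx| := by
    have : |2 * cx * fx| = 2 * |cx| * |fx| := by
      rw [abs_mul, abs_mul, abs_of_pos (by norm_num : (0 : ℝ) < 2)]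
    rw [this]
    exact mul_le_mul_of_nonneg_right (by linarith) (abs_nonneg _)
  have t2 : |g1 * (cx * fp + cp * fx)| ≤ ε * (M * |fp| + M * |fx|) := by
    refine mm hg1 ((abs_add_le _ _).trans (add_le_add (mm hcx le_rfl) (mm hcp le_rfl)))
  have t3 : |2 * g2 * cp * fp| ≤ 4 * ε * M * |fp| := by
    refine mm (mm ?_ hcp) le_rfl
    rw [abs_mul, abs_of_pos (by norm_num : (0 : ℝ) < 2)]
    linarith
  have t4 : |cxx + g1 * cxp + g2 * cpp + a1 * cp + a2 * cx| ≤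
      M + ε * M + 2 * ε * M + 3 * (J + 1) * ε * M + (J + 1) * ε * M := by
    refine (abs_add_le _ _).trans (add_le_add ?_ (mm ha2 hcx))
    refine (abs_add_le _ _).trans (add_le_add ?_ (mm ha1 hcp))
    refine (abs_add_le _ _).trans (add_le_add ?_ (mm hg2 hcpp))
    exact (abs_add_le _ _).trans (add_le_add hcxx (mm hg1 hcxp))
  have t5 : M + ε * M + 2 * ε * M + 3 * (J + 1) * ε * M + (J + 1) * ε * M ≤
      (4 * J + 8) * M := by
    have e1 : ε * M ≤ 1 * M := mul_le_mul_of_nonneg_right hε1 hM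
    have e2 : J * (ε * M) ≤ J * (1 * M) := mul_le_mul_of_nonneg_left e1 hJ
    nlinarith
  have t6 : |f * (cxx + g1 * cxp + g2 * cpp + a1 * cp + a2 * cx)| ≤ |f| * ((4 * J + 8) * M) :=
    mm le_rfl (t4.trans t5)
  have t7 : |(2 * cx * fx + g1 * (cx * fp + cp * fx) + 2 * g2 * cp * fp) +
      f * (cxx + g1 * cxp + g2 * cpp + a1 * cp + a2 * cx)| ≤
      M * (3 * |fx| + 5 * (ε * |fp|) + (4 * J + 8) * |f|) := by
    have s1 := abs_add_le (2 * cx * fx + g1 * (cx * fp + cp * fx) + 2 * g2 * cp * fp)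
      (f * (cxx + g1 * cxp + g2 * cpp + a1 * cp + a2 * cx))
    have s2 := abs_add_le (2 * cx * fx + g1 * (cx * fp + cp * fx)) (2 * g2 * cp * fp)
    have s3 := abs_add_le (2 * cx * fx) (g1 * (cx * fp + cp * fx))
    have s4 : ε * (M * |fx|) ≤ 1 * (M * |fx|) :=
      mul_le_mul_of_nonneg_right hε1 (by positivity)
    nlinarith
  have t8 : ε ^ 2 * |fp| ^ 2 ≤ ε * fp ^ 2 := by
    rw [sq_abs]
    refine mul_le_mul_of_nonneg_right ?_ (sq_nonneg _)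
    nlinarith
  have t9 : (3 * |fx| + 5 * (ε * |fp|) + (4 * J + 8) * |f|) ^ 2 ≤
      3 * (25 + (4 * J + 8) ^ 2) * (f ^ 2 + (fx ^ 2 + ε * fp ^ 2)) := by
    have u1 : (3 * |fx| + 5 * (ε * |fp|) + (4 * J + 8) * |f|) ^ 2 ≤
        3 * ((3 * |fx|) ^ 2 + (5 * (ε * |fp|)) ^ 2 + ((4 * J + 8) * |f|) ^ 2) := by
      nlinarith [sq_nonneg (3 * |fx| - 5 * (ε * |fp|)),
        sq_nonneg (3 * |fx| - (4 * J + 8) * |f|),
        sq_nonneg (5 * (ε * |fp|) - (4 * J + 8) * |f|)]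
    have u2 : (3 * |fx|) ^ 2 = 9 * fx ^ 2 := by rw [mul_pow, sq_abs]; norm_num
    have u3 : (5 * (ε * |fp|)) ^ 2 = 25 * (ε ^ 2 * |fp| ^ 2) := by ring
    have u4 : ((4 * J + 8) * |f|) ^ 2 = (4 * J + 8) ^ 2 * f ^ 2 := by rw [mul_pow, sq_abs]
    have u5 : 0 ≤ (4 * J + 8) ^ 2 * (fx ^ 2 + ε * fp ^ 2) := by positivity
    have u6 : 0 ≤ f ^ 2 := sq_nonneg f
    have u7 : 0 ≤ fx ^ 2 := sq_nonneg fx
    rw [u2, u3, u4] at u1
    nlinarith
  rw [← sq_abs]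
  calc _ ≤ (M * (3 * |fx| + 5 * (ε * |fp|) + (4 * J + 8) * |f|)) ^ 2 :=
        pow_le_pow_left₀ (abs_nonneg _) t7 2
    _ = M ^ 2 * (3 * |fx| + 5 * (ε * |fp|) + (4 * J + 8) * |f|) ^ 2 := by ring
    _ ≤ M ^ 2 * (3 * (25 + (4 * J + 8) ^ 2) * (f ^ 2 + (fx ^ 2 + ε * fp ^ 2))) :=
        mul_le_mul_of_nonneg_left t9 (sq_nonneg _)
    _ = _ := by ring

end aux

section core

variable {J : ℕ} {s s' ε b M ρ r' r₁ r₂ : ℝ} {g1 g2 a1 a2 φ χ : ℝ × ℝ → ℝ}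

/-- the cut-off function and its derivatives vanish far away -/
theorem lv_u_zero (hχ0 : ∀ z : ℝ × ℝ, r' ^ 2 ≤ z.1 ^ 2 + z.2 ^ 2 → χ z = 0) {z : ℝ × ℝ}
    (hz : r' ^ 2 < z.1 ^ 2 + z.2 ^ 2) :
    dx (fun z => χ z * φ z) z = 0 ∧ dp (fun z => χ z * φ z) z = 0 ∧
      LL g1 g2 a1 a2 (fun z => χ z * φ z) z = 0 := by
  obtain ⟨e1, e2, e3, e4, e5⟩ := lv_LL_zero (lv_isOpen_gt (r' ^ 2))
    (f := fun z => χ z * φ z) (fun z hz => by simp [hχ0 z (le_of_lt hz)]) z hz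
  refine ⟨e1, e2, ?_⟩
  simp only [LL]
  rw [e1, e2, e3, e4, e5]; ring

theorem lv_u_one (hχ1 : ∀ z : ℝ × ℝ, z.1 ^ 2 + z.2 ^ 2 ≤ ρ ^ 2 → χ z = 1) {z : ℝ × ℝ}
    (hz : z.1 ^ 2 + z.2 ^ 2 < ρ ^ 2) :
    dx (fun z => χ z * φ z) z = dx φ z ∧ dp (fun z => χ z * φ z) z = dp φ z := by
  have h : EqOn (fun z => χ z * φ z) φ {z : ℝ × ℝ | z.1 ^ 2 + z.2 ^ 2 < ρ ^ 2} :=
    fun z hz => by simp [hχ1 z (le_of_lt hz)]
  exact ⟨dx_congr (lv_isOpen_lt _) h hz, dp_congr (lv_isOpen_lt _) h hz⟩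

/-- outside of `Ann r₁ r₂` the commutator with the cutoff vanishes -/
theorem lv_LL_out (hχs : ContDiff ℝ ∞ χ) (hφ : ContDiff ℝ ∞ φ) (hr1 : 0 ≤ r₁)
    (hr' : 0 ≤ r')
    (h1 : r₁ < ρ) (h2 : r' < r₂) (hχ1 : ∀ z : ℝ × ℝ, z.1 ^ 2 + z.2 ^ 2 ≤ ρ ^ 2 → χ z = 1)
    (hχ0 : ∀ z : ℝ × ℝ, r' ^ 2 ≤ z.1 ^ 2 + z.2 ^ 2 → χ z = 0) {z : ℝ × ℝ}
    (hz : z ∉ Ann r₁ r₂) :
    LL g1 g2 a1 a2 (fun z => χ z * φ z) z = χ z * LL g1 g2 a1 a2 φ z := by
  rw [lv_LL_mul hχs hφ]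
  have hz' : z.1 ^ 2 + z.2 ^ 2 < ρ ^ 2 ∨ r' ^ 2 < z.1 ^ 2 + z.2 ^ 2 := by
    by_contra hcon
    push Not at hcon
    refine hz ⟨?_, ?_⟩
    · have : r₁ ^ 2 < ρ ^ 2 := pow_lt_pow_left₀ h1 hr1 (by norm_num)
      linarith [hcon.1]
    · have : r' ^ 2 < r₂ ^ 2 := pow_lt_pow_left₀ h2 hr' (by norm_num)
      linarith [hcon.2]
  have : dx χ z = 0 ∧ dp χ z = 0 ∧ dx (dx χ) z = 0 ∧ dp (dx χ) z = 0 ∧ dp (dp χ) z = 0 := by
    rcases hz' with h | h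
    · exact lv_one (lv_isOpen_lt (ρ ^ 2)) (fun z hz => hχ1 z (le_of_lt hz)) z h
    · exact lv_LL_zero (lv_isOpen_gt (r' ^ 2)) (fun z hz => hχ0 z (le_of_lt hz)) z h
  obtain ⟨e1, e2, e3, e4, e5⟩ := this
  rw [e1, e2, e3, e4, e5]; ring

/-- the coefficient bounds following from `Small` -/
theorem lv_small_bounds {σ : ℝ} {j : ℕ} {z : ℝ × ℝ} (hε : 0 < ε) (hσ : σ ≤ 1)
    (hjJ : j ≤ J) (hz : z.1 ^ 2 + z.2 ^ 2 < 0.81) (hS : Small σ ε j g1 g2 a1 a2 z) :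
    |g1 z| ≤ ε ∧ |g2 z| ≤ 2 * ε ∧ |a1 z| ≤ 3 * ((J : ℝ) + 1) * ε ∧ |a2 z| ≤ ((J : ℝ) + 1) * ε := by
  have hσε : σ * ε ≤ ε := by nlinarith
  have hj : (j : ℝ) ≤ J := by exact_mod_cast hjJ
  have hj0 : (0 : ℝ) ≤ j := Nat.cast_nonneg j
  have hz2 : |z.2| ≤ 1 := by
    rw [← sq_le_one_iff_abs_le_one]
    nlinarith [sq_nonneg z.1]
  refine ⟨hS.h1.trans hσε, ?_, ?_, ?_⟩
  · have h := abs_le.1 (hS.h2.trans hσε)
    have h3 : ε * (z.1 ^ 2 + z.2 ^ 2 - 1 / 4) ≤ ε * 1 :=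
      mul_le_mul_of_nonneg_left (by linarith) hε.le
    have h4 : ε * (-1) ≤ ε * (z.1 ^ 2 + z.2 ^ 2 - 1 / 4) :=
      mul_le_mul_of_nonneg_left (by nlinarith [sq_nonneg z.1, sq_nonneg z.2]) hε.le
    rw [abs_le]
    constructor <;> linarith [h.1, h.2]
  · have h5 : ((j : ℝ) + 1) * (σ * ε) ≤ (J + 1) * ε :=
      (mul_le_mul_of_nonneg_left hσε (by linarith)).trans
        (mul_le_mul_of_nonneg_right (by linarith) hε.le)
    have h6 : |((j : ℝ) + 1) * (2 * ε * z.2)| ≤ (J + 1) * (2 * ε) := by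
      rw [abs_mul, abs_of_nonneg (by linarith : (0 : ℝ) ≤ (j : ℝ) + 1), abs_mul,
        abs_of_pos (by linarith : 0 < 2 * ε)]
      refine mul_le_mul (by linarith) ?_ (by positivity) (by linarith)
      nlinarith
    calc |a1 z| = |(a1 z - (j + 1) * (2 * ε * z.2)) + (j + 1) * (2 * ε * z.2)| := by
          congr 1; ring
      _ ≤ |a1 z - (j + 1) * (2 * ε * z.2)| + |((j : ℝ) + 1) * (2 * ε * z.2)| := abs_add_le _ _
      _ ≤ (J + 1) * ε + (J + 1) * (2 * ε) := add_le_add (hS.ha1.trans h5) h6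
      _ = _ := by ring
  · exact hS.ha2.trans ((mul_le_mul_of_nonneg_left hσε (by linarith)).trans
        (mul_le_mul_of_nonneg_right (by linarith) hε.le))

/-- outside of `DD ε b s`, either `c_p = 0` or we are far away -/
theorem lv_not_DD {τ : ℝ} (hb : 0 < b) (hτ : 0 < τ) (hr' : 0 ≤ r') (hr : r' < 0.85 - 0.2 * s)
    {z : ℝ × ℝ} (hz : z ∉ DD ε b s) :
    dp (cc ε b s τ) z = 0 ∨ r' ^ 2 < z.1 ^ 2 + z.2 ^ 2 := by
  by_cases h : z.1 ^ 2 + z.2 ^ 2 < (0.85 - 0.2 * s) ^ 2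
  · left
    refine dp_cc_eq_zero hb hτ ?_
    by_contra hcon
    exact hz ⟨h, not_le.1 hcon⟩
  · right
    push Not at h
    have : r' ^ 2 < (0.85 - 0.2 * s) ^ 2 := pow_lt_pow_left₀ hr hr' (by norm_num)
    linarith

/-- annuli are contained in the domains -/
theorem lv_Ann_subset {r : ℝ} (hε : 0 < ε) (hε1 : ε ≤ 1 / 100) (hb : 0 < b) (hb1 : b ≤ ε ^ 3)
    (hs1 : s ≤ 1) (hr : 0.61 ≤ r) : Ann r (0.85 - 0.2 * s) ⊆ DD ε b s := by
  intro z hz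
  refine ⟨hz.2, ?_⟩
  rcases le_total (1 / 8) |z.1| with h | h
  · have := lv_hh_neg hε hε1 hb hb1 hs1 h
    have h2 := abs_nonneg z.2
    linarith
  · have h1 : b ≤ 1 / 1000 := by
      refine hb1.trans ?_
      have : ε ^ 3 ≤ (1 / 100 : ℝ) ^ 3 := pow_le_pow_left₀ hε.le hε1 3
      refine this.trans (by norm_num)
    have h2 : hh ε b s z.1 ≤ 7 * b := lv_hh_le hb hs1
    have h3 : (1 / 2 : ℝ) ≤ |z.2| := by
      rw [← Real.sqrt_sq_eq_abs]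
      apply Real.le_sqrt_of_sq_le
      have h4 : r ^ 2 < z.1 ^ 2 + z.2 ^ 2 := hz.1
      have h5 : (0.61 : ℝ) ^ 2 ≤ r ^ 2 := pow_le_pow_left₀ (by norm_num) hr 2
      have h6 : z.1 ^ 2 ≤ (1 / 8) ^ 2 := by
        rw [← sq_abs]; exact pow_le_pow_left₀ (abs_nonneg _) h 2
      norm_num at h5 h6 ⊢
      linarith
    linarith

/-- the pointwise lower bound of the form -/
theorem lv_F1 {c : ℝ × ℝ → ℝ} (hr' : r' ^ 2 < 0.81)
    (hform : ∀ z : ℝ × ℝ, z.1 ^ 2 + z.2 ^ 2 < 0.81 → ∀ X Y : ℝ,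
      (1 / 100) * dp c z * (X ^ 2 + ε * Y ^ 2) ≤
      Axx g1 a2 bb c z * X ^ 2 + App g1 g2 a1 bb c z * Y ^ 2
        + Axp g2 a1 a2 bb c z * (X * Y))
    (hχ0 : ∀ z : ℝ × ℝ, r' ^ 2 ≤ z.1 ^ 2 + z.2 ^ 2 → χ z = 0) (z : ℝ × ℝ) :
    (1 / 100) * dp c z * (dx (fun z => χ z * φ z) z ^ 2 + ε * dp (fun z => χ z * φ z) z ^ 2) ≤
      Axx g1 a2 bb c z * dx (fun z => χ z * φ z) z ^ 2 +
      App g1 g2 a1 bb c z * dp (fun z => χ z * φ z) z ^ 2
        + Axp g2 a1 a2 bb c z * (dx (fun z => χ z * φ z) z * dp (fun z => χ z * φ z) z) := by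
  by_cases hz : z.1 ^ 2 + z.2 ^ 2 < 0.81
  · exact hform z hz _ _
  · obtain ⟨e1, e2, -⟩ := lv_u_zero (g1 := 0) (g2 := 0) (a1 := 0) (a2 := 0) (φ := φ) hχ0
      (z := z) (by linarith)
    rw [e1, e2]; simp

/-- the pointwise upper bound of the left hand side -/
theorem lv_F2 {τ : ℝ} (hε : 0 < ε) (hε1 : ε ≤ 1 / 100) (hb : 0 < b) (hb1 : b ≤ ε ^ 3)
    (hs1 : s ≤ 1) (hτ : 0 < τ) (hτ1 : τ ≤ 3 * b) (hr' : r' ^ 2 < 0.81)
    (hχ0 : ∀ z : ℝ × ℝ, r' ^ 2 ≤ z.1 ^ 2 + z.2 ^ 2 → χ z = 0) (z : ℝ × ℝ) :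
    LL g1 g2 a1 a2 (fun z => χ z * φ z) z *
      (bb z * dx (fun z => χ z * φ z) z + cc ε b s τ z * dp (fun z => χ z * φ z) z) ≤
      (1 / 400) * dp (cc ε b s τ) z *
        (dx (fun z => χ z * φ z) z ^ 2 + ε * dp (fun z => χ z * φ z) z ^ 2) +
      500 / ε * (dp (cc ε b s τ) z * LL g1 g2 a1 a2 (fun z => χ z * φ z) z ^ 2) := by
  by_cases hz : z.1 ^ 2 + z.2 ^ 2 < 0.81
  · have hz1 : |z.1| ≤ 1 := by
      rw [← sq_le_one_iff_abs_le_one]; nlinarith [sq_nonneg z.2]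
    have hz2 : |z.2| ≤ 1 := by
      rw [← sq_le_one_iff_abs_le_one]; nlinarith [sq_nonneg z.1]
    have hp := dp_cc_nonneg (ε := ε) (s := s) hb hτ z
    refine lv_P2 hε (by linarith) hp ?_ ?_
    · rcases le_total |z.1| (1 / 8) with h | h
      · rw [lv_bb_zero h, abs_zero]; exact hp
      · refine (lv_bb_le hz1).trans (one_le_dp_cc hb hτ ?_)
        have := lv_hh_neg hε hε1 hb hb1 hs1 h
        have h2 := abs_nonneg z.2
        linarith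
    · refine (abs_cc_le hb hτ z).trans ?_
      nlinarith
  · obtain ⟨e1, e2, e3⟩ := lv_u_zero (g1 := g1) (g2 := g2) (a1 := a1) (a2 := a2) (φ := φ) hχ0
      (z := z) (by linarith)
    rw [e1, e2, e3]; simp

/-- the pointwise bound of the right hand side -/
theorem lv_F3 {σ τ : ℝ} {j : ℕ} (hε : 0 < ε) (hε1 : ε ≤ 1 / 100) (hb : 0 < b)
    (hτ : 0 < τ) (hM : 0 ≤ M) (hσ : σ ≤ 1) (hjJ : j ≤ J)
    (hχs : ContDiff ℝ ∞ χ) (hφ : ContDiff ℝ ∞ φ) (hr1 : 0 ≤ r₁)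
    (hr' : 0 ≤ r') (h1 : r₁ < ρ) (h2 : r' < r₂) (hr2 : r₂ ^ 2 < 0.81)
    (hr : r' < 0.85 - 0.2 * s)
    (hχ01 : ∀ z, 0 ≤ χ z ∧ χ z ≤ 1)
    (hχ1 : ∀ z : ℝ × ℝ, z.1 ^ 2 + z.2 ^ 2 ≤ ρ ^ 2 → χ z = 1)
    (hχ0 : ∀ z : ℝ × ℝ, r' ^ 2 ≤ z.1 ^ 2 + z.2 ^ 2 → χ z = 0)
    (hχM : ∀ z, |dx χ z| ≤ M ∧ |dp χ z| ≤ M ∧ |dx (dx χ) z| ≤ M ∧ |dp (dx χ) z| ≤ M ∧
      |dp (dp χ) z| ≤ M)
    (hS : ∀ z : ℝ × ℝ, z.1 ^ 2 + z.2 ^ 2 < 0.81 → Small σ ε j g1 g2 a1 a2 z) (z : ℝ × ℝ) :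
    dp (cc ε b s τ) z * LL g1 g2 a1 a2 (fun z => χ z * φ z) z ^ 2 ≤
      (DD ε b s).indicator (fun z => 4 * LL g1 g2 a1 a2 φ z ^ 2) z +
      (Ann r₁ r₂).indicator (fun z => 12 * M ^ 2 * (25 + (4 * J + 8) ^ 2) *
        (φ z ^ 2 + (dx φ z ^ 2 + ε * dp φ z ^ 2))) z := by
  have hp0 := dp_cc_nonneg (ε := ε) (s := s) hb hτ z
  have hp2 := dp_cc_le_two (ε := ε) (s := s) hb hτ z
  have hA : 0 ≤ (Ann r₁ r₂).indicator (fun z => 12 * M ^ 2 * (25 + (4 * (J : ℝ) + 8) ^ 2) *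
        (φ z ^ 2 + (dx φ z ^ 2 + ε * dp φ z ^ 2))) z :=
    indicator_nonneg (fun z _ => by positivity) z
  have hB : 0 ≤ (DD ε b s).indicator (fun z => 4 * LL g1 g2 a1 a2 φ z ^ 2) z :=
    indicator_nonneg (fun z _ => by positivity) z
  have hχ2 : χ z ^ 2 ≤ 1 := by
    have := hχ01 z; nlinarith
  by_cases hD : z ∈ DD ε b s
  · by_cases hAn : z ∈ Ann r₁ r₂
    · rw [indicator_of_mem hD, indicator_of_mem hAn, lv_LL_mul hχs hφ]
      have hz : z.1 ^ 2 + z.2 ^ 2 < 0.81 := lt_trans hAn.2 hr2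
      obtain ⟨b1, b2, b3, b4⟩ := lv_small_bounds hε hσ hjJ hz (hS z hz)
      obtain ⟨m1, m2, m3, m4, m5⟩ := hχM z
      have hE := lv_E (f := φ z) (fx := dx φ z) (fp := dp φ z) hM hε (by linarith)
        (Nat.cast_nonneg J) m1 m2 m3 m4 m5 b1 b2 b3 b4
      set E := (2 * dx χ z * dx φ z + g1 z * (dx χ z * dp φ z + dp χ z * dx φ z) +
        2 * g2 z * dp χ z * dp φ z) +
      φ z * (dx (dx χ) z + g1 z * dp (dx χ) z + g2 z * dp (dp χ) z + a1 z * dp χ z +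
        a2 z * dx χ z) with hEdef
      set L := LL g1 g2 a1 a2 φ z
      have h3 : (χ z * L + E) ^ 2 ≤ 2 * L ^ 2 + 2 * E ^ 2 := by
        have e1 : (χ z * L) ^ 2 ≤ L ^ 2 := by
          rw [mul_pow]
          have := mul_le_mul_of_nonneg_right hχ2 (sq_nonneg L)
          linarith
        nlinarith [sq_nonneg (χ z * L - E)]
      calc dp (cc ε b s τ) z * (χ z * L + E) ^ 2 ≤ 2 * (χ z * L + E) ^ 2 :=
            mul_le_mul_of_nonneg_right hp2 (sq_nonneg _)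
        _ ≤ 2 * (2 * L ^ 2 + 2 * E ^ 2) := by linarith
        _ = 4 * L ^ 2 + 4 * E ^ 2 := by ring
        _ ≤ _ := by linarith
    · rw [lv_LL_out hχs hφ hr1 hr' h1 h2 hχ1 hχ0 hAn, indicator_of_mem hD]
      have e1 : (χ z * LL g1 g2 a1 a2 φ z) ^ 2 ≤ LL g1 g2 a1 a2 φ z ^ 2 := by
        rw [mul_pow]
        have := mul_le_mul_of_nonneg_right hχ2 (sq_nonneg (LL g1 g2 a1 a2 φ z))
        linarith
      have e2 : dp (cc ε b s τ) z * (χ z * LL g1 g2 a1 a2 φ z) ^ 2 ≤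
          2 * (χ z * LL g1 g2 a1 a2 φ z) ^ 2 := mul_le_mul_of_nonneg_right hp2 (sq_nonneg _)
      have e3 := sq_nonneg (LL g1 g2 a1 a2 φ z)
      linarith
  · have : dp (cc ε b s τ) z * LL g1 g2 a1 a2 (fun z => χ z * φ z) z ^ 2 = 0 := by
      rcases lv_not_DD hb hτ hr' hr hD with h | h
      · rw [h, zero_mul]
      · obtain ⟨-, -, e3⟩ := lv_u_zero (g1 := g1) (g2 := g2) (a1 := a1) (a2 := a2) (φ := φ) hχ0 h
        rw [e3]; ring
    rw [this]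
    exact add_nonneg hB hA

/-- on the smaller domain the cutoff is one and `c_p ≥ 1` -/
theorem lv_F4 {τ : ℝ} (hε : 0 < ε) (hb : 0 < b) (hτ : 0 < τ) (hτe : τ = 3 * b * (s' - s))
    (hρ : ρ = 0.85 - 0.2 * s')
    (hχ1 : ∀ z : ℝ × ℝ, z.1 ^ 2 + z.2 ^ 2 ≤ ρ ^ 2 → χ z = 1) (z : ℝ × ℝ) :
    (DD ε b s').indicator (fun z => dx φ z ^ 2 + ε * dp φ z ^ 2) z ≤
      dp (cc ε b s τ) z * (dx (fun z => χ z * φ z) z ^ 2 + ε * dp (fun z => χ z * φ z) z ^ 2) := by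
  have hp0 := dp_cc_nonneg (ε := ε) (s := s) hb hτ z
  by_cases hD : z ∈ DD ε b s'
  · rw [indicator_of_mem hD]
    have hz : z.1 ^ 2 + z.2 ^ 2 < ρ ^ 2 := by rw [hρ]; exact hD.1
    obtain ⟨e1, e2⟩ := lv_u_one (φ := φ) hχ1 hz
    rw [e1, e2]
    have h3 : 1 ≤ dp (cc ε b s τ) z := by
      refine one_le_dp_cc hb hτ ?_
      have h4 := hD.2
      have h5 : hh ε b s' z.1 = hh ε b s z.1 + τ := by
        unfold hh; rw [hτe]; ring
      rw [h5] at h4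
      exact h4.le
    have h6 : 0 ≤ dx φ z ^ 2 + ε * dp φ z ^ 2 := by positivity
    nlinarith
  · rw [indicator_of_notMem hD]
    positivity

/-- the integrated inequality -/
theorem lv_absorb {N P Q R : ℝ × ℝ → ℝ} (hε : 0 < ε) (hN : Integrable N) (hP : Integrable P)
    (hQ : Integrable Q) (hR : Integrable R) (hR0 : ∀ z, 0 ≤ R z)
    (hNP : ∫ z, N z = ∫ z, P z) (h1 : ∀ z, (1 / 100) * Q z ≤ P z)
    (h2 : ∀ z, N z ≤ (1 / 400) * Q z + 500 / ε * R z) :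
    ∫ z, Q z ≤ 70000 / ε * ∫ z, R z := by
  have i1 : (1 / 100) * ∫ z, Q z ≤ ∫ z, P z := by
    rw [← integral_const_mul]
    exact integral_mono (hQ.const_mul _) hP h1
  have i2 : ∫ z, N z ≤ (1 / 400) * (∫ z, Q z) + 500 / ε * ∫ z, R z := by
    rw [← integral_const_mul, ← integral_const_mul, ← integral_add (hQ.const_mul _)
      (hR.const_mul _)]
    exact integral_mono hN ((hQ.const_mul _).add (hR.const_mul _)) h2
  have i3 : 0 ≤ ∫ z, R z := integral_nonneg hR0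
  have i4 : 70000 / ε * ∫ z, R z = 140 * (500 / ε * ∫ z, R z) := by ring
  have i5 : 0 ≤ 500 / ε * ∫ z, R z := by positivity
  linarith

/-- continuity of the integrands -/
theorem lv_cont_P {c : ℝ × ℝ → ℝ} (hu : ContDiff ℝ ∞ φ) (hg1 : ContDiff ℝ 1 g1)
    (hg2 : ContDiff ℝ 1 g2) (ha1 : Continuous a1) (ha2 : Continuous a2) (hc : ContDiff ℝ 1 c) :
    Continuous (fun z => Axx g1 a2 bb c z * dx φ z ^ 2 + App g1 g2 a1 bb c z * dp φ z ^ 2
        + Axp g2 a1 a2 bb c z * (dx φ z * dp φ z)) := by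
  have c1 := lv_cont_dx hg1
  have c2 := lv_cont_dp hg1
  have c3 := lv_cont_dx hg2
  have c4 := lv_cont_dp hg2
  have c5 := lv_cont_dx hc
  have c6 := lv_cont_dp hc
  have c7 := lv_cont_dx contDiff_bb
  have c8 := contDiff_bb.continuous
  have c9 := (cd_dx hu).continuous
  have c10 := (cd_dp hu).continuous
  have c11 := hg1.continuous
  have c12 := hg2.continuous
  have c13 := hc.continuous
  unfold Axx App Axp
  fun_prop

end core

/-- **The level estimate.**  From `mult_identity` for `χ φ` (radial cutoff), `form_pos` and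
`caccioppoli`. -/
theorem level_estimate (J : ℕ) {s s' : ℝ} (h0 : 0 ≤ s) (h01 : s < s') (h1 : s' ≤ 1) :
    ∃ σ : ℝ, 0 < σ ∧ ∃ ε₁ : ℝ, 0 < ε₁ ∧ ∃ C : ℝ, 0 < C ∧ ∀ ε b : ℝ, 0 < ε → ε ≤ ε₁ → 0 < b →
    b ≤ ε ^ 3 → ∀ j : ℕ, 1 ≤ j → j ≤ J →
    ∀ (g1 g2 a1 a2 φ : ℝ × ℝ → ℝ), ContDiff ℝ ∞ φ → ContDiff ℝ 1 g1 → ContDiff ℝ 1 g2 →
    Continuous a1 → Continuous a2 →
    (∀ z, z.1 ^ 2 + z.2 ^ 2 < 0.81 → Small σ ε j g1 g2 a1 a2 z) →
    ∫ z in DD ε b s', (dx φ z ^ 2 + ε * dp φ z ^ 2) ≤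
      C / ε ^ 2 * ∫ z in DD ε b s, (φ z ^ 2 + LL g1 g2 a1 a2 φ z ^ 2) := by
  obtain ⟨σf, hσf, εf, hεf, hform⟩ := form_pos J
  obtain ⟨ρ, hρ⟩ : ∃ ρ : ℝ, ρ = 0.85 - 0.2 * s' := ⟨_, rfl⟩
  obtain ⟨d, hd⟩ : ∃ d : ℝ, d = (0.2 * (s' - s)) / 3 := ⟨_, rfl⟩
  have hd0 : 0 < d := by rw [hd]; norm_num; linarith
  have hρ0 : 0.65 ≤ ρ := by rw [hρ]; norm_num; linarith
  have hρd : ρ + 3 * d = 0.85 - 0.2 * s := by rw [hρ, hd]; ring
  have hρ1 : ρ + 3 * d ≤ 0.85 := by rw [hρd]; norm_num; linarith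
  obtain ⟨σc, hσc, εc, hεc, Cc, hCc, hcacc⟩ := caccioppoli J (r₀ := ρ - 0.02) (r₁ := ρ - 0.01)
    (r₂ := ρ + 2 * d) (r₃ := 0.85 - 0.2 * s) (by norm_num at hρ0 ⊢; linarith)
    (by norm_num) (by norm_num at hρ0 ⊢; linarith) (by linarith) (by linarith)
  obtain ⟨χ, M, hχs, hχ01, hχ1, hχ0, hχM⟩ := exists_cutoff (r := ρ) (r' := ρ + d)
    (by norm_num at hρ0 ⊢; linarith) (by linarith)
  have hM : 0 ≤ M := (abs_nonneg _).trans (hχM 0).1
  obtain ⟨CE, hCE⟩ : ∃ CE : ℝ, CE = 12 * M ^ 2 * (25 + (4 * (J : ℝ) + 8) ^ 2) := ⟨_, rfl⟩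
  have hCE0 : 0 ≤ CE := by rw [hCE]; positivity
  refine ⟨min (min σf σc) 1, by positivity, min (min εf εc) (1 / 100), by positivity,
    70000 * (4 + CE * (1 + Cc)), by positivity, ?_⟩
  intro ε b hε hε1 hb hb1 j hj hjJ g1 g2 a1 a2 φ hφ hg1 hg2 ha1 ha2 hS
  have hεf' : ε ≤ εf := hε1.trans ((min_le_left _ _).trans (min_le_left _ _))
  have hεc' : ε ≤ εc := hε1.trans ((min_le_left _ _).trans (min_le_right _ _))
  have hε100 : ε ≤ 1 / 100 := hε1.trans (min_le_right _ _)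
  obtain ⟨τ, hτe⟩ : ∃ τ : ℝ, τ = 3 * b * (s' - s) := ⟨_, rfl⟩
  have hτ : 0 < τ := by rw [hτe]; have := sub_pos.2 h01; positivity
  have hτ1 : τ ≤ 3 * b := by rw [hτe]; nlinarith
  have hs1 : s ≤ 1 := by linarith
  have hr2 : (ρ + 2 * d) ^ 2 < 0.81 := by
    have : (ρ + 2 * d) ^ 2 ≤ 0.85 ^ 2 :=
      pow_le_pow_left₀ (by norm_num at hρ0 ⊢; linarith) (by linarith) 2
    norm_num at this ⊢; linarith
  have hr' : (ρ + d) ^ 2 < 0.81 := by
    have : (ρ + d) ^ 2 ≤ 0.85 ^ 2 :=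
      pow_le_pow_left₀ (by norm_num at hρ0 ⊢; linarith) (by linarith) 2
    norm_num at this ⊢; linarith
  have hρd0 : 0 ≤ ρ + d := by norm_num at hρ0 ⊢; linarith
  -- the cut-off function
  obtain ⟨u, hu⟩ : ∃ u : ℝ × ℝ → ℝ, u = fun z => χ z * φ z := ⟨_, rfl⟩
  have hus : ContDiff ℝ ∞ u := by rw [hu]; exact hχs.mul hφ
  have huc : HasCompactSupport u := HasCompactSupport.intro lv_compact fun z hz => by
    have hz' : 1 < z.1 ^ 2 + z.2 ^ 2 := not_le.1 hz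
    rw [hu]
    simp only
    rw [hχ0 z (by norm_num at hr'; linarith), zero_mul]
  have hcs : ContDiff ℝ 1 (cc ε b s τ) := contDiff_cc hb hτ
  have hid := mult_identity (g1 := g1) (g2 := g2) (a1 := a1) (a2 := a2) hus huc hg1 hg2 ha1 ha2
    contDiff_bb dp_bb hcs
  have hz0 : ∀ z : ℝ × ℝ, 1 < z.1 ^ 2 + z.2 ^ 2 → dx u z = 0 ∧ dp u z = 0 ∧
      LL g1 g2 a1 a2 u z = 0 := by
    intro z hz
    rw [hu]
    exact lv_u_zero hχ0 (by norm_num at hr'; linarith)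
  have cL : Continuous (LL g1 g2 a1 a2 u) :=
    lv_cont_LL hus hg1.continuous hg2.continuous ha1 ha2
  have cx := (cd_dx hus).continuous
  have cp := (cd_dp hus).continuous
  have cc1 := lv_cont_dp hcs
  have cc2 := hcs.continuous
  have cb := contDiff_bb.continuous
  have iN : Integrable (fun z => LL g1 g2 a1 a2 u z * (bb z * dx u z + cc ε b s τ z * dp u z)) :=
    lv_integrable (by fun_prop) fun z hz => by
      obtain ⟨e1, e2, e3⟩ := hz0 z hz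
      rw [e1, e2, e3]; ring
  have iP := lv_integrable (lv_cont_P hus hg1 hg2 ha1 ha2 hcs) fun z hz => by
      obtain ⟨e1, e2, e3⟩ := hz0 z hz
      rw [e1, e2]; ring
  have iQ : Integrable (fun z => dp (cc ε b s τ) z * (dx u z ^ 2 + ε * dp u z ^ 2)) :=
    lv_integrable (by fun_prop) fun z hz => by
      obtain ⟨e1, e2, e3⟩ := hz0 z hz
      rw [e1, e2]; ring
  have iR : Integrable (fun z => dp (cc ε b s τ) z * LL g1 g2 a1 a2 u z ^ 2) :=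
    lv_integrable (by fun_prop) fun z hz => by
      obtain ⟨e1, e2, e3⟩ := hz0 z hz
      rw [e3]; ring
  have hpn : ∀ z, 0 ≤ dp (cc ε b s τ) z := dp_cc_nonneg hb hτ
  have key := lv_absorb hε iN iP iQ iR
    (fun z => mul_nonneg (hpn z) (sq_nonneg _)) hid
    (fun z => by
      have hform' : ∀ z : ℝ × ℝ, z.1 ^ 2 + z.2 ^ 2 < 0.81 → ∀ X Y : ℝ,
          (1 / 100) * dp (cc ε b s τ) z * (X ^ 2 + ε * Y ^ 2) ≤
          Axx g1 a2 bb (cc ε b s τ) z * X ^ 2 + App g1 g2 a1 bb (cc ε b s τ) z * Y ^ 2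
            + Axp g2 a1 a2 bb (cc ε b s τ) z * (X * Y) := fun z hz X Y =>
        hform ε b s τ hε hεf' hb hb1 h0 hs1 hτ hτ1 j hj hjJ g1 g2 a1 a2 z hz.le
          ((hS z hz).mono hε ((min_le_left _ _).trans (min_le_left _ _))) X Y
      have := lv_F1 (φ := φ) (ε := ε) hr' hform' hχ0 z
      rw [← hu] at this
      rw [← mul_assoc]
      exact this)
    (fun z => by
      have := lv_F2 (g1 := g1) (g2 := g2) (a1 := a1) (a2 := a2) (φ := φ) hε hε100 hb hb1 hs1 hτ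
        hτ1 hr' hχ0 z
      rw [← hu] at this
      rw [← mul_assoc (1 / 400 : ℝ)]
      exact this)
  -- integrability of the indicators
  have sD : ∀ t : ℝ, 0 ≤ t → t ≤ 1 → DD ε b t ⊆ {z : ℝ × ℝ | z.1 ^ 2 + z.2 ^ 2 ≤ 1} := by
    intro t ht ht1 z hz
    have e1 : z.1 ^ 2 + z.2 ^ 2 < (0.85 - 0.2 * t) ^ 2 := hz.1
    have e2 : (0.85 - 0.2 * t) ^ 2 ≤ 1 ^ 2 :=
      pow_le_pow_left₀ (by norm_num; linarith) (by norm_num; linarith) 2
    exact (e1.trans_le (e2.trans (by norm_num))).le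
  have cLφ : Continuous (LL g1 g2 a1 a2 φ) :=
    lv_cont_LL hφ hg1.continuous hg2.continuous ha1 ha2
  have cφ := hφ.continuous
  have cφx := (cd_dx hφ).continuous
  have cφp := (cd_dp hφ).continuous
  have mD := (isOpen_DD ε b s).measurableSet
  have mD' := (isOpen_DD ε b s').measurableSet
  have mA := (lv_isOpen_Ann (ρ - 0.01) (ρ + 2 * d)).measurableSet
  have mA' := (lv_isOpen_Ann (ρ - 0.02) (0.85 - 0.2 * s)).measurableSet
  have subA' : Ann (ρ - 0.02) (0.85 - 0.2 * s) ⊆ DD ε b s :=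
    lv_Ann_subset hε hε100 hb hb1 hs1 (by norm_num at hρ0 ⊢; linarith)
  have subAA : Ann (ρ - 0.01) (ρ + 2 * d) ⊆ Ann (ρ - 0.02) (0.85 - 0.2 * s) := by
    intro z hz
    have e1 : (ρ - 0.01) ^ 2 < z.1 ^ 2 + z.2 ^ 2 := hz.1
    have e2 : z.1 ^ 2 + z.2 ^ 2 < (ρ + 2 * d) ^ 2 := hz.2
    refine ⟨lt_of_le_of_lt (pow_le_pow_left₀ (by norm_num at hρ0 ⊢; linarith)
      (sub_le_sub_left (by norm_num) _) 2) e1, lt_of_lt_of_le e2 (pow_le_pow_left₀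
      (by norm_num at hρ0 ⊢; linarith) (by linarith) 2)⟩
  have subA : Ann (ρ - 0.01) (ρ + 2 * d) ⊆ DD ε b s := subAA.trans subA'
  have sDs := sD s h0 hs1
  have sDs' := sD s' (by linarith) h1
  have iT : IntegrableOn (fun z => φ z ^ 2 + LL g1 g2 a1 a2 φ z ^ 2) (DD ε b s) :=
    lv_integrableOn (by fun_prop) sDs
  have iL : IntegrableOn (fun z => LL g1 g2 a1 a2 φ z ^ 2) (DD ε b s) :=
    lv_integrableOn (by fun_prop) sDs
  have iφ : IntegrableOn (fun z => φ z ^ 2) (DD ε b s) := lv_integrableOn (by fun_prop) sDs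
  have iG : IntegrableOn (fun z => dx φ z ^ 2 + ε * dp φ z ^ 2) (DD ε b s) :=
    lv_integrableOn (by fun_prop) sDs
  have iG' : IntegrableOn (fun z => dx φ z ^ 2 + ε * dp φ z ^ 2) (DD ε b s') :=
    lv_integrableOn (by fun_prop) sDs'
  have iL4 : IntegrableOn (fun z => 4 * LL g1 g2 a1 a2 φ z ^ 2) (DD ε b s) :=
    lv_integrableOn (by fun_prop) sDs
  have iA : IntegrableOn (fun z => CE * (φ z ^ 2 + (dx φ z ^ 2 + ε * dp φ z ^ 2)))
      (Ann (ρ - 0.01) (ρ + 2 * d)) :=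
    lv_integrableOn (by fun_prop) (subA.trans sDs)
  obtain ⟨T, hT⟩ : ∃ T : ℝ, T = ∫ z in DD ε b s, (φ z ^ 2 + LL g1 g2 a1 a2 φ z ^ 2) := ⟨_, rfl⟩
  have hT0 : 0 ≤ T := by
    rw [hT]; exact setIntegral_nonneg mD fun z _ => by positivity
  -- the right-hand side
  have hR : ∫ z, dp (cc ε b s τ) z * LL g1 g2 a1 a2 u z ^ 2 ≤ (4 + CE * (1 + Cc)) * T := by
    have hI : ∫ z, dp (cc ε b s τ) z * LL g1 g2 a1 a2 u z ^ 2 ≤
        ∫ z, ((DD ε b s).indicator (fun z => 4 * LL g1 g2 a1 a2 φ z ^ 2) z +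
          (Ann (ρ - 0.01) (ρ + 2 * d)).indicator (fun z => CE *
            (φ z ^ 2 + (dx φ z ^ 2 + ε * dp φ z ^ 2))) z) := by
      refine integral_mono iR ((iL4.integrable_indicator mD).add
        (iA.integrable_indicator mA)) fun z => ?_
      have := lv_F3 (g1 := g1) (g2 := g2) (a1 := a1) (a2 := a2) (s := s) (b := b) (J := J)
        (r₁ := ρ - 0.01) (r₂ := ρ + 2 * d)
        hε hε100 hb hτ hM (min_le_right _ _) hjJ hχs hφ
        (by norm_num at hρ0 ⊢; linarith) hρd0 (by norm_num)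
        (by linarith) hr2 (by linarith) hχ01 hχ1 hχ0 hχM hS z
      rw [← hu, ← hCE] at this
      exact this
    rw [integral_add (iL4.integrable_indicator mD) (iA.integrable_indicator mA),
      integral_indicator mD, integral_indicator mA, integral_const_mul, integral_const_mul,
      integral_add (iφ.mono_set subA) (iG.mono_set subA)] at hI
    have e1 : ∫ z in DD ε b s, LL g1 g2 a1 a2 φ z ^ 2 ≤ T := by
      rw [hT]
      exact setIntegral_mono iL iT fun z => by have := sq_nonneg (φ z); linarith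
    have e2 : ∫ z in Ann (ρ - 0.01) (ρ + 2 * d), φ z ^ 2 ≤ T := by
      rw [hT]
      refine (setIntegral_mono_set iφ (ae_of_all _ fun z => sq_nonneg _)
        subA.eventuallyLE).trans (setIntegral_mono iφ iT fun z => ?_)
      have := sq_nonneg (LL g1 g2 a1 a2 φ z); linarith
    have e3 : ∫ z in Ann (ρ - 0.01) (ρ + 2 * d), (dx φ z ^ 2 + ε * dp φ z ^ 2) ≤ Cc * T := by
      refine (hcacc ε hε hεc' j hjJ g1 g2 a1 a2 φ hφ hg1 hg2 ha1 ha2 fun z hz =>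
        (hS z hz).mono hε ((min_le_left _ _).trans (min_le_right _ _))).trans ?_
      refine mul_le_mul_of_nonneg_left ?_ hCc.le
      rw [hT]
      exact setIntegral_mono_set iT (ae_of_all _ fun z => by positivity) subA'.eventuallyLE
    have e4 := mul_le_mul_of_nonneg_left (add_le_add e2 e3) hCE0
    calc _ ≤ _ := hI
      _ ≤ 4 * T + CE * (T + Cc * T) := add_le_add (by linarith) e4
      _ = _ := by ring
  -- the left-hand side
  have hL : ∫ z in DD ε b s', (dx φ z ^ 2 + ε * dp φ z ^ 2) ≤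
      ∫ z, dp (cc ε b s τ) z * (dx u z ^ 2 + ε * dp u z ^ 2) := by
    rw [← integral_indicator mD']
    refine integral_mono (iG'.integrable_indicator mD') iQ fun z => ?_
    have := lv_F4 (φ := φ) hε hb hτ hτe hρ hχ1 z
    rw [← hu] at this
    exact this
  rw [← hT]
  calc _ ≤ _ := hL
    _ ≤ _ := key
    _ ≤ 70000 / ε * ((4 + CE * (1 + Cc)) * T) := mul_le_mul_of_nonneg_left hR (by positivity)
    _ = 70000 * (4 + CE * (1 + Cc)) * T * (1 / ε) := by ring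
    _ ≤ 70000 * (4 + CE * (1 + Cc)) * T * (1 / ε ^ 2) := by
        refine mul_le_mul_of_nonneg_left ?_ (by positivity)
        refine one_div_le_one_div_of_le (by positivity) ?_
        nlinarith
    _ = _ := by ring

end Crest.Agent.Iso
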