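import Crest.Agent.Iso.MultFun

/-!
# Row 220: smallness of coefficients
-/

set_option autoImplicit false

open scoped ContDiff
open MeasureTheory Set

namespace Crest.Agent.Iso

/-- smallness of the coefficients at the point `z`, relative to the model
`g2 = ε (x² + p² - 1/4)`, `a1 = (j+1) ∂_p g2`, `g1 = a2 = 0` -/
structure Small (σ ε : ℝ) (j : ℕ) (g1 g2 a1 a2 : ℝ × ℝ → ℝ) (z : ℝ × ℝ) : Prop where
  h1 : |g1 z| ≤ σ * ε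
  h1x : |dx g1 z| ≤ σ * ε
  h1p : |dp g1 z| ≤ σ * ε
  h2 : |g2 z - ε * (z.1 ^ 2 + z.2 ^ 2 - 1 / 4)| ≤ σ * ε
  h2x : |dx g2 z - 2 * ε * z.1| ≤ σ * ε
  h2p : |dp g2 z - 2 * ε * z.2| ≤ σ * ε
  ha1 : |a1 z - (j + 1) * (2 * ε * z.2)| ≤ (j + 1) * (σ * ε)
  ha2 : |a2 z| ≤ (j + 1) * (σ * ε)

end Crest.Agent.Iso
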