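import Crest.Agent.Iso.SolDef
import Crest.Agent.Iso.SmallDef

/-!
# Row 220: smallness of the coefficients of solutions
-/

set_option autoImplicit false

open scoped ContDiff
open MeasureTheory Set

namespace Crest.Agent.Iso

/-- uniform smallness on compact boxes of continuous functions vanishing for `s = 0` -/
private theorem unif_small {m n : ℕ} {F : (Fin m → ℝ) → (Fin n → ℝ) → ℝ}
    (hF : Continuous (fun q : (Fin m → ℝ) × (Fin n → ℝ) => F q.1 q.2)) (h0 : ∀ k, F k 0 = 0)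
    (M : ℝ) {σ : ℝ} (hσ : 0 < σ) :
    ∃ δ : ℝ, 0 < δ ∧ ∀ k s, (∀ i, |k i| ≤ M) → (∀ i, |s i| ≤ δ) → |F k s| ≤ σ := by
  have hU : IsOpen {q : (Fin m → ℝ) × (Fin n → ℝ) | |F q.1 q.2| < σ} :=
    isOpen_lt (continuous_abs.comp hF) continuous_const
  have hK : IsCompact (Metric.closedBall (0 : Fin m → ℝ) (max M 0)) := isCompact_closedBall _ _
  obtain ⟨u, v, hu, hv, hKu, h0v, huv⟩ := generalized_tube_lemma hK
    (isCompact_singleton (x := (0 : Fin n → ℝ))) hU (by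
      rintro ⟨k, s⟩ ⟨_, hs⟩
      have hs' : s = 0 := hs
      change |F k s| < σ
      rw [hs', h0 k]; simpa using hσ)
  obtain ⟨δ, hδ, hδv⟩ := Metric.nhds_basis_closedBall.mem_iff.1 (hv.mem_nhds (h0v rfl))
  refine ⟨δ, hδ, fun k s hk hs => ?_⟩
  have hk' : k ∈ u := hKu (by
    rw [mem_closedBall_zero_iff, pi_norm_le_iff_of_nonneg (le_max_right _ _)]
    intro i; exact (hk i).trans (le_max_left _ _))
  have hs' : s ∈ v := hδv (by
    rw [mem_closedBall_zero_iff, pi_norm_le_iff_of_nonneg hδ.le]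
    intro i; exact hs i)
  have : (k, s) ∈ u ×ˢ v := ⟨hk', hs'⟩
  exact le_of_lt (huv this)

section slices
variable {ϖ ε : ℝ} {X p y v : ℝ → ℝ} {X' p' y' v' t : ℝ}

private theorem hd_P0 (hX : HasDerivAt X X' t) (hy : HasDerivAt y y' t) :
    HasDerivAt (fun t => P0 (X t) (y t)) (Px (X t) (y t) * X' + Py (X t) (y t) * y') t := by
  have h := ((((hX.fun_pow 2).sub_const (1 / 4)).fun_mul (hy.fun_pow 2)).div_const 2).fun_add
    ((hy.fun_pow 4).div_const 12)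
  refine HasDerivAt.congr_deriv h ?_
  simp only [Px, Py]; push_cast; ring

private theorem hd_Py (hX : HasDerivAt X X' t) (hy : HasDerivAt y y' t) :
    HasDerivAt (fun t => Py (X t) (y t)) (2 * X t * y t * X' + kk (X t) (y t) * y') t := by
  have h := (((hX.fun_pow 2).sub_const (1 / 4)).fun_mul hy).fun_add ((hy.fun_pow 3).div_const 3)
  refine HasDerivAt.congr_deriv h ?_
  simp only [kk]; push_cast; ring

private theorem hd_kk (hX : HasDerivAt X X' t) (hy : HasDerivAt y y' t) :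
    HasDerivAt (fun t => kk (X t) (y t)) (2 * X t * X' + 2 * y t * y') t := by
  have h := ((hX.fun_pow 2).fun_add (hy.fun_pow 2)).sub_const (1 / 4)
  refine HasDerivAt.congr_deriv h ?_
  push_cast; ring

private theorem hd_dd (hX : HasDerivAt X X' t) (hy : HasDerivAt y y' t)
    (h0 : 1 - 2 * ϖ * ε * P0 (X t) (y t) ≠ 0) :
    HasDerivAt (fun t => (1 - 2 * ϖ * ε * P0 (X t) (y t))⁻¹)
      (2 * ϖ * ε * ((1 - 2 * ϖ * ε * P0 (X t) (y t))⁻¹) ^ 2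
        * (Px (X t) (y t) * X' + Py (X t) (y t) * y')) t := by
  have h := (((hd_P0 hX hy).const_mul (2 * ϖ * ε)).const_sub 1).fun_inv h0
  refine HasDerivAt.congr_deriv h ?_
  field_simp

/-- `(∂G1)/ε` -/
private noncomputable def dG1 (ϖ ε x y v d X' y' v' : ℝ) : ℝ :=
  2 * ϖ * ((2 * x * y * X' + kk x y * y') * v * d + Py x y * v' * d
    + Py x y * v * (2 * ϖ * ε * d ^ 2 * (Px x y * X' + Py x y * y')))

private theorem hd_G1 (hX : HasDerivAt X X' t) (hy : HasDerivAt y y' t) (hv : HasDerivAt v v' t)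
    (h0 : 1 - 2 * ϖ * ε * P0 (X t) (y t) ≠ 0) :
    HasDerivAt (fun t => 2 * ϖ * ε * (Py (X t) (y t) * v t * (1 - 2 * ϖ * ε * P0 (X t) (y t))⁻¹))
      (ε * dG1 ϖ ε (X t) (y t) (v t) ((1 - 2 * ϖ * ε * P0 (X t) (y t))⁻¹) X' y' v') t := by
  have h := (((hd_Py hX hy).fun_mul hv).fun_mul (hd_dd hX hy h0)).const_mul (2 * ϖ * ε)
  refine HasDerivAt.congr_deriv h ?_
  simp only [dG1]; ring

/-- `(∂G2)/ε` -/
private noncomputable def dG2 (ϖ ε x p y v d X' p' y' v' : ℝ) : ℝ :=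
  (2 * x * X' + 2 * y * y') * (1 - ϖ * p ^ 2) - kk x y * (2 * ϖ * p * p')
    + ϖ * ((ε * (2 * Py x y * (2 * x * y * X' + kk x y * y')) * (1 - ϖ * p ^ 2)
        - ε * Py x y ^ 2 * (2 * ϖ * p * p')
        - (2 * x * X' + 2 * y * y') * v ^ 2 - kk x y * (2 * v * v')) * d
      + (ε * Py x y ^ 2 * (1 - ϖ * p ^ 2) - kk x y * v ^ 2)
        * (2 * ϖ * ε * d ^ 2 * (Px x y * X' + Py x y * y')))

private theorem hd_G2 (hX : HasDerivAt X X' t) (hp : HasDerivAt p p' t) (hy : HasDerivAt y y' t)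
    (hv : HasDerivAt v v' t) (h0 : 1 - 2 * ϖ * ε * P0 (X t) (y t) ≠ 0) :
    HasDerivAt (fun t => ε * (kk (X t) (y t) * (1 - ϖ * p t ^ 2)
      + ϖ * ((ε * Py (X t) (y t) ^ 2 * (1 - ϖ * p t ^ 2) - kk (X t) (y t) * v t ^ 2)
      * (1 - 2 * ϖ * ε * P0 (X t) (y t))⁻¹)))
      (ε * dG2 ϖ ε (X t) (p t) (y t) (v t) ((1 - 2 * ϖ * ε * P0 (X t) (y t))⁻¹) X' p' y' v') t := by
  have h1 := ((hp.fun_pow 2).const_mul ϖ).const_sub 1
  have h2 := (((hd_Py hX hy).fun_pow 2).const_mul ε).fun_mul h1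
  have h3 := (hd_kk hX hy).fun_mul (hv.fun_pow 2)
  have h := (((hd_kk hX hy).fun_mul h1).fun_add
    (((h2.fun_sub h3).fun_mul (hd_dd hX hy h0)).const_mul ϖ)).const_mul ε
  refine HasDerivAt.congr_deriv h ?_
  simp only [dG2]; push_cast; ring

end slices

/-- `G1/ε`, etc. -/
private noncomputable def fG1 (ϖ x y v d : ℝ) : ℝ := 2 * ϖ * (Py x y * v * d)

private noncomputable def fG2 (ϖ ε x p y v d : ℝ) : ℝ :=
  (kk x y * (1 - ϖ * p ^ 2) + ϖ * ((ε * Py x y ^ 2 * (1 - ϖ * p ^ 2) - kk x y * v ^ 2) * d))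

private noncomputable def fG1W (ϖ ε x y v d : ℝ) : ℝ :=
  2 * ϖ * (v * (kk x y * d + Py x y * (2 * ϖ * ε * Py x y * d ^ 2)))

private noncomputable def fG1V (ϖ x y d : ℝ) : ℝ := 2 * ϖ * (Py x y * d)

private noncomputable def fG2W (ϖ ε x p y v d : ℝ) : ℝ :=
  (2 * y * (1 - ϖ * p ^ 2)
    + ϖ * ((2 * ε * Py x y * kk x y * (1 - ϖ * p ^ 2) - 2 * y * v ^ 2) * d
      + (ε * Py x y ^ 2 * (1 - ϖ * p ^ 2) - kk x y * v ^ 2) * (2 * ϖ * ε * Py x y * d ^ 2)))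

private noncomputable def fG2V (ϖ x y v d : ℝ) : ℝ := ϖ * (- (2 * kk x y * v) * d)

private noncomputable def fG3W (ϖ ε x p y v d : ℝ) : ℝ :=
  ϖ * (v * (2 * x * y * d + Px x y * (2 * ϖ * ε * Py x y * d ^ 2)) + kk x y * p)

private noncomputable def fG3V (ϖ x y d : ℝ) : ℝ := ϖ * (Px x y * d)

/-- smallness of the coefficients, uniformly on the disc -/
theorem sol_small {σ : ℝ} (hσ : 0 < σ) : ∃ δ₀ : ℝ, 0 < δ₀ ∧ ∃ ε₀ : ℝ, 0 < ε₀ ∧
    ∀ δ : ℝ, δ ≤ δ₀ → ∀ S : Sol δ, S.ε ≤ ε₀ → ∀ j : ℕ, ∀ z : ℝ × ℝ, z.1 ^ 2 + z.2 ^ 2 < 0.81 →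
    Small σ S.ε j (G1 S.ϖ S.ε S.w) (G2 S.ϖ S.ε S.w)
      (al1 S.w (G2 S.ϖ S.ε S.w) (G1W S.ϖ S.ε S.w) (G2W S.ϖ S.ε S.w) (G3W S.ϖ S.ε S.w) j)
      (al2 S.w (G1 S.ϖ S.ε S.w) (G1V S.ϖ S.ε S.w) (G2V S.ϖ S.ε S.w) (G3V S.ϖ S.ε S.w) j) z := by
  -- k = (x, p, d, ε), s = (ϖ, u_p, v, w_xx, w_xp, u_pp)
  obtain ⟨δ1, hδ1, H1⟩ := unif_small (m := 4) (n := 6)
    (F := fun k s => fG1 (s 0) (k 0) (k 1 + s 1) (s 2) (k 2))
    (by unfold fG1 Py; fun_prop) (by intro k; simp [fG1]) 3 hσ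
  obtain ⟨δ2, hδ2, H2⟩ := unif_small (m := 4) (n := 6)
    (F := fun k s => dG1 (s 0) (k 3) (k 0) (k 1 + s 1) (s 2) (k 2) 1 (s 4) (s 3))
    (by unfold dG1 Py Px kk; fun_prop) (by intro k; simp [dG1]) 3 hσ
  obtain ⟨δ3, hδ3, H3⟩ := unif_small (m := 4) (n := 6)
    (F := fun k s => dG1 (s 0) (k 3) (k 0) (k 1 + s 1) (s 2) (k 2) 0 (1 + s 5) (s 4))
    (by unfold dG1 Py Px kk; fun_prop) (by intro k; simp [dG1]) 3 hσ
  obtain ⟨δ4, hδ4, H4⟩ := unif_small (m := 4) (n := 6)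
    (F := fun k s => fG2 (s 0) (k 3) (k 0) (k 1) (k 1 + s 1) (s 2) (k 2)
      - (k 0 ^ 2 + k 1 ^ 2 - 1 / 4))
    (by unfold fG2 Py kk; fun_prop) (by intro k; simp [fG2, kk]) 3 hσ
  obtain ⟨δ5, hδ5, H5⟩ := unif_small (m := 4) (n := 6)
    (F := fun k s => dG2 (s 0) (k 3) (k 0) (k 1) (k 1 + s 1) (s 2) (k 2) 1 0 (s 4) (s 3)
      - 2 * k 0)
    (by unfold dG2 Py Px kk; fun_prop) (by intro k; simp [dG2]) 3 hσ
  obtain ⟨δ6, hδ6, H6⟩ := unif_small (m := 4) (n := 6)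
    (F := fun k s => dG2 (s 0) (k 3) (k 0) (k 1) (k 1 + s 1) (s 2) (k 2) 0 1 (1 + s 5) (s 4)
      - 2 * k 1)
    (by unfold dG2 Py Px kk; fun_prop) (by intro k; simp [dG2]) 3 hσ
  obtain ⟨δ7, hδ7, H7⟩ := unif_small (m := 4) (n := 6)
    (F := fun k s => fG1W (s 0) (k 3) (k 0) (k 1 + s 1) (s 2) (k 2) * s 4
      + fG2W (s 0) (k 3) (k 0) (k 1) (k 1 + s 1) (s 2) (k 2) * (1 + s 5)
      + fG3W (s 0) (k 3) (k 0) (k 1) (k 1 + s 1) (s 2) (k 2) - 2 * k 1)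
    (by unfold fG1W fG2W fG3W Py Px kk; fun_prop) (by intro k; simp [fG1W, fG2W, fG3W]) 3 hσ
  obtain ⟨δ8, hδ8, H8⟩ := unif_small (m := 4) (n := 6)
    (F := fun k s => fG1V (s 0) (k 0) (k 1 + s 1) (k 2) * s 4
      + fG2V (s 0) (k 0) (k 1 + s 1) (s 2) (k 2) * (1 + s 5)
      + fG3V (s 0) (k 0) (k 1 + s 1) (k 2))
    (by unfold fG1V fG2V fG3V Py Px kk; fun_prop) (by intro k; simp [fG1V, fG2V, fG3V]) 3 hσ
  have hmin : ∃ δ₀ : ℝ, 0 < δ₀ ∧ δ₀ ≤ δ1 ∧ δ₀ ≤ δ2 ∧ δ₀ ≤ δ3 ∧ δ₀ ≤ δ4 ∧ δ₀ ≤ δ5 ∧ δ₀ ≤ δ6 ∧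
      δ₀ ≤ δ7 ∧ δ₀ ≤ δ8 := by
    refine ⟨min δ1 (min δ2 (min δ3 (min δ4 (min δ5 (min δ6 (min δ7 δ8)))))), ?_, ?_⟩
    · simp only [lt_min_iff]; exact ⟨hδ1, hδ2, hδ3, hδ4, hδ5, hδ6, hδ7, hδ8⟩
    · simp only [min_le_iff, le_refl, true_or, or_true, and_self]
  obtain ⟨δ₀, hδ₀, l1, l2, l3, l4, l5, l6, l7, l8⟩ := hmin
  refine ⟨δ₀, hδ₀, 1, one_pos, ?_⟩
  intro δ hδ S hε1 j z hz
  obtain ⟨ε, ϖ, b, w, ε_pos, ε_le, ϖ_pos, ϖ_le, ϖ_le_one, b_ge, b_le, smooth, bdd, close, pde⟩ := S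
  simp only at hε1 ⊢
  have hx1 : |z.1| ≤ 1 := abs_le_one_iff_mul_self_le_one.2 (by nlinarith [sq_nonneg z.2])
  have hp1 : |z.2| ≤ 1 := abs_le_one_iff_mul_self_le_one.2 (by nlinarith [sq_nonneg z.1])
  -- the function u
  have hq : ContDiff ℝ ∞ (fun z : ℝ × ℝ => z.2 ^ 2 / 2) := by fun_prop
  set u : ℝ × ℝ → ℝ := fun z => w z - z.2 ^ 2 / 2 with hu
  have hus : ContDiff ℝ ∞ u := smooth.sub hq
  have hwu : w = fun z => u z + (1 / 2) * (z.2 * z.2) := by funext z; simp [hu]; ring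
  have hq' : ContDiff ℝ ∞ (fun z : ℝ × ℝ => (1 / 2) * (z.2 * z.2)) := by fun_prop
  have dxq : dx (fun z : ℝ × ℝ => (1 / 2) * (z.2 * z.2)) = fun _ => 0 := by
    have := dx_iter_const_mul (f := fun z : ℝ × ℝ => z.2 * z.2) (by fun_prop) (1 / 2) 1
    simp only [Function.iterate_one] at this
    rw [this]; funext z
    rw [dx_mul (by fun_prop) (by fun_prop), dx_snd]; simp
  have dpq : dp (fun z : ℝ × ℝ => (1 / 2) * (z.2 * z.2)) = fun z => z.2 := by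
    have := dp_iter_const_mul (f := fun z : ℝ × ℝ => z.2 * z.2) (by fun_prop) (1 / 2) 1
    simp only [Function.iterate_one] at this
    rw [this]; funext z
    rw [dp_mul (by fun_prop) (by fun_prop), dp_snd]; ring
  have hwx : dx w = dx u := by
    rw [hwu]; funext z
    rw [dx_add (diff_of_smooth hus z) (diff_of_smooth hq' z), dxq]; simp
  have hwp : dp w = fun z => dp u z + z.2 := by
    rw [hwu]; funext z
    rw [dp_add (diff_of_smooth hus z) (diff_of_smooth hq' z), dpq]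
  have hsnd : ∀ z, DifferentiableAt ℝ (fun z : ℝ × ℝ => z.2) z := fun z => by fun_prop
  have hwpp : ∀ z, dp (dp w) z = 1 + dp (dp u) z := by
    intro z; rw [hwp, dp_add (diff_of_smooth (cd_dp hus) z) (hsnd z), dp_snd]; ring
  have hwxp : ∀ z, dp (dx w) z = dx (dp u) z := by
    intro z; rw [hwx, dx_dp_comm hus]
  have hwxx : ∀ z, dx (dx w) z = dx (dx u) z := by intro z; rw [hwx]
  have hwpx : ∀ z, dx (dp w) z = dx (dp u) z := by
    intro z; rw [hwp, dx_add (diff_of_smooth (cd_dp hus) z) (hsnd z), dx_snd]; ring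
  -- bounds
  have b1 : |dp u z| ≤ δ₀ := le_trans (by simpa using close 0 1 (by norm_num) z hz) hδ
  have b2 : |dx u z| ≤ δ₀ := le_trans (by simpa using close 1 0 (by norm_num) z hz) hδ
  have b3 : |dx (dx u) z| ≤ δ₀ := le_trans (by simpa using close 2 0 (by norm_num) z hz) hδ
  have b4 : |dx (dp u) z| ≤ δ₀ := le_trans (by simpa using close 1 1 (by norm_num) z hz) hδ
  have b5 : |dp (dp u) z| ≤ δ₀ := le_trans (by simpa using close 0 2 (by norm_num) z hz) hδ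
  have b0 : |ϖ| ≤ δ₀ := by rw [abs_of_pos ϖ_pos]; exact ϖ_le.trans hδ
  have hd : ∀ z, 0 < 1 - 2 * ϖ * ε * P0 z.1 (dp w z) ∧ |dd ϖ ε w z| ≤ 3 := by
    intro z
    have := abs_le.1 (bdd z)
    have h1 : 1 / 2 ≤ 1 - 2 * ϖ * ε * P0 z.1 (dp w z) := by linarith [this.2]
    refine ⟨by linarith, ?_⟩
    have h0 : 0 < dd ϖ ε w z := by unfold dd; positivity
    rw [abs_of_pos h0]
    unfold dd
    rw [inv_le_comm₀ (by linarith) (by norm_num)]
    linarith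
  have hne := ne_of_gt (hd z).1
  set K : Fin 4 → ℝ := ![z.1, z.2, dd ϖ ε w z, ε] with hK
  set s : Fin 6 → ℝ := ![ϖ, dp u z, dx u z, dx (dx u) z, dx (dp u) z, dp (dp u) z] with hs
  have hKb : ∀ i, |K i| ≤ 3 := by
    intro i; fin_cases i
    · exact hx1.trans (by norm_num)
    · exact hp1.trans (by norm_num)
    · exact (hd z).2
    · change |ε| ≤ 3
      rw [abs_of_pos ε_pos]; linarith
  have hsb : ∀ i, |s i| ≤ δ₀ := by
    intro i; fin_cases i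
    · exact b0
    · exact b1
    · exact b2
    · exact b3
    · exact b4
    · exact b5
  have key : ∀ {F : (Fin 4 → ℝ) → (Fin 6 → ℝ) → ℝ} {δ' : ℝ}, δ₀ ≤ δ' →
      (∀ k s, (∀ i, |k i| ≤ (3 : ℝ)) → (∀ i, |s i| ≤ δ') → |F k s| ≤ σ) →
      |ε * F K s| ≤ σ * ε := by
    intro F δ' hδ' H
    rw [abs_mul, abs_of_pos ε_pos, mul_comm]
    exact mul_le_mul_of_nonneg_right (H K s hKb (fun i => (hsb i).trans hδ')) ε_pos.le
  have J1 := key l1 H1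
  have J2 := key l2 H2
  have J3 := key l3 H3
  have J4 := key l4 H4
  have J5 := key l5 H5
  have J6 := key l6 H6
  have J7 := key l7 H7
  have J8 := key l8 H8
  -- slices
  have hyx : HasDerivAt (fun t => dp w (t, z.2)) (dx (dp u) z) z.1 := by
    have := hasDerivAt_slice_x (diff_of_smooth (cd_dp smooth) z)
    rwa [hwpx] at this
  have hvx : HasDerivAt (fun t => dx w (t, z.2)) (dx (dx u) z) z.1 := by
    have := hasDerivAt_slice_x (diff_of_smooth (cd_dx smooth) z)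
    rwa [hwxx] at this
  have hyp : HasDerivAt (fun t => dp w (z.1, t)) (1 + dp (dp u) z) z.2 := by
    have := hasDerivAt_slice_p (diff_of_smooth (cd_dp smooth) z)
    rwa [hwpp] at this
  have hvp : HasDerivAt (fun t => dx w (z.1, t)) (dx (dp u) z) z.2 := by
    have := hasDerivAt_slice_p (diff_of_smooth (cd_dx smooth) z)
    rwa [hwxp] at this
  have hddcd : ContDiff ℝ ∞ (dd ϖ ε w) := by
    unfold dd P0
    apply ContDiff.inv
    · have := cd_dp smooth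
      fun_prop
    · intro z; exact ne_of_gt (hd z).1
  have hG1s : ContDiff ℝ ∞ (G1 ϖ ε w) := by
    have h1 := cd_dp smooth
    have h2 := cd_dx smooth
    unfold G1 Py
    fun_prop
  have hG2s : ContDiff ℝ ∞ (G2 ϖ ε w) := by
    have h1 := cd_dp smooth
    have h2 := cd_dx smooth
    unfold G2 Py kk
    fun_prop
  have e1x := (hasDerivAt_slice_x (diff_of_smooth hG1s z)).unique
    (hd_G1 (hasDerivAt_id z.1) hyx hvx hne)
  have e1p := (hasDerivAt_slice_p (diff_of_smooth hG1s z)).unique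
    (hd_G1 (hasDerivAt_const z.2 z.1) hyp hvp hne)
  have e2x := (hasDerivAt_slice_x (diff_of_smooth hG2s z)).unique
    (hd_G2 (hasDerivAt_id z.1) (hasDerivAt_const z.1 z.2) hyx hvx hne)
  have e2p := (hasDerivAt_slice_p (diff_of_smooth hG2s z)).unique
    (hd_G2 (hasDerivAt_const z.2 z.1) (hasDerivAt_id z.2) hyp hvp hne)
  have hy : dp w z = z.2 + dp u z := by rw [hwp]; ring
  have hdd : (1 - 2 * ϖ * ε * P0 z.1 (z.2 + dp u z))⁻¹ = dd ϖ ε w z := by rw [← hy]; rfl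
  have hv : dx w z = dx u z := by rw [hwx]
  simp only [Prod.mk.eta, hy, hv, hdd] at e1x e1p e2x e2p
  simp only [hK, hs, Matrix.cons_val_zero, Matrix.cons_val_one, Matrix.cons_val] at J1 J2 J3 J4 J5 J6 J7 J8
  have hj : (0 : ℝ) ≤ j := Nat.cast_nonneg j
  have h1 : |G1 ϖ ε w z| ≤ σ * ε := by
    refine le_trans (le_of_eq ?_) J1
    congr 1
    simp only [G1, fG1, hy, hv]; ring
  have h1x : |dx (G1 ϖ ε w) z| ≤ σ * ε := by rw [e1x]; exact J2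
  have h1p : |dp (G1 ϖ ε w) z| ≤ σ * ε := by rw [e1p]; exact J3
  have h2 : |G2 ϖ ε w z - ε * (z.1 ^ 2 + z.2 ^ 2 - 1 / 4)| ≤ σ * ε := by
    refine le_trans (le_of_eq ?_) J4
    congr 1
    simp only [G2, fG2, hy, hv]; ring
  have h2x : |dx (G2 ϖ ε w) z - 2 * ε * z.1| ≤ σ * ε := by
    refine le_trans (le_of_eq ?_) J5
    congr 1
    rw [e2x]; ring
  have h2p : |dp (G2 ϖ ε w) z - 2 * ε * z.2| ≤ σ * ε := by
    refine le_trans (le_of_eq ?_) J6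
    congr 1
    rw [e2p]; ring
  refine ⟨h1, h1x, h1p, h2, h2x, h2p, ?_, ?_⟩
  · have e : al1 w (G2 ϖ ε w) (G1W ϖ ε w) (G2W ϖ ε w) (G3W ϖ ε w) j z - (j + 1) * (2 * ε * z.2)
        = j * (dp (G2 ϖ ε w) z - 2 * ε * z.2)
          + (G1W ϖ ε w z * dp (dx w) z + G2W ϖ ε w z * dp (dp w) z + G3W ϖ ε w z
            - 2 * ε * z.2) := by
      simp only [al1]; ring
    have e' : G1W ϖ ε w z * dp (dx w) z + G2W ϖ ε w z * dp (dp w) z + G3W ϖ ε w z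
            - 2 * ε * z.2 = ε * (fG1W ϖ ε z.1 (z.2 + dp u z) (dx u z) (dd ϖ ε w z) * dx (dp u) z
      + fG2W ϖ ε z.1 z.2 (z.2 + dp u z) (dx u z) (dd ϖ ε w z) * (1 + dp (dp u) z)
      + fG3W ϖ ε z.1 z.2 (z.2 + dp u z) (dx u z) (dd ϖ ε w z) - 2 * z.2) := by
      rw [hwxp, hwpp]
      simp only [G1W, G2W, G3W, fG1W, fG2W, fG3W, hy, hv]; ring
    rw [e]
    refine (abs_add_le _ _).trans ?_
    rw [abs_mul, abs_of_nonneg hj, e']
    have := mul_le_mul_of_nonneg_left h2p hj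
    linarith [J7]
  · have e : al2 w (G1 ϖ ε w) (G1V ϖ ε w) (G2V ϖ ε w) (G3V ϖ ε w) j z
        = j * dp (G1 ϖ ε w) z
          + (G1V ϖ ε w z * dp (dx w) z + G2V ϖ ε w z * dp (dp w) z + G3V ϖ ε w z) := by
      simp only [al2]
    have e' : G1V ϖ ε w z * dp (dx w) z + G2V ϖ ε w z * dp (dp w) z + G3V ϖ ε w z
            = ε * (fG1V ϖ z.1 (z.2 + dp u z) (dd ϖ ε w z) * dx (dp u) z
      + fG2V ϖ z.1 (z.2 + dp u z) (dx u z) (dd ϖ ε w z) * (1 + dp (dp u) z)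
      + fG3V ϖ z.1 (z.2 + dp u z) (dd ϖ ε w z)) := by
      rw [hwxp, hwpp]
      simp only [G1V, G2V, G3V, fG1V, fG2V, fG3V, hy, hv]; ring
    rw [e]
    refine (abs_add_le _ _).trans ?_
    rw [abs_mul, abs_of_nonneg hj, e']
    have := mul_le_mul_of_nonneg_left h1p hj
    linarith [J8]

end Crest.Agent.Iso
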