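import Crest.Agent.Iso.SolA
import Crest.Agent.Iso.SolB
import Crest.Agent.Iso.Comm
import Crest.Agent.Iso.Level

/-!
# Row 220: the regularity theorem (ART)
-/

set_option autoImplicit false

open scoped ContDiff
open MeasureTheory Set

namespace Crest.Agent.Iso

/-! ### auxiliary lemmas on families -/

section aux
variable {ι : Type*} {R : ι → ℝ} {D D' : ι → Set (ℝ × ℝ)}

theorem art_integrableOn (hD : Dom R D) (t : ι) {f : ℝ × ℝ → ℝ} (hf : Continuous f) :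
    IntegrableOn f (D t) := by
  have hK : IsCompact (Icc (-1 : ℝ) 1 ×ˢ Icc (-1 : ℝ) 1) := isCompact_Icc.prod isCompact_Icc
  exact (hf.continuousOn.integrableOn_compact hK).mono_set (hD.sub t)

theorem art_bs_sub (h : ∀ t, D' t ⊆ D t) {n : ℕ} {f : ι → ℝ × ℝ → ℝ} (hf : BS R D n f) :
    BS R D' n f := by
  obtain ⟨C, hC, hb⟩ := hf
  exact ⟨C, hC, fun t z hz => hb t z (h t hz)⟩

theorem art_b2_sub (hD : Dom R D) (h : ∀ t, D' t ⊆ D t) {n : ℕ} {f : ι → ℝ × ℝ → ℝ}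
    (hc : ∀ t, Continuous (f t)) (hf : B2 R D n f) : B2 R D' n f := by
  obtain ⟨C, hC, hb⟩ := hf
  refine ⟨C, hC, fun t => le_trans ?_ (hb t)⟩
  refine setIntegral_mono_set (art_integrableOn hD t ((hc t).pow 2)) ?_ (h t).eventuallyLE
  exact Filter.Eventually.of_forall fun z => sq_nonneg _

theorem art_continuous_dp_iter {g : ℝ × ℝ → ℝ} (hg : ContDiff ℝ ∞ g) (i : ℕ) :
    Continuous (dp^[i] g) := (cd_dp_iter hg i).continuous

theorem art_tame_sub (hD : Dom R D) (h : ∀ t, D' t ⊆ D t) {k N : ℕ} {g : ι → ℝ × ℝ → ℝ}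
    (hg : Tame R D k N g) : Tame R D' k N g where
  smooth := hg.smooth
  b2 i hi := art_b2_sub hD h (fun t => art_continuous_dp_iter (hg.smooth t) i) (hg.b2 i hi)
  bs i hi := art_bs_sub h (hg.bs i hi)

theorem art_tame_level {k N N' : ℕ} (h : N' ≤ N) {g : ι → ℝ × ℝ → ℝ}
    (hg : Tame R D k N g) : Tame R D k N' g where
  smooth := hg.smooth
  b2 i hi := hg.b2 i (by omega)
  bs i hi := hg.bs i (by omega)

end aux

theorem art_DD_mono {ε b s s' : ℝ} (hb : 0 < b) (h : s ≤ s') (h1 : s' ≤ 1) :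
    DD ε b s' ⊆ DD ε b s := by
  rintro z ⟨hz1, hz2⟩
  refine ⟨lt_of_lt_of_le hz1 ?_, lt_of_le_of_lt ?_ hz2⟩
  · nlinarith
  · unfold hh
    nlinarith

theorem art_DD_disc {ε b s : ℝ} (h0 : 0 ≤ s) (h1 : s ≤ 1) {z : ℝ × ℝ} (hz : z ∈ DD ε b s) :
    z.1 ^ 2 + z.2 ^ 2 < 0.81 := by
  refine lt_of_lt_of_le hz.1 ?_
  nlinarith

theorem art_DD_hh {ε b s : ℝ} (hb : 0 < b) (h0 : 0 ≤ s) {z : ℝ × ℝ} (hz : z ∈ DD ε b s) :
    hh ε b 0 z.1 < |z.2| := by
  refine lt_of_le_of_lt ?_ hz.2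
  unfold hh
  nlinarith

theorem Sol.b_pos {δ : ℝ} (S : Sol δ) : 0 < S.b :=
  lt_of_lt_of_le (pow_pos S.ε_pos 4) S.b_ge

theorem Sol.b_le_one {δ : ℝ} (S : Sol δ) : S.b ≤ 1 :=
  S.b_le.trans (pow_le_one₀ S.ε_pos.le (S.ε_le.trans (by norm_num)))

theorem Sol.one_le_R {δ : ℝ} (S : Sol δ) : 1 ≤ S.R := by
  unfold Sol.R
  have h1 : S.ε ^ 2 ≤ 1 := pow_le_one₀ S.ε_pos.le (S.ε_le.trans (by norm_num))
  exact (one_le_inv₀ (pow_pos S.ε_pos 2)).2 h1

/-! ### level 8 -/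

theorem art_dp_half : dp (fun z : ℝ × ℝ => z.2 ^ 2 / 2) = fun z => z.2 := by
  funext z
  have h : HasFDerivAt (fun z : ℝ × ℝ => z.2) (ContinuousLinearMap.snd ℝ ℝ ℝ) z := hasFDerivAt_snd
  have h2 := (h.pow 2).mul_const (2⁻¹ : ℝ)
  have h3 : fderiv ℝ (fun z : ℝ × ℝ => z.2 ^ 2 / 2) z =
      (2⁻¹ : ℝ) • ((2 : ℕ) • z.2 ^ (2 - 1)) • ContinuousLinearMap.snd ℝ ℝ ℝ := by
    simp only [div_eq_mul_inv]
    exact h2.fderiv
  simp [dp, h3]

theorem art_dx_half : dx (fun z : ℝ × ℝ => z.2 ^ 2 / 2) = fun _ => 0 := by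
  funext z
  have h : HasFDerivAt (fun z : ℝ × ℝ => z.2) (ContinuousLinearMap.snd ℝ ℝ ℝ) z := hasFDerivAt_snd
  have h2 := (h.pow 2).mul_const (2⁻¹ : ℝ)
  have h3 : fderiv ℝ (fun z : ℝ × ℝ => z.2 ^ 2 / 2) z =
      (2⁻¹ : ℝ) • ((2 : ℕ) • z.2 ^ (2 - 1)) • ContinuousLinearMap.snd ℝ ℝ ℝ := by
    simp only [div_eq_mul_inv]
    exact h2.fderiv
  simp [dx, h3]

theorem art_dp_iter_zero (i : ℕ) : dp^[i] (fun _ => (0 : ℝ)) = fun _ => 0 := by
  induction i with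
  | zero => rfl
  | succ i ih => rw [Function.iterate_succ_apply, dp_const, ih]

theorem art_cd_half : ContDiff ℝ ∞ (fun z : ℝ × ℝ => z.2 ^ 2 / 2) :=
  (contDiff_snd.pow 2).div_const 2

theorem art_dp_iter_half_bound (i : ℕ) {z : ℝ × ℝ} (hz : z.1 ^ 2 + z.2 ^ 2 < 0.81) :
    |dp^[i + 1] (fun z : ℝ × ℝ => z.2 ^ 2 / 2) z| ≤ 1 := by
  rw [Function.iterate_succ_apply, art_dp_half]
  rcases i with _ | i
  · simp only [Function.iterate_zero, id]
    rw [abs_le]; constructor <;> nlinarith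
  · rw [Function.iterate_succ_apply, dp_snd]
    rcases i with _ | i
    · simp
    · rw [Function.iterate_succ_apply, dp_const, art_dp_iter_zero]; simp

theorem art_base_dp {δ : ℝ} (hδ : δ ≤ 1) (S : Sol δ) {i : ℕ} (hi : i + 1 ≤ 10) {z : ℝ × ℝ}
    (hz : z.1 ^ 2 + z.2 ^ 2 < 0.81) : |dp^[i] (dp S.w) z| ≤ 2 := by
  have h1 := S.close 0 (i + 1) (by omega) z hz
  simp only [Function.iterate_zero, id] at h1
  have hsplit : S.w = fun z => (S.w z - z.2 ^ 2 / 2) + z.2 ^ 2 / 2 := by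
    funext z; ring
  have hcd : ContDiff ℝ ∞ (fun z => S.w z - z.2 ^ 2 / 2) := S.smooth.sub art_cd_half
  have e : dp^[i + 1] S.w z = dp^[i + 1] (fun z => S.w z - z.2 ^ 2 / 2) z
      + dp^[i + 1] (fun z : ℝ × ℝ => z.2 ^ 2 / 2) z := by
    conv_lhs => rw [hsplit]
    rw [dp_iter_add hcd art_cd_half]
  rw [← Function.iterate_succ_apply, e]
  have h2 := art_dp_iter_half_bound i hz
  calc _ ≤ |dp^[i + 1] (fun z => S.w z - z.2 ^ 2 / 2) z|
        + |dp^[i + 1] (fun z : ℝ × ℝ => z.2 ^ 2 / 2) z| := abs_add_le _ _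
    _ ≤ 2 := by linarith

theorem art_base_dx {δ : ℝ} (hδ : δ ≤ 1) (S : Sol δ) {i : ℕ} (hi : i + 1 ≤ 10) {z : ℝ × ℝ}
    (hz : z.1 ^ 2 + z.2 ^ 2 < 0.81) : |dp^[i] (dx S.w) z| ≤ 2 := by
  have h1 := S.close 1 i (by omega) z hz
  simp only [Function.iterate_one] at h1
  have hcd : ContDiff ℝ ∞ (fun z => S.w z - z.2 ^ 2 / 2) := S.smooth.sub art_cd_half
  rw [dx_dp_iter hcd] at h1
  have e : dx (fun z => S.w z - z.2 ^ 2 / 2) = dx S.w := by
    funext z
    rw [dx_sub (diff_of_smooth S.smooth z) (diff_of_smooth art_cd_half z), art_dx_half]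
    simp
  rw [e] at h1
  linarith

/-- level 8 is given by `Sol.close` -/
theorem art_base {δ ε₁ s : ℝ} (hδ : δ ≤ 1) (h0 : 0 ≤ s) (h1 : s ≤ 1) :
    Tame (fun S : SolI δ ε₁ => S.1.R) (fun S => DD S.1.ε S.1.b s) 1 8 (fun S => dp S.1.w) ∧
    Tame (fun S : SolI δ ε₁ => S.1.R) (fun S => DD S.1.ε S.1.b s) 1 8 (fun S => dx S.1.w) := by
  have hD := dom_DD (δ := δ) (ε₁ := ε₁) h0 h1
  have hR : ∀ (S : SolI δ ε₁) (n : ℕ), 1 ≤ S.1.R ^ n := fun S n => one_le_pow₀ S.1.one_le_R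
  have key1 : ∀ i, 1 + i ≤ 8 → BS (fun S : SolI δ ε₁ => S.1.R) (fun S => DD S.1.ε S.1.b s) (1 + i)
      (fun S => dp^[i] (dp S.1.w)) := by
    intro i hi
    refine ⟨2, by norm_num, fun S z hz => ?_⟩
    have := art_base_dp hδ S.1 (i := i) (by omega) (art_DD_disc h0 h1 hz)
    have h3 := hR S (eS (1 + i))
    simp only
    linarith
  have key2 : ∀ i, 1 + i ≤ 8 → BS (fun S : SolI δ ε₁ => S.1.R) (fun S => DD S.1.ε S.1.b s) (1 + i)
      (fun S => dp^[i] (dx S.1.w)) := by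
    intro i hi
    refine ⟨2, by norm_num, fun S z hz => ?_⟩
    have := art_base_dx hδ S.1 (i := i) (by omega) (art_DD_disc h0 h1 hz)
    have h3 := hR S (eS (1 + i))
    simp only
    linarith
  constructor
  · exact
      { smooth := fun S => cd_dp S.1.smooth
        b2 := fun i hi => BS.toB2 hD hi
          (fun S => art_continuous_dp_iter (cd_dp S.1.smooth) i) (key1 i hi)
        bs := fun i hi => key1 i (by simpa using hi) }
  · exact
      { smooth := fun S => cd_dx S.1.smooth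
        b2 := fun i hi => BS.toB2 hD hi
          (fun S => art_continuous_dp_iter (cd_dx S.1.smooth) i) (key2 i hi)
        bs := fun i hi => key2 i (by simpa using hi) }

/-! ### one level up -/

/-- the abstract Sobolev step -/
theorem art_sob {δ ε₁ s s' : ℝ} (h0 : 0 ≤ s) (h01 : s < s') (h1 : s' ≤ 1) {j : ℕ} (hj : 11 ≤ j)
    {f : SolI δ ε₁ → ℝ × ℝ → ℝ} (hf : ∀ S, ContDiff ℝ ∞ (f S))
    (b0 : B2 (fun S : SolI δ ε₁ => S.1.R) (fun S => DD S.1.ε S.1.b s) j f)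
    (bx : B2 (fun S : SolI δ ε₁ => S.1.R) (fun S => DD S.1.ε S.1.b s) j (fun S => dx (f S)))
    (bp : B2 (fun S : SolI δ ε₁ => S.1.R) (fun S => DD S.1.ε S.1.b s) j (fun S => dp (f S)))
    (bxp : B2 (fun S : SolI δ ε₁ => S.1.R) (fun S => DD S.1.ε S.1.b s) j
      (fun S => dp (dx (f S)))) :
    BS (fun S : SolI δ ε₁ => S.1.R) (fun S => DD S.1.ε S.1.b s') (j - 2) f := by
  have hD := dom_DD (δ := δ) (ε₁ := ε₁) h0 (h01.le.trans h1)
  obtain ⟨C0, hC0, h0'⟩ := b0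
  obtain ⟨C1, hC1, h1'⟩ := bx
  obtain ⟨C2, hC2, h2'⟩ := bp
  obtain ⟨C3, hC3, h3'⟩ := bxp
  set K := 1600 / (s' - s) ^ 2 * (C0 + C1 + C2 + C3) with hK
  have hs : 0 < s' - s := by linarith
  have hK0 : 0 ≤ K := by positivity
  refine ⟨√K, Real.sqrt_nonneg _, fun S z hz => ?_⟩
  have hb := S.1.b_pos
  have hb1 := S.1.b_le_one
  have hε := S.1.ε_pos
  have hε1 : S.1.ε ≤ 1 := S.1.ε_le.trans (by norm_num)
  have hR := S.1.one_le_R
  have hsub := ball_subset_DD hε hε1 hb hb1 h0 h01 h1 hz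
  have hl : 0 < (s' - s) * S.1.b / 10 := by positivity
  have hl1 : (s' - s) * S.1.b / 10 ≤ 1 := by nlinarith
  have hsob := sup_le_box (hf S) hl hl1 z
  have c0 : Continuous (fun y => f S y ^ 2) := (hf S).continuous.pow 2
  have c1 : Continuous (fun y => dx (f S) y ^ 2) := (cd_dx (hf S)).continuous.pow 2
  have c2 : Continuous (fun y => dp (f S) y ^ 2) := (cd_dp (hf S)).continuous.pow 2
  have c3 : Continuous (fun y => dp (dx (f S)) y ^ 2) := (cd_dp (cd_dx (hf S))).continuous.pow 2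
  have i0 := art_integrableOn hD S c0
  have i1 := art_integrableOn hD S c1
  have i2 := art_integrableOn hD S c2
  have i3 := art_integrableOn hD S c3
  have i01 : IntegrableOn (fun y => f S y ^ 2 + dx (f S) y ^ 2) (DD S.1.ε S.1.b s) := i0.add i1
  have i012 : IntegrableOn (fun y => f S y ^ 2 + dx (f S) y ^ 2 + dp (f S) y ^ 2)
      (DD S.1.ε S.1.b s) := i01.add i2
  have hint : ∫ y in Metric.ball z ((s' - s) * S.1.b / 10),
      (f S y ^ 2 + dx (f S) y ^ 2 + dp (f S) y ^ 2 + dp (dx (f S)) y ^ 2) ≤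
      (C0 + C1 + C2 + C3) * S.1.R ^ (2 * e2 j) := by
    calc _ ≤ ∫ y in DD S.1.ε S.1.b s,
        (f S y ^ 2 + dx (f S) y ^ 2 + dp (f S) y ^ 2 + dp (dx (f S)) y ^ 2) := by
          refine setIntegral_mono_set (i012.add i3) ?_ hsub.eventuallyLE
          exact Filter.Eventually.of_forall fun y => by
            simp only [Pi.zero_apply]; positivity
      _ = (∫ y in DD S.1.ε S.1.b s, f S y ^ 2) + (∫ y in DD S.1.ε S.1.b s, dx (f S) y ^ 2)
          + (∫ y in DD S.1.ε S.1.b s, dp (f S) y ^ 2)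
          + ∫ y in DD S.1.ε S.1.b s, dp (dx (f S)) y ^ 2 := by
          rw [integral_add i012 i3, integral_add i01 i2, integral_add i0 i1]
      _ ≤ _ := by
          have := h0' S
          have := h1' S
          have := h2' S
          have := h3' S
          simp only at *
          linarith
  have hcoef : 16 / ((s' - s) * S.1.b / 10) ^ 2 ≤ 1600 / (s' - s) ^ 2 * S.1.R ^ 4 := by
    have e1 : 16 / ((s' - s) * S.1.b / 10) ^ 2 = 1600 / (s' - s) ^ 2 * (S.1.b ^ 2)⁻¹ := by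
      field_simp
      norm_num
    rw [e1]
    refine mul_le_mul_of_nonneg_left ?_ (by positivity)
    have e2 : S.1.R ^ 4 = ((S.1.ε ^ 4) ^ 2)⁻¹ := by
      unfold Sol.R
      rw [inv_pow]; congr 1; ring
    rw [e2]
    refine inv_anti₀ (by positivity) ?_
    exact pow_le_pow_left₀ (by positivity) S.1.b_ge 2
  have hsq : f S z ^ 2 ≤ K * (S.1.R ^ eS (j - 2)) ^ 2 := by
    calc f S z ^ 2 ≤ 16 / ((s' - s) * S.1.b / 10) ^ 2 * ((C0 + C1 + C2 + C3) * S.1.R ^ (2 * e2 j)) :=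
          hsob.trans (mul_le_mul_of_nonneg_left hint (by positivity))
      _ ≤ (1600 / (s' - s) ^ 2 * S.1.R ^ 4) * ((C0 + C1 + C2 + C3) * S.1.R ^ (2 * e2 j)) :=
          mul_le_mul_of_nonneg_right hcoef (by positivity)
      _ = K * (S.1.R ^ (4 + 2 * e2 j)) := by rw [hK, pow_add]; ring
      _ = K * (S.1.R ^ eS (j - 2)) ^ 2 := by
          rw [← pow_mul]
          congr 2
          unfold eS e2
          rw [if_neg (by omega)]
          omega
  have hRn : 0 ≤ S.1.R ^ eS (j - 2) := by positivity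
  rw [← Real.sqrt_sq hRn, ← Real.sqrt_mul hK0]
  exact Real.abs_le_sqrt hsq

/-- the abstract energy step -/
theorem art_energy {δ ε₁ s s' : ℝ} (h0 : 0 ≤ s) (h01 : s < s') (h1 : s' ≤ 1) {j : ℕ} (hj : 8 ≤ j)
    {C : ℝ} (hC : 0 < C)
    {φ ψ : SolI δ ε₁ → ℝ × ℝ → ℝ} (hφ : ∀ S, ContDiff ℝ ∞ (φ S)) (hψ : ∀ S, Continuous (ψ S))
    (b0 : B2 (fun S : SolI δ ε₁ => S.1.R) (fun S => DD S.1.ε S.1.b s) j φ)
    (b1 : B2 (fun S : SolI δ ε₁ => S.1.R) (fun S => DD S.1.ε S.1.b s) j ψ)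
    (hest : ∀ S : SolI δ ε₁, ∫ z in DD S.1.ε S.1.b s', (dx (φ S) z ^ 2 + S.1.ε * dp (φ S) z ^ 2) ≤
      C / S.1.ε ^ 2 * ∫ z in DD S.1.ε S.1.b s, (φ S z ^ 2 + ψ S z ^ 2)) :
    B2 (fun S : SolI δ ε₁ => S.1.R) (fun S => DD S.1.ε S.1.b s') (j + 1) (fun S => dx (φ S)) ∧
    B2 (fun S : SolI δ ε₁ => S.1.R) (fun S => DD S.1.ε S.1.b s') (j + 1) (fun S => dp (φ S)) := by
  have hD := dom_DD (δ := δ) (ε₁ := ε₁) h0 (h01.le.trans h1)
  have hD' := dom_DD (δ := δ) (ε₁ := ε₁) (h0.trans h01.le) h1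
  obtain ⟨C0, hC0, h0'⟩ := b0
  obtain ⟨C1, hC1, h1'⟩ := b1
  have main : ∀ S : SolI δ ε₁,
      (∫ z in DD S.1.ε S.1.b s', dx (φ S) z ^ 2) +
        S.1.ε * (∫ z in DD S.1.ε S.1.b s', dp (φ S) z ^ 2) ≤
      C * (C0 + C1) * S.1.R * S.1.R ^ (2 * e2 j) := by
    intro S
    have c1 : Continuous (fun y => dx (φ S) y ^ 2) := (cd_dx (hφ S)).continuous.pow 2
    have c2 : Continuous (fun y => dp (φ S) y ^ 2) := (cd_dp (hφ S)).continuous.pow 2
    have c3 : Continuous (fun y => φ S y ^ 2) := (hφ S).continuous.pow 2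
    have c4 : Continuous (fun y => ψ S y ^ 2) := (hψ S).pow 2
    have i1 := art_integrableOn hD' S c1
    have i2 := art_integrableOn hD' S c2
    have i3 := art_integrableOn hD S c3
    have i4 := art_integrableOn hD S c4
    have e1 : ∫ z in DD S.1.ε S.1.b s', (dx (φ S) z ^ 2 + S.1.ε * dp (φ S) z ^ 2) =
        (∫ z in DD S.1.ε S.1.b s', dx (φ S) z ^ 2) +
        S.1.ε * (∫ z in DD S.1.ε S.1.b s', dp (φ S) z ^ 2) := by
      rw [integral_add i1 (i2.const_mul _), integral_const_mul]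
    have e2' : ∫ z in DD S.1.ε S.1.b s, (φ S z ^ 2 + ψ S z ^ 2) =
        (∫ z in DD S.1.ε S.1.b s, φ S z ^ 2) + (∫ z in DD S.1.ε S.1.b s, ψ S z ^ 2) := by
      rw [integral_add i3 i4]
    rw [← e1]
    refine (hest S).trans ?_
    rw [e2']
    have hε := S.1.ε_pos
    have hle : (∫ z in DD S.1.ε S.1.b s, φ S z ^ 2) + (∫ z in DD S.1.ε S.1.b s, ψ S z ^ 2) ≤
        (C0 + C1) * S.1.R ^ (2 * e2 j) := by
      have := h0' S
      have := h1' S
      simp only at *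
      linarith
    calc _ ≤ C / S.1.ε ^ 2 * ((C0 + C1) * S.1.R ^ (2 * e2 j)) :=
          mul_le_mul_of_nonneg_left hle (by positivity)
      _ = _ := by unfold Sol.R; ring
  have hpow : ∀ S : SolI δ ε₁, S.1.R ^ (2 * e2 (j + 1)) = S.1.R * S.1.R * S.1.R ^ (2 * e2 j) := by
    intro S
    have : 2 * e2 (j + 1) = 2 * e2 j + 1 + 1 := by unfold e2; omega
    rw [this, pow_succ, pow_succ]; ring
  constructor
  · refine ⟨C * (C0 + C1), by positivity, fun S => ?_⟩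
    have hm := main S
    have hε := S.1.ε_pos
    have hR := S.1.one_le_R
    have hnn : 0 ≤ ∫ z in DD S.1.ε S.1.b s', dp (φ S) z ^ 2 :=
      integral_nonneg fun z => sq_nonneg _
    have hnn2 : 0 ≤ S.1.ε * ∫ z in DD S.1.ε S.1.b s', dp (φ S) z ^ 2 := mul_nonneg hε.le hnn
    simp only
    rw [hpow]
    have hRp : 0 ≤ C * (C0 + C1) * S.1.R * S.1.R ^ (2 * e2 j) := by positivity
    calc _ ≤ C * (C0 + C1) * S.1.R * S.1.R ^ (2 * e2 j) := by linarith
      _ ≤ S.1.R * (C * (C0 + C1) * S.1.R * S.1.R ^ (2 * e2 j)) := le_mul_of_one_le_left hRp hR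
      _ = _ := by ring
  · refine ⟨C * (C0 + C1), by positivity, fun S => ?_⟩
    have hm := main S
    have hε := S.1.ε_pos
    have hε1 : S.1.ε ≤ 1 := S.1.ε_le.trans (by norm_num)
    have hR := S.1.one_le_R
    have hnn : 0 ≤ ∫ z in DD S.1.ε S.1.b s', dx (φ S) z ^ 2 :=
      integral_nonneg fun z => sq_nonneg _
    simp only
    rw [hpow]
    have hRp : 0 ≤ C * (C0 + C1) * S.1.R * S.1.R ^ (2 * e2 j) := by positivity
    have h4 : S.1.ε * ∫ z in DD S.1.ε S.1.b s', dp (φ S) z ^ 2 ≤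
      C * (C0 + C1) * S.1.R * S.1.R ^ (2 * e2 j) := by linarith
    have h5 : ∫ z in DD S.1.ε S.1.b s', dp (φ S) z ^ 2 ≤
        S.1.ε⁻¹ * (C * (C0 + C1) * S.1.R * S.1.R ^ (2 * e2 j)) := by
      rw [← div_eq_inv_mul, le_div_iff₀ hε, mul_comm]
      exact h4
    have h6 : S.1.ε⁻¹ ≤ S.1.R := by
      unfold Sol.R
      refine inv_anti₀ (by positivity) ?_
      nlinarith
    calc _ ≤ S.1.ε⁻¹ * (C * (C0 + C1) * S.1.R * S.1.R ^ (2 * e2 j)) := h5
      _ ≤ S.1.R * (C * (C0 + C1) * S.1.R * S.1.R ^ (2 * e2 j)) :=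
        mul_le_mul_of_nonneg_right h6 hRp
      _ = _ := by ring

theorem art_pde {δ : ℝ} (S : Sol δ) {s : ℝ} (h0 : 0 ≤ s) (h1 : s ≤ 1) {z : ℝ × ℝ}
    (hz : z ∈ DD S.ε S.b s) :
    dx (dx S.w) z + G1 S.ϖ S.ε S.w z * dp (dx S.w) z + G2 S.ϖ S.ε S.w z * dp (dp S.w) z
      + G3 S.ϖ S.ε S.w z = 0 :=
  S.pde z (art_DD_disc h0 h1 hz) (art_DD_hh S.b_pos h0 hz)

/-- one level up: `commuted` + `level_estimate` give the `L²` bounds of `∂_p^{j+1} w` and
`∂_p^j w_x` on `D(s')` (`C/ε³ ≤ C R²`), `sup_le_box` (boxes of size `~ b`, `b⁻² ≤ R⁴`) gives the sup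
bounds of order `j - 2` on `D(s')`: `f² ≤ C R⁴ R^{2(j-8)}`, so that `|f| ≤ C R^{j-6} = C R^{eS (j-2)}`;
for `dx w` the `x`-derivative is controlled by `tame_xx`. -/
theorem art_step (J : ℕ) {s s' : ℝ} (h0 : 0 ≤ s) (h01 : s < s') (h1 : s' ≤ 1) :
    ∃ δ₀ : ℝ, 0 < δ₀ ∧ ∃ ε₀ : ℝ, 0 < ε₀ ∧ ∀ δ ε₁ : ℝ, δ ≤ δ₀ → ε₁ ≤ ε₀ → ∀ j : ℕ, 8 ≤ j → j ≤ J →
    Tame (fun S : SolI δ ε₁ => S.1.R) (fun S => DD S.1.ε S.1.b s) 1 j (fun S => dp S.1.w) →
    Tame (fun S : SolI δ ε₁ => S.1.R) (fun S => DD S.1.ε S.1.b s) 1 j (fun S => dx S.1.w) →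
    Tame (fun S : SolI δ ε₁ => S.1.R) (fun S => DD S.1.ε S.1.b s') 1 (j + 1) (fun S => dp S.1.w) ∧
    Tame (fun S : SolI δ ε₁ => S.1.R) (fun S => DD S.1.ε S.1.b s') 1 (j + 1)
      (fun S => dx S.1.w) := by
  obtain ⟨σ, hσ, ε₂, hε₂, C, hC, hlev⟩ := level_estimate J h0 h01 h1
  obtain ⟨δ₀, hδ₀, ε₀, hε₀, hsmall⟩ := sol_small hσ
  refine ⟨min δ₀ 1, by positivity, min ε₀ ε₂, by positivity, ?_⟩
  intro δ ε₁ hδ hε₁ j hj hjJ hw hv
  have hs1 : s ≤ 1 := h01.le.trans h1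
  have hδ1 : δ ≤ 1 := hδ.trans (min_le_right _ _)
  have hD := dom_DD (δ := δ) (ε₁ := ε₁) h0 hs1
  have hD' := dom_DD (δ := δ) (ε₁ := ε₁) (h0.trans h01.le) h1
  obtain ⟨c1, c2, c3⟩ := sol_coef hδ1 h0 hs1 hw hv
  have hws : ∀ S : SolI δ ε₁, ContDiff ℝ ∞ S.1.w := fun S => S.1.smooth
  have pde : ∀ S : SolI δ ε₁, ∀ z ∈ DD S.1.ε S.1.b s, dx (dx S.1.w) z
      + G1 S.1.ϖ S.1.ε S.1.w z * dp (dx S.1.w) z + G2 S.1.ϖ S.1.ε S.1.w z * dp (dp S.1.w) z
      + G3 S.1.ϖ S.1.ε S.1.w z = 0 := fun S z hz => art_pde S.1 h0 hs1 hz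
  have hcomm := commuted (w := fun S : SolI δ ε₁ => S.1.w) hD (by omega : 2 ≤ j) hws c1 c2 c3 hw hv pde
  have hxx := tame_xx (w := fun S : SolI δ ε₁ => S.1.w) hD hws c1 c2 c3 hw hv pde
  -- the domain
  have hsub : ∀ S : SolI δ ε₁, DD S.1.ε S.1.b s' ⊆ DD S.1.ε S.1.b s := fun S =>
    art_DD_mono S.1.b_pos h01.le h1
  have hw' := art_tame_sub hD hsub hw
  have hv' := art_tame_sub hD hsub hv
  -- continuity of coefficients
  have kG1 : ∀ S : SolI δ ε₁, ContDiff ℝ ∞ (G1 S.1.ϖ S.1.ε S.1.w) := c1.tame.smooth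
  have kG2 : ∀ S : SolI δ ε₁, ContDiff ℝ ∞ (G2 S.1.ϖ S.1.ε S.1.w) := c2.tame.smooth
  have kal1 : ∀ S : SolI δ ε₁, Continuous (al1 S.1.w (G2 S.1.ϖ S.1.ε S.1.w)
      (G1W S.1.ϖ S.1.ε S.1.w) (G2W S.1.ϖ S.1.ε S.1.w) (G3W S.1.ϖ S.1.ε S.1.w) j) := by
    intro S
    have t1 := (c1.tameW.smooth S).continuous
    have t2 := (c2.tameW.smooth S).continuous
    have t3 := (c3.tameW.smooth S).continuous
    have t4 := (cd_dp (kG2 S)).continuous
    have t5 := (cd_dp (cd_dx S.1.smooth)).continuous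
    have t6 := (cd_dp (cd_dp S.1.smooth)).continuous
    unfold al1
    exact (continuous_const.mul t4).add (((t1.mul t5).add (t2.mul t6)).add t3)
  have kal2 : ∀ S : SolI δ ε₁, Continuous (al2 S.1.w (G1 S.1.ϖ S.1.ε S.1.w)
      (G1V S.1.ϖ S.1.ε S.1.w) (G2V S.1.ϖ S.1.ε S.1.w) (G3V S.1.ϖ S.1.ε S.1.w) j) := by
    intro S
    have t1 := (c1.tameV.smooth S).continuous
    have t2 := (c2.tameV.smooth S).continuous
    have t3 := (c3.tameV.smooth S).continuous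
    have t4 := (cd_dp (kG1 S)).continuous
    have t5 := (cd_dp (cd_dx S.1.smooth)).continuous
    have t6 := (cd_dp (cd_dp S.1.smooth)).continuous
    unfold al2
    exact (continuous_const.mul t4).add (((t1.mul t5).add (t2.mul t6)).add t3)
  -- energy
  have hφ : ∀ S : SolI δ ε₁, ContDiff ℝ ∞ (dp^[j] S.1.w) := fun S => cd_dp_iter S.1.smooth j
  have b0 : B2 (fun S : SolI δ ε₁ => S.1.R) (fun S => DD S.1.ε S.1.b s) j
      (fun S => dp^[j] S.1.w) := by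
    have := hw.b2 (j - 1) (by omega)
    have e : 1 + (j - 1) = j := by omega
    rw [e] at this
    have e' : ∀ S : SolI δ ε₁, dp^[j - 1] (dp S.1.w) = dp^[j] S.1.w := by
      intro S
      rw [← Function.iterate_succ_apply]
      congr 2
      omega
    simpa only [e'] using this
  have hψ : ∀ S : SolI δ ε₁, Continuous (LL (G1 S.1.ϖ S.1.ε S.1.w) (G2 S.1.ϖ S.1.ε S.1.w)
      (al1 S.1.w (G2 S.1.ϖ S.1.ε S.1.w)
      (G1W S.1.ϖ S.1.ε S.1.w) (G2W S.1.ϖ S.1.ε S.1.w) (G3W S.1.ϖ S.1.ε S.1.w) j)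
      (al2 S.1.w (G1 S.1.ϖ S.1.ε S.1.w)
      (G1V S.1.ϖ S.1.ε S.1.w) (G2V S.1.ϖ S.1.ε S.1.w) (G3V S.1.ϖ S.1.ε S.1.w) j)
      (dp^[j] S.1.w)) := by
    intro S
    have t1 := (kG1 S).continuous
    have t2 := (kG2 S).continuous
    have t3 := kal1 S
    have t4 := kal2 S
    have u1 := (cd_dx (cd_dx (hφ S))).continuous
    have u2 := (cd_dp (cd_dx (hφ S))).continuous
    have u3 := (cd_dp (cd_dp (hφ S))).continuous
    have u4 := (cd_dp (hφ S)).continuous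
    have u5 := (cd_dx (hφ S)).continuous
    unfold LL
    exact (((u1.add (t1.mul u2)).add (t2.mul u3)).add (t3.mul u4)).add (t4.mul u5)
  have hen := art_energy h0 h01 h1 hj hC hφ hψ b0 hcomm (fun S => by
    have hS : S.1.ε ≤ ε₁ := S.2
    refine hlev S.1.ε S.1.b S.1.ε_pos
      (hS.trans (hε₁.trans (min_le_right _ _))) S.1.b_pos S.1.b_le j (by omega) hjJ _ _ _ _ _
      (hφ S) ((kG1 S).of_le (by exact_mod_cast le_top)) ((kG2 S).of_le (by exact_mod_cast le_top)) (kal1 S) (kal2 S) ?_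
    intro z hz
    exact hsmall δ (hδ.trans (min_le_left _ _)) S.1
      (hS.trans (hε₁.trans (min_le_left _ _))) j z hz)
  obtain ⟨hen1, hen2⟩ := hen
  constructor
  · refine ⟨fun S => cd_dp S.1.smooth, ?_, ?_⟩
    · intro i hi
      rcases Nat.lt_or_ge i j with h | h
      · exact hw'.b2 i (by omega)
      · have e : i = j := by omega
        subst e
        rw [add_comm 1 i]
        have e' : ∀ S : SolI δ ε₁, dp^[i] (dp S.1.w) = dp (dp^[i] S.1.w) := fun S => by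
          rw [← Function.iterate_succ_apply, Function.iterate_succ_apply']
        simpa only [e'] using hen2
    · intro i hi
      rcases Nat.lt_or_ge (max 8 (j - 3)) (1 + i) with h | h
      · have hj11 : 11 ≤ j := by omega
        have e : i = j - 3 := by omega
        have e1 : 1 + i = j - 2 := by omega
        rw [e1]
        have hsm : ∀ S : SolI δ ε₁, ContDiff ℝ ∞ (dp^[i] (dp S.1.w)) := fun S =>
          cd_dp_iter (cd_dp S.1.smooth) i
        refine art_sob h0 h01 h1 hj11 hsm ?_ ?_ ?_ ?_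
        · exact B2.mono hD (hw.b2 i (by omega)) (by omega)
        · have e' : ∀ S : SolI δ ε₁, dx (dp^[i] (dp S.1.w)) = dp^[i + 1] (dx S.1.w) := fun S => by
            rw [← Function.iterate_succ_apply, dx_dp_iter S.1.smooth]
          have := hv.b2 (i + 1) (by omega)
          simp only [e']
          exact B2.mono hD this (by omega)
        · have e' : ∀ S : SolI δ ε₁, dp (dp^[i] (dp S.1.w)) = dp^[i + 1] (dp S.1.w) := fun S => by
            rw [Function.iterate_succ_apply']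
          have := hw.b2 (i + 1) (by omega)
          simp only [e']
          exact B2.mono hD this (by omega)
        · have e' : ∀ S : SolI δ ε₁, dp (dx (dp^[i] (dp S.1.w))) = dp^[i + 2] (dx S.1.w) := fun S => by
            rw [← Function.iterate_succ_apply, dx_dp_iter S.1.smooth,
              ← Function.iterate_succ_apply' dp]
          have := hv.b2 (i + 2) (by omega)
          simp only [e']
          exact B2.mono hD this (by omega)
      · exact hw'.bs i h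
  · refine ⟨fun S => cd_dx S.1.smooth, ?_, ?_⟩
    · intro i hi
      rcases Nat.lt_or_ge i j with h | h
      · exact hv'.b2 i (by omega)
      · have e : i = j := by omega
        subst e
        rw [add_comm 1 i]
        have e' : ∀ S : SolI δ ε₁, dx (dp^[i] S.1.w) = dp^[i] (dx S.1.w) := fun S =>
          dx_dp_iter S.1.smooth i
        simpa only [e'] using hen1
    · intro i hi
      rcases Nat.lt_or_ge (max 8 (j - 3)) (1 + i) with h | h
      · have hj11 : 11 ≤ j := by omega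
        have e : i = j - 3 := by omega
        have e1 : 1 + i = j - 2 := by omega
        rw [e1]
        have hsm : ∀ S : SolI δ ε₁, ContDiff ℝ ∞ (dp^[i] (dx S.1.w)) := fun S =>
          cd_dp_iter (cd_dx S.1.smooth) i
        refine art_sob h0 h01 h1 hj11 hsm ?_ ?_ ?_ ?_
        · exact B2.mono hD (hv.b2 i (by omega)) (by omega)
        · have e' : ∀ S : SolI δ ε₁, dx (dp^[i] (dx S.1.w)) = dp^[i] (dx (dx S.1.w)) := fun S => by
            rw [dx_dp_iter (cd_dx S.1.smooth)]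
          have := hxx.b2 i (by omega)
          simp only [e']
          exact B2.mono hD this (by omega)
        · have e' : ∀ S : SolI δ ε₁, dp (dp^[i] (dx S.1.w)) = dp^[i + 1] (dx S.1.w) := fun S => by
            rw [Function.iterate_succ_apply']
          have := hv.b2 (i + 1) (by omega)
          simp only [e']
          exact B2.mono hD this (by omega)
        · have e' : ∀ S : SolI δ ε₁, dp (dx (dp^[i] (dx S.1.w))) = dp^[i + 1] (dx (dx S.1.w)) :=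
            fun S => by
              rw [dx_dp_iter (cd_dx S.1.smooth), Function.iterate_succ_apply']
          have := hxx.b2 (i + 1) (by omega)
          simp only [e']
          exact B2.mono hD this (by omega)
      · exact hv'.bs i h

/-- **ART** -/
theorem art (J : ℕ) : ∃ δ₀ : ℝ, 0 < δ₀ ∧ δ₀ ≤ 1 ∧ ∃ ε₀ : ℝ, 0 < ε₀ ∧ ∀ δ ε₁ : ℝ, δ ≤ δ₀ → ε₁ ≤ ε₀ →
    Tame (fun S : SolI δ ε₁ => S.1.R) (fun S => DD S.1.ε S.1.b 1) 1 J (fun S => dp S.1.w) ∧
    Tame (fun S : SolI δ ε₁ => S.1.R) (fun S => DD S.1.ε S.1.b 1) 1 J (fun S => dx S.1.w) := by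
  have key : ∀ k : ℕ, k ≤ J + 1 → ∃ δ₀ : ℝ, 0 < δ₀ ∧ δ₀ ≤ 1 ∧ ∃ ε₀ : ℝ, 0 < ε₀ ∧
      ∀ δ ε₁ : ℝ, δ ≤ δ₀ → ε₁ ≤ ε₀ →
      Tame (fun S : SolI δ ε₁ => S.1.R) (fun S => DD S.1.ε S.1.b ((k : ℝ) / (J + 1))) 1 (8 + k)
        (fun S => dp S.1.w) ∧
      Tame (fun S : SolI δ ε₁ => S.1.R) (fun S => DD S.1.ε S.1.b ((k : ℝ) / (J + 1))) 1 (8 + k)
        (fun S => dx S.1.w) := by
    intro k
    induction k with
    | zero =>
      intro _
      refine ⟨1, one_pos, le_rfl, 1, one_pos, fun δ ε₁ hδ _ => ?_⟩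
      simp only [Nat.cast_zero, zero_div, add_zero]
      exact art_base hδ le_rfl zero_le_one
    | succ k ih =>
      intro hk
      obtain ⟨δa, hδa, hδa1, εa, hεa, ha⟩ := ih (by omega)
      have hJ : (0 : ℝ) < J + 1 := by positivity
      have hk' : ((k + 1 : ℕ) : ℝ) ≤ J + 1 := by exact_mod_cast hk
      have q0 : 0 ≤ (k : ℝ) / (J + 1) := by positivity
      have q1 : (k : ℝ) / (J + 1) < ((k + 1 : ℕ) : ℝ) / (J + 1) := by
        apply div_lt_div_of_pos_right _ hJ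
        push_cast; linarith
      have q2 : ((k + 1 : ℕ) : ℝ) / (J + 1) ≤ 1 := (div_le_one hJ).2 hk'
      obtain ⟨δb, hδb, εb, hεb, hb⟩ := art_step (J + 8) q0 q1 q2
      refine ⟨min δa δb, by positivity, (min_le_left _ _).trans hδa1, min εa εb, by positivity, ?_⟩
      intro δ ε₁ hδ hε₁
      obtain ⟨t1, t2⟩ := ha δ ε₁ (hδ.trans (min_le_left _ _)) (hε₁.trans (min_le_left _ _))
      exact hb δ ε₁ (hδ.trans (min_le_right _ _)) (hε₁.trans (min_le_right _ _)) (8 + k)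
        (by omega) (by omega) t1 t2
  obtain ⟨δ₀, hδ₀, hδ1, ε₀, hε₀, h⟩ := key (J + 1) le_rfl
  refine ⟨δ₀, hδ₀, hδ1, ε₀, hε₀, fun δ ε₁ hδ hε₁ => ?_⟩
  obtain ⟨t1, t2⟩ := h δ ε₁ hδ hε₁
  have hJ : (0 : ℝ) < J + 1 := by positivity
  have e : ((J + 1 : ℕ) : ℝ) / (J + 1) = 1 := by
    push_cast; exact div_self hJ.ne'
  rw [e] at t1 t2
  exact ⟨art_tame_level (by omega) t1, art_tame_level (by omega) t2⟩

end Crest.Agent.Iso
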