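import Crest.Agent.Iso.ThmC

/-!
# Row 220, part B: definitions (circles, structures, properties of the metric)
-/

set_option autoImplicit false

open scoped ContDiff
open MeasureTheory Set

namespace Crest.Agent.Iso

abbrev E2 := EuclideanSpace ℝ (Fin 2)

/-- rotation by `π/2` -/
noncomputable def rot (e : E2) : E2 := !₂[-e 1, e 0]

/-- the first basis vector -/
noncomputable def e1 : E2 := !₂[1, 0]

/-- centres of the circles -/
noncomputable def cj (j : ℕ) : E2 := !₂[(1 / 2 : ℝ) ^ (j + 1), 0]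

/-- radii of the circles -/
noncomputable def Rj (j : ℕ) : ℝ := (1 / 2 : ℝ) ^ (j + 1) / 16

/-- the circles -/
def Circ (j : ℕ) : Set E2 := Metric.sphere (cj j) (Rj j)

/-- the set that is avoided by the structures -/
def KK : Set E2 := {0} ∪ ⋃ j, Metric.closedBall (cj j) (Rj j)

/-- metrics: smooth fields of bilinear forms -/
abbrev Met := E2 → E2 →L[ℝ] E2 →L[ℝ] ℝ

/-- `g` is flat to second order on all circles -/
def FlatProp (g : Met) : Prop :=
  ∀ j, ∀ z ∈ Circ j, ∀ v w : E2, g z v w = inner ℝ v w ∧ fderiv ℝ (fun x => g x v w) z = 0 ∧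
    fderiv ℝ (fderiv ℝ (fun x => g x v w)) z = 0

/-- horizontal diameters of the circles are shortened -/
def ShrinkProp (g : Met) : Prop :=
  ∀ j, (∀ x ∈ Metric.closedBall (cj j) (Rj j), g x e1 e1 ≤ 1) ∧ g (cj j) e1 e1 < 1

/-- existence of structures near the circles; `σ n` is a smallness parameter and `H n r` bounds the
amplitude of a structure of size `r` in stage `n` -/
def StructProp (g : Met) (σ : ℕ → ℝ) (H : ℕ → ℝ → ℝ) : Prop :=
  ∀ n j : ℕ, j ≤ n → ∀ z ∈ Circ j, ∃ z' ∈ Circ j, ‖z - z'‖ ≤ 1 / (n + 1) ∧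
    ∀ e : E2, ‖e‖ = 1 → ∃ (e' q : E2) (r η : ℝ), ‖e'‖ = 1 ∧ ‖e - e'‖ ≤ σ n ∧ ‖q - z'‖ ≤ σ n ∧
      0 < r ∧ r ≤ σ n ∧ 0 < η ∧ η ≤ H n r ∧ ∀ X Y : ℝ, |X| < 1 → |Y| < 1 → ∀ v w : E2,
        g (q + (r * X) • e' + (r * Y) • rot e') v w =
          inner ℝ v w + (Es n η (X, Y) - 1) * (inner ℝ v e' * inner ℝ w e')

end Crest.Agent.Iso
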