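import Mathlib

/-!
# Row 220: calculus of two real variables on `ℝ × ℝ`

`dx`, `dp` are the two partial derivatives.  Everything is stated for functions `ℝ × ℝ → ℝ`.
-/

set_option autoImplicit false

open scoped ContDiff
open MeasureTheory Set

namespace Crest.Agent.Iso

/-- partial derivative in the first variable `x` -/
noncomputable def dx (f : ℝ × ℝ → ℝ) : ℝ × ℝ → ℝ := fun z => fderiv ℝ f z (1, 0)

/-- partial derivative in the second variable `p` (or `y`) -/
noncomputable def dp (f : ℝ × ℝ → ℝ) : ℝ × ℝ → ℝ := fun z => fderiv ℝ f z (0, 1)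

section smooth
variable {f g : ℝ × ℝ → ℝ} {z : ℝ × ℝ}

theorem cd_dx (hf : ContDiff ℝ ∞ f) : ContDiff ℝ ∞ (dx f) := by
  unfold dx
  exact (hf.fderiv_right (m := ∞) (by simp)).clm_apply contDiff_const

theorem cd_dp (hf : ContDiff ℝ ∞ f) : ContDiff ℝ ∞ (dp f) := by
  unfold dp
  exact (hf.fderiv_right (m := ∞) (by simp)).clm_apply contDiff_const

theorem cd_dp_iter (hf : ContDiff ℝ ∞ f) (n : ℕ) : ContDiff ℝ ∞ (dp^[n] f) := by
  induction n generalizing f with
  | zero => simpa using hf
  | succ n ih => rw [Function.iterate_succ_apply]; exact ih (cd_dp hf)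

theorem cd_dx_iter (hf : ContDiff ℝ ∞ f) (n : ℕ) : ContDiff ℝ ∞ (dx^[n] f) := by
  induction n generalizing f with
  | zero => simpa using hf
  | succ n ih => rw [Function.iterate_succ_apply]; exact ih (cd_dx hf)

theorem dx_add (hf : DifferentiableAt ℝ f z) (hg : DifferentiableAt ℝ g z) :
    dx (fun z => f z + g z) z = dx f z + dx g z := by
  simp only [dx]; rw [fderiv_fun_add hf hg]; rfl

theorem dp_add (hf : DifferentiableAt ℝ f z) (hg : DifferentiableAt ℝ g z) :
    dp (fun z => f z + g z) z = dp f z + dp g z := by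
  simp only [dp]; rw [fderiv_fun_add hf hg]; rfl

theorem dx_sub (hf : DifferentiableAt ℝ f z) (hg : DifferentiableAt ℝ g z) :
    dx (fun z => f z - g z) z = dx f z - dx g z := by
  simp only [dx]; rw [fderiv_fun_sub hf hg]; rfl

theorem dp_sub (hf : DifferentiableAt ℝ f z) (hg : DifferentiableAt ℝ g z) :
    dp (fun z => f z - g z) z = dp f z - dp g z := by
  simp only [dp]; rw [fderiv_fun_sub hf hg]; rfl

theorem dx_mul (hf : DifferentiableAt ℝ f z) (hg : DifferentiableAt ℝ g z) :
    dx (fun z => f z * g z) z = dx f z * g z + f z * dx g z := by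
  simp only [dx]; rw [fderiv_fun_mul hf hg]; simp; ring

theorem dp_mul (hf : DifferentiableAt ℝ f z) (hg : DifferentiableAt ℝ g z) :
    dp (fun z => f z * g z) z = dp f z * g z + f z * dp g z := by
  simp only [dp]; rw [fderiv_fun_mul hf hg]; simp; ring

theorem dx_const (c : ℝ) : dx (fun _ => c) = fun _ => 0 := by
  ext z; simp [dx]

theorem dp_const (c : ℝ) : dp (fun _ => c) = fun _ => 0 := by
  ext z; simp [dp]

theorem dx_fst : dx (fun z : ℝ × ℝ => z.1) = fun _ => 1 := by
  ext z
  have : HasFDerivAt (fun z : ℝ × ℝ => z.1) (ContinuousLinearMap.fst ℝ ℝ ℝ) z := hasFDerivAt_fst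
  simp [dx, this.fderiv]

theorem dp_fst : dp (fun z : ℝ × ℝ => z.1) = fun _ => 0 := by
  ext z
  have : HasFDerivAt (fun z : ℝ × ℝ => z.1) (ContinuousLinearMap.fst ℝ ℝ ℝ) z := hasFDerivAt_fst
  simp [dp, this.fderiv]

theorem dx_snd : dx (fun z : ℝ × ℝ => z.2) = fun _ => 0 := by
  ext z
  have : HasFDerivAt (fun z : ℝ × ℝ => z.2) (ContinuousLinearMap.snd ℝ ℝ ℝ) z := hasFDerivAt_snd
  simp [dx, this.fderiv]

theorem dp_snd : dp (fun z : ℝ × ℝ => z.2) = fun _ => 1 := by
  ext z
  have : HasFDerivAt (fun z : ℝ × ℝ => z.2) (ContinuousLinearMap.snd ℝ ℝ ℝ) z := hasFDerivAt_snd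
  simp [dp, this.fderiv]

/-- `dx` as a one-variable derivative -/
theorem hasDerivAt_slice_x (hf : DifferentiableAt ℝ f z) :
    HasDerivAt (fun t => f (t, z.2)) (dx f z) z.1 := by
  have h1 : HasFDerivAt f (fderiv ℝ f z) ((fun t : ℝ => (t, z.2)) z.1) := hf.hasFDerivAt
  have h2 : HasDerivAt (fun t : ℝ => (t, z.2)) ((1 : ℝ), (0 : ℝ)) z.1 :=
    (hasDerivAt_id z.1).prodMk (hasDerivAt_const _ _)
  exact h1.comp_hasDerivAt z.1 h2

/-- `dp` as a one-variable derivative -/
theorem hasDerivAt_slice_p (hf : DifferentiableAt ℝ f z) :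
    HasDerivAt (fun t => f (z.1, t)) (dp f z) z.2 := by
  have h1 : HasFDerivAt f (fderiv ℝ f z) ((fun t : ℝ => (z.1, t)) z.2) := hf.hasFDerivAt
  have h2 : HasDerivAt (fun t : ℝ => (z.1, t)) ((0 : ℝ), (1 : ℝ)) z.2 :=
    (hasDerivAt_const _ _).prodMk (hasDerivAt_id z.2)
  exact h1.comp_hasDerivAt z.2 h2

theorem fderiv_eq_dx_dp (f : ℝ × ℝ → ℝ) (z v : ℝ × ℝ) :
    fderiv ℝ f z v = v.1 * dx f z + v.2 * dp f z := by
  have : v = v.1 • ((1 : ℝ), (0 : ℝ)) + v.2 • ((0 : ℝ), (1 : ℝ)) := by
    ext <;> simp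
  conv_lhs => rw [this]
  simp only [map_add, map_smul, dx, dp, smul_eq_mul]

/-- the partial derivatives only depend on the germ -/
theorem dx_congr {U : Set (ℝ × ℝ)} (hU : IsOpen U) (h : EqOn f g U) : EqOn (dx f) (dx g) U := by
  intro z hz
  have : f =ᶠ[nhds z] g := Filter.eventuallyEq_of_mem (hU.mem_nhds hz) h
  simp only [dx]; rw [this.fderiv_eq]

theorem dp_congr {U : Set (ℝ × ℝ)} (hU : IsOpen U) (h : EqOn f g U) : EqOn (dp f) (dp g) U := by
  intro z hz
  have : f =ᶠ[nhds z] g := Filter.eventuallyEq_of_mem (hU.mem_nhds hz) h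
  simp only [dp]; rw [this.fderiv_eq]

theorem dp_iter_congr {U : Set (ℝ × ℝ)} (hU : IsOpen U) (h : EqOn f g U) (n : ℕ) :
    EqOn (dp^[n] f) (dp^[n] g) U := by
  induction n generalizing f g with
  | zero => simpa using h
  | succ n ih => rw [Function.iterate_succ_apply, Function.iterate_succ_apply]; exact ih (dp_congr hU h)

theorem dx_iter_congr {U : Set (ℝ × ℝ)} (hU : IsOpen U) (h : EqOn f g U) (n : ℕ) :
    EqOn (dx^[n] f) (dx^[n] g) U := by
  induction n generalizing f g with
  | zero => simpa using h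
  | succ n ih => rw [Function.iterate_succ_apply, Function.iterate_succ_apply]; exact ih (dx_congr hU h)

/-- symmetry of second derivatives -/
theorem dx_dp_comm (hf : ContDiff ℝ ∞ f) : dx (dp f) = dp (dx f) := by
  ext z
  have h2 : ContDiff ℝ 2 f := by exact_mod_cast contDiff_infty.1 hf 2
  have hs : IsSymmSndFDerivAt ℝ f z := h2.contDiffAt.isSymmSndFDerivAt (by simp)
  have hd : DifferentiableAt ℝ (fderiv ℝ f) z :=
    ((h2.fderiv_right (m := 1) (by norm_num)).differentiable (by norm_num)) z
  have e1 : dx (dp f) z = fderiv ℝ (fderiv ℝ f) z (1, 0) (0, 1) := by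
    simp only [dx]
    have : HasFDerivAt (dp f) ((fderiv ℝ (fderiv ℝ f) z).flip (0, 1)) z := by
      have := hd.hasFDerivAt.clm_apply (hasFDerivAt_const ((0 : ℝ), (1 : ℝ)) z)
      simp only [ContinuousLinearMap.comp_zero, zero_add] at this
      exact this
    rw [this.fderiv]; rfl
  have e2 : dp (dx f) z = fderiv ℝ (fderiv ℝ f) z (0, 1) (1, 0) := by
    simp only [dp]
    have : HasFDerivAt (dx f) ((fderiv ℝ (fderiv ℝ f) z).flip (1, 0)) z := by
      have := hd.hasFDerivAt.clm_apply (hasFDerivAt_const ((1 : ℝ), (0 : ℝ)) z)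
      simp only [ContinuousLinearMap.comp_zero, zero_add] at this
      exact this
    rw [this.fderiv]; rfl
  rw [e1, e2, hs]

theorem dx_dp_iter (hf : ContDiff ℝ ∞ f) (n : ℕ) : dx (dp^[n] f) = dp^[n] (dx f) := by
  induction n generalizing f with
  | zero => rfl
  | succ n ih =>
    rw [Function.iterate_succ_apply, Function.iterate_succ_apply, ih (cd_dp hf),
      dx_dp_comm hf]

theorem dp_dx_iter (hf : ContDiff ℝ ∞ f) (n : ℕ) : dp (dx^[n] f) = dx^[n] (dp f) := by
  induction n generalizing f with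
  | zero => rfl
  | succ n ih =>
    rw [Function.iterate_succ_apply, Function.iterate_succ_apply, ih (cd_dx hf),
      dx_dp_comm hf]

theorem diff_of_smooth (hf : ContDiff ℝ ∞ f) : Differentiable ℝ f :=
  hf.differentiable (by simp)

theorem dp_iter_add (hf : ContDiff ℝ ∞ f) (hg : ContDiff ℝ ∞ g) (n : ℕ) :
    dp^[n] (fun z => f z + g z) = fun z => dp^[n] f z + dp^[n] g z := by
  induction n generalizing f g with
  | zero => rfl
  | succ n ih =>
    simp only [Function.iterate_succ_apply]
    have : dp (fun z => f z + g z) = fun z => dp f z + dp g z := by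
      funext z
      exact dp_add (diff_of_smooth hf z) (diff_of_smooth hg z)
    rw [this, ih (cd_dp hf) (cd_dp hg)]

theorem dx_iter_add (hf : ContDiff ℝ ∞ f) (hg : ContDiff ℝ ∞ g) (n : ℕ) :
    dx^[n] (fun z => f z + g z) = fun z => dx^[n] f z + dx^[n] g z := by
  induction n generalizing f g with
  | zero => rfl
  | succ n ih =>
    simp only [Function.iterate_succ_apply]
    have : dx (fun z => f z + g z) = fun z => dx f z + dx g z := by
      funext z
      exact dx_add (diff_of_smooth hf z) (diff_of_smooth hg z)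
    rw [this, ih (cd_dx hf) (cd_dx hg)]

theorem dp_iter_const_mul (hf : ContDiff ℝ ∞ f) (c : ℝ) (n : ℕ) :
    dp^[n] (fun z => c * f z) = fun z => c * dp^[n] f z := by
  induction n generalizing f with
  | zero => rfl
  | succ n ih =>
    simp only [Function.iterate_succ_apply]
    have : dp (fun z => c * f z) = fun z => c * dp f z := by
      funext z
      have := dp_mul (f := fun _ => c) (g := f) (z := z) (differentiableAt_const _)
        (diff_of_smooth hf z)
      rw [this, dp_const]; simp
    rw [this, ih (cd_dp hf)]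

theorem dx_iter_const_mul (hf : ContDiff ℝ ∞ f) (c : ℝ) (n : ℕ) :
    dx^[n] (fun z => c * f z) = fun z => c * dx^[n] f z := by
  induction n generalizing f with
  | zero => rfl
  | succ n ih =>
    simp only [Function.iterate_succ_apply]
    have : dx (fun z => c * f z) = fun z => c * dx f z := by
      funext z
      have := dx_mul (f := fun _ => c) (g := f) (z := z) (differentiableAt_const _)
        (diff_of_smooth hf z)
      rw [this, dx_const]; simp
    rw [this, ih (cd_dx hf)]

/-- Leibniz rule for iterated `dp` -/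
theorem dp_iter_mul (hf : ContDiff ℝ ∞ f) (hg : ContDiff ℝ ∞ g) (n : ℕ) (z : ℝ × ℝ) :
    dp^[n] (fun z => f z * g z) z =
      ∑ i ∈ Finset.range (n + 1), (n.choose i : ℝ) * (dp^[i] f z * dp^[n - i] g z) := by
  have key : ∀ (n : ℕ) (f g : ℝ × ℝ → ℝ), ContDiff ℝ ∞ f → ContDiff ℝ ∞ g →
      dp^[n] (fun z => f z * g z) z =
      ∑ ij ∈ Finset.HasAntidiagonal.antidiagonal n, (n.choose ij.1 : ℝ) * (dp^[ij.1] f z * dp^[ij.2] g z) := by
    intro n
    induction n with
    | zero => intro f g _ _; simp
    | succ n ih =>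
      intro f g hf hg
      rw [Finset.sum_antidiagonal_choose_succ_mul (fun i j => dp^[i] f z * dp^[j] g z)]
      rw [Function.iterate_succ_apply]
      have e : dp (fun z => f z * g z) = fun z => dp f z * g z + f z * dp g z := by
        funext z
        exact dp_mul (diff_of_smooth hf z) (diff_of_smooth hg z)
      rw [e, dp_iter_add ((cd_dp hf).mul hg) (hf.mul (cd_dp hg))]
      simp only
      rw [ih _ _ (cd_dp hf) hg, ih _ _ hf (cd_dp hg), add_comm]
      congr 1
      apply Finset.sum_congr rfl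
      intro ij hij
      rw [Finset.HasAntidiagonal.mem_antidiagonal] at hij
      rw [← Function.iterate_succ_apply]
      have : n.choose ij.1 = n.choose ij.2 := by
        rw [← hij]; exact Nat.choose_symm_add
      rw [this]
  rw [key n f g hf hg, Finset.Nat.sum_antidiagonal_eq_sum_range_succ
    (fun i j => (n.choose i : ℝ) * (dp^[i] f z * dp^[j] g z))]

/-- integral of a derivative of a compactly supported function vanishes -/
theorem integral_fderiv_eq_zero (hf : ContDiff ℝ 1 f) (hc : HasCompactSupport f) (v : ℝ × ℝ) :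
    ∫ z, fderiv ℝ f z v = 0 := by
  have hfi : Integrable f := hf.continuous.integrable_of_hasCompactSupport hc
  have hf' : Continuous (fun z => fderiv ℝ f z v) :=
    (hf.continuous_fderiv (by norm_num)).clm_apply continuous_const
  have hfi' : Integrable (fun z => fderiv ℝ f z v) :=
    hf'.integrable_of_hasCompactSupport (hc.fderiv_apply (𝕜 := ℝ) v)
  have := integral_mul_fderiv_eq_neg_fderiv_mul_of_integrable (μ := volume) (f := f)
    (g := fun _ => (1 : ℝ)) (v := v) (by simpa using hfi') (by simp) (by simpa using hfi)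
    (fun x _ => hf.differentiable (by norm_num) x) (fun x _ => differentiableAt_const _)
  simp at this
  linarith

theorem integral_dx_eq_zero (hf : ContDiff ℝ 1 f) (hc : HasCompactSupport f) :
    ∫ z, dx f z = 0 := integral_fderiv_eq_zero hf hc _

theorem integral_dp_eq_zero (hf : ContDiff ℝ 1 f) (hc : HasCompactSupport f) :
    ∫ z, dp f z = 0 := integral_fderiv_eq_zero hf hc _

end smooth

end Crest.Agent.Iso
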