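import Crest.Agent.Iso.SolDef
import Crest.Agent.Iso.Comm

/-!
# Row 220: first properties of `Sol`
-/

set_option autoImplicit false

open scoped ContDiff
open MeasureTheory Set

namespace Crest.Agent.Iso

theorem contDiff_P0 : ContDiff ℝ ∞ (fun Y : ℝ × ℝ => P0 Y.1 Y.2) := by
  unfold P0; fun_prop

theorem contDiff_E0 (ϖ ε : ℝ) : ContDiff ℝ ∞ (E0 ϖ ε) := by
  unfold E0 P0; fun_prop

theorem contDiff_Py : ContDiff ℝ ∞ (fun Y : ℝ × ℝ => Py Y.1 Y.2) := by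
  unfold Py; fun_prop

theorem dp_eq_of_hasDerivAt {f : ℝ × ℝ → ℝ} {z : ℝ × ℝ} {c : ℝ} (hf : DifferentiableAt ℝ f z)
    (h : HasDerivAt (fun t => f (z.1, t)) c z.2) : dp f z = c :=
  (hasDerivAt_slice_p hf).unique h

theorem dx_eq_of_hasDerivAt {f : ℝ × ℝ → ℝ} {z : ℝ × ℝ} {c : ℝ} (hf : DifferentiableAt ℝ f z)
    (h : HasDerivAt (fun t => f (t, z.2)) c z.1) : dx f z = c :=
  (hasDerivAt_slice_x hf).unique h

theorem dp_E0 (ϖ ε : ℝ) : dp (E0 ϖ ε) = fun Y => -(2 * ϖ * ε) * Py Y.1 Y.2 := by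
  funext Y
  refine dp_eq_of_hasDerivAt (diff_of_smooth (contDiff_E0 ϖ ε) Y) ?_
  unfold E0 P0 Py
  have h : HasDerivAt (fun t : ℝ => t) 1 Y.2 := hasDerivAt_id _
  have := (((((h.pow 2).const_mul (Y.1 ^ 2 - 1 / 4)).div_const 2).add
    ((h.pow 4).div_const 12)).const_mul (2 * ϖ * ε)).const_sub 1
  exact this.congr_deriv (by push_cast; ring)

theorem dx_E0 (ϖ ε : ℝ) : dx (E0 ϖ ε) = fun Y => -(2 * ϖ * ε) * Px Y.1 Y.2 := by
  funext Y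
  refine dx_eq_of_hasDerivAt (diff_of_smooth (contDiff_E0 ϖ ε) Y) ?_
  unfold E0 P0 Px
  have h : HasDerivAt (fun t : ℝ => t) 1 Y.1 := hasDerivAt_id _
  have := ((((((h.pow 2).sub_const (1 / 4)).mul_const (Y.2 ^ 2)).div_const 2).add_const
    (Y.2 ^ 4 / 12)).const_mul (2 * ϖ * ε)).const_sub 1
  exact this.congr_deriv (by push_cast; ring)

theorem dp_dp_E0 (ϖ ε : ℝ) : dp (dp (E0 ϖ ε)) = fun Y => -(2 * ϖ * ε) * kk Y.1 Y.2 := by
  rw [dp_E0]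
  funext Y
  refine dp_eq_of_hasDerivAt ?_ ?_
  · exact diff_of_smooth (contDiff_const.mul contDiff_Py) Y
  · unfold Py kk
    have h : HasDerivAt (fun t : ℝ => t) 1 Y.2 := hasDerivAt_id _
    have := ((h.const_mul (Y.1 ^ 2 - 1 / 4)).add ((h.pow 3).div_const 3)).const_mul (-(2 * ϖ * ε))
    exact this.congr_deriv (by push_cast; ring)

/-- the unperturbed operator in terms of the explicit coefficients -/
theorem opE_E0 {ϖ ε : ℝ} (hϖ : 0 < ϖ) (w : ℝ × ℝ → ℝ) (z : ℝ × ℝ)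
    (h : E0 ϖ ε (z.1, dp w z) ≠ 0) :
    opE ϖ (E0 ϖ ε) w z = dx (dx w) z + G1 ϖ ε w z * dp (dx w) z + G2 ϖ ε w z * dp (dp w) z
      + G3 ϖ ε w z := by
  have hE : E0 ϖ ε (z.1, dp w z) = 1 - 2 * ϖ * ε * P0 z.1 (dp w z) := rfl
  unfold opE G1 G2 G3 dd
  rw [dp_dp_E0, dp_E0, dx_E0, ← hE]
  generalize E0 ϖ ε (z.1, dp w z) = e at h
  simp only
  field_simp
  ring

theorem dom_DD {δ ε₁ s : ℝ} (h0 : 0 ≤ s) (h1 : s ≤ 1) :
    Dom (fun S : SolI δ ε₁ => S.1.R) (fun S => DD S.1.ε S.1.b s) := by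
  refine ⟨fun S => ?_, fun S => isOpen_DD _ _ _, fun S z hz => ?_⟩
  · have hε := S.1.ε_pos
    have hε' := S.1.ε_le
    unfold Sol.R
    have h2 : 0 < S.1.ε ^ 2 := by positivity
    rw [le_inv_comm₀ one_pos h2, inv_one]
    nlinarith
  · obtain ⟨hz1, -⟩ := hz
    have h2 : (0.85 - 0.2 * s) ^ 2 ≤ 1 := by nlinarith
    refine ⟨⟨?_, ?_⟩, ?_, ?_⟩ <;> nlinarith [sq_nonneg z.1, sq_nonneg z.2]

theorem sol_one_sub {δ : ℝ} (S : Sol δ) (z : ℝ × ℝ) :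
    1 / 2 ≤ 1 - 2 * S.ϖ * S.ε * P0 z.1 (dp S.w z) := by
  have := abs_le.1 (S.bdd z)
  linarith [this.2]

/-- smoothness of the coefficients -/
theorem sol_dd_smooth {δ : ℝ} (S : Sol δ) : ContDiff ℝ ∞ (dd S.ϖ S.ε S.w) := by
  unfold dd
  refine ContDiff.inv ?_ (fun z => ?_)
  · refine contDiff_const.sub (contDiff_const.mul ?_)
    exact contDiff_P0.comp (contDiff_fst.prodMk (cd_dp S.smooth))
  · have := sol_one_sub S z
    linarith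

theorem sol_dd_bound {δ : ℝ} (S : Sol δ) (z : ℝ × ℝ) : 0 < dd S.ϖ S.ε S.w z ∧ dd S.ϖ S.ε S.w z ≤ 2 ∧
    (1 - 2 * S.ϖ * S.ε * P0 z.1 (dp S.w z)) * dd S.ϖ S.ε S.w z = 1 := by
  have h := sol_one_sub S z
  unfold dd
  have hpos : 0 < 1 - 2 * S.ϖ * S.ε * P0 z.1 (dp S.w z) := by linarith
  refine ⟨inv_pos.2 hpos, ?_, mul_inv_cancel₀ hpos.ne'⟩
  rw [inv_le_comm₀ hpos two_pos]
  linarith

theorem Coef.congr' {ι : Type*} {R : ι → ℝ} {D : ι → Set (ℝ × ℝ)} {w : ι → ℝ × ℝ → ℝ} {N : ℕ}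
    {g gW gV g' gW' gV' : ι → ℝ × ℝ → ℝ} (h : Coef R D w N g gW gV)
    (e : g = g') (eW : gW = gW') (eV : gV = gV') : Coef R D w N g' gW' gV' := by
  subst e eW eV; exact h

/-- the coefficient functions belong to `Coef`, at every level and on every `D(s)` -/
theorem sol_coef {δ ε₁ s : ℝ} (hδ : δ ≤ 1) (h0 : 0 ≤ s) (h1 : s ≤ 1) {N : ℕ}
    (hw : Tame (fun S : SolI δ ε₁ => S.1.R) (fun S => DD S.1.ε S.1.b s) 1 N (fun S => dp S.1.w))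
    (hv : Tame (fun S : SolI δ ε₁ => S.1.R) (fun S => DD S.1.ε S.1.b s) 1 N (fun S => dx S.1.w)) :
    Coef (fun S : SolI δ ε₁ => S.1.R) (fun S => DD S.1.ε S.1.b s) (fun S => S.1.w) N
      (fun S => G1 S.1.ϖ S.1.ε S.1.w) (fun S => G1W S.1.ϖ S.1.ε S.1.w)
      (fun S => G1V S.1.ϖ S.1.ε S.1.w) ∧
    Coef (fun S : SolI δ ε₁ => S.1.R) (fun S => DD S.1.ε S.1.b s) (fun S => S.1.w) N
      (fun S => G2 S.1.ϖ S.1.ε S.1.w) (fun S => G2W S.1.ϖ S.1.ε S.1.w)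
      (fun S => G2V S.1.ϖ S.1.ε S.1.w) ∧
    Coef (fun S : SolI δ ε₁ => S.1.R) (fun S => DD S.1.ε S.1.b s) (fun S => S.1.w) N
      (fun S => G3 S.1.ϖ S.1.ε S.1.w) (fun S => G3W S.1.ϖ S.1.ε S.1.w)
      (fun S => G3V S.1.ϖ S.1.ε S.1.w) := by
  have hD := dom_DD (δ := δ) (ε₁ := ε₁) h0 h1
  have bϖ : ∃ M : ℝ, ∀ S : SolI δ ε₁, |S.1.ϖ| ≤ M :=
    ⟨1, fun S => by rw [abs_of_pos S.1.ϖ_pos]; exact S.1.ϖ_le_one⟩
  have bε : ∃ M : ℝ, ∀ S : SolI δ ε₁, |S.1.ε| ≤ M :=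
    ⟨1 / 100, fun S => by rw [abs_of_pos S.1.ε_pos]; exact S.1.ε_le⟩
  have bmul : ∀ {c d : SolI δ ε₁ → ℝ}, (∃ M : ℝ, ∀ S, |c S| ≤ M) → (∃ M : ℝ, ∀ S, |d S| ≤ M) →
      ∃ M : ℝ, ∀ S, |c S * d S| ≤ M := by
    rintro c d ⟨M, hM⟩ ⟨M', hM'⟩
    refine ⟨M * M', fun S => ?_⟩
    rw [abs_mul]
    exact mul_le_mul (hM S) (hM' S) (abs_nonneg _) ((abs_nonneg _).trans (hM S))
  have bϖε := bmul bϖ bε
  have bnum : ∀ r : ℝ, ∃ M : ℝ, ∀ _S : SolI δ ε₁, |r| ≤ M := fun r => ⟨|r|, fun _ => le_rfl⟩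
  have b2ϖε := bmul (bnum 2) bϖε
  have cX := Coef.fst (w := fun S : SolI δ ε₁ => S.1.w) (N := N) hD
  have cP := Coef.snd (w := fun S : SolI δ ε₁ => S.1.w) (N := N) hD
  have cW := Coef.varW hD hw
  have cV := Coef.varV hD hv
  have num : ∀ r : ℝ, Coef (fun S : SolI δ ε₁ => S.1.R) (fun S => DD S.1.ε S.1.b s)
      (fun S => S.1.w) N (fun _ _ => r) (fun _ _ => 0) (fun _ _ => 0) :=
    fun r => Coef.const hD (fun _ => r) (bnum r)
  have cPy : Coef (fun S : SolI δ ε₁ => S.1.R) (fun S => DD S.1.ε S.1.b s) (fun S => S.1.w) N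
      (fun S z => Py z.1 (dp S.1.w z)) (fun S z => kk z.1 (dp S.1.w z)) (fun _ _ => 0) := by
    have k1 := ((cX.mul hD cX).add hD (num (-(1 / 4)))).mul hD cW
    have k2 := ((cW.mul hD cW).mul hD cW).mul hD (num (1 / 3))
    refine (k1.add hD k2).congr' ?_ ?_ ?_ <;> funext S z <;> (try simp only [Py, kk]) <;> ring
  have cPx : Coef (fun S : SolI δ ε₁ => S.1.R) (fun S => DD S.1.ε S.1.b s) (fun S => S.1.w) N
      (fun S z => Px z.1 (dp S.1.w z)) (fun S z => 2 * z.1 * dp S.1.w z) (fun _ _ => 0) := by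
    have k1 := cX.mul hD (cW.mul hD cW)
    refine k1.congr' ?_ ?_ ?_ <;> funext S z <;> (try simp only [Px]) <;> ring
  have ckk : Coef (fun S : SolI δ ε₁ => S.1.R) (fun S => DD S.1.ε S.1.b s) (fun S => S.1.w) N
      (fun S z => kk z.1 (dp S.1.w z)) (fun S z => 2 * dp S.1.w z) (fun _ _ => 0) := by
    have k1 := ((cX.mul hD cX).add hD (cW.mul hD cW)).add hD (num (-(1 / 4)))
    refine k1.congr' ?_ ?_ ?_ <;> funext S z <;> (try simp only [kk]) <;> ring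
  have cq : Coef (fun S : SolI δ ε₁ => S.1.R) (fun S => DD S.1.ε S.1.b s) (fun S => S.1.w) N
      (fun S z => 1 - S.1.ϖ * z.2 ^ 2) (fun _ _ => 0) (fun _ _ => 0) := by
    have k1 := (num 1).add hD ((cP.mul hD cP).const_mul hD (fun S => -S.1.ϖ)
      ⟨1, fun S => by rw [abs_neg, abs_of_pos S.1.ϖ_pos]; exact S.1.ϖ_le_one⟩)
    refine k1.congr' ?_ ?_ ?_ <;> funext S z <;> ring
  have ca : Coef (fun S : SolI δ ε₁ => S.1.R) (fun S => DD S.1.ε S.1.b s) (fun S => S.1.w) N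
      (fun S z => 1 - 2 * S.1.ϖ * S.1.ε * P0 z.1 (dp S.1.w z))
      (fun S z => - (2 * S.1.ϖ * S.1.ε * Py z.1 (dp S.1.w z))) (fun _ _ => 0) := by
    have k1 := ((cX.mul hD cX).add hD (num (-(1 / 4)))).mul hD ((cW.mul hD cW).mul hD (num (1 / 2)))
    have k2 := ((cW.mul hD cW).mul hD (cW.mul hD cW)).mul hD (num (1 / 12))
    have k3 := (num 1).add hD (((k1.add hD k2).const_mul hD (fun S => 2 * (S.1.ϖ * S.1.ε))
      b2ϖε).mul hD (num (-1)))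
    refine k3.congr' ?_ ?_ ?_ <;> funext S z <;> (try simp only [P0, Py]) <;> ring
  have cd : Coef (fun S : SolI δ ε₁ => S.1.R) (fun S => DD S.1.ε S.1.b s) (fun S => S.1.w) N
      (fun S => dd S.1.ϖ S.1.ε S.1.w)
      (fun S z => 2 * S.1.ϖ * S.1.ε * Py z.1 (dp S.1.w z) * dd S.1.ϖ S.1.ε S.1.w z ^ 2)
      (fun _ _ => 0) := by
    have k1 := Coef.inv hD ca (fun S => sol_dd_smooth S.1)
      (fun S z _ => by
        have := sol_dd_bound S.1 z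
        rw [abs_of_pos this.1]; exact this.2.1)
      (fun S z _ => (sol_dd_bound S.1 z).2.2)
    refine k1.congr' ?_ ?_ ?_ <;> funext S z <;> ring
  refine ⟨?_, ?_, ?_⟩
  · have k := ((cPy.mul hD cV).mul hD cd).const_mul hD (fun S => 2 * (S.1.ϖ * S.1.ε)) b2ϖε
    refine k.congr' ?_ ?_ ?_ <;> funext S z <;> (try simp only [G1, G1W, G1V]) <;> ring
  · have k1 := ckk.mul hD cq
    have k2 := ((cPy.mul hD cPy).mul hD cq).const_mul hD (fun S => S.1.ε) bε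
    have k3 := (ckk.mul hD (cV.mul hD cV)).mul hD (num (-1))
    have k4 := ((k2.add hD k3).mul hD cd).const_mul hD (fun S => S.1.ϖ) bϖ
    have k5 := (k1.add hD k4).const_mul hD (fun S => S.1.ε) bε
    refine k5.congr' ?_ ?_ ?_ <;> funext S z <;> (try simp only [G2, G2W, G2V]) <;> ring
  · have k1 := (cPx.mul hD cV).mul hD cd
    have k2 := (k1.add hD (cPy.mul hD cP)).const_mul hD (fun S => S.1.ϖ * S.1.ε) bϖε
    refine k2.congr' ?_ ?_ ?_ <;> funext S z <;> (try simp only [G3, G3W, G3V]) <;> ring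

end Crest.Agent.Iso
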