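import Crest.Agent.Iso.SolDef
import Crest.Agent.Iso.SolA

/-!
# Row 220: the metric with bump, and solutions of the bumped equation
-/

set_option autoImplicit false

open scoped ContDiff
open MeasureTheory Set

namespace Crest.Agent.Iso

/-- the bump: `1` on the (sup norm) ball of radius `1/4`, supported in the ball of radius `1/2` -/
noncomputable def bump1 : ContDiffBump (0 : ℝ × ℝ) := ⟨1 / 4, 1 / 2, by norm_num, by norm_num⟩

noncomputable def P1 (z : ℝ × ℝ) : ℝ := bump1 z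

theorem contDiff_P1 : ContDiff ℝ ∞ P1 := bump1.contDiff

theorem P1_nonneg (z : ℝ × ℝ) : 0 ≤ P1 z := bump1.nonneg

theorem P1_le_one (z : ℝ × ℝ) : P1 z ≤ 1 := bump1.le_one

theorem P1_eq_one {z : ℝ × ℝ} (h : |z.1| ≤ 1 / 4) (h' : |z.2| ≤ 1 / 4) : P1 z = 1 := by
  refine bump1.one_of_mem_closedBall ?_
  rw [Metric.mem_closedBall, dist_zero_right, Prod.norm_def]
  exact max_le h h'

theorem P1_eq_zero {z : ℝ × ℝ} (h : 1 / 2 ≤ |z.1| ∨ 1 / 2 ≤ |z.2|) : P1 z = 0 := by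
  refine bump1.zero_of_le_dist ?_
  rw [dist_zero_right, Prod.norm_def]
  exact le_max_iff.2 h

private theorem dx_iter_zero' (i : ℕ) : dx^[i] (fun _ : ℝ × ℝ => (0 : ℝ)) = fun _ => 0 := by
  induction i with
  | zero => rfl
  | succ n ih => rw [Function.iterate_succ_apply, dx_const, ih]

private theorem dp_iter_zero' (i : ℕ) : dp^[i] (fun _ : ℝ × ℝ => (0 : ℝ)) = fun _ => 0 := by
  induction i with
  | zero => rfl
  | succ n ih => rw [Function.iterate_succ_apply, dp_const, ih]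

/-- all derivatives vanish outside the support -/
theorem P1_deriv_zero {z : ℝ × ℝ} (h : 1 / 2 < |z.1| ∨ 1 / 2 < |z.2|) (a i : ℕ) :
    dx^[a] (dp^[i] P1) z = 0 := by
  have hU : IsOpen {z : ℝ × ℝ | 1 / 2 < |z.1| ∨ 1 / 2 < |z.2|} :=
    (isOpen_lt continuous_const (continuous_fst.abs)).union
      (isOpen_lt continuous_const (continuous_snd.abs))
  have h0 : EqOn P1 (fun _ => 0) {z : ℝ × ℝ | 1 / 2 < |z.1| ∨ 1 / 2 < |z.2|} := by
    intro y hy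
    exact P1_eq_zero (hy.imp le_of_lt le_of_lt)
  have h1 := dx_iter_congr hU (dp_iter_congr hU h0 i) a h
  rw [h1, dp_iter_zero', dx_iter_zero']

/-- derivatives are bounded -/
theorem P1_deriv_bdd (a i : ℕ) : ∃ C : ℝ, ∀ z, |dx^[a] (dp^[i] P1) z| ≤ C := by
  have hc : HasCompactSupport (dx^[a] (dp^[i] P1)) := by
    refine HasCompactSupport.intro (K := Metric.closedBall (0 : ℝ × ℝ) (1 / 2))
      (isCompact_closedBall _ _) (fun z hz => P1_deriv_zero ?_ a i)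
    rw [Metric.mem_closedBall, dist_zero_right, Prod.norm_def, not_le] at hz
    exact lt_max_iff.1 hz
  obtain ⟨C, hC⟩ := hc.exists_bound_of_continuous
    (cd_dx_iter (cd_dp_iter contDiff_P1 i) a).continuous
  exact ⟨C, fun z => by simpa using hC z⟩

/-- the metric coefficient with bump -/
noncomputable def E1 (ϖ ε κ b : ℝ) (Y : ℝ × ℝ) : ℝ :=
  1 - 2 * ϖ * (ε * P0 Y.1 Y.2 + κ * b ^ 2 * P1 (Y.1 / b, Y.2 / b))

/-- A solution of the equation with bump. -/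
structure BSol (n : ℕ) (δ : ℝ) extends Sol δ where
  κ : ℝ
  κ_ge : ε ^ (2 * n) ≤ κ
  κ_le : κ ≤ ε ^ 2
  pdeB : ∀ z : ℝ × ℝ, z.1 ^ 2 + z.2 ^ 2 < 0.81 → opE ϖ (E1 ϖ ε κ b) w z = 0
  crit : dx w 0 = 0 ∧ dp w 0 = 0

/-! ### derivatives of the bumped metric coefficient -/

theorem dp_scale {f : ℝ × ℝ → ℝ} (hf : ContDiff ℝ ∞ f) {b : ℝ} :
    dp (fun Y : ℝ × ℝ => f (Y.1 / b, Y.2 / b)) = fun Y => dp f (Y.1 / b, Y.2 / b) / b := by
  funext Y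
  have hs : ContDiff ℝ ∞ (fun Y : ℝ × ℝ => f (Y.1 / b, Y.2 / b)) :=
    hf.comp ((contDiff_fst.div_const b).prodMk (contDiff_snd.div_const b))
  refine dp_eq_of_hasDerivAt (diff_of_smooth hs Y) ?_
  have h1 := hasDerivAt_slice_p (z := (Y.1 / b, Y.2 / b)) (diff_of_smooth hf _)
  have h2 : HasDerivAt (fun t : ℝ => t / b) (1 / b) Y.2 := (hasDerivAt_id _).div_const b
  have h3 := HasDerivAt.comp (h₂ := fun t => f (Y.1 / b, t)) Y.2 h1 h2
  exact h3.congr_deriv (by ring)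

theorem dx_scale {f : ℝ × ℝ → ℝ} (hf : ContDiff ℝ ∞ f) {b : ℝ} :
    dx (fun Y : ℝ × ℝ => f (Y.1 / b, Y.2 / b)) = fun Y => dx f (Y.1 / b, Y.2 / b) / b := by
  funext Y
  have hs : ContDiff ℝ ∞ (fun Y : ℝ × ℝ => f (Y.1 / b, Y.2 / b)) :=
    hf.comp ((contDiff_fst.div_const b).prodMk (contDiff_snd.div_const b))
  refine dx_eq_of_hasDerivAt (diff_of_smooth hs Y) ?_
  have h1 := hasDerivAt_slice_x (z := (Y.1 / b, Y.2 / b)) (diff_of_smooth hf _)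
  have h2 : HasDerivAt (fun t : ℝ => t / b) (1 / b) Y.1 := (hasDerivAt_id _).div_const b
  have h3 := HasDerivAt.comp (h₂ := fun t => f (t, Y.2 / b)) Y.1 h1 h2
  exact h3.congr_deriv (by ring)

theorem contDiff_P1s (b : ℝ) : ContDiff ℝ ∞ (fun Y : ℝ × ℝ => P1 (Y.1 / b, Y.2 / b)) :=
  contDiff_P1.comp ((contDiff_fst.div_const b).prodMk (contDiff_snd.div_const b))

theorem E1_eq (ϖ ε κ b : ℝ) : E1 ϖ ε κ b = fun Y =>
    E0 ϖ ε Y + (-(2 * ϖ * κ * b ^ 2)) * P1 (Y.1 / b, Y.2 / b) := by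
  funext Y; unfold E1 E0; ring

theorem dx_E1 (ϖ ε κ b : ℝ) : dx (E1 ϖ ε κ b) = fun Y =>
    -(2 * ϖ) * (ε * Px Y.1 Y.2 + κ * b * dx P1 (Y.1 / b, Y.2 / b)) := by
  have hP := contDiff_P1s b
  rw [E1_eq]
  funext Y
  rw [dx_add (diff_of_smooth (contDiff_E0 ϖ ε) Y) (diff_of_smooth (contDiff_const.mul hP) Y),
    dx_E0, dx_mul (differentiableAt_const _) (diff_of_smooth hP Y), dx_const, dx_scale contDiff_P1]
  field_simp
  ring

theorem dp_E1 (ϖ ε κ b : ℝ) : dp (E1 ϖ ε κ b) = fun Y =>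
    -(2 * ϖ) * (ε * Py Y.1 Y.2 + κ * b * dp P1 (Y.1 / b, Y.2 / b)) := by
  have hP := contDiff_P1s b
  rw [E1_eq]
  funext Y
  rw [dp_add (diff_of_smooth (contDiff_E0 ϖ ε) Y) (diff_of_smooth (contDiff_const.mul hP) Y),
    dp_E0, dp_mul (differentiableAt_const _) (diff_of_smooth hP Y), dp_const, dp_scale contDiff_P1]
  field_simp
  ring

theorem dp_dp_E1 (ϖ ε κ : ℝ) {b : ℝ} (hb : b ≠ 0) : dp (dp (E1 ϖ ε κ b)) = fun Y =>
    -(2 * ϖ) * (ε * kk Y.1 Y.2 + κ * dp (dp P1) (Y.1 / b, Y.2 / b)) := by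
  have hP := contDiff_P1s b
  have hD : ContDiff ℝ ∞ (fun Y : ℝ × ℝ => dp P1 (Y.1 / b, Y.2 / b)) :=
    (cd_dp contDiff_P1).comp ((contDiff_fst.div_const b).prodMk (contDiff_snd.div_const b))
  have hE : dp (E1 ϖ ε κ b) = fun Y => dp (E0 ϖ ε) Y +
      (-(2 * ϖ * κ * b)) * dp P1 (Y.1 / b, Y.2 / b) := by
    rw [dp_E1 ϖ ε κ b, dp_E0]; funext Y; ring
  rw [hE]
  funext Y
  rw [dp_add (diff_of_smooth (cd_dp (contDiff_E0 ϖ ε)) Y)
    (diff_of_smooth (contDiff_const.mul hD) Y),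
    dp_dp_E0, dp_mul (differentiableAt_const _) (diff_of_smooth hD Y), dp_const,
    dp_scale (cd_dp contDiff_P1)]
  field_simp
  ring

/-! ### bounds for solutions from `close` and `crit` -/

private theorem dx_h {w : ℝ × ℝ → ℝ} (hw : ContDiff ℝ ∞ w) :
    dx (fun z => w z - z.2 ^ 2 / 2) = dx w := by
  funext z
  have h2 : ContDiff ℝ ∞ (fun z : ℝ × ℝ => z.2 ^ 2 / 2) := by fun_prop
  rw [dx_sub (diff_of_smooth hw z) (diff_of_smooth h2 z)]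
  have : dx (fun z : ℝ × ℝ => z.2 ^ 2 / 2) z = 0 := by
    refine dx_eq_of_hasDerivAt (diff_of_smooth h2 z) ?_
    exact hasDerivAt_const z.1 (z.2 ^ 2 / 2 : ℝ)
  rw [this, sub_zero]

private theorem dp_h {w : ℝ × ℝ → ℝ} (hw : ContDiff ℝ ∞ w) :
    dp (fun z => w z - z.2 ^ 2 / 2) = fun z => dp w z - z.2 := by
  funext z
  have h2 : ContDiff ℝ ∞ (fun z : ℝ × ℝ => z.2 ^ 2 / 2) := by fun_prop
  rw [dp_sub (diff_of_smooth hw z) (diff_of_smooth h2 z)]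
  have : dp (fun z : ℝ × ℝ => z.2 ^ 2 / 2) z = z.2 := by
    refine dp_eq_of_hasDerivAt (diff_of_smooth h2 z) ?_
    have h := (hasDerivAt_pow 2 z.2).div_const (2 : ℝ)
    exact h.congr_deriv (by simp)
  rw [this]

/-- the disc of radius `0.9` -/
def Disc9 : Set (ℝ × ℝ) := {z | z.1 ^ 2 + z.2 ^ 2 < 0.81}

theorem convex_Disc9 : Convex ℝ Disc9 := by
  intro x hx y hy a b ha hb hab
  have hx' : x.1 ^ 2 + x.2 ^ 2 < 0.81 := hx
  have hy' : y.1 ^ 2 + y.2 ^ 2 < 0.81 := hy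
  change (a * x.1 + b * y.1) ^ 2 + (a * x.2 + b * y.2) ^ 2 < 0.81
  have hb' : b = 1 - a := by linarith
  subst hb'
  have hq : (a * x.1 + (1 - a) * y.1) ^ 2 + (a * x.2 + (1 - a) * y.2) ^ 2 =
      a * (x.1 ^ 2 + x.2 ^ 2) + (1 - a) * (y.1 ^ 2 + y.2 ^ 2)
        - a * (1 - a) * ((x.1 - y.1) ^ 2 + (x.2 - y.2) ^ 2) := by ring
  rw [hq]
  have h3 : 0 ≤ a * (1 - a) * ((x.1 - y.1) ^ 2 + (x.2 - y.2) ^ 2) := by positivity
  have h4 : a * (x.1 ^ 2 + x.2 ^ 2) + (1 - a) * (y.1 ^ 2 + y.2 ^ 2) < 0.81 := by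
    rcases eq_or_lt_of_le ha with h0 | h0
    · rw [← h0]; linarith
    · nlinarith
  linarith

theorem isOpen_Disc9 : IsOpen Disc9 :=
  isOpen_lt (by fun_prop) continuous_const

/-- mean value inequality: a function vanishing at `0` with partial derivatives bounded by `δ` -/
theorem abs_le_of_partials {f : ℝ × ℝ → ℝ} (hf : Differentiable ℝ f) {δ : ℝ}
    (h0 : f 0 = 0) (hx : ∀ z ∈ Disc9, |dx f z| ≤ δ) (hp : ∀ z ∈ Disc9, |dp f z| ≤ δ)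
    {z : ℝ × ℝ} (hz : z ∈ Disc9) : |f z| ≤ δ * (|z.1| + |z.2|) := by
  have h0m : (0 : ℝ × ℝ) ∈ Disc9 := by
    change (0 : ℝ) ^ 2 + (0 : ℝ) ^ 2 < 0.81; norm_num
  -- one variable function `t ↦ f (t z)`
  have hd : ∀ t : ℝ, HasDerivAt (fun t : ℝ => f (t • z)) (fderiv ℝ f (t • z) z) t := by
    intro t
    have h1 : HasDerivAt (fun t : ℝ => t • z) z t := by
      simpa using (hasDerivAt_id t).smul_const z
    exact (hf (t • z)).hasFDerivAt.comp_hasDerivAt t h1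
  have hmem : ∀ t ∈ Icc (0 : ℝ) 1, t • z ∈ Disc9 := by
    intro t ht
    have := convex_Disc9 hz h0m ht.1 (by linarith [ht.2] : (0 : ℝ) ≤ 1 - t) (by ring)
    simpa using this
  have hb : ∀ t ∈ Ico (0 : ℝ) 1, ‖fderiv ℝ f (t • z) z‖ ≤ δ * (|z.1| + |z.2|) := by
    intro t ht
    have hm := hmem t ⟨ht.1, ht.2.le⟩
    rw [fderiv_eq_dx_dp, Real.norm_eq_abs]
    calc |z.1 * dx f (t • z) + z.2 * dp f (t • z)|
        ≤ |z.1 * dx f (t • z)| + |z.2 * dp f (t • z)| := abs_add_le _ _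
      _ = |z.1| * |dx f (t • z)| + |z.2| * |dp f (t • z)| := by rw [abs_mul, abs_mul]
      _ ≤ |z.1| * δ + |z.2| * δ := add_le_add
          (mul_le_mul_of_nonneg_left (hx _ hm) (abs_nonneg _))
          (mul_le_mul_of_nonneg_left (hp _ hm) (abs_nonneg _))
      _ = δ * (|z.1| + |z.2|) := by ring
  have h1 := norm_image_sub_le_of_norm_deriv_le_segment_01'
    (f := fun t : ℝ => f (t • z)) (f' := fun t => fderiv ℝ f (t • z) z)
    (fun t _ => (hd t).hasDerivWithinAt) hb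
  simpa [h0] using h1

/-- the closeness hypothesis -/
def CloseTo (δ : ℝ) (w : ℝ × ℝ → ℝ) : Prop :=
  ∀ a i : ℕ, a + i ≤ 10 → ∀ z : ℝ × ℝ, z.1 ^ 2 + z.2 ^ 2 < 0.81 →
      |dx^[a] (dp^[i] (fun z => w z - z.2 ^ 2 / 2)) z| ≤ δ

section close
variable {w : ℝ × ℝ → ℝ} {δ : ℝ} {z : ℝ × ℝ}

theorem dx_dp_sub (hw : ContDiff ℝ ∞ w) :
    dx (fun z => dp w z - z.2) = dp (dx w) := by
  funext z
  have h2 : ContDiff ℝ ∞ (fun z : ℝ × ℝ => z.2) := contDiff_snd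
  rw [dx_sub (diff_of_smooth (cd_dp hw) z) (diff_of_smooth h2 z), dx_snd, dx_dp_comm hw]
  simp

theorem dp_dp_sub (hw : ContDiff ℝ ∞ w) :
    dp (fun z => dp w z - z.2) = fun z => dp (dp w) z - 1 := by
  funext z
  have h2 : ContDiff ℝ ∞ (fun z : ℝ × ℝ => z.2) := contDiff_snd
  rw [dp_sub (diff_of_smooth (cd_dp hw) z) (diff_of_smooth h2 z), dp_snd]

theorem CloseTo.xx (h : CloseTo δ w) (hw : ContDiff ℝ ∞ w) (hz : z ∈ Disc9) :
    |dx (dx w) z| ≤ δ := by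
  have := h 2 0 (by norm_num) z hz
  simp only [Function.iterate_zero, id, Function.iterate_succ, Function.comp] at this
  rwa [dx_h hw] at this

theorem CloseTo.xp (h : CloseTo δ w) (hw : ContDiff ℝ ∞ w) (hz : z ∈ Disc9) :
    |dp (dx w) z| ≤ δ := by
  have := h 1 1 (by norm_num) z hz
  simp only [Function.iterate_zero, id, Function.iterate_succ, Function.comp] at this
  rw [dx_dp_comm (hw.sub (by fun_prop)), dx_h hw] at this
  exact this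

theorem CloseTo.x (h : CloseTo δ w) (hw : ContDiff ℝ ∞ w) (hz : z ∈ Disc9) : |dx w z| ≤ δ := by
  have := h 1 0 (by norm_num) z hz
  simp only [Function.iterate_zero, id, Function.iterate_succ, Function.comp] at this
  rwa [dx_h hw] at this

theorem CloseTo.p (h : CloseTo δ w) (hw : ContDiff ℝ ∞ w) (hz : z ∈ Disc9) :
    |dp w z - z.2| ≤ δ := by
  have := h 0 1 (by norm_num) z hz
  simp only [Function.iterate_zero, id, Function.iterate_succ, Function.comp] at this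
  rwa [dp_h hw] at this

theorem CloseTo.pp (h : CloseTo δ w) (hw : ContDiff ℝ ∞ w) (hz : z ∈ Disc9) :
    |dp (dp w) z - 1| ≤ δ := by
  have := h 0 2 (by norm_num) z hz
  simp only [Function.iterate_zero, id, Function.iterate_succ, Function.comp] at this
  rwa [dp_h hw, dp_dp_sub hw] at this

theorem CloseTo.abs_dx_le (h : CloseTo δ w) (hw : ContDiff ℝ ∞ w) (hc : dx w 0 = 0)
    (hz : z ∈ Disc9) : |dx w z| ≤ δ * (|z.1| + |z.2|) :=
  abs_le_of_partials (diff_of_smooth (cd_dx hw)) hc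
    (fun _ h' => h.xx hw h') (fun _ h' => h.xp hw h') hz

theorem CloseTo.abs_dp_sub_le (h : CloseTo δ w) (hw : ContDiff ℝ ∞ w) (hc : dp w 0 = 0)
    (hz : z ∈ Disc9) : |dp w z - z.2| ≤ δ * (|z.1| + |z.2|) := by
  refine abs_le_of_partials (f := fun z => dp w z - z.2) ?_ ?_ ?_ ?_ hz
  · exact diff_of_smooth ((cd_dp hw).sub contDiff_snd)
  · simp [hc]
  · intro y hy
    rw [dx_dp_sub hw]
    exact h.xp hw hy
  · intro y hy
    rw [dp_dp_sub hw]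
    exact h.pp hw hy

end close

/-- off the support of the bump the two operators agree -/
theorem opE_E1_eq_opE_E0 {ϖ ε κ b : ℝ} (hb : 0 < b) {w : ℝ × ℝ → ℝ} {z : ℝ × ℝ}
    (h : b / 2 < |z.1| ∨ b / 2 < |dp w z|) :
    opE ϖ (E1 ϖ ε κ b) w z = opE ϖ (E0 ϖ ε) w z := by
  have h' : 1 / 2 < |(z.1 / b, dp w z / b).1| ∨ 1 / 2 < |(z.1 / b, dp w z / b).2| := by
    simp only [abs_div, abs_of_pos hb]
    refine h.imp (fun h => ?_) (fun h => ?_) <;>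
    · rw [lt_div_iff₀ hb]; linarith
  have q0 : P1 (z.1 / b, dp w z / b) = 0 := P1_eq_zero (h'.imp le_of_lt le_of_lt)
  have qx : dx P1 (z.1 / b, dp w z / b) = 0 := P1_deriv_zero h' 1 0
  have qy : dp P1 (z.1 / b, dp w z / b) = 0 := P1_deriv_zero h' 0 1
  have qyy : dp (dp P1) (z.1 / b, dp w z / b) = 0 := P1_deriv_zero h' 0 2
  have e0 : E1 ϖ ε κ b (z.1, dp w z) = E0 ϖ ε (z.1, dp w z) := by
    rw [E1_eq]; simp only [q0]; ring
  have e1 : dx (E1 ϖ ε κ b) (z.1, dp w z) = dx (E0 ϖ ε) (z.1, dp w z) := by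
    rw [dx_E1, dx_E0]; simp only [qx]; ring
  have e2 : dp (E1 ϖ ε κ b) (z.1, dp w z) = dp (E0 ϖ ε) (z.1, dp w z) := by
    rw [dp_E1, dp_E0]; simp only [qy]; ring
  have e3 : dp (dp (E1 ϖ ε κ b)) (z.1, dp w z) = dp (dp (E0 ϖ ε)) (z.1, dp w z) := by
    rw [dp_dp_E1 _ _ _ hb.ne', dp_dp_E0]; simp only [qyy]; ring
  unfold opE
  rw [e0, e1, e2, e3]

private theorem amul {a b A B : ℝ} (ha : |a| ≤ A) (hb : |b| ≤ B) : |a * b| ≤ A * B := by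
  rw [abs_mul]
  exact mul_le_mul ha hb (abs_nonneg _) ((abs_nonneg _).trans ha)

private theorem aadd {a b A B : ℝ} (ha : |a| ≤ A) (hb : |b| ≤ B) : |a + b| ≤ A + B :=
  (abs_add_le _ _).trans (add_le_add ha hb)

private theorem src_bound {ϖ ε κ b p v wxp wpp qx qy qyy i1 r X Y K C : ℝ}
    (hϖ : 0 < ϖ) (hϖ1 : ϖ ≤ 1) (hε : 0 < ε) (hε1 : ε ≤ 1) (hκ : 0 < κ) (hκ1 : κ ≤ 1)
    (hb : 0 < b) (hb1 : b ≤ 1) (hp : |p| ≤ b) (hv : |v| ≤ b) (hwxp : |wxp| ≤ 1)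
    (hwpp : |wpp| ≤ 2) (hC : 1 ≤ C) (hqx : |qx| ≤ C) (hqy : |qy| ≤ C)
    (hqyy : |qyy| ≤ C) (b1 : |i1| ≤ 4) (br : |r| ≤ 16 * κ * b ^ 2)
    (hX : |X| ≤ 1) (hY : |Y| ≤ 2 * b) (hK : |K| ≤ 2) :
    |2 * (ϖ * (v * (wxp * (-(ε * (Y * r)) + -(κ * (b * (qy * i1)))))))
        + ϖ * (v * (-(ε * (X * r)) + -(κ * (b * (qx * i1)))))
        + -(ϖ * (p * (κ * (b * qy))))
        + wpp * ((1 - ϖ * p ^ 2) * (ϖ * (-(ε * (ε * (Y * (Y * r))))
            + -((2 * (ε * (Y * (κ * (b * qy)))) + κ * (b * (qy * (κ * (b * qy))))) * i1))))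
        + κ * (qyy * (wpp * (ϖ * (p * p))))
        + wpp * (ϖ * (v * (v * (ε * (K * r) + κ * (qyy * i1)))))|
      ≤ 400 * C ^ 2 * κ * b ^ 2 := by
  have aϖ : |ϖ| ≤ 1 := by rw [abs_of_pos hϖ]; exact hϖ1
  have aε : |ε| ≤ 1 := by rw [abs_of_pos hε]; exact hε1
  have aκ : |κ| ≤ κ := (abs_of_pos hκ).le
  have ab : |b| ≤ b := (abs_of_pos hb).le
  have hp2 : |1 - ϖ * p ^ 2| ≤ 1 := by
    have h1 : p ^ 2 ≤ 1 := by
      have : |p| ≤ 1 := hp.trans hb1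
      rw [← sq_abs]; exact pow_le_one₀ (abs_nonneg _) this
    have h2 : 0 ≤ ϖ * p ^ 2 := by positivity
    have h3 : ϖ * p ^ 2 ≤ 1 := mul_le_one₀ hϖ1 (sq_nonneg _) h1
    rw [abs_le]; constructor <;> linarith
  have neg' : ∀ {t A : ℝ}, |t| ≤ A → |-t| ≤ A := fun h => by rwa [abs_neg]
  have a2 : |(2 : ℝ)| ≤ 2 := by rw [abs_of_pos two_pos]
  have T1 := amul a2 (amul aϖ (amul hv (amul hwxp
    (aadd (neg' (amul aε (amul hY br))) (neg' (amul aκ (amul ab (amul hqy b1))))))))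
  have T2 := amul aϖ (amul hv
    (aadd (neg' (amul aε (amul hX br))) (neg' (amul aκ (amul ab (amul hqx b1))))))
  have T3 := neg' (amul aϖ (amul hp (amul aκ (amul ab hqy))))
  have T4 := amul hwpp (amul hp2 (amul aϖ (aadd
    (neg' (amul aε (amul aε (amul hY (amul hY br)))))
    (neg' (amul (aadd (amul a2 (amul aε (amul hY (amul aκ (amul ab hqy)))))
      (amul aκ (amul ab (amul hqy (amul aκ (amul ab hqy)))))) b1)))))
  have T5 := amul aκ (amul hqyy (amul hwpp (amul aϖ (amul hp hp))))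
  have T6 := amul hwpp (amul aϖ (amul hv (amul hv
    (aadd (amul aε (amul hK br)) (amul aκ (amul hqyy b1))))))
  refine (aadd (aadd (aadd (aadd (aadd T1 T2) T3) T4) T5) T6).trans ?_
  have hC2 : C ≤ C ^ 2 := by nlinarith
  have hb2 : b ^ 2 ≤ 1 := pow_le_one₀ hb.le hb1
  have hκC : κ * C ^ 2 ≤ C ^ 2 := by nlinarith [sq_nonneg C]
  have hs : 0 ≤ κ * b ^ 2 := by positivity
  have hin : 256 * b ^ 2 + 16 * b + 55 * C + 8 * (κ * C ^ 2) ≤ 400 * C ^ 2 := by nlinarith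
  have := mul_le_mul_of_nonneg_left hin hs
  refine le_trans (le_of_eq ?_) (this.trans (le_of_eq ?_)) <;> ring

/-- the algebra of `source` -/
private theorem src_alg {ϖ ε κ b p v wxp wpp q qx qy qyy e0 e1 X Y K C : ℝ}
    (hϖ : 0 < ϖ) (hϖ1 : ϖ ≤ 1) (hε : 0 < ε) (hε1 : ε ≤ 1) (hκ : 0 < κ) (hκ1 : κ ≤ 1)
    (hb : 0 < b) (hb1 : b ≤ 1) (hp : |p| ≤ b) (hv : |v| ≤ b) (hwxp : |wxp| ≤ 1)
    (hwpp : |wpp| ≤ 2) (hq : |q| ≤ 1) (hC : 1 ≤ C) (hqx : |qx| ≤ C) (hqy : |qy| ≤ C)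
    (hqyy : |qyy| ≤ C) (he0 : 1 / 2 ≤ e0) (he1 : 1 / 4 ≤ e1)
    (he : e1 = e0 - 2 * ϖ * κ * b ^ 2 * q)
    (hX : |X| ≤ 1) (hY : |Y| ≤ 2 * b) (hK : |K| ≤ 2) :
    |((- (-(2 * ϖ * ε) * Y) / e0 * v * wxp
        - (-(2 * ϖ * ε) * X) / (2 * e0) * v - (-(2 * ϖ * ε) * Y) / 2 * p
        + (ϖ⁻¹ * ((-(2 * ϖ * ε) * Y) ^ 2 / (4 * e0) - (-(2 * ϖ * ε) * K) / 2)
          * (1 - ϖ * p ^ 2)
        + (-(2 * ϖ * ε) * K) / (2 * e0) * v ^ 2) * wpp)
      - (- (-(2 * ϖ) * (ε * Y + κ * b * qy)) / e1 * v * wxp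
        - (-(2 * ϖ) * (ε * X + κ * b * qx)) / (2 * e1) * v
        - (-(2 * ϖ) * (ε * Y + κ * b * qy)) / 2 * p
        + (ϖ⁻¹ * ((-(2 * ϖ) * (ε * Y + κ * b * qy)) ^ 2 / (4 * e1)
          - (-(2 * ϖ) * (ε * K + κ * qyy)) / 2) * (1 - ϖ * p ^ 2)
        + (-(2 * ϖ) * (ε * K + κ * qyy)) / (2 * e1) * v ^ 2) * wpp))
      + κ * qyy * wpp| ≤ 400 * C ^ 2 * κ * b ^ 2 := by
  have he0' : 0 < e0 := by linarith
  have he1' : 0 < e1 := by linarith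
  obtain ⟨i0, hi0⟩ : ∃ i0, i0 = e0⁻¹ := ⟨_, rfl⟩
  obtain ⟨i1, hi1⟩ : ∃ i1, i1 = e1⁻¹ := ⟨_, rfl⟩
  have b0 : |i0| ≤ 2 := by
    rw [hi0, abs_of_pos (inv_pos.2 he0'), inv_le_comm₀ he0' two_pos]; linarith
  have b1 : |i1| ≤ 4 := by
    rw [hi1, abs_of_pos (inv_pos.2 he1'), inv_le_comm₀ he1' (by norm_num)]; linarith
  obtain ⟨r, hr⟩ : ∃ r, r = 2 * ϖ * κ * b ^ 2 * q * i0 * i1 := ⟨_, rfl⟩
  have hir : i0 = i1 - r := by
    have h1 : i0 - i1 = (e1 - e0) * (i0 * i1) := by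
      rw [hi0, hi1]; field_simp
    rw [he] at h1
    rw [hr]
    linear_combination h1
  have aϖ : |ϖ| ≤ 1 := by rw [abs_of_pos hϖ]; exact hϖ1
  have aκ : |κ| ≤ κ := (abs_of_pos hκ).le
  have a2 : |(2 : ℝ)| ≤ 2 := by rw [abs_of_pos two_pos]
  have br : |r| ≤ 16 * κ * b ^ 2 := by
    rw [hr]
    have := amul (amul (amul (amul (amul (amul a2 aϖ) aκ)
      (le_of_eq (abs_of_pos (pow_pos hb 2)))) hq) b0) b1
    refine this.trans (le_of_eq (by ring))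
  have key : ((- (-(2 * ϖ * ε) * Y) / e0 * v * wxp
        - (-(2 * ϖ * ε) * X) / (2 * e0) * v - (-(2 * ϖ * ε) * Y) / 2 * p
        + (ϖ⁻¹ * ((-(2 * ϖ * ε) * Y) ^ 2 / (4 * e0) - (-(2 * ϖ * ε) * K) / 2)
          * (1 - ϖ * p ^ 2)
        + (-(2 * ϖ * ε) * K) / (2 * e0) * v ^ 2) * wpp)
      - (- (-(2 * ϖ) * (ε * Y + κ * b * qy)) / e1 * v * wxp
        - (-(2 * ϖ) * (ε * X + κ * b * qx)) / (2 * e1) * v
        - (-(2 * ϖ) * (ε * Y + κ * b * qy)) / 2 * p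
        + (ϖ⁻¹ * ((-(2 * ϖ) * (ε * Y + κ * b * qy)) ^ 2 / (4 * e1)
          - (-(2 * ϖ) * (ε * K + κ * qyy)) / 2) * (1 - ϖ * p ^ 2)
        + (-(2 * ϖ) * (ε * K + κ * qyy)) / (2 * e1) * v ^ 2) * wpp))
      + κ * qyy * wpp
      = 2 * (ϖ * (v * (wxp * (-(ε * (Y * r)) + -(κ * (b * (qy * i1)))))))
        + ϖ * (v * (-(ε * (X * r)) + -(κ * (b * (qx * i1)))))
        + -(ϖ * (p * (κ * (b * qy))))
        + wpp * ((1 - ϖ * p ^ 2) * (ϖ * (-(ε * (ε * (Y * (Y * r))))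
            + -((2 * (ε * (Y * (κ * (b * qy)))) + κ * (b * (qy * (κ * (b * qy))))) * i1))))
        + κ * (qyy * (wpp * (ϖ * (p * p))))
        + wpp * (ϖ * (v * (v * (ε * (K * r) + κ * (qyy * i1))))) := by
    have h0 : ∀ t : ℝ, t / e0 = t * i0 := fun t => by rw [hi0]; exact div_eq_mul_inv _ _
    have h1 : ∀ t : ℝ, t / e1 = t * i1 := fun t => by rw [hi1]; exact div_eq_mul_inv _ _
    have h02 : ∀ t : ℝ, t / (2 * e0) = t * i0 / 2 := fun t => by rw [hi0]; field_simp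
    have h12 : ∀ t : ℝ, t / (2 * e1) = t * i1 / 2 := fun t => by rw [hi1]; field_simp
    have h04 : ∀ t : ℝ, t / (4 * e0) = t * i0 / 4 := fun t => by rw [hi0]; field_simp
    have h14 : ∀ t : ℝ, t / (4 * e1) = t * i1 / 4 := fun t => by rw [hi1]; field_simp
    rw [h0, h1, h02, h12, h04, h14, h02, h12, hir]
    field_simp
    ring
  rw [key]
  exact src_bound hϖ hϖ1 hε hε1 hκ hκ1 hb hb1 hp hv hwxp hwpp hC hqx hqy hqyy b1 br hX hY hK

/-- The source: the unbumped operator applied to `w` vanishes off `|x| ≤ b/2, |p| ≤ b`, and there it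
is `- κ ∂_y² P1 (x/b, w_p/b) w_pp + O(κ b²)`.  (`|w_p - p| ≤ δ (|x| + |p|)`, `|w_x| ≤ δ (|x| + |p|)`
by `crit` and `close`.) -/
theorem source : ∃ δ₀ : ℝ, 0 < δ₀ ∧ ∃ ε₀ : ℝ, 0 < ε₀ ∧ ∃ C : ℝ, 0 < C ∧ ∀ (n : ℕ) (δ : ℝ), δ ≤ δ₀ →
    ∀ S : BSol n δ, S.ε ≤ ε₀ → ∀ z : ℝ × ℝ, z.1 ^ 2 + z.2 ^ 2 < 0.81 →
    ((S.b / 2 < |z.1| ∨ S.b < |z.2|) → opE S.ϖ (E0 S.ϖ S.ε) S.w z = 0) ∧
    ((|z.1| ≤ S.b ∧ |z.2| ≤ S.b) → |opE S.ϖ (E0 S.ϖ S.ε) S.w z
      + S.κ * dp (dp P1) (z.1 / S.b, dp S.w z / S.b) * dp (dp S.w) z| ≤ C * S.κ * S.b ^ 2) := by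
  obtain ⟨Cx, hCx⟩ := P1_deriv_bdd 1 0
  obtain ⟨Cy, hCy⟩ := P1_deriv_bdd 0 1
  obtain ⟨Cyy, hCyy⟩ := P1_deriv_bdd 0 2
  set C := max 1 (max Cx (max Cy Cyy)) with hC
  have hC1 : 1 ≤ C := le_max_left _ _
  have hx : ∀ z, |dx P1 z| ≤ C := fun z =>
    (hCx z).trans ((le_max_left _ _).trans (le_max_right _ _))
  have hy : ∀ z, |dp P1 z| ≤ C := fun z =>
    (hCy z).trans ((le_max_left _ _).trans ((le_max_right _ _).trans (le_max_right _ _)))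
  have hyy : ∀ z, |dp (dp P1) z| ≤ C := fun z =>
    (hCyy z).trans ((le_max_right _ _).trans ((le_max_right _ _).trans (le_max_right _ _)))
  refine ⟨1 / 10, by norm_num, 1, one_pos, 400 * C ^ 2, by positivity, ?_⟩
  intro n δ hδ S _ z hz
  have hδ0 : 0 < δ := S.ϖ_pos.trans_le S.ϖ_le
  have hε := S.ε_pos
  have hε1 : S.ε ≤ 1 / 100 := S.ε_le
  have hb : 0 < S.b := (pow_pos hε 4).trans_le S.b_ge
  have hb1 : S.b ≤ 1 / 1000000 := by
    refine S.b_le.trans ?_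
    calc S.ε ^ 3 ≤ (1 / 100) ^ 3 := pow_le_pow_left₀ hε.le hε1 3
      _ = _ := by norm_num
  have hcl : CloseTo δ S.w := S.close
  have hw := S.smooth
  have hvx := hcl.abs_dx_le hw S.crit.1 hz
  have hwp := hcl.abs_dp_sub_le hw S.crit.2 hz
  constructor
  · intro h
    rw [← opE_E1_eq_opE_E0 (κ := S.κ) hb]
    · exact S.pdeB z hz
    · rcases le_or_gt |z.1| (S.b / 2) with h1 | h1
      · right
        rcases h with h | h
        · exact absurd h (not_lt.2 h1)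
        · have h2 := abs_sub_abs_le_abs_sub z.2 (dp S.w z)
          rw [abs_sub_comm] at h2
          have h3 : δ * (|z.1| + |z.2|) ≤ 1 / 10 * (|z.1| + |z.2|) :=
            mul_le_mul_of_nonneg_right hδ (by positivity)
          linarith
      · left; exact h1
  · rintro ⟨h1, h2⟩
    have hsum : δ * (|z.1| + |z.2|) ≤ 1 / 10 * (S.b + S.b) :=
      mul_le_mul hδ (add_le_add h1 h2) (by positivity) (by norm_num)
    have hy1 : |dp S.w z| ≤ 1.2 * S.b := by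
      have := abs_add_le (dp S.w z - z.2) z.2
      rw [sub_add_cancel] at this
      linarith
    have hB := S.pdeB z hz
    have e0 := sol_one_sub S.toSol z
    have hκ : 0 < S.κ := (pow_pos hε _).trans_le S.κ_ge
    have hκ1 : S.κ ≤ 1 / 10000 := by
      refine S.κ_le.trans ?_
      calc S.ε ^ 2 ≤ (1 / 100) ^ 2 := pow_le_pow_left₀ hε.le hε1 2
        _ = _ := by norm_num
    have hϖ := S.ϖ_pos
    have hϖ1 := S.ϖ_le_one
    have hq0 := P1_nonneg (z.1 / S.b, dp S.w z / S.b)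
    have hq1 := P1_le_one (z.1 / S.b, dp S.w z / S.b)
    have hE1v : E1 S.ϖ S.ε S.κ S.b (z.1, dp S.w z) = E0 S.ϖ S.ε (z.1, dp S.w z)
        - 2 * S.ϖ * S.κ * S.b ^ 2 * P1 (z.1 / S.b, dp S.w z / S.b) := by
      rw [E1_eq]; ring
    have e0' : 1 / 2 ≤ E0 S.ϖ S.ε (z.1, dp S.w z) := e0
    have e1' : 1 / 4 ≤ E1 S.ϖ S.ε S.κ S.b (z.1, dp S.w z) := by
      rw [hE1v]
      have h3 : 2 * S.ϖ * S.κ * S.b ^ 2 * P1 (z.1 / S.b, dp S.w z / S.b) ≤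
          2 * 1 * (1 / 10000) * 1 ^ 2 * 1 := by
        have hb1' : S.b ≤ 1 := by linarith
        gcongr
      linarith
    have hz1 : |z.1| ≤ 1 := by linarith
    have hx2 : z.1 ^ 2 ≤ 1 / 4 := by
      rw [← sq_abs]
      calc |z.1| ^ 2 ≤ (1 / 2) ^ 2 := pow_le_pow_left₀ (abs_nonneg _) (by linarith) 2
        _ = _ := by norm_num
    have hy2 : dp S.w z ^ 2 ≤ 1 / 4 := by
      rw [← sq_abs]
      calc |dp S.w z| ^ 2 ≤ (1 / 2) ^ 2 := pow_le_pow_left₀ (abs_nonneg _) (by linarith) 2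
        _ = _ := by norm_num
    have hX : |Px z.1 (dp S.w z)| ≤ 1 := by
      unfold Px
      rw [abs_mul, abs_of_nonneg (sq_nonneg (dp S.w z))]
      calc |z.1| * dp S.w z ^ 2 ≤ 1 * 1 := mul_le_mul hz1 (by linarith) (sq_nonneg _) zero_le_one
        _ = 1 := by norm_num
    have hY : |Py z.1 (dp S.w z)| ≤ 2 * S.b := by
      have : Py z.1 (dp S.w z) = (z.1 ^ 2 - 1 / 4 + dp S.w z ^ 2 / 3) * dp S.w z := by
        unfold Py; ring
      rw [this, abs_mul]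
      have h4 : |z.1 ^ 2 - 1 / 4 + dp S.w z ^ 2 / 3| ≤ 1 := by
        rw [abs_le]; constructor <;> nlinarith [sq_nonneg z.1, sq_nonneg (dp S.w z)]
      calc _ ≤ 1 * (1.2 * S.b) := mul_le_mul h4 hy1 (abs_nonneg _) zero_le_one
        _ ≤ 2 * S.b := by linarith
    have hK : |kk z.1 (dp S.w z)| ≤ 2 := by
      unfold kk
      rw [abs_le]; constructor <;> nlinarith [sq_nonneg z.1, sq_nonneg (dp S.w z)]
    have hwxp : |dp (dx S.w) z| ≤ 1 := (hcl.xp hw hz).trans (by linarith)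
    have hwpp : |dp (dp S.w) z| ≤ 2 := by
      have := abs_add_le (dp (dp S.w) z - 1) 1
      rw [sub_add_cancel, abs_one] at this
      linarith [hcl.pp hw hz]
    have hv : |dx S.w z| ≤ S.b := by linarith
    have main := src_alg (ϖ := S.ϖ) (ε := S.ε) (κ := S.κ) (b := S.b) (p := z.2) (v := dx S.w z)
      (wxp := dp (dx S.w) z) (wpp := dp (dp S.w) z) (C := C) hϖ hϖ1 hε (by linarith) hκ
      (by linarith) hb (by linarith) h2 hv hwxp hwpp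
      (by rw [abs_of_nonneg hq0]; exact hq1) hC1 (hx (z.1 / S.b, dp S.w z / S.b))
      (hy (z.1 / S.b, dp S.w z / S.b)) (hyy (z.1 / S.b, dp S.w z / S.b)) e0' e1' hE1v hX hY hK
    refine le_trans (le_of_eq ?_) main
    congr 1
    unfold opE at hB ⊢
    rw [dp_dp_E1 _ _ _ hb.ne', dp_E1, dx_E1] at hB
    rw [dp_dp_E0, dp_E0, dx_E0]
    simp only at hB ⊢
    linear_combination hB

/-- bumped solutions from their data: the `pde` field follows from `pdeB`, because outside the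
diamond `|p| > hh ε b 0 x` the point `(x, w_p)` is not in the support of the bump -/
theorem exists_bsol {n : ℕ} {δ ε ϖ b κ : ℝ} {w : ℝ × ℝ → ℝ} (hδ : δ ≤ 1 / 10) (ε_pos : 0 < ε)
    (ε_le : ε ≤ 1 / 100) (ϖ_pos : 0 < ϖ) (ϖ_le : ϖ ≤ δ) (ϖ_le_one : ϖ ≤ 1) (b_ge : ε ^ 4 ≤ b)
    (b_le : b ≤ ε ^ 3) (smooth : ContDiff ℝ ∞ w)
    (bdd : ∀ z, |2 * ϖ * ε * P0 z.1 (dp w z)| ≤ 1 / 2)
    (close : ∀ a i : ℕ, a + i ≤ 10 → ∀ z : ℝ × ℝ, z.1 ^ 2 + z.2 ^ 2 < 0.81 →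
      |dx^[a] (dp^[i] (fun z => w z - z.2 ^ 2 / 2)) z| ≤ δ)
    (κ_ge : ε ^ (2 * n) ≤ κ) (κ_le : κ ≤ ε ^ 2)
    (pdeB : ∀ z : ℝ × ℝ, z.1 ^ 2 + z.2 ^ 2 < 0.81 → opE ϖ (E1 ϖ ε κ b) w z = 0)
    (crit : dx w 0 = 0 ∧ dp w 0 = 0) : ∃ S : BSol n δ, S.ε = ε := by
  have hb : 0 < b := (pow_pos ε_pos 4).trans_le b_ge
  have hcl : CloseTo δ w := close
  have hpde : ∀ z : ℝ × ℝ, z.1 ^ 2 + z.2 ^ 2 < 0.81 → hh ε b 0 z.1 < |z.2| →
      dx (dx w) z + G1 ϖ ε w z * dp (dx w) z + G2 ϖ ε w z * dp (dp w) z + G3 ϖ ε w z = 0 := by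
    intro z hz hz2
    have hE : 1 / 2 ≤ E0 ϖ ε (z.1, dp w z) := by
      have := (abs_le.1 (bdd z)).2
      change 1 / 2 ≤ 1 - 2 * ϖ * ε * P0 z.1 (dp w z)
      linarith
    rw [← opE_E0 ϖ_pos w z (by linarith : (0 : ℝ) < _).ne', ← opE_E1_eq_opE_E0 (κ := κ) hb]
    · exact pdeB z hz
    · rcases le_or_gt |z.1| (b / 2) with h1 | h1
      · right
        have hwp := hcl.abs_dp_sub_le smooth crit.2 hz
        have h2 := abs_sub_abs_le_abs_sub z.2 (dp w z)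
        rw [abs_sub_comm] at h2
        have h3 : δ * (|z.1| + |z.2|) ≤ 1 / 10 * (|z.1| + |z.2|) :=
          mul_le_mul_of_nonneg_right hδ (by positivity)
        have h4 : √ε ≤ 1 := by
          rw [Real.sqrt_le_one]; linarith
        have h5 : √(z.1 ^ 2 + b ^ 2) ≤ 2 * b := by
          rw [Real.sqrt_le_left (by positivity)]
          have : z.1 ^ 2 ≤ (b / 2) ^ 2 := by
            rw [← sq_abs]; exact pow_le_pow_left₀ (abs_nonneg _) h1 2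
          nlinarith
        have h6 : √ε * √(z.1 ^ 2 + b ^ 2) ≤ 1 * (2 * b) :=
          mul_le_mul h4 h5 (Real.sqrt_nonneg _) zero_le_one
        unfold hh at hz2
        linarith
      · left; exact h1
  exact ⟨⟨⟨ε, ϖ, b, w, ε_pos, ε_le, ϖ_pos, ϖ_le, ϖ_le_one, b_ge, b_le, smooth, bdd, close, hpde⟩,
    κ, κ_ge, κ_le, pdeB, crit⟩, rfl⟩

end Crest.Agent.Iso
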