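import Crest.Agent.Iso.BDef

/-!
# Row 220, part B: the circle argument
-/

set_option autoImplicit false

open scoped ContDiff
open MeasureTheory Set

namespace Crest.Agent.Iso

private theorem circ_norm_e1 : ‖e1‖ = 1 := by
  simp [e1, EuclideanSpace.norm_eq, Fin.sum_univ_two]

private theorem circ_inner_e1 : inner ℝ e1 e1 = (1 : ℝ) := by
  rw [real_inner_self_eq_norm_sq, circ_norm_e1, one_pow]

private noncomputable def circZ (c : E2) (R θ : ℝ) : E2 :=
  c + (R * Real.cos θ) • e1 + (R * Real.sin θ) • (!₂[0, 1] : E2)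

private theorem circZ_mem (c : E2) {R : ℝ} (hR : 0 < R) (θ : ℝ) :
    circZ c R θ ∈ Metric.sphere c R := by
  rw [mem_sphere_iff_norm]
  have : circZ c R θ - c = (R * Real.cos θ) • e1 + (R * Real.sin θ) • (!₂[0, 1] : E2) := by
    unfold circZ; abel
  rw [this, EuclideanSpace.norm_eq, Fin.sum_univ_two]
  simp only [e1, PiLp.add_apply, PiLp.smul_apply, smul_eq_mul, Real.norm_eq_abs, sq_abs]
  simp only [Matrix.cons_val_zero, Matrix.cons_val_one, mul_one, mul_zero, add_zero, zero_add]
  have h : (R * Real.cos θ) ^ 2 + (R * Real.sin θ) ^ 2 = R ^ 2 := by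
    have := Real.sin_sq_add_cos_sq θ
    nlinarith [this]
  rw [h]
  exact Real.sqrt_sq hR.le

private theorem circZ_deriv (c : E2) (R θ : ℝ) :
    HasDerivAt (circZ c R) ((R * (-Real.sin θ)) • e1 + (R * Real.cos θ) • (!₂[0, 1] : E2)) θ := by
  unfold circZ
  have h1 : HasDerivAt (fun θ : ℝ => (R * Real.cos θ) • e1) ((R * (-Real.sin θ)) • e1) θ :=
    ((Real.hasDerivAt_cos θ).const_mul R).smul_const e1
  have h2 : HasDerivAt (fun θ : ℝ => (R * Real.sin θ) • (!₂[0, 1] : E2))
      ((R * Real.cos θ) • (!₂[0, 1] : E2)) θ :=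
    ((Real.hasDerivAt_sin θ).const_mul R).smul_const _
  exact (h1.const_add c).add h2

/-- If `D²F = 0` on a circle then `DF = A` is constant on the circle, `A` is a linear isometry, so that
`‖F(c + R e₁) - F(c - R e₁)‖ = 2R`; but the horizontal diameter is mapped to a curve of length
`< 2R`. -/
theorem circle {F : E2 → E3} (hF : ContDiff ℝ ∞ F) {g : Met} (hg : ContDiff ℝ ∞ g)
    {V : Set E2} (hV : IsOpen V) {c : E2} {R : ℝ} (hR : 0 < R) (hc : Metric.closedBall c R ⊆ V)
    (hiso : ∀ x ∈ V, ∀ v w : E2, inner ℝ (fderiv ℝ F x v) (fderiv ℝ F x w) = g x v w)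
    (h0 : ∀ z ∈ Metric.sphere c R, ∀ v w : E2, g z v w = inner ℝ v w)
    (h1 : ∀ x ∈ Metric.closedBall c R, g x e1 e1 ≤ 1) (h2 : g c e1 e1 < 1) :
    ∃ z ∈ Metric.sphere c R, fderiv ℝ (fderiv ℝ F) z ≠ 0 := by
  by_contra hcon
  push Not at hcon
  have hFd : Differentiable ℝ F := hF.differentiable (by simp)
  have hDF : ContDiff ℝ ∞ (fderiv ℝ F) := hF.fderiv_right (m := ∞) (by simp)
  have hDFd : Differentiable ℝ (fderiv ℝ F) := hDF.differentiable (by simp)
  -- `DF` is constant along the circle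
  set A := fderiv ℝ F (circZ c R 0) with hA
  have hconst : ∀ θ, fderiv ℝ F (circZ c R θ) = A := by
    intro θ
    have hd : ∀ t, HasDerivAt (fun t => fderiv ℝ F (circZ c R t)) 0 t := by
      intro t
      have h := (hDFd (circZ c R t)).hasFDerivAt.comp_hasDerivAt t (circZ_deriv c R t)
      rw [hcon _ (circZ_mem c hR t), _root_.zero_apply] at h
      exact h
    exact is_const_of_deriv_eq_zero (fun t => (hd t).differentiableAt) (fun t => (hd t).deriv) θ 0
  -- `F - A` is constant along the circle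
  have hconst2 : ∀ θ, F (circZ c R θ) - A (circZ c R θ) = F (circZ c R 0) - A (circZ c R 0) := by
    intro θ
    have hd : ∀ t, HasDerivAt (fun t => F (circZ c R t) - A (circZ c R t)) 0 t := by
      intro t
      have h := ((hFd (circZ c R t)).hasFDerivAt.comp_hasDerivAt t (circZ_deriv c R t)).sub
        (A.hasFDerivAt.comp_hasDerivAt t (circZ_deriv c R t))
      rw [hconst t, sub_self] at h
      exact h
    exact is_const_of_deriv_eq_zero (fun t => (hd t).differentiableAt) (fun t => (hd t).deriv) θ 0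
  have hz0 : circZ c R 0 = c + R • e1 := by simp [circZ]
  have hzpi : circZ c R Real.pi = c + (-R) • e1 := by simp [circZ]
  have hw : F (c + R • e1) - F (c + (-R) • e1) = (2 * R) • A e1 := by
    have h := hconst2 Real.pi
    rw [hz0, hzpi] at h
    have h' : F (c + R • e1) - F (c + (-R) • e1) = A (c + R • e1) - A (c + (-R) • e1) := by
      have h3 : F (c + R • e1) = F (c + (-R) • e1) - A (c + (-R) • e1) + A (c + R • e1) := by
        rw [h]; abel
      rw [h3]; abel
    rw [h', ← map_sub]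
    have : c + R • e1 - (c + (-R) • e1) = (2 * R) • e1 := by
      rw [add_sub_add_left_eq_sub, ← sub_smul]; congr 1; ring
    rw [this, map_smul]
  have hcirc0 := circZ_mem c hR 0
  have hnA : ‖A e1‖ = 1 := by
    have h := hiso _ (hc (Metric.sphere_subset_closedBall hcirc0)) e1 e1
    rw [h0 _ hcirc0, circ_inner_e1, ← hA, real_inner_self_eq_norm_sq] at h
    nlinarith [norm_nonneg (A e1)]
  set w := F (c + R • e1) - F (c + (-R) • e1) with hwdef
  have hnw : ‖w‖ = 2 * R := by
    rw [hw, norm_smul, hnA, mul_one, Real.norm_eq_abs, abs_of_pos (by linarith)]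
  -- the horizontal diameter
  have hγ : ∀ t : ℝ, HasDerivAt (fun t : ℝ => F (c + t • e1)) (fderiv ℝ F (c + t • e1) e1) t := by
    intro t
    have hl : HasDerivAt (fun t : ℝ => c + t • e1) e1 t := by
      simpa using ((hasDerivAt_id t).smul_const e1).const_add c
    exact (hFd (c + t • e1)).hasFDerivAt.comp_hasDerivAt t hl
  have hφ : ∀ t : ℝ, HasDerivAt (fun t : ℝ => inner ℝ w (F (c + t • e1)) - 2 * R * t)
      (inner ℝ w (fderiv ℝ F (c + t • e1) e1) - 2 * R) t := by
    intro t
    have h := ((hasDerivAt_const t w).inner ℝ (hγ t)).sub ((hasDerivAt_id t).const_mul (2 * R))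
    rw [inner_zero_left, add_zero, mul_one] at h
    exact h
  have hmem : ∀ t ∈ Icc (-R) R, c + t • e1 ∈ Metric.closedBall c R := by
    intro t ht
    rw [mem_closedBall_iff_norm, add_sub_cancel_left, norm_smul, circ_norm_e1, mul_one,
      Real.norm_eq_abs, abs_le]
    exact ht
  have hspeed : ∀ t ∈ Icc (-R) R, ‖fderiv ℝ F (c + t • e1) e1‖ ^ 2 = g (c + t • e1) e1 e1 := by
    intro t ht
    rw [← real_inner_self_eq_norm_sq]
    exact hiso _ (hc (hmem t ht)) e1 e1
  have hle : ∀ t ∈ Icc (-R) R, inner ℝ w (fderiv ℝ F (c + t • e1) e1) - 2 * R ≤ 0 := by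
    intro t ht
    have h3 := real_inner_le_norm w (fderiv ℝ F (c + t • e1) e1)
    have h4 := hspeed t ht
    have h5 := h1 _ (hmem t ht)
    have h6 : ‖fderiv ℝ F (c + t • e1) e1‖ ≤ 1 := by
      nlinarith [norm_nonneg (fderiv ℝ F (c + t • e1) e1)]
    rw [hnw] at h3
    nlinarith
  have hlt : inner ℝ w (fderiv ℝ F (c + (0 : ℝ) • e1) e1) - 2 * R < 0 := by
    have h3 := real_inner_le_norm w (fderiv ℝ F (c + (0 : ℝ) • e1) e1)
    have h4 := hspeed 0 ⟨by linarith, by linarith⟩
    have h5 : g (c + (0 : ℝ) • e1) e1 e1 < 1 := by simpa using h2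
    have h6 : ‖fderiv ℝ F (c + (0 : ℝ) • e1) e1‖ < 1 := by
      nlinarith [norm_nonneg (fderiv ℝ F (c + (0 : ℝ) • e1) e1)]
    rw [hnw] at h3
    nlinarith
  have hanti : AntitoneOn (fun t : ℝ => inner ℝ w (F (c + t • e1)) - 2 * R * t) (Icc (-R) R) := by
    apply antitoneOn_of_deriv_nonpos (convex_Icc _ _)
    · exact fun t _ => (hφ t).continuousAt.continuousWithinAt
    · exact fun t _ => (hφ t).differentiableAt.differentiableWithinAt
    · intro t ht
      rw [(hφ t).deriv]
      exact hle t (interior_subset ht)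
  have hends : inner ℝ w (F (c + R • e1)) - 2 * R * R
      = inner ℝ w (F (c + (-R) • e1)) - 2 * R * (-R) := by
    have h3 : inner ℝ w (F (c + R • e1)) - inner ℝ w (F (c + (-R) • e1)) = (2 * R) ^ 2 := by
      rw [← inner_sub_right, ← hwdef, real_inner_self_eq_norm_sq, hnw]
    linarith
  have hcst : ∀ t ∈ Icc (-R) R, inner ℝ w (F (c + t • e1)) - 2 * R * t
      = inner ℝ w (F (c + R • e1)) - 2 * R * R := by
    intro t ht
    apply le_antisymm
    · rw [hends]
      exact hanti (left_mem_Icc.2 (by linarith)) ht ht.1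
    · exact hanti ht (right_mem_Icc.2 (by linarith)) ht.2
  have hev : (fun t : ℝ => inner ℝ w (F (c + t • e1)) - 2 * R * t) =ᶠ[nhds 0]
      fun _ => inner ℝ w (F (c + R • e1)) - 2 * R * R := by
    filter_upwards [Icc_mem_nhds (show -R < 0 by linarith) (show 0 < R by linarith)] with t ht
    exact hcst t ht
  have hz := (hφ 0).congr_of_eventuallyEq hev.symm
  have := hz.unique (hasDerivAt_const 0 _)
  linarith

end Crest.Agent.Iso
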