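import Crest.Agent.Iso.CoefDef

/-!
# Row 220: algebra of coefficient functions
-/

set_option autoImplicit false

open scoped ContDiff
open MeasureTheory Set

namespace Crest.Agent.Iso

section
variable {ι : Type*} {R : ι → ℝ} {D : ι → Set (ℝ × ℝ)} {w : ι → ℝ × ℝ → ℝ}

theorem Coef.add (hD : Dom R D) {N : ℕ} {f fW fV g gW gV : ι → ℝ × ℝ → ℝ}
    (hf : Coef R D w N f fW fV) (hg : Coef R D w N g gW gV) :
    Coef R D w N (fun t z => f t z + g t z) (fun t z => fW t z + gW t z)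
      (fun t z => fV t z + gV t z) := by
  obtain ⟨fP, hfP, hfc⟩ := hf.chain
  obtain ⟨gP, hgP, hgc⟩ := hg.chain
  refine ⟨hf.tame.add hD hg.tame, hf.tameW.add hD hg.tameW, hf.tameV.add hD hg.tameV,
    fun t z => fP t z + gP t z, hfP.add hD hgP, fun t z hz => ?_⟩
  rw [dp_add (diff_of_smooth (hf.tame.smooth t) z) (diff_of_smooth (hg.tame.smooth t) z),
    hfc t z hz, hgc t z hz]
  ring

theorem Coef.mul (hD : Dom R D) {N : ℕ} {f fW fV g gW gV : ι → ℝ × ℝ → ℝ}
    (hf : Coef R D w N f fW fV) (hg : Coef R D w N g gW gV) :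
    Coef R D w N (fun t z => f t z * g t z) (fun t z => fW t z * g t z + f t z * gW t z)
      (fun t z => fV t z * g t z + f t z * gV t z) := by
  obtain ⟨fP, hfP, hfc⟩ := hf.chain
  obtain ⟨gP, hgP, hgc⟩ := hg.chain
  refine ⟨hf.tame.mul hD (by norm_num) hg.tame,
    (hf.tameW.mul hD (by norm_num) hg.tame).add hD (hf.tame.mul hD (by norm_num) hg.tameW),
    (hf.tameV.mul hD (by norm_num) hg.tame).add hD (hf.tame.mul hD (by norm_num) hg.tameV),
    fun t z => fP t z * g t z + f t z * gP t z,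
    (hfP.mul hD (by norm_num) hg.tame).add hD (hf.tame.mul hD (by norm_num) hgP),
    fun t z hz => ?_⟩
  rw [dp_mul (diff_of_smooth (hf.tame.smooth t) z) (diff_of_smooth (hg.tame.smooth t) z),
    hfc t z hz, hgc t z hz]
  ring

theorem Coef.const_mul (hD : Dom R D) {N : ℕ} {g gW gV : ι → ℝ × ℝ → ℝ} (c : ι → ℝ)
    (hc : ∃ M : ℝ, ∀ t, |c t| ≤ M) (hg : Coef R D w N g gW gV) :
    Coef R D w N (fun t z => c t * g t z) (fun t z => c t * gW t z) (fun t z => c t * gV t z) := by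
  obtain ⟨gP, hgP, hgc⟩ := hg.chain
  refine ⟨hg.tame.const_mul hD c hc, hg.tameW.const_mul hD c hc, hg.tameV.const_mul hD c hc,
    fun t z => c t * gP t z, hgP.const_mul hD c hc, fun t z hz => ?_⟩
  rw [dp_mul (differentiableAt_const _) (diff_of_smooth (hg.tame.smooth t) z), dp_const,
    hgc t z hz]
  ring

theorem Coef.tame_zero (hD : Dom R D) {N : ℕ} :
    Tame R D 1 N (fun (_ : ι) (_ : ℝ × ℝ) => (0 : ℝ)) :=
  Tame.const hD (fun _ => 0) ⟨0, by simp⟩

theorem Coef.tame_one (hD : Dom R D) {N : ℕ} :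
    Tame R D 1 N (fun (_ : ι) (_ : ℝ × ℝ) => (1 : ℝ)) :=
  Tame.const hD (fun _ => 1) ⟨1, by simp⟩

theorem Coef.const (hD : Dom R D) {N : ℕ} (c : ι → ℝ) (hc : ∃ M : ℝ, ∀ t, |c t| ≤ M) :
    Coef R D w N (fun t _ => c t) (fun _ _ => 0) (fun _ _ => 0) := by
  refine ⟨Tame.const hD c hc, Coef.tame_zero hD, Coef.tame_zero hD, fun _ _ => 0,
    Coef.tame_zero hD, fun t z _ => ?_⟩
  rw [dp_const]
  ring

theorem Coef.fst (hD : Dom R D) {N : ℕ} :
    Coef R D w N (fun _ z => z.1) (fun _ _ => 0) (fun _ _ => 0) := by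
  refine ⟨Tame.fst hD, Coef.tame_zero hD, Coef.tame_zero hD, fun _ _ => 0,
    Coef.tame_zero hD, fun t z _ => ?_⟩
  rw [dp_fst]
  ring

theorem Coef.snd (hD : Dom R D) {N : ℕ} :
    Coef R D w N (fun _ z => z.2) (fun _ _ => 0) (fun _ _ => 0) := by
  refine ⟨Tame.snd hD, Coef.tame_zero hD, Coef.tame_zero hD, fun _ _ => 1,
    Coef.tame_one hD, fun t z _ => ?_⟩
  rw [dp_snd]
  ring

/-- the variable `w_p` -/
theorem Coef.varW (hD : Dom R D) {N : ℕ} (hw : Tame R D 1 N (fun t => dp (w t))) :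
    Coef R D w N (fun t => dp (w t)) (fun _ _ => 1) (fun _ _ => 0) := by
  refine ⟨hw, Coef.tame_one hD, Coef.tame_zero hD, fun _ _ => 0,
    Coef.tame_zero hD, fun t z _ => ?_⟩
  ring

/-- the variable `w_x` -/
theorem Coef.varV (hD : Dom R D) {N : ℕ} (hv : Tame R D 1 N (fun t => dx (w t))) :
    Coef R D w N (fun t => dx (w t)) (fun _ _ => 0) (fun _ _ => 1) := by
  refine ⟨hv, Coef.tame_zero hD, Coef.tame_one hD, fun _ _ => 0,
    Coef.tame_zero hD, fun t z _ => ?_⟩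
  ring

/-- inverse `d = 1/a` -/
theorem Coef.inv (hD : Dom R D) {N : ℕ} {a aW aV d : ι → ℝ × ℝ → ℝ}
    (ha : Coef R D w N a aW aV)
    (hd : ∀ t, ContDiff ℝ ∞ (d t)) (hb : ∀ t, ∀ z ∈ D t, |d t z| ≤ 2)
    (had : ∀ t, ∀ z ∈ D t, a t z * d t z = 1) :
    Coef R D w N d (fun t z => - (d t z) ^ 2 * aW t z) (fun t z => - (d t z) ^ 2 * aV t z) := by
  obtain ⟨aP, haP, hac⟩ := ha.chain
  have hdt : Tame R D 1 N d := Tame.inv hD ha.tame hd hb had
  have hm : ∀ {g : ι → ℝ × ℝ → ℝ}, Tame R D 1 N g →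
      Tame R D 1 N (fun t z => - (d t z) ^ 2 * g t z) := by
    intro g hg
    have h1 := ((hdt.pow hD (by norm_num) 2).mul hD (by norm_num) hg).const_mul hD
      (fun _ => -1) ⟨1, by simp⟩
    have h2 : (fun (t : ι) z => - (d t z) ^ 2 * g t z) =
        fun t z => (-1) * ((d t z) ^ 2 * g t z) := by
      funext t z; ring
    rw [h2]; exact h1
  refine ⟨hdt, hm ha.tameW, hm ha.tameV, fun t z => - (d t z) ^ 2 * aP t z, hm haP,
    fun t z hz => ?_⟩
  have h1 : EqOn (fun z => a t z * d t z) (fun _ => 1) (D t) := fun z hz => had t z hz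
  have h2 := dp_congr (hD.isOpen t) h1 hz
  rw [dp_mul (diff_of_smooth (ha.tame.smooth t) z) (diff_of_smooth (hd t) z), dp_const] at h2
  have h3 := had t z hz
  have h4 : dp (d t) z = - (d t z) ^ 2 * dp (a t) z := by
    have h5 : d t z * (dp (a t) z * d t z + a t z * dp (d t) z) = d t z * 0 := by rw [h2]
    linear_combination h5 - dp (d t) z * h3
  rw [h4, hac t z hz]
  ring

/-- product of two tame derivatives, of order `≤ j` -/
private theorem b2_term (hD : Dom R D) {j k l a b : ℕ} {f g : ι → ℝ × ℝ → ℝ}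
    (hf : Tame R D k j f) (hg : Tame R D l j g) (ha : k + a ≤ j) (hb : l + b ≤ j)
    (hab : k + a + (l + b) ≤ j + 4) (c : ℝ) :
    B2 R D j (fun t z => c * (dp^[a] (f t) z * dp^[b] (g t) z)) := by
  refine B2.const_mul hD (fun _ => c) ⟨|c|, fun _ => le_rfl⟩ ?_
  exact B2.mul hD ha hb hab (fun t => (cd_dp_iter (hf.smooth t) a).continuous)
    (fun t => (cd_dp_iter (hg.smooth t) b).continuous) (hf.b2 a ha) (hg.b2 b hb)
    (hf.bs a) (hg.bs b)

private theorem cont_term {j k l a b : ℕ} {f g : ι → ℝ × ℝ → ℝ}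
    (hf : Tame R D k j f) (hg : Tame R D l j g) (c : ℝ) (t : ι) :
    Continuous (fun z => c * (dp^[a] (f t) z * dp^[b] (g t) z)) :=
  continuous_const.mul ((cd_dp_iter (hf.smooth t) a).continuous.mul
    (cd_dp_iter (hg.smooth t) b).continuous)

/-- Leibniz, top term split off: `∂^n (f ∂u) - f ∂^{n+1} u` has order `≤ j` when `n + 1 ≤ j` -/
private theorem b2_leib (hD : Dom R D) {j n : ℕ} (hn : n + 1 ≤ j) {f u : ι → ℝ × ℝ → ℝ}
    (hf : Tame R D 1 j f) (hu : Tame R D 1 j u) :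
    B2 R D j (fun t z => dp^[n] (fun z => f t z * dp (u t) z) z - f t z * dp^[n + 1] (u t) z) := by
  have h : ∀ t z, dp^[n] (fun z => f t z * dp (u t) z) z - f t z * dp^[n + 1] (u t) z
      = ∑ i ∈ Finset.range n, (n.choose (i + 1) : ℝ) *
        (dp^[i + 1] (f t) z * dp^[n - (i + 1) + 1] (u t) z) := by
    intro t z
    rw [dp_iter_mul (hf.smooth t) (cd_dp (hu.smooth t)) n z, Finset.sum_range_succ']
    simp only [Nat.choose_zero_right, Nat.cast_one, one_mul, Function.iterate_zero, id_eq,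
      Nat.sub_zero, Function.iterate_succ_apply]
    ring
  simp only [h]
  refine B2.sum hD _ (fun i _ t => cont_term hf hu _ t) (fun i hi => ?_)
  rw [Finset.mem_range] at hi
  exact b2_term hD hf hu (by omega) (by omega) (by omega) _

/-- general version of `Coef.rem` -/
private theorem rem_gen (hD : Dom R D) {j : ℕ} (hj : 2 ≤ j) {g gW gV : ι → ℝ × ℝ → ℝ}
    (hws : ∀ t, ContDiff ℝ ∞ (w t))
    (hg : Coef R D w j g gW gV) (hw : Tame R D 1 j (fun t => dp (w t)))
    (hv : Tame R D 1 j (fun t => dx (w t))) :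
    B2 R D j (fun t z => dp^[j] (g t) z - gW t z * dp^[j + 1] (w t) z
      - gV t z * dp^[j] (dx (w t)) z) := by
  obtain ⟨gP, hP, hch⟩ := hg.chain
  obtain ⟨m, rfl⟩ : ∃ m, j = m + 1 := ⟨j - 1, by omega⟩
  have h1 := b2_leib hD (n := m) (by omega) hg.tameW hw
  have h2 := b2_leib hD (n := m) (by omega) hg.tameV hv
  have h3 : B2 R D (m + 1) (fun t => dp^[m] (gP t)) := by
    have := hP.b2 m (by omega)
    rwa [add_comm] at this
  have c1 : ∀ t, Continuous (fun z => dp^[m] (fun z => gW t z * dp (dp (w t)) z) z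
      - gW t z * dp^[m + 1] (dp (w t)) z) := fun t =>
    (cd_dp_iter ((hg.tameW.smooth t).mul (cd_dp (cd_dp (hws t)))) m).continuous.sub
      ((hg.tameW.smooth t).continuous.mul (cd_dp_iter (cd_dp (hws t)) (m + 1)).continuous)
  have c2 : ∀ t, Continuous (fun z => dp^[m] (fun z => gV t z * dp (dx (w t)) z) z
      - gV t z * dp^[m + 1] (dx (w t)) z) := fun t =>
    (cd_dp_iter ((hg.tameV.smooth t).mul (cd_dp (cd_dx (hws t)))) m).continuous.sub
      ((hg.tameV.smooth t).continuous.mul (cd_dp_iter (cd_dx (hws t)) (m + 1)).continuous)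
  have c3 : ∀ t, Continuous (dp^[m] (gP t)) := fun t => (cd_dp_iter (hP.smooth t) m).continuous
  refine B2.congr hD (B2.add hD (fun t => (c3 t).add (c1 t)) c2 (B2.add hD c3 c1 h3 h1) h2) ?_
  intro t z hz
  have e : dp^[m + 1] (g t) z = dp^[m] (gP t) z
      + dp^[m] (fun z => gW t z * dp (dp (w t)) z) z
      + dp^[m] (fun z => gV t z * dp (dx (w t)) z) z := by
    rw [Function.iterate_succ_apply]
    have := dp_iter_congr (hD.isOpen t) (f := dp (g t))
      (g := fun z => (gP t z + gW t z * dp (dp (w t)) z) + gV t z * dp (dx (w t)) z)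
      (fun z hz => hch t z hz) m hz
    rw [this, dp_iter_add ((hP.smooth t).add ((hg.tameW.smooth t).mul (cd_dp (cd_dp (hws t)))))
      ((hg.tameV.smooth t).mul (cd_dp (cd_dx (hws t))))]
    simp only
    rw [dp_iter_add (hP.smooth t) ((hg.tameW.smooth t).mul (cd_dp (cd_dp (hws t))))]
  simp only [Pi.add_apply]
  rw [e]
  have e2 : dp^[m + 1] (dp (w t)) z = dp^[m + 1 + 1] (w t) z := by
    rw [Function.iterate_succ_apply dp (m + 1)]
  rw [e2]
  ring

/-- general version of `Coef.rem_t`, `Coef.rem_r` -/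
private theorem rem_gen' (hD : Dom R D) {j : ℕ} (hj : 2 ≤ j) {g gW gV u : ι → ℝ × ℝ → ℝ}
    (hws : ∀ t, ContDiff ℝ ∞ (w t))
    (hg : Coef R D w j g gW gV) (hw : Tame R D 1 j (fun t => dp (w t)))
    (hv : Tame R D 1 j (fun t => dx (w t))) (hu : Tame R D 1 j u) :
    B2 R D j (fun t z => dp^[j] (fun z => g t z * dp (u t) z) z
      - (g t z * dp^[j + 1] (u t) z + j * dp (g t) z * dp^[j] (u t) z
        + (gW t z * dp^[j + 1] (w t) z + gV t z * dp^[j] (dx (w t)) z) * dp (u t) z)) := by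
  obtain ⟨m, rfl⟩ : ∃ m, j = m + 2 := ⟨j - 2, by omega⟩
  have hrem := rem_gen hD hj hws hg hw hv
  have hgs := hg.tame.smooth
  -- the term `i = j`
  have cr : ∀ t, Continuous (fun z => dp^[m + 2] (g t) z - gW t z * dp^[m + 2 + 1] (w t) z
      - gV t z * dp^[m + 2] (dx (w t)) z) := fun t =>
    (((cd_dp_iter (hgs t) _).continuous.sub
      ((hg.tameW.smooth t).continuous.mul (cd_dp_iter (hws t) _).continuous)).sub
      ((hg.tameV.smooth t).continuous.mul (cd_dp_iter (cd_dx (hws t)) _).continuous))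
  have cu : ∀ t, Continuous (dp (u t)) := fun t => (cd_dp (hu.smooth t)).continuous
  have h1 : B2 R D (m + 2) (fun t z => (dp^[m + 2] (g t) z - gW t z * dp^[m + 2 + 1] (w t) z
      - gV t z * dp^[m + 2] (dx (w t)) z) * dp (u t) z) := by
    refine B2.mul_bdd hD (m := 2) (by norm_num) cr cu hrem ?_
    have := hu.bs 1 (by omega)
    simpa using this
  have h2 : B2 R D (m + 2) (fun t z => ∑ i ∈ Finset.range m, ((m + 2).choose (i + 2) : ℝ) *
        (dp^[i + 2] (g t) z * dp^[m + 2 - (i + 2) + 1] (u t) z)) := by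
    refine B2.sum hD _ (fun i _ t => cont_term hg.tame hu _ t) (fun i hi => ?_)
    rw [Finset.mem_range] at hi
    exact b2_term hD hg.tame hu (by omega) (by omega) (by omega) _
  have c2 : ∀ t, Continuous (fun z => ∑ i ∈ Finset.range m, ((m + 2).choose (i + 2) : ℝ) *
        (dp^[i + 2] (g t) z * dp^[m + 2 - (i + 2) + 1] (u t) z)) := fun t =>
    continuous_finsetSum _ (fun i _ => cont_term hg.tame hu _ t)
  refine B2.congr hD (B2.add hD (fun t => (cr t).mul (cu t)) c2 h1 h2) ?_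
  intro t z hz
  simp only [Pi.mul_apply]
  rw [dp_iter_mul (hgs t) (cd_dp (hu.smooth t)) (m + 2) z, Finset.sum_range_succ,
    Finset.sum_range_succ', Finset.sum_range_succ']
  simp only [Nat.choose_zero_right, Nat.cast_one, one_mul, Function.iterate_zero, id_eq,
      Nat.sub_zero, Nat.choose_self, Nat.sub_self, Nat.choose_one_right, zero_add,
      Function.iterate_succ_apply]
  have e : m + 2 - 1 = m + 1 := by omega
  simp only [e, Function.iterate_succ_apply]
  push_cast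
  ring_nf

/-- top order part of `∂_p^j g`: from `∂_p g = gP + gW w_pp + gV w_xp` and Leibniz,
`∂^j g - gW ∂^{j+1} w - gV ∂^j w_x = ∂^{j-1} gP + Σ_{a=1}^{j-1} C(j-1,a) (∂^a gW ∂^{j+1-a} w + ∂^a gV ∂^{j-a} w_x)`,
all orders `≤ j`, sum of orders `≤ j+2`. -/
theorem Coef.rem (hD : Dom R D) {j : ℕ} (hj : 2 ≤ j) {g gW gV : ι → ℝ × ℝ → ℝ}
    (hws : ∀ t, ContDiff ℝ ∞ (w t))
    (hg : Coef R D w j g gW gV) (hw : Tame R D 1 j (fun t => dp (w t)))
    (hv : Tame R D 1 j (fun t => dx (w t))) :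
    B2 R D j (fun t z => dp^[j] (g t) z - gW t z * dp^[j + 1] (w t) z
      - gV t z * dp^[j] (dx (w t)) z) :=
  rem_gen hD hj hws hg hw hv

/-- the same for `g w_pp` -/
theorem Coef.rem_t (hD : Dom R D) {j : ℕ} (hj : 2 ≤ j) {g gW gV : ι → ℝ × ℝ → ℝ}
    (hws : ∀ t, ContDiff ℝ ∞ (w t))
    (hg : Coef R D w j g gW gV) (hw : Tame R D 1 j (fun t => dp (w t)))
    (hv : Tame R D 1 j (fun t => dx (w t))) :
    B2 R D j (fun t z => dp^[j] (fun z => g t z * dp (dp (w t)) z) z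
      - (g t z * dp^[j + 2] (w t) z + j * dp (g t) z * dp^[j + 1] (w t) z
        + (gW t z * dp^[j + 1] (w t) z + gV t z * dp^[j] (dx (w t)) z) * dp (dp (w t)) z)) :=
  rem_gen' hD hj hws hg hw hv hw

/-- the same for `g w_xp` -/
theorem Coef.rem_r (hD : Dom R D) {j : ℕ} (hj : 2 ≤ j) {g gW gV : ι → ℝ × ℝ → ℝ}
    (hws : ∀ t, ContDiff ℝ ∞ (w t))
    (hg : Coef R D w j g gW gV) (hw : Tame R D 1 j (fun t => dp (w t)))
    (hv : Tame R D 1 j (fun t => dx (w t))) :
    B2 R D j (fun t z => dp^[j] (fun z => g t z * dp (dx (w t)) z) z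
      - (g t z * dp^[j + 1] (dx (w t)) z + j * dp (g t) z * dp^[j] (dx (w t)) z
        + (gW t z * dp^[j + 1] (w t) z + gV t z * dp^[j] (dx (w t)) z) * dp (dx (w t)) z)) :=
  rem_gen' hD hj hws hg hw hv hv

end

end Crest.Agent.Iso
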