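import Crest.Agent.Iso.Tame

/-!
# Row 220: coefficient functions

A coefficient `g = g(x, p, w_p, w_x)` comes with its partial derivatives `gW = ∂g/∂w_p`,
`gV = ∂g/∂w_x` (as families of functions of `(x,p)`), and `dp g = gP + gW w_pp + gV w_xp`.
-/

set_option autoImplicit false

open scoped ContDiff
open MeasureTheory Set

namespace Crest.Agent.Iso

section
variable {ι : Type*} (R : ι → ℝ) (D : ι → Set (ℝ × ℝ)) (w : ι → ℝ × ℝ → ℝ)

structure Coef (N : ℕ) (g gW gV : ι → ℝ × ℝ → ℝ) : Prop where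
  tame : Tame R D 1 N g
  tameW : Tame R D 1 N gW
  tameV : Tame R D 1 N gV
  chain : ∃ gP : ι → ℝ × ℝ → ℝ, Tame R D 1 N gP ∧ ∀ t, ∀ z ∈ D t,
    dp (g t) z = gP t z + gW t z * dp (dp (w t)) z + gV t z * dp (dx (w t)) z

end

/-- the first order coefficients of the commuted equation -/
noncomputable def al1 (w g2 g1W g2W g3W : ℝ × ℝ → ℝ) (j : ℕ) : ℝ × ℝ → ℝ := fun z =>
  j * dp g2 z + (g1W z * dp (dx w) z + g2W z * dp (dp w) z + g3W z)

noncomputable def al2 (w g1 g1V g2V g3V : ℝ × ℝ → ℝ) (j : ℕ) : ℝ × ℝ → ℝ := fun z =>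
  j * dp g1 z + (g1V z * dp (dx w) z + g2V z * dp (dp w) z + g3V z)

end Crest.Agent.Iso
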