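import Crest.Agent.Iso.Basic
import Mathlib.Analysis.InnerProductSpace.PiL2

/-!
# Row 220: the Darboux equation
-/

set_option autoImplicit false

open scoped ContDiff
open MeasureTheory Set

namespace Crest.Agent.Iso

abbrev E3 := EuclideanSpace ℝ (Fin 3)

/-- `x`-derivative of a dot product of two vector functions given by coordinates -/
theorem dx_dot {p q : Fin 3 → ℝ × ℝ → ℝ} (hp : ∀ i, ContDiff ℝ ∞ (p i))
    (hq : ∀ i, ContDiff ℝ ∞ (q i)) (z : ℝ × ℝ) :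
    dx (fun z => p 0 z * q 0 z + p 1 z * q 1 z + p 2 z * q 2 z) z =
      (dx (p 0) z * q 0 z + dx (p 1) z * q 1 z + dx (p 2) z * q 2 z) +
      (p 0 z * dx (q 0) z + p 1 z * dx (q 1) z + p 2 z * dx (q 2) z) := by
  have h : ∀ i, ContDiff ℝ ∞ (fun z => p i z * q i z) := fun i => (hp i).mul (hq i)
  have e1 := dx_add (z := z) (f := fun z => p 0 z * q 0 z + p 1 z * q 1 z)
    (g := fun z => p 2 z * q 2 z) (diff_of_smooth ((h 0).add (h 1)) z) (diff_of_smooth (h 2) z)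
  have e2 := dx_add (z := z) (f := fun z => p 0 z * q 0 z)
    (g := fun z => p 1 z * q 1 z) (diff_of_smooth (h 0) z) (diff_of_smooth (h 1) z)
  have e3 : ∀ i, dx (fun z => p i z * q i z) z = dx (p i) z * q i z + p i z * dx (q i) z :=
    fun i => dx_mul (diff_of_smooth (hp i) z) (diff_of_smooth (hq i) z)
  rw [e1, e2, e3, e3, e3]
  ring

/-- `p`-derivative of a dot product of two vector functions given by coordinates -/
theorem dp_dot {p q : Fin 3 → ℝ × ℝ → ℝ} (hp : ∀ i, ContDiff ℝ ∞ (p i))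
    (hq : ∀ i, ContDiff ℝ ∞ (q i)) (z : ℝ × ℝ) :
    dp (fun z => p 0 z * q 0 z + p 1 z * q 1 z + p 2 z * q 2 z) z =
      (dp (p 0) z * q 0 z + dp (p 1) z * q 1 z + dp (p 2) z * q 2 z) +
      (p 0 z * dp (q 0) z + p 1 z * dp (q 1) z + p 2 z * dp (q 2) z) := by
  have h : ∀ i, ContDiff ℝ ∞ (fun z => p i z * q i z) := fun i => (hp i).mul (hq i)
  have e1 := dp_add (z := z) (f := fun z => p 0 z * q 0 z + p 1 z * q 1 z)
    (g := fun z => p 2 z * q 2 z) (diff_of_smooth ((h 0).add (h 1)) z) (diff_of_smooth (h 2) z)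
  have e2 := dp_add (z := z) (f := fun z => p 0 z * q 0 z)
    (g := fun z => p 1 z * q 1 z) (diff_of_smooth (h 0) z) (diff_of_smooth (h 1) z)
  have e3 : ∀ i, dp (fun z => p i z * q i z) z = dp (p i) z * q i z + p i z * dp (q i) z :=
    fun i => dp_mul (diff_of_smooth (hp i) z) (diff_of_smooth (hq i) z)
  rw [e1, e2, e3, e3, e3]
  ring

/-- coordinates of the derivative of `F` -/
theorem fderiv_coord {F : ℝ × ℝ → E3} (hF : ContDiff ℝ ∞ F) (z v : ℝ × ℝ) (i : Fin 3) :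
    (fderiv ℝ F z v) i = fderiv ℝ (fun z => F z i) z v := by
  have h1 : HasFDerivAt F (fderiv ℝ F z) z := (hF.differentiable (by simp) z).hasFDerivAt
  have h2 : HasFDerivAt (fun z => F z i)
      ((EuclideanSpace.proj i : E3 →L[ℝ] ℝ).comp (fderiv ℝ F z)) z :=
    ((EuclideanSpace.proj i : E3 →L[ℝ] ℝ).hasFDerivAt).comp z h1
  rw [h2.fderiv]
  rfl

theorem inner_E3 (x y : E3) : inner ℝ x y = x 0 * y 0 + x 1 * y 1 + x 2 * y 2 := by
  rw [PiLp.inner_apply, Fin.sum_univ_three]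
  simp only [RCLike.inner_apply, conj_trivial]
  ring

/-- Gram identity in `ℝ³`: `(X ⬝ (a × b)) (Y ⬝ (a × b))`. -/
theorem gram3 (X Y a b : Fin 3 → ℝ) :
    (X 0 * (a 1 * b 2 - a 2 * b 1) + X 1 * (a 2 * b 0 - a 0 * b 2) +
        X 2 * (a 0 * b 1 - a 1 * b 0)) *
      (Y 0 * (a 1 * b 2 - a 2 * b 1) + Y 1 * (a 2 * b 0 - a 0 * b 2) +
        Y 2 * (a 0 * b 1 - a 1 * b 0)) =
    (X 0 * Y 0 + X 1 * Y 1 + X 2 * Y 2) *
        ((a 0 * a 0 + a 1 * a 1 + a 2 * a 2) * (b 0 * b 0 + b 1 * b 1 + b 2 * b 2) -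
          (a 0 * b 0 + a 1 * b 1 + a 2 * b 2) ^ 2) -
      (X 0 * a 0 + X 1 * a 1 + X 2 * a 2) *
        ((Y 0 * a 0 + Y 1 * a 1 + Y 2 * a 2) * (b 0 * b 0 + b 1 * b 1 + b 2 * b 2) -
          (a 0 * b 0 + a 1 * b 1 + a 2 * b 2) * (Y 0 * b 0 + Y 1 * b 1 + Y 2 * b 2)) +
      (X 0 * b 0 + X 1 * b 1 + X 2 * b 2) *
        ((Y 0 * a 0 + Y 1 * a 1 + Y 2 * a 2) * (a 0 * b 0 + a 1 * b 1 + a 2 * b 2) -
          (a 0 * a 0 + a 1 * a 1 + a 2 * a 2) * (Y 0 * b 0 + Y 1 * b 1 + Y 2 * b 2)) := by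
  ring

/-- the purely algebraic part of the Darboux equation -/
theorem darboux_alg (a b A B C n : Fin 3 → ℝ) (E Ex Ey Eyy : ℝ) (hE : 0 < E)
    (haa : a 0 * a 0 + a 1 * a 1 + a 2 * a 2 = E)
    (hab : a 0 * b 0 + a 1 * b 1 + a 2 * b 2 = 0)
    (hbb : b 0 * b 0 + b 1 * b 1 + b 2 * b 2 = 1)
    (hAa : A 0 * a 0 + A 1 * a 1 + A 2 * a 2 = Ex / 2)
    (hAb : A 0 * b 0 + A 1 * b 1 + A 2 * b 2 = -Ey / 2)
    (hBa : B 0 * a 0 + B 1 * a 1 + B 2 * a 2 = Ey / 2)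
    (hBb : B 0 * b 0 + B 1 * b 1 + B 2 * b 2 = 0)
    (hCa : C 0 * a 0 + C 1 * a 1 + C 2 * a 2 = 0)
    (hCb : C 0 * b 0 + C 1 * b 1 + C 2 * b 2 = 0)
    (hG : (A 0 * C 0 + A 1 * C 1 + A 2 * C 2) - (B 0 * B 0 + B 1 * B 1 + B 2 * B 2) = -Eyy / 2)
    (hn : n 0 * n 0 + n 1 * n 1 + n 2 * n 2 = 1) (Ux Uy Uxx Uxy Uyy : ℝ)
    (hUx : n 0 * a 0 + n 1 * a 1 + n 2 * a 2 = Ux)
    (hUy : n 0 * b 0 + n 1 * b 1 + n 2 * b 2 = Uy)
    (hUxx : A 0 * n 0 + A 1 * n 1 + A 2 * n 2 = Uxx)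
    (hUxy : B 0 * n 0 + B 1 * n 1 + B 2 * n 2 = Uxy)
    (hUyy : C 0 * n 0 + C 1 * n 1 + C 2 * n 2 = Uyy) :
    (E * Uxx - Ex * Ux / 2 + E * Ey * Uy / 2) * Uyy - E * Uxy ^ 2 + Ey * Ux * Uxy =
      (Ey ^ 2 / 4 - E * Eyy / 2) * (1 - Uy ^ 2) + Eyy / 2 * Ux ^ 2 := by
  have g1 := gram3 A C a b
  have g2 := gram3 B B a b
  have g3 := gram3 A n a b
  have g4 := gram3 B n a b
  have g5 := gram3 C n a b
  have g6 := gram3 n n a b
  rw [haa, hab, hbb] at g1 g2 g3 g4 g5 g6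
  rw [hAa, hAb, hCa, hCb] at g1
  rw [hBa, hBb] at g2
  rw [hAa, hAb, hUx, hUy, hUxx] at g3
  rw [hBa, hBb, hUx, hUy, hUxy] at g4
  rw [hCa, hCb, hUx, hUy, hUyy] at g5
  rw [hUx, hUy, hn] at g6
  set p := (A 0 * (a 1 * b 2 - a 2 * b 1) + A 1 * (a 2 * b 0 - a 0 * b 2) +
        A 2 * (a 0 * b 1 - a 1 * b 0)) with hp
  set q := (B 0 * (a 1 * b 2 - a 2 * b 1) + B 1 * (a 2 * b 0 - a 0 * b 2) +
        B 2 * (a 0 * b 1 - a 1 * b 0)) with hq
  set r := (C 0 * (a 1 * b 2 - a 2 * b 1) + C 1 * (a 2 * b 0 - a 0 * b 2) +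
        C 2 * (a 0 * b 1 - a 1 * b 0)) with hr
  set ν := (n 0 * (a 1 * b 2 - a 2 * b 1) + n 1 * (a 2 * b 0 - a 0 * b 2) +
        n 2 * (a 0 * b 1 - a 1 * b 0)) with hν
  clear_value p q r ν
  have hne : E ≠ 0 := hE.ne'
  apply mul_left_cancel₀ hne
  have k1 : E * Uxx - Ex * Ux / 2 + E * Ey * Uy / 2 = p * ν := by rw [g3]; ring
  have k2 : E * Uxy = Ey * Ux / 2 + q * ν := by rw [g4]; ring
  have k3 : E * Uyy = r * ν := by rw [g5]; ring
  have k4 : p * r - q * q = Ey ^ 2 / 4 - E * Eyy / 2 := by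
    rw [g1, g2]
    linear_combination E * hG
  have k5 : ν * ν = E - Ux ^ 2 - E * Uy ^ 2 := by rw [g6]; ring
  rw [k1]
  have l1 : E * (p * ν * Uyy - E * Uxy ^ 2 + Ey * Ux * Uxy) =
      p * ν * (E * Uyy) - (E * Uxy) ^ 2 + Ey * Ux * (E * Uxy) := by ring
  rw [l1, k2, k3]
  linear_combination (ν * ν) * k4 + (Ey ^ 2 / 4 - E * Eyy / 2) * k5

/-- **Darboux equation** for an isometric immersion of `E dx² + dy²`.
`a = F_x`, `b = F_y`, `A = F_xx`, `B = F_xy`, `C = F_yy`: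
`⟪A,a⟫ = E_x/2`, `⟪A,b⟫ = -E_y/2`, `⟪B,a⟫ = E_y/2`, `⟪B,b⟫ = 0`, `⟪C,a⟫ = ⟪C,b⟫ = 0`,
`⟪A,C⟫ - ⟪B,B⟫ = - E_yy/2`; in a unit normal `N` to `a, b`:
`A = E_x/(2E) a - E_y/2 b + α N`, `B = E_y/(2E) a + β N`, `C = γ N`, `αγ - β² = E_y²/(4E) - E_yy/2`,
`⟪N,N0⟫² = 1 - U_x²/E - U_y²`. -/
theorem darboux {E : ℝ × ℝ → ℝ} {F : ℝ × ℝ → E3} (hF : ContDiff ℝ ∞ F) (hE : ContDiff ℝ ∞ E)
    {Ω : Set (ℝ × ℝ)} (hΩ : IsOpen Ω) (hpos : ∀ z ∈ Ω, 0 < E z)
    (h11 : ∀ z ∈ Ω, inner ℝ (fderiv ℝ F z (1, 0)) (fderiv ℝ F z (1, 0)) = E z)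
    (h12 : ∀ z ∈ Ω, inner ℝ (fderiv ℝ F z (1, 0)) (fderiv ℝ F z (0, 1)) = 0)
    (h22 : ∀ z ∈ Ω, inner ℝ (fderiv ℝ F z (0, 1)) (fderiv ℝ F z (0, 1)) = 1)
    {N0 : E3} (hN : ‖N0‖ = 1) {U : ℝ × ℝ → ℝ} (hU : ∀ z, U z = inner ℝ (F z) N0) {z : ℝ × ℝ}
    (hz : z ∈ Ω) :
    (E z * dx (dx U) z - dx E z * dx U z / 2 + E z * dp E z * dp U z / 2) * dp (dp U) z
      - E z * dp (dx U) z ^ 2 + dp E z * dx U z * dp (dx U) z =
    (dp E z ^ 2 / 4 - E z * dp (dp E) z / 2) * (1 - dp U z ^ 2)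
      + dp (dp E) z / 2 * dx U z ^ 2 := by
  -- coordinates
  set f : Fin 3 → ℝ × ℝ → ℝ := fun i z => F z i with hf
  have cf : ∀ i, ContDiff ℝ ∞ (f i) := fun i => (contDiff_euclidean.mp hF) i
  set a : Fin 3 → ℝ × ℝ → ℝ := fun i => dx (f i) with ha
  set b : Fin 3 → ℝ × ℝ → ℝ := fun i => dp (f i) with hb
  have ca : ∀ i, ContDiff ℝ ∞ (a i) := fun i => cd_dx (cf i)
  have cb : ∀ i, ContDiff ℝ ∞ (b i) := fun i => cd_dp (cf i)
  have eF1 : ∀ w i, (fderiv ℝ F w (1, 0)) i = a i w := fun w i => fderiv_coord hF w _ i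
  have eF2 : ∀ w i, (fderiv ℝ F w (0, 1)) i = b i w := fun w i => fderiv_coord hF w _ i
  have e11 : EqOn (fun w => a 0 w * a 0 w + a 1 w * a 1 w + a 2 w * a 2 w) E Ω := by
    intro w hw
    have := h11 w hw
    rw [inner_E3] at this
    simpa only [eF1] using this
  have e12 : EqOn (fun w => a 0 w * b 0 w + a 1 w * b 1 w + a 2 w * b 2 w) (fun _ => 0) Ω := by
    intro w hw
    have := h12 w hw
    rw [inner_E3] at this
    simpa only [eF1, eF2] using this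
  have e22 : EqOn (fun w => b 0 w * b 0 w + b 1 w * b 1 w + b 2 w * b 2 w) (fun _ => 1) Ω := by
    intro w hw
    have := h22 w hw
    rw [inner_E3] at this
    simpa only [eF2] using this
  -- mixed second derivatives
  have hab : ∀ i, dx (b i) = dp (a i) := fun i => dx_dp_comm (cf i)
  -- first order consequences, on `Ω`
  have hAa : ∀ w ∈ Ω, dx (a 0) w * a 0 w + dx (a 1) w * a 1 w + dx (a 2) w * a 2 w =
      dx E w / 2 := by
    intro w hw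
    have h1 := dx_congr hΩ e11 hw
    rw [dx_dot ca ca] at h1
    linarith
  have hBa : ∀ w ∈ Ω, dp (a 0) w * a 0 w + dp (a 1) w * a 1 w + dp (a 2) w * a 2 w =
      dp E w / 2 := by
    intro w hw
    have h1 := dp_congr hΩ e11 hw
    rw [dp_dot ca ca] at h1
    linarith
  have hBb : ∀ w ∈ Ω, dp (a 0) w * b 0 w + dp (a 1) w * b 1 w + dp (a 2) w * b 2 w = 0 := by
    intro w hw
    have h1 := dx_congr hΩ e22 hw
    rw [dx_dot cb cb, dx_const] at h1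
    simp only [hab] at h1
    linarith
  have hCb : ∀ w ∈ Ω, dp (b 0) w * b 0 w + dp (b 1) w * b 1 w + dp (b 2) w * b 2 w = 0 := by
    intro w hw
    have h1 := dp_congr hΩ e22 hw
    rw [dp_dot cb cb, dp_const] at h1
    linarith
  have hAb : ∀ w ∈ Ω, dx (a 0) w * b 0 w + dx (a 1) w * b 1 w + dx (a 2) w * b 2 w =
      -dp E w / 2 := by
    intro w hw
    have h1 := dx_congr hΩ e12 hw
    rw [dx_dot ca cb, dx_const] at h1
    simp only [hab] at h1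
    have h2 := hBa w hw
    linarith
  have hCa : ∀ w ∈ Ω, dp (b 0) w * a 0 w + dp (b 1) w * a 1 w + dp (b 2) w * a 2 w = 0 := by
    intro w hw
    have h1 := dp_congr hΩ e12 hw
    rw [dp_dot ca cb, dp_const] at h1
    have h2 := hBb w hw
    linarith
  -- second order consequence (Gauss)
  have cA : ∀ i, ContDiff ℝ ∞ (dx (a i)) := fun i => cd_dx (ca i)
  have cB : ∀ i, ContDiff ℝ ∞ (dp (a i)) := fun i => cd_dp (ca i)
  have hG : (dx (a 0) z * dp (b 0) z + dx (a 1) z * dp (b 1) z + dx (a 2) z * dp (b 2) z) -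
      (dp (a 0) z * dp (a 0) z + dp (a 1) z * dp (a 1) z + dp (a 2) z * dp (a 2) z) =
      -dp (dp E) z / 2 := by
    have h1 : EqOn (fun w => dx (a 0) w * b 0 w + dx (a 1) w * b 1 w + dx (a 2) w * b 2 w)
        (fun w => (-1 / 2) * dp E w) Ω := fun w hw => by
      simp only [hAb w hw]; ring
    have h2 := dp_congr hΩ h1 hz
    rw [dp_dot cA cb] at h2
    have h3 : dp (fun w => (-1 / 2) * dp E w) z = (-1 / 2) * dp (dp E) z := by
      have := dp_mul (f := fun _ => (-1 / 2 : ℝ)) (g := dp E) (z := z) (differentiableAt_const _)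
        (diff_of_smooth (cd_dp hE) z)
      rw [this, dp_const]; simp
    rw [h3] at h2
    have h4 : EqOn (fun w => dp (a 0) w * b 0 w + dp (a 1) w * b 1 w + dp (a 2) w * b 2 w)
        (fun _ => 0) Ω := hBb
    have h5 := dx_congr hΩ h4 hz
    rw [dx_dot cB cb, dx_const] at h5
    simp only [hab] at h5
    have h6 : ∀ i, dp (dx (a i)) z = dx (dp (a i)) z := fun i => by rw [dx_dp_comm (ca i)]
    rw [h6, h6, h6] at h2
    linarith
  -- the height function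
  have hUf : U = fun z => f 0 z * N0 0 + f 1 z * N0 1 + f 2 z * N0 2 := by
    funext w
    rw [hU w, inner_E3]
  have dxU : ∀ g : Fin 3 → ℝ × ℝ → ℝ, (∀ i, ContDiff ℝ ∞ (g i)) →
      dx (fun z => g 0 z * N0 0 + g 1 z * N0 1 + g 2 z * N0 2) =
        fun z => dx (g 0) z * N0 0 + dx (g 1) z * N0 1 + dx (g 2) z * N0 2 := by
    intro g hg
    funext w
    have := dx_dot (p := g) (q := fun i _ => N0 i) hg (fun i => contDiff_const) w
    rw [this]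
    simp only [dx_const]
    ring
  have dpU : ∀ g : Fin 3 → ℝ × ℝ → ℝ, (∀ i, ContDiff ℝ ∞ (g i)) →
      dp (fun z => g 0 z * N0 0 + g 1 z * N0 1 + g 2 z * N0 2) =
        fun z => dp (g 0) z * N0 0 + dp (g 1) z * N0 1 + dp (g 2) z * N0 2 := by
    intro g hg
    funext w
    have := dp_dot (p := g) (q := fun i _ => N0 i) hg (fun i => contDiff_const) w
    rw [this]
    simp only [dp_const]
    ring
  have u1 : dx U = fun z => a 0 z * N0 0 + a 1 z * N0 1 + a 2 z * N0 2 := by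
    rw [hUf]; exact dxU f cf
  have u2 : dp U = fun z => b 0 z * N0 0 + b 1 z * N0 1 + b 2 z * N0 2 := by
    rw [hUf]; exact dpU f cf
  have u3 := dxU a ca
  have u4 := dpU a ca
  have u5 := dpU b cb
  have hn : N0 0 * N0 0 + N0 1 * N0 1 + N0 2 * N0 2 = 1 := by
    rw [← inner_E3, real_inner_self_eq_norm_sq, hN]; norm_num
  refine darboux_alg (fun i => a i z) (fun i => b i z) (fun i => dx (a i) z)
    (fun i => dp (a i) z) (fun i => dp (b i) z) (fun i => N0 i) (E z) (dx E z) (dp E z)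
    (dp (dp E) z) (hpos z hz) (e11 hz) (e12 hz) (e22 hz) (hAa z hz) (hAb z hz) (hBa z hz)
    (hBb z hz) (hCa z hz) (hCb z hz) hG hn (dx U z) (dp U z) (dx (dx U) z) (dp (dx U) z)
    (dp (dp U) z) ?_ ?_ ?_ ?_ ?_
  · rw [u1]; ring
  · rw [u2]; ring
  · rw [u1, u3]
  · rw [u1, u4]
  · rw [u2, u5]

end Crest.Agent.Iso
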