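import Crest.Agent.Iso.Basic

/-!
# Row 220: the multiplier identity and the multiplier functions
-/

set_option autoImplicit false

open scoped ContDiff
open MeasureTheory Set

namespace Crest.Agent.Iso

/-- the operator `φ ↦ φ_xx + g1 φ_xp + g2 φ_pp + a1 φ_p + a2 φ_x` -/
noncomputable def LL (g1 g2 a1 a2 φ : ℝ × ℝ → ℝ) : ℝ × ℝ → ℝ := fun z =>
  dx (dx φ) z + g1 z * dp (dx φ) z + g2 z * dp (dp φ) z + a1 z * dp φ z + a2 z * dx φ z

/-- coefficient of `φ_x²` -/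
noncomputable def Axx (g1 a2 b c : ℝ × ℝ → ℝ) : ℝ × ℝ → ℝ := fun z =>
  (dp c z - dx b z) / 2 - b z * dp g1 z / 2 + a2 z * b z

/-- coefficient of `φ_p²` -/
noncomputable def App (g1 g2 a1 b c : ℝ × ℝ → ℝ) : ℝ × ℝ → ℝ := fun z =>
  (dx b z * g2 z + b z * dx g2 z - dp c z * g2 z - c z * dp g2 z) / 2
    - (dx c z * g1 z + c z * dx g1 z) / 2 + a1 z * c z

/-- coefficient of `φ_x φ_p` -/
noncomputable def Axp (g2 a1 a2 b c : ℝ × ℝ → ℝ) : ℝ × ℝ → ℝ := fun z =>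
  - dx c z - b z * dp g2 z + a1 z * b z + a2 z * c z

end Crest.Agent.Iso
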