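import Crest.Agent.Iso.Approx
import Crest.Agent.Iso.MultDef
import Crest.Agent.Iso.SolA
import Crest.Agent.Iso.SolB

/-!
# Row 220: cutoff functions of the rectangle, difference of the operator, coefficient hypotheses
-/

set_option autoImplicit false

open scoped ContDiff
open MeasureTheory Set

namespace Crest.Agent.Iso

/-! ### cutoff -/

theorem ea_dx {u v : ℝ → ℝ} (hu : ContDiff ℝ ∞ u) (hv : ContDiff ℝ ∞ v) (c d : ℝ) :
    dx (fun z => u (c * z.1) * v (d * z.2)) = fun z => c * (deriv u (c * z.1) * v (d * z.2)) := by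
  funext z
  refine dx_eq_of_hasDerivAt ?_ ?_
  · exact diff_of_smooth ((hu.comp (contDiff_const.mul contDiff_fst)).mul
      (hv.comp (contDiff_const.mul contDiff_snd))) z
  · have h1 : HasDerivAt (fun t : ℝ => c * t) c z.1 := by
      simpa using (hasDerivAt_id z.1).const_mul c
    have h2 : HasDerivAt u (deriv u (c * z.1)) (c * z.1) :=
      (hu.differentiable (by simp) _).hasDerivAt
    have h3 := (h2.comp z.1 h1).mul_const (v (d * z.2))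
    refine HasDerivAt.congr_deriv h3 ?_
    ring

theorem ea_dp {u v : ℝ → ℝ} (hu : ContDiff ℝ ∞ u) (hv : ContDiff ℝ ∞ v) (c d : ℝ) :
    dp (fun z => u (c * z.1) * v (d * z.2)) = fun z => d * (u (c * z.1) * deriv v (d * z.2)) := by
  funext z
  refine dp_eq_of_hasDerivAt ?_ ?_
  · exact diff_of_smooth ((hu.comp (contDiff_const.mul contDiff_fst)).mul
      (hv.comp (contDiff_const.mul contDiff_snd))) z
  · have h1 : HasDerivAt (fun t : ℝ => d * t) d z.2 := by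
      simpa using (hasDerivAt_id z.2).const_mul d
    have h2 : HasDerivAt v (deriv v (d * z.2)) (d * z.2) :=
      (hv.differentiable (by simp) _).hasDerivAt
    have h3 := (h2.comp z.2 h1).const_mul (u (c * z.1))
    refine HasDerivAt.congr_deriv h3 ?_
    ring

theorem ea_const_mul_dx {f : ℝ × ℝ → ℝ} (hf : ContDiff ℝ ∞ f) (c : ℝ) :
    dx (fun z => c * f z) = fun z => c * dx f z := by
  simpa using dx_iter_const_mul hf c 1

theorem ea_const_mul_dp {f : ℝ × ℝ → ℝ} (hf : ContDiff ℝ ∞ f) (c : ℝ) :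
    dp (fun z => c * f z) = fun z => c * dp f z := by
  simpa using dp_iter_const_mul hf c 1

theorem ea_bdd {u : ℝ → ℝ} (hu : Continuous u) (hc : HasCompactSupport u) :
    ∃ C : ℝ, 0 ≤ C ∧ ∀ t, |u t| ≤ C := by
  obtain ⟨C, hC⟩ := hu.bounded_above_of_compact_support hc
  exact ⟨C, (norm_nonneg _).trans (hC 0), hC⟩

noncomputable def eaU : ContDiffBump (0 : ℝ) := ⟨4 / 5, 9 / 10, by norm_num, by norm_num⟩
noncomputable def eaV : ContDiffBump (0 : ℝ) := ⟨8, 9, by norm_num, by norm_num⟩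

theorem cutoff_rct_aux : ∃ C : ℝ, 0 < C ∧ ∀ ε b : ℝ, 0 < ε → ε ≤ 1 → 0 < b → b ≤ 1 →
    ∃ χ : ℝ × ℝ → ℝ, ContDiff ℝ ∞ χ ∧ HasCompactSupport χ ∧ tsupport χ ⊆ Rct ε b ∧
    (∀ z, 0 ≤ χ z ∧ χ z ≤ 1) ∧
    (∀ z : ℝ × ℝ, |z.1| ≤ (4 / 5) * X1 ε b → |z.2| ≤ 8 * b → χ z = 1) ∧
    (∀ z, |dx χ z| ≤ C / b ∧ |dp χ z| ≤ C / b ∧ |dx (dx χ) z| ≤ C / b ^ 2 ∧
      |dp (dx χ) z| ≤ C / b ^ 2 ∧ |dp (dp χ) z| ≤ C / b ^ 2) := by
  have su : ContDiff ℝ ∞ (eaU : ℝ → ℝ) := eaU.contDiff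
  have sv : ContDiff ℝ ∞ (eaV : ℝ → ℝ) := eaV.contDiff
  have su1 : ContDiff ℝ ∞ (deriv eaU) := ((contDiff_infty_iff_deriv).1 su).2
  have sv1 : ContDiff ℝ ∞ (deriv eaV) := ((contDiff_infty_iff_deriv).1 sv).2
  have su2 : ContDiff ℝ ∞ (deriv (deriv eaU)) := ((contDiff_infty_iff_deriv).1 su1).2
  have sv2 : ContDiff ℝ ∞ (deriv (deriv eaV)) := ((contDiff_infty_iff_deriv).1 sv1).2
  have cu : HasCompactSupport (eaU : ℝ → ℝ) := eaU.hasCompactSupport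
  have cv : HasCompactSupport (eaV : ℝ → ℝ) := eaV.hasCompactSupport
  obtain ⟨U1, hU1, bU1⟩ := ea_bdd su1.continuous cu.deriv
  obtain ⟨U2, hU2, bU2⟩ := ea_bdd su2.continuous cu.deriv.deriv
  obtain ⟨V1, hV1, bV1⟩ := ea_bdd sv1.continuous cv.deriv
  obtain ⟨V2, hV2, bV2⟩ := ea_bdd sv2.continuous cv.deriv.deriv
  have bU : ∀ t, |eaU t| ≤ 1 := fun t => by rw [abs_of_nonneg eaU.nonneg]; exact eaU.le_one
  have bV : ∀ t, |eaV t| ≤ 1 := fun t => by rw [abs_of_nonneg eaV.nonneg]; exact eaV.le_one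
  set C := U1 + U2 + V1 + V2 + U1 * V1 + 1 with hC
  have hUV : 0 ≤ U1 * V1 := by positivity
  refine ⟨C, by positivity, ?_⟩
  intro ε b hε hε1 hb hb1
  have hX : 0 < X1 ε b := by unfold X1; positivity
  have hXb : b ≤ X1 ε b := by
    unfold X1
    rw [le_div_iff₀ (Real.sqrt_pos.2 hε)]
    have : √ε ≤ 1 := Real.sqrt_le_one.2 hε1
    nlinarith
  have hinv : (X1 ε b)⁻¹ ≤ b⁻¹ := inv_anti₀ hb hXb
  have hinv0 : 0 ≤ (X1 ε b)⁻¹ := by positivity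
  have hbinv0 : 0 ≤ b⁻¹ := by positivity
  set χ : ℝ × ℝ → ℝ := fun z => eaU ((X1 ε b)⁻¹ * z.1) * eaV (b⁻¹ * z.2) with hχ
  have hsupp : ∀ z, χ z ≠ 0 → |z.1| ≤ (9 / 10) * X1 ε b ∧ |z.2| ≤ 9 * b := by
    intro z hz
    have h1 : eaU ((X1 ε b)⁻¹ * z.1) ≠ 0 := left_ne_zero_of_mul hz
    have h2 : eaV (b⁻¹ * z.2) ≠ 0 := right_ne_zero_of_mul hz
    have h3 : (X1 ε b)⁻¹ * z.1 ∈ Metric.ball (0 : ℝ) (9 / 10) := by
      have := eaU.support_eq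
      have h : (X1 ε b)⁻¹ * z.1 ∈ Function.support (eaU : ℝ → ℝ) := h1
      rw [this] at h
      exact h
    have h4 : b⁻¹ * z.2 ∈ Metric.ball (0 : ℝ) 9 := by
      have := eaV.support_eq
      have h : b⁻¹ * z.2 ∈ Function.support (eaV : ℝ → ℝ) := h2
      rw [this] at h
      exact h
    rw [mem_ball_zero_iff, Real.norm_eq_abs, abs_mul, abs_of_nonneg hinv0,
      inv_mul_lt_iff₀ hX] at h3
    rw [mem_ball_zero_iff, Real.norm_eq_abs, abs_mul, abs_of_nonneg hbinv0,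
      inv_mul_lt_iff₀ hb] at h4
    constructor <;> linarith
  have hclosed : IsClosed {z : ℝ × ℝ | |z.1| ≤ (9 / 10) * X1 ε b ∧ |z.2| ≤ 9 * b} :=
    (isClosed_le continuous_fst.abs continuous_const).inter
      (isClosed_le continuous_snd.abs continuous_const)
  have hts : tsupport χ ⊆ {z : ℝ × ℝ | |z.1| ≤ (9 / 10) * X1 ε b ∧ |z.2| ≤ 9 * b} :=
    closure_minimal (fun z hz => hsupp z hz) hclosed
  have eX : dx χ = fun z => (X1 ε b)⁻¹ * (deriv eaU ((X1 ε b)⁻¹ * z.1) * eaV (b⁻¹ * z.2)) :=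
    ea_dx su sv _ _
  have eP : dp χ = fun z => b⁻¹ * (eaU ((X1 ε b)⁻¹ * z.1) * deriv eaV (b⁻¹ * z.2)) :=
    ea_dp su sv _ _
  have sX : ContDiff ℝ ∞ (fun z : ℝ × ℝ => deriv eaU ((X1 ε b)⁻¹ * z.1) * eaV (b⁻¹ * z.2)) :=
    (su1.comp (contDiff_const.mul contDiff_fst)).mul (sv.comp (contDiff_const.mul contDiff_snd))
  have sP : ContDiff ℝ ∞ (fun z : ℝ × ℝ => eaU ((X1 ε b)⁻¹ * z.1) * deriv eaV (b⁻¹ * z.2)) :=
    (su.comp (contDiff_const.mul contDiff_fst)).mul (sv1.comp (contDiff_const.mul contDiff_snd))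
  have eXX : dx (dx χ) = fun z => (X1 ε b)⁻¹ * ((X1 ε b)⁻¹ *
      (deriv (deriv eaU) ((X1 ε b)⁻¹ * z.1) * eaV (b⁻¹ * z.2))) := by
    rw [eX, ea_const_mul_dx sX, ea_dx su1 sv]
  have eXP : dp (dx χ) = fun z => (X1 ε b)⁻¹ * (b⁻¹ *
      (deriv eaU ((X1 ε b)⁻¹ * z.1) * deriv eaV (b⁻¹ * z.2))) := by
    rw [eX, ea_const_mul_dp sX, ea_dp su1 sv]
  have ePP : dp (dp χ) = fun z => b⁻¹ * (b⁻¹ *
      (eaU ((X1 ε b)⁻¹ * z.1) * deriv (deriv eaV) (b⁻¹ * z.2))) := by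
    rw [eP, ea_const_mul_dp sP, ea_dp su sv1]
  have m : ∀ {x y X Y : ℝ}, |x| ≤ X → |y| ≤ Y → |x * y| ≤ X * Y := by
    intro x y X Y hx hy
    rw [abs_mul]
    exact mul_le_mul hx hy (abs_nonneg _) ((abs_nonneg _).trans hx)
  have hiX : |(X1 ε b)⁻¹| ≤ b⁻¹ := by rw [abs_of_nonneg hinv0]; exact hinv
  have hib : |b⁻¹| ≤ b⁻¹ := by rw [abs_of_nonneg hbinv0]
  refine ⟨χ, ?_, ?_, ?_, ?_, ?_, ?_⟩
  · exact (su.comp (contDiff_const.mul contDiff_fst)).mul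
      (sv.comp (contDiff_const.mul contDiff_snd))
  · refine HasCompactSupport.of_support_subset_isCompact
      (K := Icc (-((9 / 10) * X1 ε b)) ((9 / 10) * X1 ε b) ×ˢ Icc (-(9 * b)) (9 * b))
      (isCompact_Icc.prod isCompact_Icc) ?_
    intro z hz
    have := hsupp z hz
    exact ⟨abs_le.1 this.1, abs_le.1 this.2⟩
  · intro z hz
    have h := hts hz
    exact ⟨by linarith [h.1], by linarith [h.2]⟩
  · intro z
    exact ⟨mul_nonneg eaU.nonneg eaV.nonneg, mul_le_one₀ eaU.le_one eaV.nonneg eaV.le_one⟩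
  · intro z h1 h2
    have h3 : eaU ((X1 ε b)⁻¹ * z.1) = 1 := by
      apply eaU.one_of_mem_closedBall
      change (X1 ε b)⁻¹ * z.1 ∈ Metric.closedBall (0 : ℝ) (4 / 5)
      rw [mem_closedBall_zero_iff, Real.norm_eq_abs, abs_mul, abs_of_nonneg hinv0,
        inv_mul_le_iff₀ hX]
      linarith
    have h4 : eaV (b⁻¹ * z.2) = 1 := by
      apply eaV.one_of_mem_closedBall
      change b⁻¹ * z.2 ∈ Metric.closedBall (0 : ℝ) 8
      rw [mem_closedBall_zero_iff, Real.norm_eq_abs, abs_mul, abs_of_nonneg hbinv0,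
        inv_mul_le_iff₀ hb]
      linarith
    simp only [hχ, h3, h4, mul_one]
  · intro z
    have hb2 : b⁻¹ * (b⁻¹ * C) = C / b ^ 2 := by
      rw [div_eq_mul_inv, pow_two, mul_inv]; ring
    have hb1' : b⁻¹ * C = C / b := by rw [div_eq_mul_inv]; ring
    rw [← hb2, ← hb1']
    rw [eXX, eXP, ePP, eX, eP]
    refine ⟨m hiX ((m (bU1 _) (bV _)).trans ?_), m hib ((m (bU _) (bV1 _)).trans ?_),
      m hiX (m hiX ((m (bU2 _) (bV _)).trans ?_)), m hiX (m hib ((m (bU1 _) (bV1 _)).trans ?_)),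
      m hib (m hib ((m (bU _) (bV2 _)).trans ?_))⟩ <;> rw [hC] <;> linarith

/-! ### Lipschitz calculus -/

section lip
variable {ι : Type*} {e : ι → ℝ}

/-- `f`, `g` bounded, `|f - g| ≤ K e` -/
def Lp (e f g : ι → ℝ) : Prop :=
  ∃ K : ℝ, 0 ≤ K ∧ ∀ t, |f t| ≤ K ∧ |g t| ≤ K ∧ |f t - g t| ≤ K * e t

theorem Lp.add {f g f' g' : ι → ℝ} (he : ∀ t, 0 ≤ e t) (h : Lp e f g) (h' : Lp e f' g') :
    Lp e (fun t => f t + f' t) (fun t => g t + g' t) := by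
  obtain ⟨K, hK, h⟩ := h
  obtain ⟨K', hK', h'⟩ := h'
  refine ⟨K + K', by positivity, fun t => ⟨?_, ?_, ?_⟩⟩
  · exact (abs_add_le _ _).trans (add_le_add (h t).1 (h' t).1)
  · exact (abs_add_le _ _).trans (add_le_add (h t).2.1 (h' t).2.1)
  · have : f t + f' t - (g t + g' t) = (f t - g t) + (f' t - g' t) := by ring
    rw [this]
    refine (abs_add_le _ _).trans ?_
    have h1 := (h t).2.2
    have h2 := (h' t).2.2
    linarith

theorem Lp.mul {f g f' g' : ι → ℝ} (he : ∀ t, 0 ≤ e t) (h : Lp e f g) (h' : Lp e f' g') :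
    Lp e (fun t => f t * f' t) (fun t => g t * g' t) := by
  obtain ⟨K, hK, h⟩ := h
  obtain ⟨K', hK', h'⟩ := h'
  refine ⟨2 * (K * K'), by positivity, fun t => ?_⟩
  obtain ⟨a1, a2, a3⟩ := h t
  obtain ⟨b1, b2, b3⟩ := h' t
  have hKK : 0 ≤ K * K' := by positivity
  refine ⟨?_, ?_, ?_⟩
  · rw [abs_mul]
    have := mul_le_mul a1 b1 (abs_nonneg _) hK
    linarith
  · rw [abs_mul]
    have := mul_le_mul a2 b2 (abs_nonneg _) hK
    linarith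
  · have : f t * f' t - g t * g' t = (f t - g t) * f' t + g t * (f' t - g' t) := by ring
    rw [this]
    refine (abs_add_le _ _).trans ?_
    rw [abs_mul, abs_mul]
    have c1 := mul_le_mul a3 b1 (abs_nonneg _) (mul_nonneg hK (he t))
    have c2 := mul_le_mul a2 b3 (abs_nonneg _) hK
    linarith

theorem Lp.const {c : ι → ℝ} {K : ℝ} (he : ∀ t, 0 ≤ e t) (hc : ∀ t, |c t| ≤ K) : Lp e c c := by
  refine ⟨max K 0, le_max_right _ _, fun t => ⟨(hc t).trans (le_max_left _ _),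
    (hc t).trans (le_max_left _ _), ?_⟩⟩
  rw [sub_self, abs_zero]
  exact mul_nonneg (le_max_right _ _) (he t)

theorem Lp.pow {f g : ι → ℝ} (he : ∀ t, 0 ≤ e t) (h : Lp e f g) (n : ℕ) :
    Lp e (fun t => f t ^ n) (fun t => g t ^ n) := by
  induction n with
  | zero =>
    simp only [pow_zero]
    exact Lp.const (K := 1) he (fun _ => by simp)
  | succ n ih =>
    simp only [pow_succ]
    exact ih.mul he h

theorem Lp.sub {f g f' g' : ι → ℝ} (he : ∀ t, 0 ≤ e t) (h : Lp e f g) (h' : Lp e f' g') :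
    Lp e (fun t => f t - f' t) (fun t => g t - g' t) := by
  have h2 : Lp e (fun _ : ι => (-1 : ℝ)) (fun _ => -1) := Lp.const (K := 1) he (fun _ => by simp)
  have := h.add he (h2.mul he h')
  simpa only [neg_mul, one_mul, ← sub_eq_add_neg] using this

theorem Lp.inv {f g : ι → ℝ} (he : ∀ t, 0 ≤ e t) (h : Lp e f g) (hf : ∀ t, 1 / 2 ≤ f t)
    (hg : ∀ t, 1 / 2 ≤ g t) : Lp e (fun t => (f t)⁻¹) (fun t => (g t)⁻¹) := by
  obtain ⟨K, hK, h⟩ := h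
  refine ⟨4 * K + 2, by positivity, fun t => ?_⟩
  have f0 : 0 < f t := by linarith [hf t]
  have g0 : 0 < g t := by linarith [hg t]
  have f2 : (f t)⁻¹ ≤ 2 := by
    rw [inv_le_comm₀ f0 two_pos]; linarith [hf t]
  have g2 : (g t)⁻¹ ≤ 2 := by
    rw [inv_le_comm₀ g0 two_pos]; linarith [hg t]
  have f0' : 0 ≤ (f t)⁻¹ := by positivity
  have g0' : 0 ≤ (g t)⁻¹ := by positivity
  refine ⟨?_, ?_, ?_⟩
  · rw [abs_of_nonneg f0']; linarith
  · rw [abs_of_nonneg g0']; linarith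
  · have : (f t)⁻¹ - (g t)⁻¹ = -((f t)⁻¹ * (g t)⁻¹) * (f t - g t) := by
      field_simp; ring
    rw [this, abs_mul, abs_neg, abs_of_nonneg (mul_nonneg f0' g0')]
    have h1 : (f t)⁻¹ * (g t)⁻¹ ≤ 2 * 2 := mul_le_mul f2 g2 g0' (by norm_num)
    have h2 := mul_le_mul h1 (h t).2.2 (abs_nonneg _) (by norm_num)
    have h3 := he t
    nlinarith

end lip

/-- data for the comparison -/
structure OI where
  x : ℝ
  p : ℝ
  ϖ : ℝ
  ε : ℝ
  y : ℝ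
  y' : ℝ
  v : ℝ
  v' : ℝ
  hx : |x| ≤ 1
  hp : |p| ≤ 1
  hϖ : |ϖ| ≤ 1
  hε : |ε| ≤ 1
  hy : |y| ≤ 2
  hy' : |y'| ≤ 2
  hv : |v| ≤ 2
  hv' : |v'| ≤ 2
  hd : 1 / 2 ≤ 1 - 2 * ϖ * ε * P0 x y
  hd' : 1 / 2 ≤ 1 - 2 * ϖ * ε * P0 x y'

noncomputable def OI.e (t : OI) : ℝ := |t.v - t.v'| + |t.y - t.y'|

theorem OI.e_nonneg (t : OI) : 0 ≤ t.e := by unfold OI.e; positivity

/-- the coefficients divided by `ε`, as functions of real numbers -/
noncomputable def c1f (x ϖ ε y v : ℝ) : ℝ :=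
  2 * ϖ * (Py x y * v * (1 - 2 * ϖ * ε * P0 x y)⁻¹)
noncomputable def c2f (x p ϖ ε y v : ℝ) : ℝ :=
  kk x y * (1 - ϖ * p ^ 2)
    + ϖ * ((ε * Py x y ^ 2 * (1 - ϖ * p ^ 2) - kk x y * v ^ 2) * (1 - 2 * ϖ * ε * P0 x y)⁻¹)
noncomputable def c3f (x p ϖ ε y v : ℝ) : ℝ :=
  ϖ * (Px x y * v * (1 - 2 * ϖ * ε * P0 x y)⁻¹ + Py x y * p)

theorem OI.lip : ∃ K : ℝ, 0 ≤ K ∧ ∀ t : OI,
    |c1f t.x t.ϖ t.ε t.y t.v - c1f t.x t.ϖ t.ε t.y' t.v'| ≤ K * t.e ∧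
    |c2f t.x t.p t.ϖ t.ε t.y t.v - c2f t.x t.p t.ϖ t.ε t.y' t.v'| ≤ K * t.e ∧
    |c3f t.x t.p t.ϖ t.ε t.y t.v - c3f t.x t.p t.ϖ t.ε t.y' t.v'| ≤ K * t.e := by
  have he : ∀ t : OI, 0 ≤ t.e := OI.e_nonneg
  have ly : Lp OI.e OI.y OI.y' := ⟨2, by norm_num, fun t => ⟨t.hy, t.hy', by
    unfold OI.e
    have := abs_nonneg (t.v - t.v')
    have := abs_nonneg (t.y - t.y')
    linarith⟩⟩
  have lv : Lp OI.e OI.v OI.v' := ⟨2, by norm_num, fun t => ⟨t.hv, t.hv', by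
    unfold OI.e
    have := abs_nonneg (t.v - t.v')
    have := abs_nonneg (t.y - t.y')
    linarith⟩⟩
  have lx : Lp OI.e OI.x OI.x := Lp.const he OI.hx
  have lp : Lp OI.e OI.p OI.p := Lp.const he OI.hp
  have lϖ : Lp OI.e OI.ϖ OI.ϖ := Lp.const he OI.hϖ
  have lε : Lp OI.e OI.ε OI.ε := Lp.const he OI.hε
  have lc : ∀ c : ℝ, Lp OI.e (fun _ => c) (fun _ => c) := fun c =>
    Lp.const (K := |c|) he (fun _ => le_rfl)
  have lx4 := (lx.pow he 2).sub he (lc (1 / 4))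
  have lP0 : Lp OI.e (fun t => P0 t.x t.y) (fun t => P0 t.x t.y') := by
    have := ((lx4.mul he (ly.pow he 2)).mul he (lc (2⁻¹))).add he
      ((ly.pow he 4).mul he (lc (12⁻¹)))
    simpa only [P0, div_eq_mul_inv] using this
  have lPy : Lp OI.e (fun t => Py t.x t.y) (fun t => Py t.x t.y') := by
    have := (lx4.mul he ly).add he ((ly.pow he 3).mul he (lc (3⁻¹)))
    simpa only [Py, div_eq_mul_inv] using this
  have lPx : Lp OI.e (fun t => Px t.x t.y) (fun t => Px t.x t.y') := lx.mul he (ly.pow he 2)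
  have lkk : Lp OI.e (fun t => kk t.x t.y) (fun t => kk t.x t.y') :=
    ((lx.pow he 2).add he (ly.pow he 2)).sub he (lc (1 / 4))
  have ld : Lp OI.e (fun t => (1 - 2 * t.ϖ * t.ε * P0 t.x t.y)⁻¹)
      (fun t => (1 - 2 * t.ϖ * t.ε * P0 t.x t.y')⁻¹) :=
    ((lc 1).sub he ((((lc 2).mul he lϖ).mul he lε).mul he lP0)).inv he OI.hd OI.hd'
  have lq : Lp OI.e (fun t => 1 - t.ϖ * t.p ^ 2) (fun t => 1 - t.ϖ * t.p ^ 2) :=
    (lc 1).sub he (lϖ.mul he (lp.pow he 2))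
  have L1 : Lp OI.e (fun t => c1f t.x t.ϖ t.ε t.y t.v) (fun t => c1f t.x t.ϖ t.ε t.y' t.v') :=
    ((lc 2).mul he lϖ).mul he ((lPy.mul he lv).mul he ld)
  have L2 : Lp OI.e (fun t => c2f t.x t.p t.ϖ t.ε t.y t.v)
      (fun t => c2f t.x t.p t.ϖ t.ε t.y' t.v') :=
    (lkk.mul he lq).add he (lϖ.mul he ((((lε.mul he (lPy.pow he 2)).mul he lq).sub he
      (lkk.mul he (lv.pow he 2))).mul he ld))
  have L3 : Lp OI.e (fun t => c3f t.x t.p t.ϖ t.ε t.y t.v)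
      (fun t => c3f t.x t.p t.ϖ t.ε t.y' t.v') :=
    lϖ.mul he (((lPx.mul he lv).mul he ld).add he (lPy.mul he lp))
  obtain ⟨K1, hK1, h1⟩ := L1
  obtain ⟨K2, hK2, h2⟩ := L2
  obtain ⟨K3, hK3, h3⟩ := L3
  refine ⟨K1 + K2 + K3, by positivity, fun t => ⟨?_, ?_, ?_⟩⟩
  · exact (h1 t).2.2.trans (mul_le_mul_of_nonneg_right (by linarith) (he t))
  · exact (h2 t).2.2.trans (mul_le_mul_of_nonneg_right (by linarith) (he t))
  · exact (h3 t).2.2.trans (mul_le_mul_of_nonneg_right (by linarith) (he t))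

/-! ### the rectangle is small -/

theorem ea_Rct_small {ε b : ℝ} (hε : 0 < ε) (hε1 : ε ≤ 1 / 100) (hb : 0 < b) (hb1 : b ≤ ε ^ 3)
    {z : ℝ × ℝ} (hz : z ∈ Rct ε b) : |z.1| ≤ 1 / 10 ∧ |z.2| ≤ 1 / 10 := by
  have h1 : |z.1| < X1 ε b := hz.1
  have h2 : |z.2| < 10 * b := hz.2
  have hsε : ε ≤ √ε := by
    apply Real.le_sqrt_of_sq_le
    nlinarith
  have hX : X1 ε b ≤ 300 * ε ^ 2 := by
    unfold X1
    rw [div_le_iff₀ (lt_of_lt_of_le hε hsε)]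
    have : 300 * ε ^ 2 * ε ≤ 300 * ε ^ 2 * √ε := mul_le_mul_of_nonneg_left hsε (by positivity)
    nlinarith
  have h3 : ε ^ 2 ≤ (1 / 100) ^ 2 := pow_le_pow_left₀ hε.le hε1 2
  have h4 : ε ^ 3 ≤ (1 / 100) ^ 3 := pow_le_pow_left₀ hε.le hε1 3
  norm_num at h3 h4
  constructor <;> linarith

theorem ea_disc {z : ℝ × ℝ} (h : |z.1| ≤ 1 / 10 ∧ |z.2| ≤ 1 / 10) : z.1 ^ 2 + z.2 ^ 2 < 0.81 := by
  have h1 := pow_le_pow_left₀ (abs_nonneg _) h.1 2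
  have h2 := pow_le_pow_left₀ (abs_nonneg _) h.2 2
  rw [sq_abs] at h1 h2
  norm_num at h1 h2 ⊢
  linarith

theorem ea_P0_bound {ϖ ε x y : ℝ} (hϖ : 0 < ϖ) (hϖ1 : ϖ ≤ 1) (hε : 0 < ε) (hε1 : ε ≤ 1 / 100)
    (hx : |x| ≤ 1 / 10) (hy : |y| ≤ 2) : 1 / 2 ≤ 1 - 2 * ϖ * ε * P0 x y := by
  have hP : P0 x y ≤ 4 := by
    unfold P0
    have h1 : x ^ 2 ≤ 1 := by
      rw [← sq_abs]; exact pow_le_one₀ (abs_nonneg _) (by linarith)
    have h2 : y ^ 2 ≤ 4 := by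
      rw [← sq_abs]
      calc |y| ^ 2 ≤ 2 ^ 2 := pow_le_pow_left₀ (abs_nonneg _) hy 2
        _ = 4 := by norm_num
    have h3 : 0 ≤ y ^ 2 := sq_nonneg y
    nlinarith
  have h5 : 0 < ϖ * ε := by positivity
  have h6 : ϖ * ε ≤ 1 / 100 := by nlinarith
  have h7 : 2 * ϖ * ε * P0 x y ≤ 2 * ϖ * ε * 4 := mul_le_mul_of_nonneg_left hP (by positivity)
  nlinarith

theorem opE_diff_aux : ∃ C : ℝ, 0 < C ∧ ∃ ε₀ : ℝ, 0 < ε₀ ∧ ∀ δ : ℝ, δ ≤ 1 / 10 → ∀ S : Sol δ,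
    S.ε ≤ ε₀ →
    ∀ v : ℝ × ℝ → ℝ, ContDiff ℝ ∞ v → ∀ z ∈ Rct S.ε S.b, |dx v z| ≤ 2 → |dp v z| ≤ 2 →
    |dp (dx v) z| ≤ 2 → |dp (dp v) z| ≤ 2 →
    |LL (G1 S.ϖ S.ε S.w) (G2 S.ϖ S.ε S.w) (fun _ => 0) (fun _ => 0) (fun z => S.w z - v z) z
      - (opE S.ϖ (E0 S.ϖ S.ε) S.w z - opE S.ϖ (E0 S.ϖ S.ε) v z)| ≤
      C * S.ε * (|dx S.w z - dx v z| + |dp S.w z - dp v z|) := by
  obtain ⟨K, hK, hlip⟩ := OI.lip
  refine ⟨5 * K + 1, by positivity, 1, one_pos, ?_⟩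
  intro δ hδ S _ v hv z hz k1 k2 k3 k4
  have hε := S.ε_pos
  have hzz := ea_Rct_small S.ε_pos S.ε_le S.b_pos S.b_le hz
  have hdisc := ea_disc hzz
  have w1 : |dp S.w z| ≤ 2 := art_base_dp (i := 0) (by linarith) S (by norm_num) hdisc
  have w2 : |dx S.w z| ≤ 2 := art_base_dx (i := 0) (by linarith) S (by norm_num) hdisc
  have hd := sol_one_sub S z
  have hd' := ea_P0_bound S.ϖ_pos S.ϖ_le_one S.ε_pos S.ε_le hzz.1 k2
  obtain ⟨l1, l2, l3⟩ := hlip ⟨z.1, z.2, S.ϖ, S.ε, dp S.w z, dp v z, dx S.w z, dx v z,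
    by linarith [hzz.1], by linarith [hzz.2], by rw [abs_of_pos S.ϖ_pos]; exact S.ϖ_le_one,
    by rw [abs_of_pos hε]; linarith [S.ε_le], w1, k2, w2, k1, hd, hd'⟩
  simp only [OI.e] at l1 l2 l3
  set E := |dx S.w z - dx v z| + |dp S.w z - dp v z| with hE
  have hE0 : 0 ≤ E := by positivity
  have hEw : E0 S.ϖ S.ε (z.1, dp S.w z) ≠ 0 := by
    unfold E0; simp only; intro h; linarith
  have hEv : E0 S.ϖ S.ε (z.1, dp v z) ≠ 0 := by
    unfold E0; simp only; intro h; linarith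
  rw [opE_E0 S.ϖ_pos S.w z hEw, opE_E0 S.ϖ_pos v z hEv]
  have g1w : G1 S.ϖ S.ε S.w z = S.ε * c1f z.1 S.ϖ S.ε (dp S.w z) (dx S.w z) := by
    unfold G1 c1f dd; ring
  have g1v : G1 S.ϖ S.ε v z = S.ε * c1f z.1 S.ϖ S.ε (dp v z) (dx v z) := by
    unfold G1 c1f dd; ring
  have g2w : G2 S.ϖ S.ε S.w z = S.ε * c2f z.1 z.2 S.ϖ S.ε (dp S.w z) (dx S.w z) := by
    unfold G2 c2f dd; ring
  have g2v : G2 S.ϖ S.ε v z = S.ε * c2f z.1 z.2 S.ϖ S.ε (dp v z) (dx v z) := by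
    unfold G2 c2f dd; ring
  have g3w : G3 S.ϖ S.ε S.w z = S.ε * c3f z.1 z.2 S.ϖ S.ε (dp S.w z) (dx S.w z) := by
    unfold G3 c3f dd; ring
  have g3v : G3 S.ϖ S.ε v z = S.ε * c3f z.1 z.2 S.ϖ S.ε (dp v z) (dx v z) := by
    unfold G3 c3f dd; ring
  have eX : dx (fun z => S.w z - v z) = fun z => dx S.w z - dx v z := by
    funext y; exact dx_sub (diff_of_smooth S.smooth y) (diff_of_smooth hv y)
  have eP : dp (fun z => S.w z - v z) = fun z => dp S.w z - dp v z := by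
    funext y; exact dp_sub (diff_of_smooth S.smooth y) (diff_of_smooth hv y)
  have eXX : dx (dx (fun z => S.w z - v z)) z = dx (dx S.w) z - dx (dx v) z := by
    rw [eX]; exact dx_sub (diff_of_smooth (cd_dx S.smooth) z) (diff_of_smooth (cd_dx hv) z)
  have eXP : dp (dx (fun z => S.w z - v z)) z = dp (dx S.w) z - dp (dx v) z := by
    rw [eX]; exact dp_sub (diff_of_smooth (cd_dx S.smooth) z) (diff_of_smooth (cd_dx hv) z)
  have ePP : dp (dp (fun z => S.w z - v z)) z = dp (dp S.w) z - dp (dp v) z := by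
    rw [eP]; exact dp_sub (diff_of_smooth (cd_dp S.smooth) z) (diff_of_smooth (cd_dp hv) z)
  simp only [LL]
  rw [eXX, eXP, ePP, g1w, g2w, g3w, g1v, g2v, g3v]
  set a1 := c1f z.1 S.ϖ S.ε (dp S.w z) (dx S.w z)
  set a1' := c1f z.1 S.ϖ S.ε (dp v z) (dx v z)
  set a2 := c2f z.1 z.2 S.ϖ S.ε (dp S.w z) (dx S.w z)
  set a2' := c2f z.1 z.2 S.ϖ S.ε (dp v z) (dx v z)
  set a3 := c3f z.1 z.2 S.ϖ S.ε (dp S.w z) (dx S.w z)
  set a3' := c3f z.1 z.2 S.ϖ S.ε (dp v z) (dx v z)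
  have e : dx (dx S.w) z - dx (dx v) z + S.ε * a1 * (dp (dx S.w) z - dp (dx v) z)
      + S.ε * a2 * (dp (dp S.w) z - dp (dp v) z)
      + 0 * dp (fun z => S.w z - v z) z + 0 * dx (fun z => S.w z - v z) z
      - (dx (dx S.w) z + S.ε * a1 * dp (dx S.w) z + S.ε * a2 * dp (dp S.w) z + S.ε * a3
        - (dx (dx v) z + S.ε * a1' * dp (dx v) z + S.ε * a2' * dp (dp v) z + S.ε * a3')) =
      - (S.ε * ((a1 - a1') * dp (dx v) z + (a2 - a2') * dp (dp v) z + (a3 - a3'))) := by ring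
  rw [e, abs_neg, abs_mul, abs_of_pos hε]
  have m1 : |(a1 - a1') * dp (dx v) z| ≤ K * E * 2 := by
    rw [abs_mul]; exact mul_le_mul l1 k3 (abs_nonneg _) (by positivity)
  have m2 : |(a2 - a2') * dp (dp v) z| ≤ K * E * 2 := by
    rw [abs_mul]; exact mul_le_mul l2 k4 (abs_nonneg _) (by positivity)
  have m3 : |(a1 - a1') * dp (dx v) z + (a2 - a2') * dp (dp v) z + (a3 - a3')| ≤ (5 * K) * E := by
    refine (abs_add_le _ _).trans ?_
    have := abs_add_le ((a1 - a1') * dp (dx v) z) ((a2 - a2') * dp (dp v) z)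
    linarith
  calc _ ≤ S.ε * ((5 * K) * E) := mul_le_mul_of_nonneg_left m3 hε.le
    _ ≤ S.ε * ((5 * K + 1) * E) := by
        refine mul_le_mul_of_nonneg_left ?_ hε.le
        nlinarith
    _ = _ := by ring

end Crest.Agent.Iso
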