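import Crest.Agent.Iso.Approx
import Crest.Agent.Iso.MultId
import Crest.Agent.Iso.EnAux

/-!
# Row 220: linear estimates in the small rectangle
-/

set_option autoImplicit false

open scoped ContDiff
open MeasureTheory Set

namespace Crest.Agent.Iso

/-- conditions on the coefficients in the small rectangle -/
structure Hyp (ε b : ℝ) (g1 g2 : ℝ × ℝ → ℝ) : Prop where
  c1 : ContDiff ℝ 1 g1
  c2 : ContDiff ℝ 1 g2
  h1 : ∀ z ∈ Rct ε b, |g1 z| ≤ ε
  h1x : ∀ z ∈ Rct ε b, |dx g1 z| ≤ ε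
  h1p : ∀ z ∈ Rct ε b, |dp g1 z| ≤ ε
  h2 : ∀ z ∈ Rct ε b, |g2 z + ε / 4| ≤ ε / 8
  h2x : ∀ z ∈ Rct ε b, |dx g2 z| ≤ ε
  h2p : ∀ z ∈ Rct ε b, |dp g2 z| ≤ ε

private theorem enl_cd_dx {f : ℝ × ℝ → ℝ} (hf : ContDiff ℝ 1 f) : Continuous (dx f) := by
  unfold dx
  exact (hf.continuous_fderiv (by norm_num)).clm_apply continuous_const

private theorem enl_cd_dp {f : ℝ × ℝ → ℝ} (hf : ContDiff ℝ 1 f) : Continuous (dp f) := by
  unfold dp
  exact (hf.continuous_fderiv (by norm_num)).clm_apply continuous_const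

private theorem enl_hc_dx {f : ℝ × ℝ → ℝ} (hc : HasCompactSupport f) :
    HasCompactSupport (dx f) := hc.fderiv_apply (𝕜 := ℝ) _

private theorem enl_hc_dp {f : ℝ × ℝ → ℝ} (hc : HasCompactSupport f) :
    HasCompactSupport (dp f) := hc.fderiv_apply (𝕜 := ℝ) _

private theorem enl_dx_zero {f : ℝ × ℝ → ℝ} {z : ℝ × ℝ} (h : z ∉ tsupport f) : dx f z = 0 := by
  unfold dx
  have h1 : fderiv ℝ f z = 0 := by
    by_contra h2
    exact h (support_fderiv_subset ℝ h2)
  rw [h1]; rfl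

private theorem enl_dp_zero {f : ℝ × ℝ → ℝ} {z : ℝ × ℝ} (h : z ∉ tsupport f) : dp f z = 0 := by
  unfold dp
  have h1 : fderiv ℝ f z = 0 := by
    by_contra h2
    exact h (support_fderiv_subset ℝ h2)
  rw [h1]; rfl

private theorem enl_X1_le {ε b : ℝ} (hε : 0 < ε) (hε1 : ε ≤ 1) (hb : 0 < b) (hb1 : b ≤ ε ^ 3) :
    0 < X1 ε b ∧ X1 ε b ≤ 300 * ε ^ 2 ∧ 300 * b ≤ X1 ε b ∧ X1 ε b * √ε = 300 * b := by
  have hs : 0 < √ε := Real.sqrt_pos.2 hε
  have hss : √ε * √ε = ε := Real.mul_self_sqrt hε.le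
  have hs1 : √ε ≤ 1 := by
    rw [Real.sqrt_le_left zero_le_one]
    simpa using hε1
  unfold X1
  refine ⟨by positivity, ?_, ?_, ?_⟩
  · rw [div_le_iff₀ hs]
    have h1 : ε ≤ √ε := by nlinarith
    have h2 : ε ^ 3 ≤ ε ^ 2 * √ε := by
      have : ε ^ 3 = ε ^ 2 * ε := by ring
      rw [this]
      exact mul_le_mul_of_nonneg_left h1 (by positivity)
    nlinarith
  · rw [le_div_iff₀ hs]
    nlinarith
  · field_simp

/-- pointwise inequality of the energy estimate -/
private theorem enl_point {ε X K u v F q l A1 A2 A3 B : ℝ} (hε : 0 < ε) (hε1 : ε ≤ 1) (hX : 0 < X)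
    (hXK : X * (1 + K) ≤ 1 / 1000) (hK : 0 ≤ K)
    (hA1 : 1 / 2 - 3 / 2 * X * ε ≤ A1) (hA2 : ε / 16 - 3 / 2 * X * ε ≤ A2)
    (hA3 : |A3| ≤ 3 * X * ε) (hB0 : 0 ≤ B) (hB : B ≤ 3 * X)
    (hl : |l| ≤ F + K * ε * (|u| + |v|))
    (hq : q = A1 * u ^ 2 + A2 * v ^ 2 + A3 * (u * v) - l * (B * u)) :
    1 / 32 * (u ^ 2 + ε * v ^ 2) - 18 * X ^ 2 * F ^ 2 ≤ q := by
  have hu : 0 ≤ |u| := abs_nonneg u
  have hv : 0 ≤ |v| := abs_nonneg v
  have hu2 : |u| ^ 2 = u ^ 2 := sq_abs u
  have hv2 : |v| ^ 2 = v ^ 2 := sq_abs v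
  have huv : |u| * |v| ≤ (u ^ 2 + v ^ 2) / 2 := by nlinarith [sq_nonneg (|u| - |v|)]
  have h3 : -(3 * X * ε * ((u ^ 2 + v ^ 2) / 2)) ≤ A3 * (u * v) := by
    have h4 : |A3 * (u * v)| ≤ 3 * X * ε * ((u ^ 2 + v ^ 2) / 2) := by
      rw [abs_mul, abs_mul]
      exact mul_le_mul hA3 huv (mul_nonneg hu hv) (by positivity)
    exact (abs_le.1 h4).1
  have h5 : l * (B * u) ≤ 3 * X * ((F + K * ε * (|u| + |v|)) * |u|) := by
    have h6 : l * (B * u) ≤ |l| * (B * |u|) := by
      calc l * (B * u) ≤ |l * (B * u)| := le_abs_self _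
        _ = |l| * (B * |u|) := by rw [abs_mul, abs_mul, abs_of_nonneg hB0]
    have hFnn : 0 ≤ F + K * ε * (|u| + |v|) := (abs_nonneg l).trans hl
    calc l * (B * u) ≤ |l| * (B * |u|) := h6
      _ ≤ (F + K * ε * (|u| + |v|)) * (3 * X * |u|) := by
          refine mul_le_mul hl (mul_le_mul_of_nonneg_right hB hu) (mul_nonneg hB0 hu) hFnn
      _ = _ := by ring
  have h7 : 3 * X * (F * |u|) ≤ 18 * X ^ 2 * F ^ 2 + u ^ 2 / 8 := by
    nlinarith [sq_nonneg (12 * X * F - |u|)]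
  have h8 : 3 * X * (K * ε * (|u| + |v|) * |u|) ≤ 3 * X * K * ε * (u ^ 2 + (u ^ 2 + v ^ 2) / 2) := by
    have h9 : (|u| + |v|) * |u| ≤ u ^ 2 + (u ^ 2 + v ^ 2) / 2 := by nlinarith
    have h10 : 0 ≤ 3 * X * K * ε := by positivity
    calc 3 * X * (K * ε * (|u| + |v|) * |u|) = 3 * X * K * ε * ((|u| + |v|) * |u|) := by ring
      _ ≤ _ := mul_le_mul_of_nonneg_left h9 h10
  have h11 : l * (B * u) ≤ 18 * X ^ 2 * F ^ 2 + u ^ 2 / 8 +
      3 * X * K * ε * (u ^ 2 + (u ^ 2 + v ^ 2) / 2) := by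
    calc l * (B * u) ≤ 3 * X * ((F + K * ε * (|u| + |v|)) * |u|) := h5
      _ = 3 * X * (F * |u|) + 3 * X * (K * ε * (|u| + |v|) * |u|) := by ring
      _ ≤ _ := add_le_add h7 h8
  have hu0 : 0 ≤ u ^ 2 := sq_nonneg u
  have hv0 : 0 ≤ v ^ 2 := sq_nonneg v
  have hXε : 0 < X * ε := by positivity
  have hXεle : X * (1 + K) * ε ≤ ε / 1000 := by nlinarith
  have hXε1 : X * ε + X * K * ε ≤ ε / 1000 := by nlinarith
  have hXKε : 0 ≤ X * K * ε := by positivity
  have e1 : (1 / 2 - 3 / 2 * X * ε) * u ^ 2 ≤ A1 * u ^ 2 := mul_le_mul_of_nonneg_right hA1 hu0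
  have e2 : (ε / 16 - 3 / 2 * X * ε) * v ^ 2 ≤ A2 * v ^ 2 := mul_le_mul_of_nonneg_right hA2 hv0
  have e3 : 0 ≤ (1 / 2 - 1 / 8 - 1 / 32 - 3 * (X * ε) - 9 / 2 * (X * K * ε)) * u ^ 2 := by
    refine mul_nonneg ?_ hu0
    nlinarith
  have e4 : 0 ≤ (ε / 16 - ε / 32 - 3 * (X * ε) - 3 / 2 * (X * K * ε)) * v ^ 2 := by
    refine mul_nonneg ?_ hv0
    nlinarith
  rw [hq]
  nlinarith

/-- the energy estimate: `mult_identity` with `b = 2 X1 - x`, `c = 0`: the form is
`≥ φ_x²/4 + ε φ_p²/32`, the right side is `≤ 3 X1 ∫ |LL φ| |φ_x|`, and `X1 K ε ‖φ_p‖ ‖φ_x‖` is absorbed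
(`X1 = 300 b/√ε ≤ 300 ε^{5/2}`) -/
theorem energy_lin (K : ℝ) (hK : 0 ≤ K) : ∃ ε₀ : ℝ, 0 < ε₀ ∧ ∃ C : ℝ, 0 < C ∧ ∀ ε b : ℝ, 0 < ε →
    ε ≤ ε₀ → 0 < b → b ≤ ε ^ 3 → ∀ g1 g2 φ F : ℝ × ℝ → ℝ, Hyp ε b g1 g2 → ContDiff ℝ ∞ φ →
    HasCompactSupport φ → tsupport φ ⊆ Rct ε b → ContinuousOn F (Rct ε b) →
    IntegrableOn (fun z => F z ^ 2) (Rct ε b) →
    (∀ z ∈ Rct ε b, |LL g1 g2 (fun _ => 0) (fun _ => 0) φ z| ≤ F z + K * ε * (|dx φ z| + |dp φ z|)) →
    ∫ z, (dx φ z ^ 2 + ε * dp φ z ^ 2) ≤ C * X1 ε b ^ 2 * ∫ z in Rct ε b, F z ^ 2 := by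
  have hK1 : 0 < 1 + K := by linarith
  refine ⟨1 / (300000 * (1 + K)), by positivity, 576, by norm_num, ?_⟩
  intro ε b hε hε0 hb hb1 g1 g2 φ F hyp hφ hc hsupp hFc hFi hLL
  have hε1 : ε ≤ 1 := by
    refine hε0.trans ?_
    rw [div_le_one (by positivity)]
    nlinarith
  have hεK : ε * (1 + K) ≤ 1 / 300000 := by
    have := mul_le_mul_of_nonneg_right hε0 hK1.le
    have e : 1 / (300000 * (1 + K)) * (1 + K) = 1 / 300000 := by field_simp
    rwa [e] at this
  obtain ⟨hX0, hX1, hX2, hX3⟩ := enl_X1_le hε hε1 hb hb1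
  set X := X1 ε b with hXdef
  have hXK : X * (1 + K) ≤ 1 / 1000 := by
    have h1 : X * (1 + K) ≤ 300 * ε ^ 2 * (1 + K) := mul_le_mul_of_nonneg_right hX1 hK1.le
    have h2 : 300 * ε ^ 2 * (1 + K) = 300 * ε * (ε * (1 + K)) := by ring
    have h3 : 300 * ε * (ε * (1 + K)) ≤ 300 * 1 * (1 / 300000) := by
      refine mul_le_mul (by linarith) hεK (by positivity) (by norm_num)
    linarith
  -- the multiplier
  set B : ℝ × ℝ → ℝ := fun z => 2 * X - z.1 with hB
  have hBc : ContDiff ℝ 1 B := contDiff_const.sub contDiff_fst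
  have hBx : ∀ z, dx B z = -1 := by
    intro z
    have h1 : dx B z = dx (fun _ : ℝ × ℝ => 2 * X) z - dx (fun z : ℝ × ℝ => z.1) z :=
      dx_sub (differentiableAt_const _) differentiableAt_fst
    rw [h1, dx_const, dx_fst]; norm_num
  have hBp : ∀ z, dp B z = 0 := by
    intro z
    have h1 : dp B z = dp (fun _ : ℝ × ℝ => 2 * X) z - dp (fun z : ℝ × ℝ => z.1) z :=
      dp_sub (differentiableAt_const _) differentiableAt_fst
    rw [h1, dp_const, dp_fst]; norm_num
  have hid := mult_identity (g1 := g1) (g2 := g2) (a1 := fun _ => 0) (a2 := fun _ => 0) (b := B)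
    (c := fun _ => 0) hφ hc hyp.c1 hyp.c2 continuous_const continuous_const hBc hBp contDiff_const
  set l : ℝ × ℝ → ℝ := LL g1 g2 (fun _ => 0) (fun _ => 0) φ with hl
  set A1 : ℝ × ℝ → ℝ := Axx g1 (fun _ => 0) B (fun _ => 0) with hA1
  set A2 : ℝ × ℝ → ℝ := App g1 g2 (fun _ => 0) B (fun _ => 0) with hA2
  set A3 : ℝ × ℝ → ℝ := Axp g2 (fun _ => 0) (fun _ => 0) B (fun _ => 0) with hA3
  have hA1v : ∀ z, A1 z = 1 / 2 - B z * dp g1 z / 2 := by
    intro z
    simp only [hA1, Axx, hBx, dp_const]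
    ring
  have hA2v : ∀ z, A2 z = (-g2 z + B z * dx g2 z) / 2 := by
    intro z
    simp only [hA2, App, hBx, dp_const, dx_const]
    ring
  have hA3v : ∀ z, A3 z = - (B z * dp g2 z) := by
    intro z
    simp only [hA3, Axp, dx_const]
    ring
  -- smoothness
  have hφ1 : ContDiff ℝ 1 φ := hφ.of_le (by norm_cast)
  have cu : Continuous (dx φ) := enl_cd_dx hφ1
  have cv : Continuous (dp φ) := enl_cd_dp hφ1
  have huc : HasCompactSupport (dx φ) := enl_hc_dx hc
  have hvc : HasCompactSupport (dp φ) := enl_hc_dp hc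
  have cB : Continuous B := hBc.continuous
  have cA1 : Continuous A1 := by
    have h1 := enl_cd_dp hyp.c1
    have : A1 = fun z => 1 / 2 - B z * dp g1 z / 2 := funext hA1v
    rw [this]; fun_prop
  have cA2 : Continuous A2 := by
    have h1 := enl_cd_dx hyp.c2
    have h2 := hyp.c2.continuous
    have : A2 = fun z => (-g2 z + B z * dx g2 z) / 2 := funext hA2v
    rw [this]; fun_prop
  have cA3 : Continuous A3 := by
    have h1 := enl_cd_dp hyp.c2
    have : A3 = fun z => - (B z * dp g2 z) := funext hA3v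
    rw [this]; fun_prop
  have cl : Continuous l := by
    have h1 := (cd_dx (cd_dx hφ)).continuous
    have h2 := (cd_dp (cd_dx hφ)).continuous
    have h3 := (cd_dp (cd_dp hφ)).continuous
    have h4 := hyp.c1.continuous
    have h5 := hyp.c2.continuous
    rw [hl]; unfold LL; fun_prop
  let q : ℝ × ℝ → ℝ := fun z => (A1 z * dx φ z ^ 2 + A2 z * dp φ z ^ 2 + A3 z * (dx φ z * dp φ z))
    - l z * (B z * dx φ z + 0 * dp φ z)
  have iR : Integrable (fun z => A1 z * dx φ z ^ 2 + A2 z * dp φ z ^ 2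
      + A3 z * (dx φ z * dp φ z)) := by
    apply Continuous.integrable_of_hasCompactSupport
    · fun_prop
    · have h1 : HasCompactSupport (fun z => dx φ z * (A1 z * dx φ z + A3 z * dp φ z)) :=
        huc.mul_right
      have h2 : HasCompactSupport (fun z => dp φ z * (A2 z * dp φ z)) := hvc.mul_right
      have h3 := h1.add h2
      have e : (fun z => A1 z * dx φ z ^ 2 + A2 z * dp φ z ^ 2 + A3 z * (dx φ z * dp φ z)) =
        (fun z => dx φ z * (A1 z * dx φ z + A3 z * dp φ z)) +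
          (fun z => dp φ z * (A2 z * dp φ z)) := by
        funext z
        simp only [Pi.add_apply]
        ring
      rw [e]; exact h3
  have iL : Integrable (fun z => l z * (B z * dx φ z + 0 * dp φ z)) := by
    apply Continuous.integrable_of_hasCompactSupport
    · fun_prop
    · have h1 : HasCompactSupport (fun z => dx φ z * (l z * B z)) := huc.mul_right
      have e : (fun z => l z * (B z * dx φ z + 0 * dp φ z)) = (fun z => dx φ z * (l z * B z)) := by
        funext z; ring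
      rw [e]; exact h1
  have iq : Integrable q := iR.sub iL
  have hq0 : ∫ z, q z = 0 := by
    rw [integral_sub iR iL, hid, sub_self]
  have hout : ∀ z, z ∉ Rct ε b → dx φ z = 0 ∧ dp φ z = 0 := fun z hz =>
    ⟨enl_dx_zero (fun h => hz (hsupp h)), enl_dp_zero (fun h => hz (hsupp h))⟩
  have hqout : ∀ z, z ∉ Rct ε b → q z = 0 := by
    intro z hz
    obtain ⟨h1, h2⟩ := hout z hz
    simp only [q, h1, h2]; ring
  -- pointwise
  have hpt : ∀ z ∈ Rct ε b,
      1 / 32 * (dx φ z ^ 2 + ε * dp φ z ^ 2) - 18 * X ^ 2 * F z ^ 2 ≤ q z := by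
    intro z hz
    have hz1 : |z.1| < X := hz.1
    have hz1' := abs_lt.1 hz1
    have hB0 : 0 ≤ B z := by simp only [hB]; linarith
    have hB3 : B z ≤ 3 * X := by simp only [hB]; linarith
    refine enl_point (A1 := A1 z) (A2 := A2 z) (A3 := A3 z) (B := B z) (l := l z) (K := K) hε hε1
      hX0 hXK hK ?_ ?_ ?_ hB0 hB3 (hLL z hz) ?_
    · rw [hA1v]
      have h1 : |B z * dp g1 z| ≤ 3 * X * ε := by
        rw [abs_mul, abs_of_nonneg hB0]
        exact mul_le_mul hB3 (hyp.h1p z hz) (abs_nonneg _) (by positivity)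
      have := (abs_le.1 h1).2
      linarith
    · rw [hA2v]
      have h1 : |B z * dx g2 z| ≤ 3 * X * ε := by
        rw [abs_mul, abs_of_nonneg hB0]
        exact mul_le_mul hB3 (hyp.h2x z hz) (abs_nonneg _) (by positivity)
      have h2 := (abs_le.1 h1).1
      have h3 := (abs_le.1 (hyp.h2 z hz)).2
      linarith
    · rw [hA3v, abs_neg, abs_mul, abs_of_nonneg hB0]
      exact mul_le_mul hB3 (hyp.h2p z hz) (abs_nonneg _) (by positivity)
    · simp only [q]; ring
  -- integrate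
  have hmeas : MeasurableSet (Rct ε b) := by
    have h1 : IsOpen (Rct ε b) := by
      have ha : IsOpen {z : ℝ × ℝ | |z.1| < X1 ε b} :=
        isOpen_lt (continuous_abs.comp continuous_fst) continuous_const
      have hb : IsOpen {z : ℝ × ℝ | |z.2| < 10 * b} :=
        isOpen_lt (continuous_abs.comp continuous_snd) continuous_const
      exact ha.inter hb
    exact h1.measurableSet
  have iD : Integrable (fun z => dx φ z ^ 2 + ε * dp φ z ^ 2) := by
    apply Continuous.integrable_of_hasCompactSupport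
    · fun_prop
    · have h1 : HasCompactSupport (fun z => dx φ z * dx φ z) := huc.mul_right
      have h2 : HasCompactSupport (fun z => dp φ z * (ε * dp φ z)) := hvc.mul_right
      have h3 := h1.add h2
      have e : (fun z => dx φ z ^ 2 + ε * dp φ z ^ 2) =
        (fun z => dx φ z * dx φ z) + (fun z => dp φ z * (ε * dp φ z)) := by
        funext z
        simp only [Pi.add_apply]
        ring
      rw [e]; exact h3
  have hDset : ∫ z in Rct ε b, (dx φ z ^ 2 + ε * dp φ z ^ 2) =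
      ∫ z, (dx φ z ^ 2 + ε * dp φ z ^ 2) := by
    apply setIntegral_eq_integral_of_forall_compl_eq_zero
    intro z hz
    obtain ⟨h1, h2⟩ := hout z hz
    rw [h1, h2]; ring
  have hqset : ∫ z in Rct ε b, q z = 0 := by
    rw [← hq0]
    apply setIntegral_eq_integral_of_forall_compl_eq_zero
    exact hqout
  have hfin : ∫ z in Rct ε b, (1 / 32 * (dx φ z ^ 2 + ε * dp φ z ^ 2)) ≤
      ∫ z in Rct ε b, (q z + 18 * X ^ 2 * F z ^ 2) := by
    refine setIntegral_mono_on (iD.integrableOn.const_mul _)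
      (iq.integrableOn.add (hFi.const_mul _)) hmeas ?_
    intro z hz
    have := hpt z hz
    linarith
  rw [integral_const_mul, hDset, integral_add iq.integrableOn (hFi.const_mul _), hqset,
    integral_const_mul] at hfin
  linarith

/-- Cauchy-Schwarz on a set of finite measure -/
private theorem enl_cs {S : Set (ℝ × ℝ)} (hS : MeasurableSet S) {D : ℝ × ℝ → ℝ}
    (hD : IntegrableOn D S) (hD2 : IntegrableOn (fun z => D z ^ 2) S) {V J : ℝ} (hV : 0 < V)
    (hvol : volume.real S = V) (hJ : ∫ z in S, D z ^ 2 = J) :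
    ∫ z in S, D z ≤ √(V * J) := by
  have hJ0 : 0 ≤ J := by
    rw [← hJ]; exact setIntegral_nonneg hS (fun z _ => sq_nonneg _)
  have hfin : volume S ≠ ⊤ := by
    intro h
    rw [measureReal_def, h] at hvol
    simp at hvol
    linarith
  have key : ∀ t : ℝ, 0 < t → ∫ z in S, D z ≤ t * V / 2 + J / (2 * t) := by
    intro t ht
    have hpt : ∀ z ∈ S, D z ≤ t / 2 + 1 / (2 * t) * D z ^ 2 := by
      intro z _
      have h1 : 0 ≤ (D z - t) ^ 2 := sq_nonneg _
      have h2 : t / 2 + 1 / (2 * t) * D z ^ 2 - D z = (D z - t) ^ 2 / (2 * t) := by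
        field_simp; ring
      have h3 : 0 ≤ (D z - t) ^ 2 / (2 * t) := div_nonneg h1 (by positivity)
      linarith
    have hc : IntegrableOn (fun _ : ℝ × ℝ => t / 2) S := integrableOn_const hfin
    have h4 : ∫ z in S, D z ≤ ∫ z in S, (t / 2 + 1 / (2 * t) * D z ^ 2) :=
      setIntegral_mono_on hD (hc.add (hD2.const_mul (1 / (2 * t)))) hS hpt
    have h5 : ∫ z in S, (t / 2 + 1 / (2 * t) * D z ^ 2) =
        (∫ _z in S, t / 2) + ∫ z in S, 1 / (2 * t) * D z ^ 2 :=
      integral_add hc (hD2.const_mul _)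
    refine h4.trans (le_of_eq ?_)
    rw [h5, integral_const_mul, hJ, setIntegral_const, hvol, smul_eq_mul]
    ring
  rcases hJ0.eq_or_lt with h0 | h0
  · rw [← h0, mul_zero, Real.sqrt_zero]
    refine le_of_forall_pos_le_add (fun t ht => ?_)
    have h1 := key (t / V) (by positivity)
    rw [← h0, zero_div, add_zero] at h1
    have e : t / V * V / 2 = t / 2 := by field_simp
    rw [e] at h1
    linarith
  · have hs : 0 < √(J / V) := Real.sqrt_pos.2 (by positivity)
    have h1 := key (√(J / V)) hs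
    refine h1.trans (le_of_eq ?_)
    have e1 : √(J / V) = √J / √V := Real.sqrt_div hJ0 V
    have e2 : √(V * J) = √V * √J := Real.sqrt_mul hV.le J
    have hv : 0 < √V := Real.sqrt_pos.2 hV
    have hj : 0 < √J := Real.sqrt_pos.2 h0
    rw [e1, e2]
    have hV' : V = √V * √V := (Real.mul_self_sqrt hV.le).symm
    have hJ' : J = √J * √J := (Real.mul_self_sqrt hJ0).symm
    have e3 : √J / √V * V / 2 = √J * √V / 2 := by
      rw [div_mul_eq_mul_div, div_div, div_eq_div_iff (by positivity) (by norm_num)]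
      nth_rewrite 1 [hV']
      ring
    have e4 : J / (2 * (√J / √V)) = √J * √V / 2 := by
      rw [div_eq_div_iff (by positivity) (by norm_num)]
      have : √J * √V * (2 * (√J / √V)) = 2 * (√J * √J) * (√V / √V) := by ring
      rw [this, div_self hv.ne', ← hJ']
      ring
    rw [e3, e4]
    ring

private theorem enl_Rct_eq (ε b : ℝ) :
    Rct ε b = Ioo (-X1 ε b) (X1 ε b) ×ˢ Ioo (-(10 * b)) (10 * b) := by
  ext z
  simp only [Rct, mem_setOf_eq, mem_prod, mem_Ioo, abs_lt]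

private theorem enl_Rct_vol {ε b : ℝ} (hX : 0 < X1 ε b) (hb : 0 < b) :
    volume.real (Rct ε b) = 2 * X1 ε b * (20 * b) := by
  rw [enl_Rct_eq, measureReal_def, Measure.volume_eq_prod, Measure.prod_prod, Real.volume_Ioo,
    Real.volume_Ioo, ENNReal.toReal_mul, ENNReal.toReal_ofReal (by linarith),
    ENNReal.toReal_ofReal (by linarith)]
  ring

private theorem enl_Rct_convex (ε b : ℝ) : Convex ℝ (Rct ε b) := by
  rw [enl_Rct_eq]
  exact (convex_Ioo _ _).prod (convex_Ioo _ _)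

private theorem enl_Rct_meas (ε b : ℝ) : MeasurableSet (Rct ε b) := by
  rw [enl_Rct_eq]
  exact measurableSet_Ioo.prod measurableSet_Ioo

/-- mean value inequality on the rectangle -/
private theorem enl_mv {ε b : ℝ} (hε : 0 < ε) (hX : 0 < X1 ε b) (hb : 0 < b)
    (hbX : 10 * b ≤ X1 ε b) {g1 g2 : ℝ × ℝ → ℝ} (hyp : Hyp ε b g1 g2) {z : ℝ × ℝ}
    (hz : z ∈ Rct ε b) : |g2 z - g2 0| ≤ 2 * ε * X1 ε b := by
  have h0 : (0 : ℝ × ℝ) ∈ Rct ε b := by
    refine ⟨?_, ?_⟩
    · simpa using hX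
    · simpa using hb
  have hd : ∀ x ∈ Rct ε b, DifferentiableAt ℝ g2 x := fun x _ =>
    hyp.c2.differentiable (by norm_num) x
  have hbd : ∀ x ∈ Rct ε b, ‖fderiv ℝ g2 x‖ ≤ 2 * ε := by
    intro x hx
    refine ContinuousLinearMap.opNorm_le_bound _ (by positivity) (fun v => ?_)
    rw [fderiv_eq_dx_dp, Real.norm_eq_abs]
    have h1 : |v.1| ≤ ‖v‖ := norm_fst_le v
    have h2 : |v.2| ≤ ‖v‖ := norm_snd_le v
    have h3 := hyp.h2x x hx
    have h4 := hyp.h2p x hx
    calc |v.1 * dx g2 x + v.2 * dp g2 x| ≤ |v.1 * dx g2 x| + |v.2 * dp g2 x| := abs_add_le _ _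
      _ = |v.1| * |dx g2 x| + |v.2| * |dp g2 x| := by rw [abs_mul, abs_mul]
      _ ≤ ‖v‖ * ε + ‖v‖ * ε := add_le_add
          (mul_le_mul h1 h3 (abs_nonneg _) (norm_nonneg _))
          (mul_le_mul h2 h4 (abs_nonneg _) (norm_nonneg _))
      _ = 2 * ε * ‖v‖ := by ring
  have h := (enl_Rct_convex ε b).norm_image_sub_le_of_norm_fderiv_le hd hbd h0 hz
  rw [Real.norm_eq_abs] at h
  refine h.trans ?_
  refine mul_le_mul_of_nonneg_left ?_ (by positivity)
  rw [sub_zero, Prod.norm_def]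
  refine max_le ?_ ?_
  · rw [Real.norm_eq_abs]; exact hz.1.le
  · rw [Real.norm_eq_abs]; exact (hz.2.le).trans hbX

/-- the pairing with `ζ = (p + μ x)²`, `μ² = - g2 (0)`: `ζ_xx + g2(0) ζ_pp = 0` -/
theorem pairing_lin : ∃ ε₀ : ℝ, 0 < ε₀ ∧ ∃ C : ℝ, 0 < C ∧ ∀ ε b : ℝ, 0 < ε →
    ε ≤ ε₀ → 0 < b → b ≤ ε ^ 3 → ∀ g1 g2 φ : ℝ × ℝ → ℝ, Hyp ε b g1 g2 → ContDiff ℝ ∞ φ →
    HasCompactSupport φ → tsupport φ ⊆ Rct ε b →
    |∫ z, LL g1 g2 (fun _ => 0) (fun _ => 0) φ z * (z.2 + √(- g2 0) * z.1) ^ 2| ≤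
      C * b ^ 2 * ε ^ (3 / 4 : ℝ) * √(∫ z, (dx φ z ^ 2 + ε * dp φ z ^ 2)) := by
  refine ⟨1, one_pos, 10 ^ 9, by norm_num, ?_⟩
  intro ε b hε hε1 hb hb1 g1 g2 φ hyp hφ hc hsupp
  obtain ⟨hX0, hX1, hX2, hX3⟩ := enl_X1_le hε hε1 hb hb1
  have hs : 0 < √ε := Real.sqrt_pos.2 hε
  have hss : √ε * √ε = ε := Real.mul_self_sqrt hε.le
  have h0 : (0 : ℝ × ℝ) ∈ Rct ε b := by
    refine ⟨?_, ?_⟩
    · simpa using hX0
    · simpa using hb
  set μ := √(- g2 0) with hμ
  have hg0 := abs_le.1 (hyp.h2 0 h0)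
  have hμ0 : 0 ≤ μ := Real.sqrt_nonneg _
  have hμ2 : μ ^ 2 = - g2 0 := by
    rw [hμ, sq]; exact Real.mul_self_sqrt (by linarith)
  have hμle : μ ≤ √ε := by
    rw [hμ]; exact Real.sqrt_le_sqrt (by linarith)
  set X := X1 ε b with hXdef
  -- the linear form
  set L : ℝ × ℝ → ℝ := fun z => z.2 + μ * z.1 with hL
  have hLs : ContDiff ℝ ∞ L := contDiff_snd.add (contDiff_const.mul contDiff_fst)
  have hLx : ∀ z, dx L z = μ := by
    intro z
    have h1 : dx L z = dx (fun z : ℝ × ℝ => z.2) z + dx (fun z : ℝ × ℝ => μ * z.1) z :=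
      dx_add differentiableAt_snd ((differentiableAt_const _).mul differentiableAt_fst)
    have h2 : dx (fun z : ℝ × ℝ => μ * z.1) z =
        dx (fun _ : ℝ × ℝ => μ) z * z.1 + μ * dx (fun z : ℝ × ℝ => z.1) z :=
      dx_mul (differentiableAt_const _) differentiableAt_fst
    rw [h1, h2, dx_const, dx_fst, dx_snd]; ring
  have hLp : ∀ z, dp L z = 1 := by
    intro z
    have h1 : dp L z = dp (fun z : ℝ × ℝ => z.2) z + dp (fun z : ℝ × ℝ => μ * z.1) z :=
      dp_add differentiableAt_snd ((differentiableAt_const _).mul differentiableAt_fst)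
    have h2 : dp (fun z : ℝ × ℝ => μ * z.1) z =
        dp (fun _ : ℝ × ℝ => μ) z * z.1 + μ * dp (fun z : ℝ × ℝ => z.1) z :=
      dp_mul (differentiableAt_const _) differentiableAt_fst
    rw [h1, h2, dp_const, dp_fst, dp_snd]; ring
  have hφ1 : ContDiff ℝ 1 φ := hφ.of_le (by norm_cast)
  have hu : ContDiff ℝ ∞ (dx φ) := cd_dx hφ
  have hv : ContDiff ℝ ∞ (dp φ) := cd_dp hφ
  have hu1 : ContDiff ℝ 1 (dx φ) := hu.of_le (by norm_cast)
  have hv1 : ContDiff ℝ 1 (dp φ) := hv.of_le (by norm_cast)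
  have hL1 : ContDiff ℝ 1 L := hLs.of_le (by norm_cast)
  have huc : HasCompactSupport (dx φ) := enl_hc_dx hc
  have hvc : HasCompactSupport (dp φ) := enl_hc_dp hc
  set u := dx φ with hudef
  set v := dp φ with hvdef
  set γ := g2 0 with hγ
  let U : ℝ × ℝ → ℝ := fun z => u z * (L z * L z) - φ z * (2 * μ * L z)
  let W : ℝ × ℝ → ℝ := fun z => (g1 z * u z + g2 z * v z) * (L z * L z) - φ z * (2 * γ * L z)
  have hg1 := hyp.c1
  have hg2 := hyp.c2
  have hU : ContDiff ℝ 1 U := by fun_prop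
  have hW : ContDiff ℝ 1 W := by fun_prop
  have hUc : HasCompactSupport U := by
    have h1 : HasCompactSupport (fun z => u z * (L z * L z)) := huc.mul_right
    have h2 : HasCompactSupport (fun z => φ z * (-(2 * μ * L z))) := hc.mul_right
    have h3 := h1.add h2
    have e : U = (fun z => u z * (L z * L z)) + (fun z => φ z * (-(2 * μ * L z))) := by
      funext z
      simp only [U, Pi.add_apply]
      ring
    rw [e]; exact h3
  have hWc : HasCompactSupport W := by
    have h1 : HasCompactSupport (fun z => u z * (g1 z * (L z * L z))) := huc.mul_right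
    have h2 : HasCompactSupport (fun z => φ z * (-(2 * γ * L z))) := hc.mul_right
    have h4 : HasCompactSupport (fun z => v z * (g2 z * (L z * L z))) := hvc.mul_right
    have h3 := (h1.add h4).add h2
    have e : W = (fun z => u z * (g1 z * (L z * L z))) + (fun z => v z * (g2 z * (L z * L z)))
        + (fun z => φ z * (-(2 * γ * L z))) := by
      funext z
      simp only [W, Pi.add_apply]
      ring
    rw [e]; exact h3
  have dφ : ∀ z, DifferentiableAt ℝ φ z := fun z => hφ1.differentiable (by norm_num) z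
  have dg1 : ∀ z, DifferentiableAt ℝ g1 z := fun z => hg1.differentiable (by norm_num) z
  have dg2 : ∀ z, DifferentiableAt ℝ g2 z := fun z => hg2.differentiable (by norm_num) z
  have du : ∀ z, DifferentiableAt ℝ u z := fun z => hu1.differentiable (by norm_num) z
  have dv : ∀ z, DifferentiableAt ℝ v z := fun z => hv1.differentiable (by norm_num) z
  have dL : ∀ z, DifferentiableAt ℝ L z := fun z => hL1.differentiable (by norm_num) z
  have hUx : ∀ z, dx U z = dx u z * (L z * L z) + u z * (2 * μ * L z)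
      - (u z * (2 * μ * L z) + φ z * (2 * μ * μ)) := by
    intro z
    have h1 : dx U z = dx (fun z => u z * (L z * L z)) z - dx (fun z => φ z * (2 * μ * L z)) z :=
      dx_sub ((du z).mul ((dL z).mul (dL z))) ((dφ z).mul ((differentiableAt_const _).mul (dL z)))
    have h2 : dx (fun z => u z * (L z * L z)) z = dx u z * (L z * L z)
        + u z * dx (fun z => L z * L z) z := dx_mul (du z) ((dL z).mul (dL z))
    have h3 : dx (fun z => L z * L z) z = dx L z * L z + L z * dx L z := dx_mul (dL z) (dL z)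
    have h4 : dx (fun z => φ z * (2 * μ * L z)) z = dx φ z * (2 * μ * L z)
        + φ z * dx (fun z => 2 * μ * L z) z :=
      dx_mul (dφ z) ((differentiableAt_const _).mul (dL z))
    have h5 : dx (fun z => 2 * μ * L z) z = dx (fun _ : ℝ × ℝ => 2 * μ) z * L z
        + 2 * μ * dx L z := dx_mul (differentiableAt_const _) (dL z)
    rw [h1, h2, h3, h4, h5, dx_const, hLx, ← hudef]
    ring
  have hWp : ∀ z, dp W z = (dp g1 z * u z + g1 z * dp u z + (dp g2 z * v z + g2 z * dp v z))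
      * (L z * L z) + (g1 z * u z + g2 z * v z) * (2 * L z)
      - (v z * (2 * γ * L z) + φ z * (2 * γ)) := by
    intro z
    have h1 : dp W z = dp (fun z => (g1 z * u z + g2 z * v z) * (L z * L z)) z
        - dp (fun z => φ z * (2 * γ * L z)) z :=
      dp_sub ((((dg1 z).mul (du z)).add ((dg2 z).mul (dv z))).mul ((dL z).mul (dL z)))
        ((dφ z).mul ((differentiableAt_const _).mul (dL z)))
    have h2 : dp (fun z => (g1 z * u z + g2 z * v z) * (L z * L z)) z =
        dp (fun z => g1 z * u z + g2 z * v z) z * (L z * L z)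
        + (g1 z * u z + g2 z * v z) * dp (fun z => L z * L z) z :=
      dp_mul (((dg1 z).mul (du z)).add ((dg2 z).mul (dv z))) ((dL z).mul (dL z))
    have h6 : dp (fun z => g1 z * u z + g2 z * v z) z = dp (fun z => g1 z * u z) z
        + dp (fun z => g2 z * v z) z := dp_add ((dg1 z).mul (du z)) ((dg2 z).mul (dv z))
    have h7 : dp (fun z => g1 z * u z) z = dp g1 z * u z + g1 z * dp u z := dp_mul (dg1 z) (du z)
    have h8 : dp (fun z => g2 z * v z) z = dp g2 z * v z + g2 z * dp v z := dp_mul (dg2 z) (dv z)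
    have h3 : dp (fun z => L z * L z) z = dp L z * L z + L z * dp L z := dp_mul (dL z) (dL z)
    have h4 : dp (fun z => φ z * (2 * γ * L z)) z = dp φ z * (2 * γ * L z)
        + φ z * dp (fun z => 2 * γ * L z) z :=
      dp_mul (dφ z) ((differentiableAt_const _).mul (dL z))
    have h5 : dp (fun z => 2 * γ * L z) z = dp (fun _ : ℝ × ℝ => 2 * γ) z * L z
        + 2 * γ * dp L z := dp_mul (differentiableAt_const _) (dL z)
    rw [h1, h2, h3, h4, h5, h6, h7, h8, dp_const, hLp, ← hvdef]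
    ring
  let r : ℝ × ℝ → ℝ := fun z => u z * (dp g1 z * (L z * L z) + g1 z * (2 * L z))
    + v z * (dp g2 z * (L z * L z) + (g2 z - γ) * (2 * L z))
  have hpt : ∀ z, LL g1 g2 (fun _ => 0) (fun _ => 0) φ z * (z.2 + μ * z.1) ^ 2 =
      (dx U z + dp W z) - r z := by
    intro z
    have e0 : z.2 + μ * z.1 = L z := rfl
    rw [e0, hUx, hWp]
    simp only [LL, r, ← hudef, ← hvdef]
    linear_combination (2 * φ z) * hμ2
  -- integrability
  have iU : Integrable (dx U) :=
    (enl_cd_dx hU).integrable_of_hasCompactSupport (enl_hc_dx hUc)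
  have iW : Integrable (dp W) :=
    (enl_cd_dp hW).integrable_of_hasCompactSupport (enl_hc_dp hWc)
  have cu : Continuous u := hu1.continuous
  have cv : Continuous v := hv1.continuous
  have cL : Continuous L := hL1.continuous
  have cg1 := hg1.continuous
  have cg2 := hg2.continuous
  have cg1p := enl_cd_dp hg1
  have cg2p := enl_cd_dp hg2
  have cr : Continuous r := by fun_prop
  have hrc : HasCompactSupport r := by
    have h1 : HasCompactSupport (fun z => u z * (dp g1 z * (L z * L z) + g1 z * (2 * L z))) :=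
      huc.mul_right
    have h2 : HasCompactSupport (fun z => v z * (dp g2 z * (L z * L z)
      + (g2 z - γ) * (2 * L z))) := hvc.mul_right
    exact h1.add h2
  have ir : Integrable r := cr.integrable_of_hasCompactSupport hrc
  have hint : ∫ z, LL g1 g2 (fun _ => 0) (fun _ => 0) φ z * (z.2 + μ * z.1) ^ 2 = - ∫ z, r z := by
    have h1 : ∫ z, LL g1 g2 (fun _ => 0) (fun _ => 0) φ z * (z.2 + μ * z.1) ^ 2 =
        ∫ z, ((dx U z + dp W z) - r z) := by
      congr 1; funext z; exact hpt z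
    have h2 : (∫ z, ((dx U z + dp W z) - r z)) = (∫ z, (dx U z + dp W z)) - ∫ z, r z :=
      integral_sub (iU.add iW) ir
    have h3 : (∫ z, (dx U z + dp W z)) = (∫ z, dx U z) + ∫ z, dp W z := integral_add iU iW
    rw [h1, h2, h3, integral_dx_eq_zero hU hUc, integral_dp_eq_zero hW hWc]
    simp
  rw [hint, abs_neg]
  -- pointwise bound
  set D : ℝ × ℝ → ℝ := fun z => √(u z ^ 2 + ε * v z ^ 2) with hD
  have hDsq : ∀ z, D z ^ 2 = u z ^ 2 + ε * v z ^ 2 := fun z =>
    Real.sq_sqrt (by positivity)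
  have hout : ∀ z, z ∉ Rct ε b → u z = 0 ∧ v z = 0 := fun z hz =>
    ⟨enl_dx_zero (fun h => hz (hsupp h)), enl_dp_zero (fun h => hz (hsupp h))⟩
  have hbε : b ≤ ε := by
    refine hb1.trans ?_
    have : ε ^ 3 = ε * ε ^ 2 := by ring
    rw [this]
    exact mul_le_of_le_one_right hε.le (pow_le_one₀ hε.le hε1)
  have hb1' : b ≤ 1 := hbε.trans hε1
  have hs1 : √ε ≤ 1 := by
    rw [Real.sqrt_le_left zero_le_one]
    simpa using hε1
  have hrpt : ∀ z ∈ Rct ε b, |r z| ≤ 500000 * (ε * b) * (2 * D z) := by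
    intro z hz
    have hLb : |L z| ≤ 310 * b := by
      have h1 : |μ * z.1| ≤ 300 * b := by
        rw [abs_mul, abs_of_nonneg hμ0, ← hX3, mul_comm X]
        exact mul_le_mul hμle hz.1.le (abs_nonneg _) hs.le
      calc |L z| ≤ |z.2| + |μ * z.1| := abs_add_le _ _
        _ ≤ 10 * b + 300 * b := add_le_add hz.2.le h1
        _ = _ := by ring
    have hLL : |L z * L z| ≤ 96100 * b ^ 2 := by
      rw [abs_mul]
      calc |L z| * |L z| ≤ (310 * b) * (310 * b) :=
            mul_le_mul hLb hLb (abs_nonneg _) (by positivity)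
        _ = _ := by ring
    have h2L : |2 * L z| ≤ 620 * b := by
      rw [abs_mul, abs_of_pos (by norm_num : (0 : ℝ) < 2)]; linarith
    have hA : |dp g1 z * (L z * L z) + g1 z * (2 * L z)| ≤ 100000 * (ε * b) := by
      calc |dp g1 z * (L z * L z) + g1 z * (2 * L z)|
          ≤ |dp g1 z * (L z * L z)| + |g1 z * (2 * L z)| := abs_add_le _ _
        _ = |dp g1 z| * |L z * L z| + |g1 z| * |2 * L z| := by rw [abs_mul, abs_mul (g1 z)]
        _ ≤ ε * (96100 * b ^ 2) + ε * (620 * b) := add_le_add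
            (mul_le_mul (hyp.h1p z hz) hLL (abs_nonneg _) hε.le)
            (mul_le_mul (hyp.h1 z hz) h2L (abs_nonneg _) hε.le)
        _ ≤ _ := by
            have h3 : b ^ 2 ≤ b := by nlinarith
            have h4 : ε * (96100 * b ^ 2) ≤ ε * (96100 * b) :=
              mul_le_mul_of_nonneg_left (by linarith) hε.le
            nlinarith [mul_pos hε hb]
    have hB : |dp g2 z * (L z * L z) + (g2 z - γ) * (2 * L z)| ≤ 500000 * (ε * b) * √ε := by
      have hmv : |g2 z - γ| ≤ 2 * ε * X := enl_mv hε hX0 hb (by linarith) hyp hz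
      have hbb : b * b ≤ b * ε := mul_le_mul_of_nonneg_left hbε hb.le
      have hεs : ε ≤ √ε := by nlinarith
      have hXb : X ≤ 300 * ε := by
        refine hX1.trans ?_
        nlinarith
      calc |dp g2 z * (L z * L z) + (g2 z - γ) * (2 * L z)|
          ≤ |dp g2 z * (L z * L z)| + |(g2 z - γ) * (2 * L z)| := abs_add_le _ _
        _ = |dp g2 z| * |L z * L z| + |g2 z - γ| * |2 * L z| := by
            rw [abs_mul, abs_mul (g2 z - γ)]
        _ ≤ ε * (96100 * b ^ 2) + (2 * ε * X) * (620 * b) := add_le_add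
            (mul_le_mul (hyp.h2p z hz) hLL (abs_nonneg _) hε.le)
            (mul_le_mul hmv h2L (abs_nonneg _) (by positivity))
        _ ≤ ε * (96100 * (b * ε)) + (2 * ε * (300 * ε)) * (620 * b) := by
            refine add_le_add ?_ ?_
            · refine mul_le_mul_of_nonneg_left ?_ hε.le
              nlinarith
            · refine mul_le_mul_of_nonneg_right ?_ (by positivity)
              exact mul_le_mul_of_nonneg_left hXb (by positivity)
        _ = 468100 * (ε * b) * ε := by ring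
        _ ≤ 500000 * (ε * b) * ε := by
            refine mul_le_mul_of_nonneg_right ?_ hε.le
            nlinarith [mul_pos hε hb]
        _ ≤ _ := mul_le_mul_of_nonneg_left hεs (by positivity)
    have hu_le : |u z| ≤ D z := by
      rw [hD]
      apply Real.le_sqrt_of_sq_le
      rw [sq_abs]
      nlinarith [mul_nonneg hε.le (sq_nonneg (v z))]
    have hv_le : √ε * |v z| ≤ D z := by
      rw [hD]
      apply Real.le_sqrt_of_sq_le
      rw [mul_pow, sq_abs, Real.sq_sqrt hε.le]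
      nlinarith [sq_nonneg (u z)]
    have hεb : 0 < ε * b := mul_pos hε hb
    calc |r z| ≤ |u z * (dp g1 z * (L z * L z) + g1 z * (2 * L z))|
          + |v z * (dp g2 z * (L z * L z) + (g2 z - γ) * (2 * L z))| := abs_add_le _ _
      _ = |u z| * |dp g1 z * (L z * L z) + g1 z * (2 * L z)|
          + |v z| * |dp g2 z * (L z * L z) + (g2 z - γ) * (2 * L z)| := by
            rw [abs_mul, abs_mul (v z)]
      _ ≤ |u z| * (100000 * (ε * b)) + |v z| * (500000 * (ε * b) * √ε) := add_le_add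
            (mul_le_mul_of_nonneg_left hA (abs_nonneg _))
            (mul_le_mul_of_nonneg_left hB (abs_nonneg _))
      _ = 100000 * (ε * b) * |u z| + 500000 * (ε * b) * (√ε * |v z|) := by ring
      _ ≤ 100000 * (ε * b) * D z + 500000 * (ε * b) * D z := add_le_add
            (mul_le_mul_of_nonneg_left hu_le (by positivity))
            (mul_le_mul_of_nonneg_left hv_le (by positivity))
      _ ≤ _ := by
            have : 0 ≤ D z := Real.sqrt_nonneg _
            nlinarith [mul_nonneg hεb.le this]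
  -- integrate
  have cD : Continuous D := by rw [hD]; fun_prop
  have hDc : HasCompactSupport D := by
    have h1 : HasCompactSupport (fun z => u z * u z) := huc.mul_right
    have h2 : HasCompactSupport (fun z => v z * (ε * v z)) := hvc.mul_right
    have h3 := h1.add h2
    have h4 : HasCompactSupport (fun z => u z ^ 2 + ε * v z ^ 2) := by
      have e : (fun z => u z ^ 2 + ε * v z ^ 2) =
          (fun z => u z * u z) + (fun z => v z * (ε * v z)) := by
        funext z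
        simp only [Pi.add_apply]
        ring
      rw [e]; exact h3
    exact h4.comp_left Real.sqrt_zero
  have iD : Integrable D := cD.integrable_of_hasCompactSupport hDc
  have iD2 : Integrable (fun z => D z ^ 2) := by
    have h1 : HasCompactSupport (fun z => D z * D z) := hDc.mul_right
    have : (fun z => D z ^ 2) = fun z => D z * D z := by funext z; ring
    rw [this]
    exact (cD.mul cD).integrable_of_hasCompactSupport h1
  have hmeas := enl_Rct_meas ε b
  have hset : ∫ z in Rct ε b, r z = ∫ z, r z := by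
    apply setIntegral_eq_integral_of_forall_compl_eq_zero
    intro z hz
    obtain ⟨h1, h2⟩ := hout z hz
    simp only [r, h1, h2]; ring
  have hJset : ∫ z in Rct ε b, D z ^ 2 = ∫ z, (u z ^ 2 + ε * v z ^ 2) := by
    rw [show (∫ z, (u z ^ 2 + ε * v z ^ 2)) = ∫ z, D z ^ 2 by
      congr 1; funext z; exact (hDsq z).symm]
    apply setIntegral_eq_integral_of_forall_compl_eq_zero
    intro z hz
    obtain ⟨h1, h2⟩ := hout z hz
    rw [hDsq, h1, h2]; ring
  have hcs := enl_cs hmeas iD.integrableOn iD2.integrableOn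
    (V := 2 * X * (20 * b)) (by positivity) (enl_Rct_vol hX0 hb) hJset
  set J := ∫ z, (u z ^ 2 + ε * v z ^ 2) with hJ
  have hJ0 : 0 ≤ J := integral_nonneg (fun z => by positivity)
  have h1 : |∫ z, r z| ≤ 500000 * (ε * b) * (2 * ∫ z in Rct ε b, D z) := by
    rw [← hset]
    calc |∫ z in Rct ε b, r z| ≤ ∫ z in Rct ε b, |r z| := abs_integral_le_integral_abs
      _ ≤ ∫ z in Rct ε b, 500000 * (ε * b) * (2 * D z) :=
          setIntegral_mono_on ir.abs.integrableOn
            ((iD.integrableOn.const_mul 2).const_mul _) hmeas hrpt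
      _ = _ := by rw [integral_const_mul, integral_const_mul]
  have h2 : √(2 * X * (20 * b) * J) = √(2 * X * (20 * b)) * √J :=
    Real.sqrt_mul (by positivity) J
  have h3 : √(2 * X * (20 * b)) ≤ 200 * b * ε ^ (-(1 / 4) : ℝ) := by
    rw [Real.sqrt_le_left (by positivity)]
    have e1 : (ε ^ (-(1 / 4) : ℝ)) ^ 2 = (√ε)⁻¹ := by
      rw [← Real.rpow_natCast, ← Real.rpow_mul hε.le, Real.sqrt_eq_rpow, ← Real.rpow_neg hε.le]
      norm_num
    rw [mul_pow, mul_pow, e1]
    have e2 : X = 300 * b * (√ε)⁻¹ := by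
      rw [hXdef, X1, div_eq_mul_inv]
    rw [e2]
    have h4 : 0 < (√ε)⁻¹ := inv_pos.2 hs
    nlinarith [mul_pos (mul_pos hb hb) h4]
  have e4 : ε * ε ^ (-(1 / 4) : ℝ) = ε ^ (3 / 4 : ℝ) := by
    nth_rewrite 1 [← Real.rpow_one ε]
    rw [← Real.rpow_add hε]
    norm_num
  have hεb : 0 < ε * b := mul_pos hε hb
  calc |∫ z, r z| ≤ 500000 * (ε * b) * (2 * ∫ z in Rct ε b, D z) := h1
    _ ≤ 500000 * (ε * b) * (2 * (√(2 * X * (20 * b)) * √J)) := by
        rw [← h2]
        exact mul_le_mul_of_nonneg_left (by linarith) (by positivity)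
    _ ≤ 500000 * (ε * b) * (2 * (200 * b * ε ^ (-(1 / 4) : ℝ) * √J)) := by
        refine mul_le_mul_of_nonneg_left ?_ (by positivity)
        exact mul_le_mul_of_nonneg_left
          (mul_le_mul_of_nonneg_right h3 (Real.sqrt_nonneg _)) zero_le_two
    _ = 200000000 * b ^ 2 * (ε * ε ^ (-(1 / 4) : ℝ)) * √J := by ring
    _ ≤ _ := by
        rw [e4]
        refine mul_le_mul_of_nonneg_right ?_ (Real.sqrt_nonneg _)
        refine mul_le_mul_of_nonneg_right ?_ (Real.rpow_nonneg hε.le _)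
        refine mul_le_mul_of_nonneg_right (by norm_num) (by positivity)

/-- cutoff functions of the rectangle -/
theorem exists_cutoff_rct : ∃ C : ℝ, 0 < C ∧ ∀ ε b : ℝ, 0 < ε → ε ≤ 1 → 0 < b → b ≤ 1 →
    ∃ χ : ℝ × ℝ → ℝ, ContDiff ℝ ∞ χ ∧ HasCompactSupport χ ∧ tsupport χ ⊆ Rct ε b ∧
    (∀ z, 0 ≤ χ z ∧ χ z ≤ 1) ∧
    (∀ z : ℝ × ℝ, |z.1| ≤ (4 / 5) * X1 ε b → |z.2| ≤ 8 * b → χ z = 1) ∧
    (∀ z, |dx χ z| ≤ C / b ∧ |dp χ z| ≤ C / b ∧ |dx (dx χ) z| ≤ C / b ^ 2 ∧
      |dp (dx χ) z| ≤ C / b ^ 2 ∧ |dp (dp χ) z| ≤ C / b ^ 2) :=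
  cutoff_rct_aux

/-- the difference of the operator at `w` and at `v` -/
theorem opE_diff : ∃ C : ℝ, 0 < C ∧ ∃ ε₀ : ℝ, 0 < ε₀ ∧ ∀ δ : ℝ, δ ≤ 1 / 10 → ∀ S : Sol δ, S.ε ≤ ε₀ →
    ∀ v : ℝ × ℝ → ℝ, ContDiff ℝ ∞ v → ∀ z ∈ Rct S.ε S.b, |dx v z| ≤ 2 → |dp v z| ≤ 2 →
    |dp (dx v) z| ≤ 2 → |dp (dp v) z| ≤ 2 →
    |LL (G1 S.ϖ S.ε S.w) (G2 S.ϖ S.ε S.w) (fun _ => 0) (fun _ => 0) (fun z => S.w z - v z) z
      - (opE S.ϖ (E0 S.ϖ S.ε) S.w z - opE S.ϖ (E0 S.ϖ S.ε) v z)| ≤
      C * S.ε * (|dx S.w z - dx v z| + |dp S.w z - dp v z|) :=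
  opE_diff_aux

end Crest.Agent.Iso
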