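import Crest.Agent.Iso.BDef

/-!
# Row 220, part B: structure functions and their smallness
-/

set_option autoImplicit false

open scoped ContDiff
open MeasureTheory Set

namespace Crest.Agent.Iso

/-- cutoff, `1` on the square `[-1,1]²`, `0` outside of `(-2,2)²` -/
noncomputable def psi : ContDiffBump (0 : ℝ × ℝ) := ⟨1, 2, by norm_num, by norm_num⟩

/-- coordinates in the structure -/
noncomputable def coord (q e : E2) (r : ℝ) (x : E2) : ℝ × ℝ :=
  (inner ℝ (x - q) e / r, inner ℝ (x - q) (rot e) / r)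

/-- the structure function -/
noncomputable def fS (n : ℕ) (η : ℝ) (q e : E2) (r : ℝ) (x : E2) : ℝ :=
  psi (coord q e r x) * (Es n η (coord q e r x) - 1)

section auxSB

private noncomputable def sbL (e : E2) (r : ℝ) : E2 →L[ℝ] ℝ × ℝ :=
  (r⁻¹ • innerSL ℝ e).prod (r⁻¹ • innerSL ℝ (rot e))

private theorem coord_eq (q e : E2) (r : ℝ) (x : E2) : coord q e r x = sbL e r (x - q) := by
  unfold coord sbL
  ext
  · simp [real_inner_comm, div_eq_inv_mul]
  · simp [real_inner_comm, div_eq_inv_mul]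

private theorem contDiff_coord (q e : E2) (r : ℝ) : ContDiff ℝ ∞ (coord q e r) := by
  have : coord q e r = fun x => sbL e r (x - q) := funext fun x => coord_eq q e r x
  rw [this]
  exact (sbL e r).contDiff.comp (contDiff_id.sub contDiff_const)

private theorem contDiff_Es' (n : ℕ) (η : ℝ) : ContDiff ℝ ∞ (Es n η) := by
  unfold Es P0
  have h1 : ContDiff ℝ ∞ (fun Y : ℝ × ℝ => P1 (Y.1 / η ^ 3, Y.2 / η ^ 3)) :=
    contDiff_P1.comp ((contDiff_fst.div_const _).prodMk (contDiff_snd.div_const _))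
  fun_prop

private theorem rot_inner (e : E2) : inner ℝ e (rot e) = 0 := by
  simp [rot, PiLp.inner_apply, Fin.sum_univ_two]; ring

private theorem normsq2 (e : E2) : ‖e‖ ^ 2 = e 0 ^ 2 + e 1 ^ 2 := by
  rw [EuclideanSpace.norm_sq_eq]; simp [Fin.sum_univ_two]

private theorem rot_norm (e : E2) : ‖rot e‖ = ‖e‖ := by
  have h : ‖rot e‖ ^ 2 = ‖e‖ ^ 2 := by
    rw [normsq2, normsq2]; simp [rot]; ring
  have := congrArg Real.sqrt h
  rwa [Real.sqrt_sq (norm_nonneg _), Real.sqrt_sq (norm_nonneg _)] at this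

private theorem parseval (e v : E2) (he : ‖e‖ = 1) :
    ‖v‖ ^ 2 = (inner ℝ v e) ^ 2 + (inner ℝ v (rot e)) ^ 2 := by
  have h1 : e 0 ^ 2 + e 1 ^ 2 = 1 := by rw [← normsq2, he]; norm_num
  rw [normsq2]
  simp only [rot, PiLp.inner_apply, Fin.sum_univ_two]
  simp
  linear_combination (-(v 0 ^ 2 + v 1 ^ 2)) * h1

private theorem norm_comp_le {G : ℝ × ℝ → ℝ} (hG : ContDiff ℝ ∞ G) (L : E2 →L[ℝ] ℝ × ℝ) (q : E2)
    (k : ℕ) (x : E2) :
    ‖iteratedFDeriv ℝ k (fun x => G (L (x - q))) x‖ ≤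
      ‖iteratedFDeriv ℝ k G (L (x - q))‖ * ‖L‖ ^ k := by
  have h1 : iteratedFDeriv ℝ k (fun x => G (L (x - q))) x = iteratedFDeriv ℝ k (G ∘ L) (x - q) :=
    iteratedFDeriv_comp_sub (f := G ∘ L) k q x
  rw [h1, L.iteratedFDeriv_comp_right hG (x - q) (i := k) (by exact_mod_cast le_top)]
  refine (ContinuousMultilinearMap.norm_compContinuousLinearMap_le _ _).trans ?_
  simp

private theorem bound_all {E : Type} [NormedAddCommGroup E] [NormedSpace ℝ E] {F : E → ℝ}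
    (hF : ContDiff ℝ ∞ F) (hc : HasCompactSupport F) (k : ℕ) :
    ∃ C : ℝ, 0 ≤ C ∧ ∀ z, ‖iteratedFDeriv ℝ k F z‖ ≤ C := by
  have h := (hc.iteratedFDeriv (𝕜 := ℝ) k).exists_bound_of_continuous
    (hF.continuous_iteratedFDeriv (m := k) (by exact_mod_cast le_top))
  obtain ⟨C, hC⟩ := h
  exact ⟨C, (norm_nonneg _).trans (hC 0), hC⟩

end auxSB

section
variable {n : ℕ} {η : ℝ} {q e : E2} {r : ℝ}

theorem contDiff_fS : ContDiff ℝ ∞ (fS n η q e r) := by
  have h1 := contDiff_coord q e r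
  have h2 : ContDiff ℝ ∞ (fun x => psi (coord q e r x)) := psi.contDiff.comp h1
  have h3 : ContDiff ℝ ∞ (fun x => Es n η (coord q e r x)) := (contDiff_Es' n η).comp h1
  exact h2.mul (h3.sub contDiff_const)

theorem fS_eq_zero (he : ‖e‖ = 1) (hr : 0 < r) {x : E2} (hx : x ∉ Metric.closedBall q (3 * r)) :
    fS n η q e r x = 0 := by
  have h1 : psi (coord q e r x) = 0 := by
    apply psi.zero_of_le_dist
    rw [dist_zero_right]
    by_contra hlt
    push Not at hlt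
    apply hx
    have h2 : ‖(coord q e r x).1‖ < 2 := (norm_fst_le _).trans_lt hlt
    have h3 : ‖(coord q e r x).2‖ < 2 := (norm_snd_le _).trans_lt hlt
    simp only [coord, Real.norm_eq_abs, abs_div, abs_of_pos hr, div_lt_iff₀ hr] at h2 h3
    rw [mem_closedBall_iff_norm]
    have hp := parseval e (x - q) he
    have h4 : (inner ℝ (x - q) e) ^ 2 ≤ (2 * r) ^ 2 := by
      rw [← sq_abs]; exact pow_le_pow_left₀ (abs_nonneg _) h2.le 2
    have h5 : (inner ℝ (x - q) (rot e)) ^ 2 ≤ (2 * r) ^ 2 := by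
      rw [← sq_abs]; exact pow_le_pow_left₀ (abs_nonneg _) h3.le 2
    refine abs_le_of_sq_le_sq' ?_ (by positivity) |>.2
    nlinarith
  rw [fS, h1, zero_mul]

theorem fS_eq (he : ‖e‖ = 1) (hr : 0 < r) {X Y : ℝ} (hX : |X| < 1) (hY : |Y| < 1) :
    fS n η q e r (q + (r * X) • e + (r * Y) • rot e) = Es n η (X, Y) - 1 := by
  have hc : coord q e r (q + (r * X) • e + (r * Y) • rot e) = (X, Y) := by
    have h0 : q + (r * X) • e + (r * Y) • rot e - q = (r * X) • e + (r * Y) • rot e := by abel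
    have e1 : inner ℝ e e = (1 : ℝ) := by rw [real_inner_self_eq_norm_sq, he]; norm_num
    have e2 : inner ℝ (rot e) (rot e) = (1 : ℝ) := by
      rw [real_inner_self_eq_norm_sq, rot_norm, he]; norm_num
    have e3 := rot_inner e
    have e4 : inner ℝ (rot e) e = (0 : ℝ) := by rw [real_inner_comm]; exact e3
    unfold coord
    rw [h0]
    simp only [inner_add_left, real_inner_smul_left, e1, e2, e3, e4]
    ext
    · simp; field_simp
    · simp; field_simp
  rw [fS, hc]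
  have h1 : psi ((X, Y) : ℝ × ℝ) = 1 := by
    apply psi.one_of_mem_closedBall
    rw [mem_closedBall_zero_iff]
    show ‖((X, Y) : ℝ × ℝ)‖ ≤ 1
    rw [Prod.norm_def]
    exact max_le (by simpa using hX.le) (by simpa using hY.le)
  rw [h1, one_mul]

theorem fS_bdd (he : ‖e‖ = 1) (hr : 0 < r) (k : ℕ) :
    ∃ C : ℝ, ∀ x, ‖iteratedFDeriv ℝ k (fS n η q e r) x‖ ≤ C := by
  obtain ⟨C, -, hC⟩ := bound_all (F := fS n η q e r) contDiff_fS
    (HasCompactSupport.intro (isCompact_closedBall q (3 * r)) fun x hx => fS_eq_zero he hr hx) k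
  exact ⟨C, hC⟩

/-- smallness of the derivatives of order `≤ n/4` for small amplitude: for `η³ ≤ 1/2`,
`fS = -2 (η (ψ P0)∘coord + η^{n+6} P1 (coord/η³))` and the `k`-th derivative of the second term is
`≤ C η^{n+6-3k} r^{-k}`. -/
theorem fS_small (n : ℕ) (q e : E2) (r : ℝ) (he : ‖e‖ = 1) (hr : 0 < r) {κ : ℝ} (hκ : 0 < κ) :
    ∃ η₀ : ℝ, 0 < η₀ ∧ ∀ η : ℝ, 0 < η → η ≤ η₀ → ∀ k : ℕ, k ≤ n / 4 → ∀ x,
      ‖iteratedFDeriv ℝ k (fS n η q e r) x‖ ≤ κ := by
  set F : ℝ × ℝ → ℝ := fun Y => psi Y * P0 Y.1 Y.2 with hFdef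
  have hF : ContDiff ℝ ∞ F := psi.contDiff.mul contDiff_P0
  have hFc : HasCompactSupport F := psi.hasCompactSupport.mul_right
  have hP1c : HasCompactSupport P1 := bump1.hasCompactSupport
  choose A hA0 hA using fun k => bound_all hF hFc k
  choose B hB0 hB using fun k => bound_all contDiff_P1 hP1c k
  set M : ℝ := ∑ k ∈ Finset.range (n / 4 + 1), 2 * (A k + B k) * ‖sbL e r‖ ^ k with hM
  have hterm : ∀ k, 0 ≤ 2 * (A k + B k) * ‖sbL e r‖ ^ k := fun k => by
    have := hA0 k; have := hB0 k; positivity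
  have hM0 : 0 ≤ M := Finset.sum_nonneg fun k _ => hterm k
  refine ⟨min 1 (κ / (M + 1)), lt_min one_pos (by positivity), ?_⟩
  intro η hη hηle k hk x
  have hη1 : η ≤ 1 := hηle.trans (min_le_left _ _)
  have hη2 : η ≤ κ / (M + 1) := hηle.trans (min_le_right _ _)
  have hη3 : 0 < η ^ 3 := by positivity
  have hη31 : η ^ 3 ≤ 1 := pow_le_one₀ hη.le hη1
  -- decomposition
  have hdec : fS n η q e r = (fun x => (-2 * η) • F (sbL e r (x - q))) +
      fun x => (-2 * η ^ (n + 6)) • P1 (((η ^ 3)⁻¹ • sbL e r) (x - q)) := by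
    funext x
    simp only [Pi.add_apply, fS, coord_eq, Es, hFdef, smul_eq_mul]
    set Y := sbL e r (x - q) with hY
    have h1 : ((η ^ 3)⁻¹ • sbL e r) (x - q) = (Y.1 / η ^ 3, Y.2 / η ^ 3) := by
      rw [ContinuousLinearMap.smul_apply, ← hY]
      ext
      · simp [div_eq_inv_mul]
      · simp [div_eq_inv_mul]
    rw [h1]
    have h2 : psi Y * P1 (Y.1 / η ^ 3, Y.2 / η ^ 3) = P1 (Y.1 / η ^ 3, Y.2 / η ^ 3) := by
      by_cases hz : P1 (Y.1 / η ^ 3, Y.2 / η ^ 3) = 0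
      · rw [hz, mul_zero]
      · have h3 : ¬ (1 / 2 ≤ |Y.1 / η ^ 3| ∨ 1 / 2 ≤ |Y.2 / η ^ 3|) := fun h => hz (P1_eq_zero h)
        push Not at h3
        obtain ⟨h4, h5⟩ := h3
        rw [abs_div, abs_of_pos hη3, div_lt_iff₀ hη3] at h4 h5
        have h6 : psi Y = 1 := by
          apply psi.one_of_mem_closedBall
          rw [mem_closedBall_zero_iff]
          show ‖Y‖ ≤ 1
          rw [Prod.norm_def]
          refine max_le ?_ ?_
          · rw [Real.norm_eq_abs]; linarith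
          · rw [Real.norm_eq_abs]; linarith
        rw [h6, one_mul]
    have h7 : η ^ n * (η ^ 3) ^ 2 = η ^ (n + 6) := by ring
    rw [h7]
    linear_combination (-2 * η ^ (n + 6)) * h2
  have hg1 : ContDiff ℝ ∞ (fun x => F (sbL e r (x - q))) :=
    hF.comp ((sbL e r).contDiff.comp (contDiff_id.sub contDiff_const))
  have hg2 : ContDiff ℝ ∞ (fun x => P1 (((η ^ 3)⁻¹ • sbL e r) (x - q))) :=
    contDiff_P1.comp (((η ^ 3)⁻¹ • sbL e r).contDiff.comp (contDiff_id.sub contDiff_const))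
  have hle : ((k : ℕ∞) : WithTop ℕ∞) ≤ ∞ := by exact_mod_cast le_top
  have b1 : ‖iteratedFDeriv ℝ k (fun x => (-2 * η) • F (sbL e r (x - q))) x‖ ≤
      2 * η * (A k * ‖sbL e r‖ ^ k) := by
    rw [iteratedFDeriv_const_smul_apply' (hg1.of_le hle).contDiffAt, norm_smul]
    have h1 : ‖(-2 * η : ℝ)‖ = 2 * η := by
      rw [Real.norm_eq_abs, abs_mul, abs_of_pos hη]; norm_num
    rw [h1]
    refine mul_le_mul_of_nonneg_left ?_ (by positivity)
    exact (norm_comp_le hF (sbL e r) q k x).trans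
      (mul_le_mul_of_nonneg_right (hA k _) (by positivity))
  have b2 : ‖iteratedFDeriv ℝ k
      (fun x => (-2 * η ^ (n + 6)) • P1 (((η ^ 3)⁻¹ • sbL e r) (x - q))) x‖ ≤
      2 * η * (B k * ‖sbL e r‖ ^ k) := by
    rw [iteratedFDeriv_const_smul_apply' (hg2.of_le hle).contDiffAt, norm_smul]
    have h1 : ‖(-2 * η ^ (n + 6) : ℝ)‖ = 2 * η ^ (n + 6) := by
      rw [Real.norm_eq_abs, abs_mul, abs_of_pos (by positivity : 0 < η ^ (n + 6))]; norm_num
    rw [h1]
    have h2 : ‖((η ^ 3)⁻¹ • sbL e r)‖ = (η ^ 3)⁻¹ * ‖sbL e r‖ := by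
      rw [norm_smul, Real.norm_eq_abs, abs_of_pos (by positivity)]
    have h3 := (norm_comp_le contDiff_P1 ((η ^ 3)⁻¹ • sbL e r) q k x).trans
      (mul_le_mul_of_nonneg_right (hB k _) (by positivity))
    rw [h2, mul_pow] at h3
    have h4 : η ^ (n + 6) * ((η ^ 3)⁻¹) ^ k ≤ η := by
      have h5 : 3 * k + 1 ≤ n + 6 := by omega
      have h6 : η ^ (n + 6) ≤ η ^ (3 * k + 1) := pow_le_pow_of_le_one hη.le hη1 h5
      rw [inv_pow, ← div_eq_mul_inv, div_le_iff₀ (by positivity)]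
      calc η ^ (n + 6) ≤ η ^ (3 * k + 1) := h6
        _ = η * (η ^ 3) ^ k := by ring
    calc 2 * η ^ (n + 6) * ‖iteratedFDeriv ℝ k (fun x => P1 (((η ^ 3)⁻¹ • sbL e r) (x - q))) x‖
        ≤ 2 * η ^ (n + 6) * (B k * ((η ^ 3)⁻¹ ^ k * ‖sbL e r‖ ^ k)) :=
          mul_le_mul_of_nonneg_left h3 (by positivity)
      _ = 2 * (η ^ (n + 6) * ((η ^ 3)⁻¹) ^ k) * (B k * ‖sbL e r‖ ^ k) := by ring
      _ ≤ 2 * η * (B k * ‖sbL e r‖ ^ k) := by
          refine mul_le_mul_of_nonneg_right ?_ (mul_nonneg (hB0 k) (by positivity))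
          linarith
  rw [hdec]
  have c1 : ContDiffAt ℝ k (fun x => (-2 * η) • F (sbL e r (x - q))) x :=
    ((hg1.of_le hle).const_smul _).contDiffAt
  have c2 : ContDiffAt ℝ k (fun x => (-2 * η ^ (n + 6)) • P1 (((η ^ 3)⁻¹ • sbL e r) (x - q))) x :=
    ((hg2.of_le hle).const_smul _).contDiffAt
  rw [iteratedFDeriv_add_apply c1 c2]
  refine (norm_add_le _ _).trans ?_
  have hkM : 2 * (A k + B k) * ‖sbL e r‖ ^ k ≤ M := by
    rw [hM]
    exact Finset.single_le_sum (f := fun k => 2 * (A k + B k) * ‖sbL e r‖ ^ k)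
      (fun k _ => hterm k) (Finset.mem_range.2 (by omega))
  calc _ ≤ 2 * η * (A k * ‖sbL e r‖ ^ k) + 2 * η * (B k * ‖sbL e r‖ ^ k) := add_le_add b1 b2
    _ = η * (2 * (A k + B k) * ‖sbL e r‖ ^ k) := by ring
    _ ≤ η * M := mul_le_mul_of_nonneg_left hkM hη.le
    _ ≤ κ / (M + 1) * M := mul_le_mul_of_nonneg_right hη2 hM0
    _ ≤ κ := by
      rw [div_mul_eq_mul_div, div_le_iff₀ (by positivity)]
      nlinarith

end

theorem Rj_pos (j : ℕ) : 0 < Rj j := by
  unfold Rj; positivity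

/-- the bump inside of the circle -/
noncomputable def fB (j : ℕ) : ContDiffBump (cj j) :=
  ⟨Rj j / 4, Rj j / 2, by have := Rj_pos j; positivity, by have := Rj_pos j; linarith⟩

/-- smallness of the derivatives up to order `j` for small amplitude -/
theorem fB_small (j : ℕ) {κ : ℝ} (hκ : 0 < κ) : ∃ α : ℝ, 0 < α ∧ ∀ k : ℕ, k ≤ j → ∀ x,
    ‖iteratedFDeriv ℝ k (fun x => α * fB j x) x‖ ≤ κ := by
  choose A hA0 hA using fun k => bound_all (F := fB j) (fB j).contDiff (fB j).hasCompactSupport k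
  set M : ℝ := ∑ k ∈ Finset.range (j + 1), A k with hM
  have hM0 : 0 ≤ M := Finset.sum_nonneg fun k _ => hA0 k
  refine ⟨κ / (M + 1), by positivity, fun k hk x => ?_⟩
  have hp : 0 < κ / (M + 1) := by positivity
  have hc : ContDiffAt ℝ k (fun x => fB j x) x := (fB j).contDiff.contDiffAt
  have h1 : iteratedFDeriv ℝ k (fun x => κ / (M + 1) * fB j x) x =
      (κ / (M + 1)) • iteratedFDeriv ℝ k (fun x => fB j x) x :=
    iteratedFDeriv_const_smul_apply' (a := κ / (M + 1)) hc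
  rw [h1, norm_smul, Real.norm_eq_abs, abs_of_pos hp]
  have hkM : A k ≤ M := by
    rw [hM]
    exact Finset.single_le_sum (f := A) (fun k _ => hA0 k) (Finset.mem_range.2 (by omega))
  calc κ / (M + 1) * ‖iteratedFDeriv ℝ k (fun x => fB j x) x‖
      ≤ κ / (M + 1) * M := mul_le_mul_of_nonneg_left ((hA k x).trans hkM) hp.le
    _ ≤ κ := by
      rw [div_mul_eq_mul_div, div_le_iff₀ (by positivity)]
      nlinarith

theorem fB_bdd (j : ℕ) (α : ℝ) (k : ℕ) : ∃ C : ℝ, ∀ x,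
    ‖iteratedFDeriv ℝ k (fun x => α * fB j x) x‖ ≤ C := by
  obtain ⟨C, -, hC⟩ := bound_all (F := fun x => α * fB j x) (contDiff_const.mul (fB j).contDiff)
    (fB j).hasCompactSupport.mul_left k
  exact ⟨C, hC⟩

end Crest.Agent.Iso
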