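import Crest.Agent.Iso.Tasks
import Crest.Agent.Iso.StrBump

/-!
# Row 220, part B: the metric
-/

set_option autoImplicit false

open scoped ContDiff
open MeasureTheory Set

namespace Crest.Agent.Iso

/-- `T e v w = ⟪v,e⟫ ⟪w,e⟫` -/
noncomputable def TT (e : E2) : E2 →L[ℝ] E2 →L[ℝ] ℝ := (innerSL ℝ e).smulRight (innerSL ℝ e)

theorem TT_apply (e v w : E2) : TT e v w = inner ℝ v e * inner ℝ w e := by
  simp only [TT, ContinuousLinearMap.smulRight_apply, innerSL_apply_apply,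
    smul_apply, smul_eq_mul]
  rw [real_inner_comm v e, real_inner_comm w e]

theorem norm_TT_le (e : E2) : ‖TT e‖ ≤ ‖e‖ ^ 2 := by
  unfold TT
  rw [ContinuousLinearMap.norm_smulRight_apply, innerSL_apply_norm]
  exact (sq _).symm.le

private theorem iter_smul_const {f : E2 → ℝ} (hf : ContDiff ℝ ∞ f) {G : Type*}
    [NormedAddCommGroup G] [NormedSpace ℝ G] (T : G) (k : ℕ) (x : E2) :
    ‖iteratedFDeriv ℝ k (fun x => f x • T) x‖ ≤ ‖T‖ * ‖iteratedFDeriv ℝ k f x‖ := by
  have h := (ContinuousLinearMap.smulRight (1 : ℝ →L[ℝ] ℝ) T).norm_iteratedFDeriv_comp_left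
    (f := f) (x := x) (n := k) (N := (∞ : WithTop ℕ∞)) hf.contDiffAt (by exact_mod_cast le_top)
  have e : (⇑(ContinuousLinearMap.smulRight (1 : ℝ →L[ℝ] ℝ) T) ∘ f) = fun x => f x • T := by
    funext x; simp
  rw [e, ContinuousLinearMap.norm_smulRight_apply] at h
  simpa using h

/-- summable bounds -/
private theorem bounds {f : ℕ → E2 → ℝ} {ν : ℕ → ℕ} {κ : ℝ}
    (hν : ∀ k, {m | ν m < k}.Finite)
    (hs : ∀ m k, k ≤ ν m → ∀ x, ‖iteratedFDeriv ℝ k (f m) x‖ ≤ κ / 2 ^ m)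
    (hb : ∀ m k, ∃ C : ℝ, ∀ x, ‖iteratedFDeriv ℝ k (f m) x‖ ≤ C) :
    ∃ v : ℕ → ℕ → ℝ, (∀ k, Summable (v k)) ∧ ∀ k m x, ‖iteratedFDeriv ℝ k (f m) x‖ ≤ v k m := by
  choose C hC using hb
  refine ⟨fun k m => if k ≤ ν m then κ / 2 ^ m else C m k, fun k => ?_, fun k m x => ?_⟩
  · have hg : Summable (fun m : ℕ => κ / 2 ^ m) := by
      have := (summable_geometric_two).mul_left κ
      refine this.congr (fun m => ?_)
      rw [one_div, inv_pow]; rfl
    refine (summable_congr_cofinite ?_).1 hg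
    have : {m | ν m < k}ᶜ ∈ Filter.cofinite := (hν k).compl_mem_cofinite
    filter_upwards [this] with m hm
    have : k ≤ ν m := by simpa using hm
    simp [this]
  · simp only
    split_ifs with h
    · exact hs m k h x
    · exact hC m k x

/-- general form of the sum lemma -/
private theorem sum_gen {W : Type*} [NormedAddCommGroup W] [NormedSpace ℝ W] [CompleteSpace W]
    {f : ℕ → E2 → ℝ} {T : ℕ → W} {v : ℕ → ℕ → ℝ} {K : ℝ}
    (hf : ∀ m, ContDiff ℝ ∞ (f m)) (hK : 0 ≤ K) (hT : ∀ m, ‖T m‖ ≤ K) (hv : ∀ k, Summable (v k))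
    (hfv : ∀ k m x, ‖iteratedFDeriv ℝ k (f m) x‖ ≤ v k m) :
    ContDiff ℝ ∞ (fun x => ∑' m, f m x • T m) ∧ (∀ x, Summable (fun m => f m x • T m)) ∧
    (∀ x, (∀ m, f m =ᶠ[nhds x] 0) → ∀ k : ℕ,
      iteratedFDeriv ℝ k (fun y => ∑' m, f m y • T m) x = 0) := by
  have hfT : ∀ k m x, ‖iteratedFDeriv ℝ k (fun x => f m x • T m) x‖ ≤ K * v k m := fun k m x =>
    (iter_smul_const (hf m) (T m) k x).trans
      (mul_le_mul (hT m) (hfv k m x) (norm_nonneg _) hK)
  refine ⟨?_, ?_, ?_⟩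
  · exact contDiff_tsum (𝕜 := ℝ) (N := (⊤ : ℕ∞)) (f := fun m x => f m x • T m)
      (v := fun k m => K * v k m) (fun m => (hf m).smul contDiff_const)
      (fun k _ => (hv k).mul_left K) (fun k m x _ => hfT k m x)
  · intro x
    have hn : ∀ m, ‖f m x • T m‖ ≤ K * v 0 m := by
      intro m
      have h1 := hfT 0 m x
      rwa [norm_iteratedFDeriv_zero] at h1
    exact Summable.of_norm_bounded ((hv 0).mul_left K) hn
  · intro x hx k
    have := congrFun (iteratedFDeriv_tsum (𝕜 := ℝ) (N := (⊤ : ℕ∞)) (f := fun m y => f m y • T m)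
      (v := fun k m => K * v k m)
      (fun m => ((hf m).smul contDiff_const)) (fun k _ => (hv k).mul_left _)
      (fun k m x _ => hfT k m x) (k := k) le_top) x
    rw [this]
    refine (tsum_congr fun m => ?_).trans tsum_zero
    have e : (fun y => f m y • T m) =ᶠ[nhds x] fun _ => 0 := by
      filter_upwards [hx m] with y hy
      rw [hy]; simp
    have e' := e.iteratedFDeriv ℝ k
    rw [e'.eq_of_nhds]
    rw [iteratedFDeriv_fun_zero]
    rfl

private theorem tsum_apply2 {V : Type*} [NormedAddCommGroup V] [NormedSpace ℝ V]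
    {B : ℕ → V →L[ℝ] V →L[ℝ] ℝ} (hB : Summable B) (a b : V) :
    (∑' m, B m) a b = ∑' m, B m a b := by
  have h1 := ((ContinuousLinearMap.apply ℝ ℝ b).comp
    (ContinuousLinearMap.apply ℝ (V →L[ℝ] ℝ) a)).map_tsum hB
  simpa using h1

private theorem norm_apply2 {V : Type*} [NormedAddCommGroup V] [NormedSpace ℝ V]
    (B : V →L[ℝ] V →L[ℝ] ℝ) (hB : ‖B‖ ≤ 1) (a b : V) : ‖B a b‖ ≤ ‖a‖ * ‖b‖ := by
  refine (B.le_opNorm₂ a b).trans ?_
  rw [mul_assoc]
  exact mul_le_of_le_one_left (by positivity) hB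

/-- sums of smooth functions with small derivatives: `f m` has derivatives of order `≤ ν m` bounded
by `2^{-m} κ` where `ν m → ∞` -/
theorem contDiff_sum {f : ℕ → E2 → ℝ} {T : ℕ → E2 →L[ℝ] E2 →L[ℝ] ℝ} {ν : ℕ → ℕ} {κ : ℝ}
    (hf : ∀ m, ContDiff ℝ ∞ (f m)) (hT : ∀ m, ‖T m‖ ≤ 1) (hν : ∀ k, {m | ν m < k}.Finite)
    (hs : ∀ m k, k ≤ ν m → ∀ x, ‖iteratedFDeriv ℝ k (f m) x‖ ≤ κ / 2 ^ m)
    (hb : ∀ m k, ∃ C : ℝ, ∀ x, ‖iteratedFDeriv ℝ k (f m) x‖ ≤ C) :
    ContDiff ℝ ∞ (fun x => ∑' m, f m x • T m) ∧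
    (∀ x, Summable (fun m => f m x • T m)) ∧
    (∀ x, (∀ m, f m =ᶠ[nhds x] 0) → ∀ v w : E2, (∑' m, f m x • T m) v w = 0 ∧
      fderiv ℝ (fun x => (∑' m, f m x • T m) v w) x = 0 ∧
      fderiv ℝ (fderiv ℝ (fun x => (∑' m, f m x • T m) v w)) x = 0) := by
  obtain ⟨v, hv, hfv⟩ := bounds hν hs hb
  obtain ⟨h1, h2, -⟩ := sum_gen (W := E2 →L[ℝ] E2 →L[ℝ] ℝ) (T := T) hf zero_le_one hT hv hfv
  refine ⟨h1, h2, fun x hx a b => ?_⟩
  have hev : ∀ y, (∑' m, f m y • T m) a b = ∑' m, f m y • T m a b := by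
    intro y
    exact tsum_apply2 (h2 y) a b
  have hF : (fun y => (∑' m, f m y • T m) a b) = fun y => ∑' m, f m y • T m a b := funext hev
  rw [hF, hev]
  obtain ⟨-, -, hk⟩ := sum_gen (T := fun m => T m a b) hf
    (show (0 : ℝ) ≤ ‖a‖ * ‖b‖ by positivity) (fun m => norm_apply2 (T m) (hT m) a b) hv hfv
  have hk := hk x hx
  have h0 : ∀ m, f m x = 0 := fun m => (hx m).eq_of_nhds
  refine ⟨by simp [h0], ?_, ?_⟩
  · ext u
    have h := congrArg (fun A => A (fun _ => u)) (hk 1)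
    simp only [iteratedFDeriv_one_apply] at h
    simpa using h
  · ext u u'
    have h := congrArg (fun A => A ![u, u']) (hk 2)
    simp only [iteratedFDeriv_two_apply] at h
    simpa using h


private theorem tsum_bound {f : ℕ → E2 → ℝ} {T : ℕ → E2 →L[ℝ] E2 →L[ℝ] ℝ} {κ : ℝ} {x : E2}
    (hT : ∀ m, ‖T m‖ ≤ 1) (hf : ∀ m, |f m x| ≤ κ / 2 ^ m)
    (hsum : Summable (fun m => f m x • T m)) (a : E2) :
    |(∑' m, f m x • T m) a a| ≤ 2 * κ * ‖a‖ ^ 2 := by
  rw [tsum_apply2 hsum, ← Real.norm_eq_abs]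
  have hg : HasSum (fun m : ℕ => κ / 2 ^ m * ‖a‖ ^ 2) (2 * κ * ‖a‖ ^ 2) := by
    have := (hasSum_geometric_two.mul_left κ).mul_right (‖a‖ ^ 2)
    rw [mul_comm κ 2] at this
    have e : (fun m : ℕ => κ / 2 ^ m * ‖a‖ ^ 2) = fun m : ℕ => κ * (1 / 2) ^ m * ‖a‖ ^ 2 := by
      funext m
      rw [one_div, inv_pow]; rfl
    rw [e]; exact this
  refine tsum_of_norm_bounded hg (fun m => ?_)
  simp only [smul_apply, smul_eq_mul]
  rw [norm_mul, sq]
  exact mul_le_mul (hf m) (norm_apply2 (T m) (hT m) a a) (norm_nonneg _)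
    ((abs_nonneg _).trans (hf m))

private theorem norm_e1 : ‖e1‖ = 1 := by
  simp [e1, EuclideanSpace.norm_eq]

private theorem norm_rot (e : E2) : ‖rot e‖ = ‖e‖ := by
  simp [rot, EuclideanSpace.norm_eq, add_comm]

private noncomputable def G0 : E2 →L[ℝ] E2 →L[ℝ] ℝ := TT e1 + TT (rot e1)

private theorem G0_apply (v w : E2) : G0 v w = inner ℝ v w := by
  simp only [G0, add_apply, TT_apply]
  simp [e1, rot, PiLp.inner_apply, Fin.sum_univ_two]
  ring

private theorem dist_cj (j j' : ℕ) :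
    dist (cj j) (cj j') = |(1 / 2 : ℝ) ^ (j + 1) - (1 / 2) ^ (j' + 1)| := by
  rw [EuclideanSpace.dist_eq]
  simp only [cj, Fin.sum_univ_two, Real.dist_eq]
  simp [Real.sqrt_sq_eq_abs]

private theorem circ_far {j j' : ℕ} {z : E2} (hz : z ∈ Circ j) : Rj j' / 2 < dist z (cj j') := by
  have hz' : dist z (cj j) = Rj j := hz
  have hR := Rj_pos j'
  rcases eq_or_ne j j' with rfl | hne
  · rw [hz']; linarith
  · have h1 : dist (cj j) (cj j') ≤ dist z (cj j) + dist z (cj j') := by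
      have := dist_triangle_left (cj j) (cj j') z
      exact this
    rw [dist_cj, hz'] at h1
    have ha : (0 : ℝ) < (1 / 2) ^ (j + 1) := by positivity
    have hb : (0 : ℝ) < (1 / 2) ^ (j' + 1) := by positivity
    unfold Rj at *
    rcases lt_or_gt_of_ne hne with h | h
    · have hle : (1 / 2 : ℝ) ^ (j' + 1) ≤ (1 / 2) ^ (j + 1) / 2 := by
        have : (1 / 2 : ℝ) ^ (j' + 1) ≤ (1 / 2) ^ (j + 1 + 1) :=
          pow_le_pow_of_le_one (by norm_num) (by norm_num) (by omega)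
        rw [pow_succ _ (j + 1)] at this
        linarith
      have := le_abs_self ((1 / 2 : ℝ) ^ (j + 1) - (1 / 2) ^ (j' + 1))
      linarith
    · have hle : (1 / 2 : ℝ) ^ (j + 1) ≤ (1 / 2) ^ (j' + 1) / 2 := by
        have : (1 / 2 : ℝ) ^ (j + 1) ≤ (1 / 2) ^ (j' + 1 + 1) :=
          pow_le_pow_of_le_one (by norm_num) (by norm_num) (by omega)
        rw [pow_succ _ (j' + 1)] at this
        linarith
      have := neg_abs_le ((1 / 2 : ℝ) ^ (j + 1) - (1 / 2) ^ (j' + 1))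
      linarith

private theorem fB_zero {j : ℕ} {x : E2} (hx : Rj j / 2 ≤ dist x (cj j)) : fB j x = 0 :=
  (fB j).zero_of_le_dist hx

private theorem mem_KK_of_ball {j : ℕ} {x : E2} (hx : dist x (cj j) ≤ Rj j) : x ∈ KK :=
  Or.inr (mem_iUnion.2 ⟨j, hx⟩)

private theorem fderiv_flat {a b : E2 → ℝ} (ha : ContDiff ℝ ∞ a) (hb : ContDiff ℝ ∞ b) (c : ℝ)
    {z : E2} (ha1 : fderiv ℝ a z = 0) (hb1 : fderiv ℝ b z = 0)
    (ha2 : fderiv ℝ (fderiv ℝ a) z = 0) (hb2 : fderiv ℝ (fderiv ℝ b) z = 0) :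
    fderiv ℝ (fun x => c + a x - b x) z = 0 ∧
      fderiv ℝ (fderiv ℝ (fun x => c + a x - b x)) z = 0 := by
  have hda : Differentiable ℝ a := ha.differentiable (by simp)
  have hdb : Differentiable ℝ b := hb.differentiable (by simp)
  have hda' : Differentiable ℝ (fderiv ℝ a) :=
    (ha.fderiv_right (m := ∞) (by simp)).differentiable (by simp)
  have hdb' : Differentiable ℝ (fderiv ℝ b) :=
    (hb.fderiv_right (m := ∞) (by simp)).differentiable (by simp)
  have e : fderiv ℝ (fun x => c + a x - b x) = fun x => fderiv ℝ a x - fderiv ℝ b x := by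
    funext x
    rw [fderiv_fun_sub ((hda x).const_add c) (hdb x), fderiv_const_add]
  refine ⟨by rw [e]; simp [ha1, hb1], ?_⟩
  rw [e, fderiv_fun_sub (hda' z) (hdb' z), ha2, hb2, sub_zero]

/-- **The metric.**  `g = inner + Σ fS_m T(e_m) - Σ α_j fB_j T(e1)`. -/
theorem exists_metric (σ : ℕ → ℝ) (hσ : ∀ n, 0 < σ n) (H : ℕ → ℝ → ℝ)
    (hH : ∀ n r, 0 < r → 0 < H n r) : ∃ g : Met, ContDiff ℝ ∞ g ∧
    (∀ x v w, g x v w = g x w v) ∧ (∀ x v, v ≠ 0 → 0 < g x v v) ∧
    FlatProp g ∧ ShrinkProp g ∧ StructProp g σ H := by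
  obtain ⟨task, hcirc, hunit, hfin, hnet⟩ := exists_tasks σ hσ
  obtain ⟨q, r, hqr, hKK, hdisj⟩ := exists_balls (fun m => (task m).2.1) hcirc
    (fun m => σ (task m).1) (fun m => hσ _)
  set nn : ℕ → ℕ := fun m => (task m).1 with hnn
  set ee : ℕ → E2 := fun m => (task m).2.2 with hee
  have hr : ∀ m, 0 < r m := fun m => (hqr m).1
  have hκ : ∀ m : ℕ, (0 : ℝ) < 1 / 8 / 2 ^ m := fun m => by positivity
  choose η₀ hη₀ hsm using fun m => fS_small (nn m) (q m) (ee m) (r m) (hunit m) (hr m) (hκ m)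
  set η : ℕ → ℝ := fun m => min (η₀ m) (H (nn m) (r m)) with hηdef
  have hη : ∀ m, 0 < η m := fun m => lt_min (hη₀ m) (hH _ _ (hr m))
  choose α hα hαs using fun j => fB_small j (hκ j)
  set fA : ℕ → E2 → ℝ := fun m => fS (nn m) (η m) (q m) (ee m) (r m) with hfA
  set fC : ℕ → E2 → ℝ := fun j x => α j * fB j x with hfC
  -- the two series
  have hTA : ∀ m, ‖TT (ee m)‖ ≤ 1 := fun m => (norm_TT_le _).trans (by rw [hunit m]; norm_num)
  have hTC : ∀ _ : ℕ, ‖TT e1‖ ≤ 1 := fun _ => (norm_TT_le _).trans (by rw [norm_e1]; norm_num)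
  have hAs : ∀ m k, k ≤ nn m / 4 → ∀ x, ‖iteratedFDeriv ℝ k (fA m) x‖ ≤ 1 / 8 / 2 ^ m :=
    fun m k hk x => hsm m (η m) (hη m) (min_le_left _ _) k hk x
  have hCs : ∀ j k, k ≤ j → ∀ x, ‖iteratedFDeriv ℝ k (fC j) x‖ ≤ 1 / 8 / 2 ^ j :=
    fun j k hk x => hαs j k hk x
  have hνA : ∀ k, {m | nn m / 4 < k}.Finite := fun k =>
    (hfin (4 * k)).subset (fun m hm => by
      simp only [mem_ofPred_eq] at hm ⊢
      simp only [hnn] at hm
      omega)
  have hνC : ∀ k, {j : ℕ | j < k}.Finite := fun k => finite_lt_nat k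
  obtain ⟨A1, A2, A3⟩ := contDiff_sum (f := fA) (T := fun m => TT (ee m)) (ν := fun m => nn m / 4)
    (κ := 1 / 8) (fun m => contDiff_fS) hTA hνA hAs (fun m k => fS_bdd (hunit m) (hr m) k)
  obtain ⟨C1, C2, C3⟩ := contDiff_sum (f := fC) (T := fun _ => TT e1) (ν := fun j => j)
    (κ := 1 / 8) (fun j => contDiff_const.mul (fB j).contDiff) hTC hνC hCs
    (fun j k => fB_bdd j (α j) k)
  set SA : Met := fun x => ∑' m, fA m x • TT (ee m) with hSA
  set SC : Met := fun x => ∑' j, fC j x • TT e1 with hSC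
  have hg : ∀ x v w, (G0 + SA x - SC x) v w = inner ℝ v w + SA x v w - SC x v w := by
    intro x v w
    rw [← G0_apply]; rfl
  have hAa : ∀ x v w, SA x v w = ∑' m, fA m x * (inner ℝ v (ee m) * inner ℝ w (ee m)) := by
    intro x v w
    rw [hSA]
    simp only
    rw [tsum_apply2 (A2 x)]
    simp only [smul_apply, smul_eq_mul, TT_apply]
  have hCa : ∀ x v w, SC x v w = ∑' j, fC j x * (inner ℝ v e1 * inner ℝ w e1) := by
    intro x v w
    rw [hSC]
    simp only
    rw [tsum_apply2 (C2 x)]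
    simp only [smul_apply, smul_eq_mul, TT_apply]
  -- vanishing
  have zA : ∀ m x, x ∉ Metric.closedBall (q m) (3 * r m) → fA m x = 0 := fun m x hx =>
    fS_eq_zero (hunit m) (hr m) hx
  have zA' : ∀ m x, x ∈ KK → x ∉ Metric.closedBall (q m) (3 * r m) := fun m x hx h =>
    (disjoint_left.1 (hKK m)) h hx
  have zC : ∀ j x, Rj j / 2 ≤ dist x (cj j) → fC j x = 0 := fun j x hx => by
    simp only [hfC, fB_zero hx, mul_zero]
  have evA : ∀ x ∈ KK, ∀ m, fA m =ᶠ[nhds x] 0 := fun x hx m => by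
    filter_upwards [Metric.isClosed_closedBall.isOpen_compl.mem_nhds (zA' m x hx)] with y hy
    exact zA m y hy
  refine ⟨fun x => G0 + SA x - SC x, (contDiff_const.add A1).sub C1, ?_, ?_, ?_, ?_, ?_⟩
  · -- symmetry
    intro x v w
    rw [hg, hg, hAa, hAa, hCa, hCa, real_inner_comm v w]
    simp only [mul_comm (inner ℝ v _ : ℝ)]
  · -- positivity
    intro x v hv
    rw [hg]
    have b1 := tsum_bound (f := fA) (x := x) (κ := 1 / 8) hTA (fun m => by
      have := hAs m 0 (Nat.zero_le _) x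
      rwa [norm_iteratedFDeriv_zero] at this) (A2 x) v
    have b2 := tsum_bound (f := fC) (x := x) (κ := 1 / 8) (T := fun _ => TT e1) hTC (fun j => by
      have := hCs j 0 (Nat.zero_le _) x
      rwa [norm_iteratedFDeriv_zero] at this) (C2 x) v
    have b1' : |SA x v v| ≤ 2 * (1 / 8) * ‖v‖ ^ 2 := b1
    have b2' : |SC x v v| ≤ 2 * (1 / 8) * ‖v‖ ^ 2 := b2
    have hv' : 0 < ‖v‖ ^ 2 := by positivity
    rw [real_inner_self_eq_norm_sq]
    have := neg_abs_le (SA x v v)
    have := le_abs_self (SC x v v)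
    linarith
  · -- flatness
    intro j z hz v w
    have hzK : z ∈ KK := mem_KK_of_ball (le_of_eq hz)
    have evC : ∀ j', fC j' =ᶠ[nhds z] 0 := fun j' => by
      have hopen : IsOpen {x : E2 | Rj j' / 2 < dist x (cj j')} :=
        isOpen_lt continuous_const (continuous_id.dist continuous_const)
      filter_upwards [hopen.mem_nhds (circ_far hz)] with y hy
      exact zC j' y (le_of_lt hy)
    obtain ⟨a0, a1, a2⟩ := A3 z (evA z hzK) v w
    obtain ⟨c0, c1, c2⟩ := C3 z evC v w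
    have hfun : (fun x => (G0 + SA x - SC x) v w) = fun x => inner ℝ v w + SA x v w - SC x v w := by
      funext x; exact hg x v w
    refine ⟨by rw [hg]; simp only [hSA, hSC, a0, c0]; simp, ?_⟩
    simp only [hfun]
    exact fderiv_flat ((A1.clm_apply contDiff_const).clm_apply contDiff_const)
      ((C1.clm_apply contDiff_const).clm_apply contDiff_const) _ a1 c1 a2 c2
  · -- shrinking
    have inn : (inner ℝ e1 e1 : ℝ) = 1 := by
      rw [real_inner_self_eq_norm_sq, norm_e1]; norm_num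
    have hval : ∀ j, ∀ x ∈ Metric.closedBall (cj j) (Rj j),
        (G0 + SA x - SC x) e1 e1 = 1 - ∑' j, fC j x := by
      intro j x hx
      have hxK : x ∈ KK := mem_KK_of_ball hx
      rw [hg, hAa, hCa]
      simp only [zA _ x (zA' _ x hxK), inn, zero_mul, tsum_zero, mul_one, add_zero]
    have hnn' : ∀ j x, 0 ≤ fC j x := fun j x => mul_nonneg (hα j).le (fB j).nonneg
    have hsumC : ∀ x, Summable (fun j => fC j x) := fun x => by
      have h1 := (C2 x).mapL ((ContinuousLinearMap.apply ℝ ℝ e1).comp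
        (ContinuousLinearMap.apply ℝ (E2 →L[ℝ] ℝ) e1))
      refine h1.congr (fun j => ?_)
      simp [TT_apply, norm_e1]
    intro j
    refine ⟨fun x hx => ?_, ?_⟩
    · simp only
      rw [hval j x hx]
      have : 0 ≤ ∑' j, fC j x := tsum_nonneg (fun j => hnn' j x)
      linarith
    · simp only
      rw [hval j (cj j) (Metric.mem_closedBall_self (Rj_pos j).le)]
      have h1 : fC j (cj j) ≤ ∑' j', fC j' (cj j) :=
        (hsumC (cj j)).le_tsum j (fun j' _ => hnn' j' _)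
      have h2 : fB j (cj j) = 1 := (fB j).one_of_mem_closedBall
        (Metric.mem_closedBall_self (fB j).rIn_pos.le)
      have h3 : 0 < fC j (cj j) := by
        simp only [hfC, h2, mul_one]; exact hα j
      linarith
  · -- structures
    intro n j hjn z hz
    obtain ⟨z', hz', hzz', hnet'⟩ := hnet n j hjn z hz
    refine ⟨z', hz', hzz', fun e he => ?_⟩
    obtain ⟨m, hm1, hm2, hm3⟩ := hnet' e he
    refine ⟨ee m, q m, r m, η m, hunit m, hm3, ?_, hr m, ?_, hη m, ?_, ?_⟩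
    · have := (hqr m).2.2
      rw [hm2] at this
      rw [← hm1]; exact this
    · rw [← hm1]; exact (hqr m).2.1
    · rw [← hm1]; exact min_le_right _ _
    · intro X Y hX hY v w
      set x := q m + (r m * X) • ee m + (r m * Y) • rot (ee m) with hx
      have hxb : x ∈ Metric.closedBall (q m) (3 * r m) := by
        rw [Metric.mem_closedBall, dist_eq_norm]
        have e1' : x - q m = (r m * X) • ee m + (r m * Y) • rot (ee m) := by
          rw [hx]; abel
        rw [e1']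
        refine (norm_add_le _ _).trans ?_
        rw [norm_smul, norm_smul, norm_rot, hunit m, Real.norm_eq_abs, Real.norm_eq_abs,
          abs_mul, abs_mul, abs_of_pos (hr m)]
        nlinarith [hr m, hX, hY, abs_nonneg X, abs_nonneg Y]
      have hxK : x ∉ KK := fun h => (disjoint_left.1 (hKK m)) hxb h
      simp only
      rw [hg, hAa, hCa]
      have hC0 : ∀ j, fC j x = 0 := fun j => zC j x (by
        by_contra hcon
        push Not at hcon
        exact hxK (mem_KK_of_ball (j := j) (by have := Rj_pos j; linarith)))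
      simp only [hC0, zero_mul, tsum_zero, sub_zero]
      rw [tsum_eq_single m]
      · congr 1
        congr 1
        have := fS_eq (n := nn m) (η := η m) (q := q m) (hunit m) (hr m) hX hY
        rw [← hm1]
        exact this
      · intro m' hm'
        rw [zA m' x (fun h => (disjoint_left.1 (hdisj m' m hm')) h hxb), zero_mul]

end Crest.Agent.Iso
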