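import Crest.Agent.Iso.NoImm
import Crest.Agent.Iso.Circle
import Crest.Agent.Iso.Metric

/-!
# Row 220: final assembly
-/

set_option autoImplicit false

open scoped ContDiff
open MeasureTheory Set

namespace Crest.Agent.Iso

theorem exists_ball_subset {U : Set E2} (hU : IsOpen U) (h0 : (0 : E2) ∈ U) :
    ∃ j : ℕ, Metric.closedBall (cj j) (2 * Rj j) ⊆ U := by
  obtain ⟨ρ, hρ, hρU⟩ := Metric.isOpen_iff.1 hU 0 h0
  obtain ⟨j, hj⟩ := exists_pow_lt_of_lt_one (show (0 : ℝ) < ρ / 2 by positivity)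
    (show (1 / 2 : ℝ) < 1 by norm_num)
  refine ⟨j, fun x hx => hρU ?_⟩
  rw [Metric.mem_closedBall] at hx
  rw [Metric.mem_ball]
  have hcj : dist (cj j) 0 = (1 / 2 : ℝ) ^ (j + 1) := by
    rw [dist_zero_right, EuclideanSpace.norm_eq]
    simp only [cj, Fin.sum_univ_two]
    simp
  have hpos : (0 : ℝ) < (1 / 2 : ℝ) ^ j := by positivity
  have hRj : 2 * Rj j = (1 / 2 : ℝ) ^ j / 16 := by unfold Rj; rw [pow_succ]; ring
  calc dist x 0 ≤ dist x (cj j) + dist (cj j) 0 := dist_triangle _ _ _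
    _ ≤ 2 * Rj j + (1 / 2 : ℝ) ^ (j + 1) := by rw [hcj]; linarith
    _ = (1 / 2 : ℝ) ^ j / 16 + (1 / 2 : ℝ) ^ j / 2 := by rw [hRj, pow_succ]; ring
    _ < ρ := by linarith

theorem final : ∃ g : Met, ContDiff ℝ ∞ g ∧ (∀ x v w, g x v w = g x w v) ∧
    (∀ x v, v ≠ 0 → 0 < g x v v) ∧
    ∀ U : Set E2, IsOpen U → (0 : E2) ∈ U → ¬ ∃ F : E2 → E3, ContDiffOn ℝ ∞ F U ∧
      ∀ x ∈ U, ∀ v w, inner ℝ (fderiv ℝ F x v) (fderiv ℝ F x w) = g x v w := by
  obtain ⟨σ, hσ, H, hH, hno⟩ := no_immersion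
  obtain ⟨g, hg, hsym, hpos, hflat, hshr, hstr⟩ := exists_metric σ hσ H hH
  refine ⟨g, hg, hsym, hpos, ?_⟩
  rintro U hU h0 ⟨F, hF, hiso⟩
  obtain ⟨j, hj⟩ := exists_ball_subset hU h0
  have hR := Rj_pos j
  let χ : ContDiffBump (cj j) := ⟨3 / 2 * Rj j, 2 * Rj j, by positivity, by linarith⟩
  let F' : E2 → E3 := fun x => χ x • F x
  have hF' : ContDiff ℝ ∞ F' := by
    rw [contDiff_iff_contDiffAt]
    intro x
    by_cases hx : x ∈ U
    · exact χ.contDiff.contDiffAt.smul (hF.contDiffAt (hU.mem_nhds hx))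
    · have hx' : x ∉ Metric.closedBall (cj j) (2 * Rj j) := fun h => hx (hj h)
      have hnb : (Metric.closedBall (cj j) (2 * Rj j))ᶜ ∈ nhds x :=
        Metric.isClosed_closedBall.isOpen_compl.mem_nhds hx'
      have hev : F' =ᶠ[nhds x] fun _ => 0 := by
        filter_upwards [hnb] with y hy
        have hy' : 2 * Rj j ≤ dist y (cj j) := by
          rw [mem_compl_iff, Metric.mem_closedBall, not_le] at hy
          exact hy.le
        have : χ y = 0 := χ.zero_of_le_dist hy'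
        simp only [F', this, zero_smul]
      exact contDiffAt_const.congr_of_eventuallyEq hev
  let V : Set E2 := Metric.ball (cj j) (3 / 2 * Rj j)
  have hV : IsOpen V := Metric.isOpen_ball
  have hVU : V ⊆ U := fun x hx => hj (by
    rw [Metric.mem_closedBall]
    have : dist x (cj j) < 3 / 2 * Rj j := hx
    linarith)
  have hEq : EqOn F' F V := by
    intro x hx
    have : χ x = 1 := χ.one_of_mem_closedBall (Metric.mem_closedBall.2 (le_of_lt hx))
    simp only [F', this, one_smul]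
  have hiso' : ∀ x ∈ V, ∀ v w : E2, inner ℝ (fderiv ℝ F' x v) (fderiv ℝ F' x w) = g x v w := by
    intro x hx v w
    have hev : F' =ᶠ[nhds x] F := hEq.eventuallyEq_of_mem (hV.mem_nhds hx)
    rw [hev.fderiv_eq]
    exact hiso x (hVU hx) v w
  have hcb : Metric.closedBall (cj j) (Rj j) ⊆ V := by
    intro x hx
    have : dist x (cj j) ≤ Rj j := hx
    change dist x (cj j) < 3 / 2 * Rj j
    linarith
  obtain ⟨z, hz, hB⟩ := circle hF' hg hV hR hcb hiso' (fun z hz v w => (hflat j z hz v w).1)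
    (hshr j).1 (hshr j).2
  exact hno g hg hflat hstr F' hF' V hV hiso' j z hz
    (hcb (Metric.sphere_subset_closedBall hz)) hB

end Crest.Agent.Iso
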