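import Crest.Agent.Iso.BDef

/-!
# Row 220, part B: second fundamental form at flat points
-/

set_option autoImplicit false

open scoped ContDiff
open MeasureTheory Set

namespace Crest.Agent.Iso

/-- directional derivative of vector functions -/
noncomputable def dirD {W : Type*} [NormedAddCommGroup W] [NormedSpace ℝ W] (a : E2) (f : E2 → W) :
    E2 → W := fun x => fderiv ℝ f x a

section DDlemmas
variable {W : Type*} [NormedAddCommGroup W] [NormedSpace ℝ W] {f : E2 → W}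

theorem cd_dirD (hf : ContDiff ℝ ∞ f) (a : E2) : ContDiff ℝ ∞ (dirD a f) := by
  unfold dirD
  exact (hf.fderiv_right (m := ∞) (by simp)).clm_apply contDiff_const

theorem dirD_dirD_apply (hf : ContDiff ℝ ∞ f) (a b x : E2) :
    dirD a (dirD b f) x = fderiv ℝ (fderiv ℝ f) x a b := by
  have h2 : ContDiff ℝ 2 f := by exact_mod_cast contDiff_infty.1 hf 2
  have hd : DifferentiableAt ℝ (fderiv ℝ f) x :=
    ((h2.fderiv_right (m := 1) (by norm_num)).differentiable (by norm_num)) x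
  have : HasFDerivAt (dirD b f) ((fderiv ℝ (fderiv ℝ f) x).flip b) x := by
    have := hd.hasFDerivAt.clm_apply (hasFDerivAt_const b x)
    simp only [ContinuousLinearMap.comp_zero, zero_add] at this
    exact this
  change fderiv ℝ (dirD b f) x a = _
  rw [this.fderiv]; rfl

theorem dirD_comm (hf : ContDiff ℝ ∞ f) (a b : E2) : dirD a (dirD b f) = dirD b (dirD a f) := by
  funext x
  have h2 : ContDiff ℝ 2 f := by exact_mod_cast contDiff_infty.1 hf 2
  have hs : IsSymmSndFDerivAt ℝ f x := h2.contDiffAt.isSymmSndFDerivAt (by simp)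
  rw [dirD_dirD_apply hf, dirD_dirD_apply hf, hs]

end DDlemmas

theorem dirD_inner {f h : E2 → E3} (hf : ContDiff ℝ ∞ f) (hh : ContDiff ℝ ∞ h) (a : E2) :
    dirD a (fun x => (inner ℝ (f x) (h x) : ℝ)) =
      fun x => inner ℝ (f x) (dirD a h x) + inner ℝ (dirD a f x) (h x) := by
  funext x
  exact fderiv_inner_apply ℝ (hf.differentiable (by simp) x) (hh.differentiable (by simp) x) a

theorem cd_inner {f h : E2 → E3} (hf : ContDiff ℝ ∞ f) (hh : ContDiff ℝ ∞ h) :
    ContDiff ℝ ∞ (fun x => (inner ℝ (f x) (h x) : ℝ)) := hf.inner ℝ hh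

theorem dirD_add {f h : E2 → ℝ} (hf : ContDiff ℝ ∞ f) (hh : ContDiff ℝ ∞ h) (a x : E2) :
    dirD a (fun x => f x + h x) x = dirD a f x + dirD a h x := by
  simp only [dirD]
  rw [fderiv_fun_add (hf.differentiable (by simp) x) (hh.differentiable (by simp) x)]; rfl

/-- unit normal of an orthonormal pair in `ℝ³` -/
theorem exists_normal3 (a b : E3) (haa : inner ℝ a a = (1 : ℝ)) (hab : inner ℝ a b = (0 : ℝ))
    (hbb : inner ℝ b b = (1 : ℝ)) :
    ∃ N : E3, ‖N‖ = 1 ∧ inner ℝ a N = (0 : ℝ) ∧ inner ℝ b N = (0 : ℝ) ∧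
      ∀ X : E3, inner ℝ X a = (0 : ℝ) → inner ℝ X b = (0 : ℝ) → X = (inner ℝ X N : ℝ) • N := by
  rw [inner_E3] at haa hab hbb
  set N : E3 := !₂[a 1 * b 2 - a 2 * b 1, a 2 * b 0 - a 0 * b 2, a 0 * b 1 - a 1 * b 0] with hN
  have n0 : N 0 = a 1 * b 2 - a 2 * b 1 := rfl
  have n1 : N 1 = a 2 * b 0 - a 0 * b 2 := rfl
  have n2 : N 2 = a 0 * b 1 - a 1 * b 0 := rfl
  have gNX : ∀ X : E3, inner ℝ X N = X 0 * (a 1 * b 2 - a 2 * b 1) + X 1 * (a 2 * b 0 - a 0 * b 2) +
        X 2 * (a 0 * b 1 - a 1 * b 0) := by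
    intro X
    rw [inner_E3, n0, n1, n2]
  have hNN : inner ℝ N N = (1 : ℝ) := by
    rw [inner_E3, n0, n1, n2]
    have : (a 1 * b 2 - a 2 * b 1) * (a 1 * b 2 - a 2 * b 1) +
        (a 2 * b 0 - a 0 * b 2) * (a 2 * b 0 - a 0 * b 2) +
        (a 0 * b 1 - a 1 * b 0) * (a 0 * b 1 - a 1 * b 0) =
        (a 0 * a 0 + a 1 * a 1 + a 2 * a 2) * (b 0 * b 0 + b 1 * b 1 + b 2 * b 2) -
          (a 0 * b 0 + a 1 * b 1 + a 2 * b 2) ^ 2 := by ring
    rw [this, haa, hab, hbb]; norm_num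
  have hN1 : ‖N‖ = 1 := by
    rw [real_inner_self_eq_norm_sq] at hNN
    have := norm_nonneg N
    nlinarith
  refine ⟨N, hN1, ?_, ?_, ?_⟩
  · rw [gNX]; ring
  · rw [gNX]; ring
  · intro X hXa hXb
    have h1 := gram3 X X a b
    rw [inner_E3] at hXa hXb
    rw [haa, hab, hbb, hXa, hXb, ← gNX X] at h1
    have h2 : (inner ℝ X N : ℝ) * inner ℝ X N = inner ℝ X X := by
      rw [h1, inner_E3 X X]; ring
    have h3 : inner ℝ (X - (inner ℝ X N : ℝ) • N) (X - (inner ℝ X N : ℝ) • N) = (0 : ℝ) := by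
      rw [inner_sub_left, inner_sub_right, inner_sub_right, inner_smul_left, inner_smul_right,
        inner_smul_left, inner_smul_right, hNN, real_inner_comm X N]
      simp only [conj_trivial]
      rw [← h2]
      ring
    rw [inner_self_eq_zero] at h3
    exact sub_eq_zero.mp h3

/-- symmetric `2 × 2` matrices of determinant zero and nonnegative trace -/
theorem sym_det_zero {h11 h12 h22 : ℝ} (hd : h11 * h22 = h12 ^ 2) (ht : 0 ≤ h11 + h22) :
    ∃ c0 c1 L : ℝ, c0 ^ 2 + c1 ^ 2 = 1 ∧ 0 ≤ L ∧ h11 = L * (c0 * c0) ∧ h12 = L * (c0 * c1) ∧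
      h22 = L * (c1 * c1) := by
  by_cases h : h11 = 0
  · refine ⟨0, 1, h22, by norm_num, by linarith, ?_, ?_, ?_⟩
    · simp [h]
    · have : h12 ^ 2 = 0 := by rw [← hd, h]; ring
      have := pow_eq_zero_iff (two_ne_zero) |>.mp this
      simp [this]
    · ring
  · have hpos : 0 < h11 := by
      by_contra hneg
      have h1 : h11 < 0 := lt_of_le_of_ne (not_lt.mp hneg) h
      have h2 : 0 < h22 := by linarith
      nlinarith [sq_nonneg h12, mul_neg_of_neg_of_pos h1 h2]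
    have h22n : 0 ≤ h22 := by
      by_contra hneg
      push Not at hneg
      nlinarith [sq_nonneg h12, mul_neg_of_pos_of_neg hpos hneg]
    set L := h11 + h22 with hL
    have hLp : 0 < L := by linarith
    set s := Real.sqrt (h11 * L) with hs
    have hs2 : s * s = h11 * L := Real.mul_self_sqrt (by positivity)
    have hsp : 0 < s := Real.sqrt_pos.mpr (by positivity)
    refine ⟨h11 / s, h12 / s, L, ?_, hLp.le, ?_, ?_, ?_⟩
    · rw [div_pow, div_pow, ← add_div, div_eq_one_iff_eq (by positivity), ← hd, pow_two s, hs2, hL]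
      ring
    · field_simp
      rw [pow_two s, hs2]
    · field_simp
      rw [pow_two s, hs2]
      ring
    · field_simp
      rw [pow_two s, hs2, ← hd]
      ring

theorem E2_decomp (v : E2) : v = v 0 • (EuclideanSpace.single 0 1 : E2) +
    v 1 • (EuclideanSpace.single 1 1 : E2) := by
  ext i
  fin_cases i <;> simp

/-- At a point where the metric is flat to second order, the second derivative of an isometric
immersion is `Λ ⟪v,e⟫ ⟪w,e⟫ N`.
Proof: `A = DF`, `B = D²F`, `T = D³F`.  First derivative of `⟪A v, A w⟫ = g(v,w)`: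
`⟪B(x,v), A w⟫ + ⟪A v, B(x,w)⟫ = 0`, so `⟪B(x,v), A w⟫ = 0`.  Second derivative:
`⟪T(a,b,c), A d⟫ + ⟪B(a,c), B(b,d)⟫ + ⟪B(b,c), B(a,d)⟫ + ⟪A c, T(a,b,d)⟫ = 0`, hence
`⟪B(v,v), B(w,w)⟫ = ⟪B(v,w), B(v,w)⟫` (take `(a,b;c,d) = (v,w;v,w), (v,v;w,w), (w,w;v,v)`).
So `B = h N` with `h` symmetric of determinant zero. -/
theorem flat_point {F : E2 → E3} (hF : ContDiff ℝ ∞ F) {g : Met} (hg : ContDiff ℝ ∞ g)
    {V : Set E2} (hV : IsOpen V) {p : E2} (hp : p ∈ V)
    (hiso : ∀ x ∈ V, ∀ v w : E2, inner ℝ (fderiv ℝ F x v) (fderiv ℝ F x w) = g x v w)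
    (h0 : ∀ v w : E2, g p v w = inner ℝ v w) (h1 : ∀ v w : E2, fderiv ℝ (fun x => g x v w) p = 0)
    (h2 : ∀ v w : E2, fderiv ℝ (fderiv ℝ (fun x => g x v w)) p = 0) :
    ∃ (N : E3) (e : E2) (Λ : ℝ), ‖N‖ = 1 ∧ ‖e‖ = 1 ∧ 0 ≤ Λ ∧
      (∀ v : E2, inner ℝ (fderiv ℝ F p v) N = (0 : ℝ)) ∧
      (∀ v w : E2, fderiv ℝ (fderiv ℝ F) p v w = (Λ * (inner ℝ v e * inner ℝ w e)) • N) := by
  have cu : ∀ v, ContDiff ℝ ∞ (dirD v F) := fun v => cd_dirD hF v
  have cB : ∀ a v, ContDiff ℝ ∞ (dirD a (dirD v F)) := fun a v => cd_dirD (cu v) a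
  -- the functions `⟪D_v F, D_w F⟫`
  have hEq : ∀ v w : E2, (fun x => (inner ℝ (dirD v F x) (dirD w F x) : ℝ)) =ᶠ[nhds p]
      fun x => g x v w := fun v w =>
    Filter.eventuallyEq_of_mem (hV.mem_nhds hp) (fun x hx => hiso x hx v w)
  have cG : ∀ v w : E2, ContDiff ℝ ∞ (fun x => (inner ℝ (dirD v F x) (dirD w F x) : ℝ)) :=
    fun v w => cd_inner (cu v) (cu w)
  have d1 : ∀ a v w : E2, dirD a (fun x => (inner ℝ (dirD v F x) (dirD w F x) : ℝ)) p = 0 := by
    intro a v w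
    change fderiv ℝ (fun x => (inner ℝ (dirD v F x) (dirD w F x) : ℝ)) p a = 0
    rw [(hEq v w).fderiv_eq, h1 v w]; rfl
  have d2 : ∀ b a v w : E2,
      dirD b (dirD a (fun x => (inner ℝ (dirD v F x) (dirD w F x) : ℝ))) p = 0 := by
    intro b a v w
    rw [dirD_dirD_apply (cG v w)]
    have := ((hEq v w).fderiv (𝕜 := ℝ)).fderiv_eq (𝕜 := ℝ)
    rw [this, h2 v w]; rfl
  -- first derivative
  set u : E2 → E3 := fun v => dirD v F p with hu
  set β : E2 → E2 → E3 := fun a v => dirD a (dirD v F) p with hβ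
  set τ : E2 → E2 → E2 → E3 := fun b a v => dirD b (dirD a (dirD v F)) p with hτ
  have βs : ∀ a v, β a v = β v a := fun a v => by
    simp only [hβ]; rw [dirD_comm hF a v]
  have τs1 : ∀ b a v, τ b a v = τ b v a := fun b a v => by
    simp only [hτ]; rw [dirD_comm hF a v]
  have τs2 : ∀ b a v, τ b a v = τ a b v := fun b a v => by
    simp only [hτ]; rw [dirD_comm (cu v) b a]
  have r1 : ∀ a v w : E2, (inner ℝ (u v) (β a w) : ℝ) + inner ℝ (β a v) (u w) = 0 := by
    intro a v w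
    have := d1 a v w
    rw [dirD_inner (cu v) (cu w)] at this
    exact this
  have f0 : ∀ a v w : E2, (inner ℝ (β a v) (u w) : ℝ) = 0 := by
    intro a v w
    have s : ∀ a v w, (inner ℝ (β a v) (u w) : ℝ) = - inner ℝ (β a w) (u v) := by
      intro a v w
      have := r1 a v w
      rw [real_inner_comm (β a w) (u v)] at this
      linarith
    have t : ∀ a v w, (inner ℝ (β a v) (u w) : ℝ) = inner ℝ (β v a) (u w) := by
      intro a v w; rw [βs a v]
    have e1 := t a v w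
    have e2 := s v a w
    have e3 := t v w a
    have e4 := s w v a
    have e5 := t w a v
    have e6 := s a w v
    linarith
  -- second derivative
  have r2 : ∀ b a v w : E2, (inner ℝ (τ b a v) (u w) : ℝ) + inner ℝ (τ b a w) (u v) +
      inner ℝ (β a v) (β b w) + inner ℝ (β b v) (β a w) = 0 := by
    intro b a v w
    have h := d2 b a v w
    rw [dirD_inner (cu v) (cu w) a] at h
    rw [dirD_add (cd_inner (cu v) (cB a w)) (cd_inner (cB a v) (cu w)),
      dirD_inner (cu v) (cB a w), dirD_inner (cB a v) (cu w)] at h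
    have h' : (inner ℝ (u v) (τ b a w) : ℝ) + inner ℝ (β b v) (β a w) +
      (inner ℝ (β a v) (β b w) + inner ℝ (τ b a v) (u w)) = 0 := h
    rw [real_inner_comm (τ b a w) (u v)] at h'
    linarith
  have key : ∀ v w : E2, (inner ℝ (β v v) (β w w) : ℝ) = inner ℝ (β v w) (β v w) := by
    intro v w
    have q1 := r2 v w v w
    have q2 := r2 v v w w
    have q3 := r2 w w v v
    -- `τ v w v = τ v v w`, `τ v w w = τ w w v`
    have t1 : τ v w v = τ v v w := τs1 v w v
    have t2 : τ v w w = τ w w v := by rw [τs2 v w w, τs1 w v w]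
    rw [t1, t2] at q1
    rw [βs w v] at q1 q3
    have q4 : (inner ℝ (β v w) (β v w) : ℝ) = inner ℝ (β v w) (β v w) := rfl
    have q5 : (inner ℝ (β v v) (β w w) : ℝ) = inner ℝ (β w w) (β v v) := real_inner_comm _ _
    linarith
  -- orthonormal frame
  have uu : ∀ v w : E2, (inner ℝ (u v) (u w) : ℝ) = inner ℝ v w := by
    intro v w
    have := hiso p hp v w
    rw [h0 v w] at this
    exact this
  set b0 : E2 := EuclideanSpace.single 0 1 with hb0
  set b1 : E2 := EuclideanSpace.single 1 1 with hb1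
  have hb00 : (inner ℝ b0 b0 : ℝ) = 1 := by
    rw [real_inner_self_eq_norm_sq, hb0, PiLp.norm_single]; norm_num
  have hb11 : (inner ℝ b1 b1 : ℝ) = 1 := by
    rw [real_inner_self_eq_norm_sq, hb1, PiLp.norm_single]; norm_num
  have hb01 : (inner ℝ b0 b1 : ℝ) = 0 := by
    rw [hb0, EuclideanSpace.inner_single_left]; simp [hb1]
  obtain ⟨N, hN1, hN2, hN3, hN4⟩ := exists_normal3 (u b0) (u b1) ((uu _ _).trans hb00)
    ((uu _ _).trans hb01) ((uu _ _).trans hb11)
  -- linearity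
  have βlin : ∀ a v : E2, β a v = fderiv ℝ (fderiv ℝ F) p a v := fun a v => dirD_dirD_apply hF a v p
  have ulin : ∀ v : E2, u v = fderiv ℝ F p v := fun v => rfl
  have hβN : ∀ a v : E2, β a v = (inner ℝ (β a v) N : ℝ) • N := fun a v =>
    hN4 _ (f0 a v b0) (f0 a v b1)
  have huN : ∀ v : E2, (inner ℝ (fderiv ℝ F p v) N : ℝ) = 0 := by
    intro v
    rw [E2_decomp v, map_add, map_smul, map_smul, inner_add_left, inner_smul_left,
      inner_smul_left]
    have a1 : (inner ℝ (fderiv ℝ F p b0) N : ℝ) = 0 := hN2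
    have a2 : (inner ℝ (fderiv ℝ F p b1) N : ℝ) = 0 := hN3
    rw [← hb0, ← hb1, a1, a2]; simp
  set H : E2 → E2 → ℝ := fun a v => inner ℝ (β a v) N with hH
  have Hs : ∀ a v, H a v = H v a := fun a v => by simp only [hH]; rw [βs a v]
  have Hdet : H b0 b0 * H b1 b1 = H b0 b1 ^ 2 := by
    have k := key b0 b1
    rw [hβN b0 b0, hβN b1 b1, hβN b0 b1] at k
    rw [inner_smul_left, inner_smul_right, inner_smul_left, inner_smul_right,
      real_inner_self_eq_norm_sq, hN1] at k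
    simp only [conj_trivial] at k
    simp only [hH]
    linarith
  have Hexp : ∀ v w : E2, H v w = v 0 * w 0 * H b0 b0 + (v 0 * w 1 + v 1 * w 0) * H b0 b1 +
      v 1 * w 1 * H b1 b1 := by
    intro v w
    have e1 : β v w = (v 0 * w 0) • β b0 b0 + (v 0 * w 1) • β b0 b1 + (v 1 * w 0) • β b1 b0 +
        (v 1 * w 1) • β b1 b1 := by
      simp only [βlin]
      conv_lhs => rw [E2_decomp v, E2_decomp w]
      rw [← hb0, ← hb1]
      simp only [map_add, map_smul, add_apply, smul_apply,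
        smul_add, smul_smul]
      rw [mul_comm (w 1) (v 0), mul_comm (w 0) (v 1), mul_comm (w 0) (v 0), mul_comm (w 1) (v 1)]
      abel
    have e2 : H v w = (v 0 * w 0) * H b0 b0 + (v 0 * w 1) * H b0 b1 + (v 1 * w 0) * H b1 b0 +
        (v 1 * w 1) * H b1 b1 := by
      simp only [hH]
      rw [e1]
      simp only [inner_add_left, inner_smul_left, conj_trivial]
    rw [e2, Hs b1 b0]; ring
  -- choose the sign
  obtain ⟨sg, hsg, htr⟩ : ∃ sg : ℝ, sg * sg = 1 ∧ 0 ≤ sg * H b0 b0 + sg * H b1 b1 := by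
    rcases le_total 0 (H b0 b0 + H b1 b1) with h | h
    · exact ⟨1, by norm_num, by linarith⟩
    · exact ⟨-1, by norm_num, by linarith⟩
  obtain ⟨c0, c1, L, hc, hL, hl1, hl2, hl3⟩ := sym_det_zero (h11 := sg * H b0 b0)
    (h12 := sg * H b0 b1) (h22 := sg * H b1 b1) (by
      have : sg * H b0 b0 * (sg * H b1 b1) = (sg * sg) * (H b0 b0 * H b1 b1) := by ring
      rw [this, Hdet]; ring) htr
  refine ⟨sg • N, !₂[c0, c1], L, ?_, ?_, hL, ?_, ?_⟩
  · rw [norm_smul, hN1, mul_one, Real.norm_eq_abs]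
    have : |sg| * |sg| = 1 := by rw [← abs_mul, hsg, abs_one]
    nlinarith [abs_nonneg sg]
  · rw [EuclideanSpace.norm_eq, Fin.sum_univ_two]
    simp [hc]
  · intro v
    rw [inner_smul_right, huN v, mul_zero]
  · intro v w
    rw [← βlin, hβN v w, smul_smul]
    congr 1
    have i1 : ∀ v : E2, (inner ℝ v (!₂[c0, c1] : E2) : ℝ) = v 0 * c0 + v 1 * c1 := by
      intro v
      rw [PiLp.inner_apply, Fin.sum_univ_two]
      simp [mul_comm]
    rw [i1, i1]
    have hv : (inner ℝ (β v w) N : ℝ) = H v w := rfl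
    rw [hv]
    have h3 : H v w = (sg * sg) * H v w := by rw [hsg, one_mul]
    rw [h3, Hexp v w]
    linear_combination (v 0 * w 0 * sg) * hl1 + ((v 0 * w 1 + v 1 * w 0) * sg) * hl2 +
      (v 1 * w 1 * sg) * hl3

end Crest.Agent.Iso
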