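import Crest.Agent.Iso.MB

/-!
# Row 220: partial Legendre transform
-/

set_option autoImplicit false

open scoped ContDiff NNReal
open MeasureTheory Set

namespace Crest.Agent.Iso

namespace Leg

/-- `v` is smooth with all derivatives of order `≤ 12` bounded by the small number `t`. -/
def Good (t : ℝ) (v : ℝ × ℝ → ℝ) : Prop :=
  0 < t ∧ t ≤ 1 / 4 ∧ ContDiff ℝ ∞ v ∧
    ∀ a i : ℕ, a + i ≤ 12 → ∀ z, |dx^[a] (dp^[i] v) z| ≤ t

/-- `1/u_yy` -/
noncomputable def dd (v : ℝ × ℝ → ℝ) : ℝ × ℝ → ℝ := fun z => (1 + dp (dp v) z)⁻¹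

/-- the derivative in `p` of `h ∘ Φ⁻¹`, seen through `Φ` -/
noncomputable def D2 (v h : ℝ × ℝ → ℝ) : ℝ × ℝ → ℝ := fun z => dp h z * dd v z

/-- the derivative in `x` of `h ∘ Φ⁻¹`, seen through `Φ` -/
noncomputable def D1 (v h : ℝ × ℝ → ℝ) : ℝ × ℝ → ℝ :=
  fun z => dx h z - dp h z * (dx (dp v) z * dd v z)

theorem good_pp {t : ℝ} {v : ℝ × ℝ → ℝ} (hg : Good t v) (z : ℝ × ℝ) :
    |dp (dp v) z| ≤ 1 / 4 := by
  have := hg.2.2.2 0 2 (by norm_num) z
  simp only [Function.iterate_zero, id_eq, Function.iterate_succ, Function.comp] at this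
  exact this.trans hg.2.1

theorem good_xp {t : ℝ} {v : ℝ × ℝ → ℝ} (hg : Good t v) (z : ℝ × ℝ) :
    |dx (dp v) z| ≤ 1 / 4 := by
  have := hg.2.2.2 1 1 (by norm_num) z
  simp only [Function.iterate_zero, id_eq, Function.iterate_succ, Function.comp] at this
  exact this.trans hg.2.1

theorem good_p {t : ℝ} {v : ℝ × ℝ → ℝ} (hg : Good t v) (z : ℝ × ℝ) :
    |dp v z| ≤ t := by
  have := hg.2.2.2 0 1 (by norm_num) z
  simpa only [Function.iterate_zero, id_eq, Function.iterate_succ, Function.comp] using this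

theorem good_pos {t : ℝ} {v : ℝ × ℝ → ℝ} (hg : Good t v) (z : ℝ × ℝ) :
    3 / 4 ≤ 1 + dp (dp v) z := by
  have := abs_le.1 (good_pp hg z)
  linarith

theorem cd_dd {t : ℝ} {v : ℝ × ℝ → ℝ} (hg : Good t v) : ContDiff ℝ ∞ (dd v) := by
  unfold dd
  refine ContDiff.inv (contDiff_const.add (cd_dp (cd_dp hg.2.2.1))) ?_
  intro z
  have := good_pos hg z
  positivity

theorem cd_D2 {t : ℝ} {v h : ℝ × ℝ → ℝ} (hg : Good t v) (hh : ContDiff ℝ ∞ h) :
    ContDiff ℝ ∞ (D2 v h) := (cd_dp hh).mul (cd_dd hg)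

theorem cd_D1 {t : ℝ} {v h : ℝ × ℝ → ℝ} (hg : Good t v) (hh : ContDiff ℝ ∞ h) :
    ContDiff ℝ ∞ (D1 v h) :=
  (cd_dx hh).sub ((cd_dp hh).mul ((cd_dx (cd_dp hg.2.2.1)).mul (cd_dd hg)))

/-- the Legendre map -/
noncomputable def Phi (v : ℝ × ℝ → ℝ) : ℝ × ℝ → ℝ × ℝ := fun z => (z.1, z.2 + dp v z)

/-- the linear maps `(ξ, η) ↦ (ξ, a ξ + b η)` -/
noncomputable def shear (a b : ℝ) (hb : b ≠ 0) : (ℝ × ℝ) ≃L[ℝ] (ℝ × ℝ) :=
  ContinuousLinearEquiv.equivOfInverse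
    ((ContinuousLinearMap.fst ℝ ℝ ℝ).prod
      (a • ContinuousLinearMap.fst ℝ ℝ ℝ + b • ContinuousLinearMap.snd ℝ ℝ ℝ))
    ((ContinuousLinearMap.fst ℝ ℝ ℝ).prod
      ((-(a / b)) • ContinuousLinearMap.fst ℝ ℝ ℝ + (1 / b) • ContinuousLinearMap.snd ℝ ℝ ℝ))
    (by
      rintro ⟨ξ, η⟩
      simp
      field_simp
      ring)
    (by
      rintro ⟨ξ, η⟩
      simp
      field_simp
      ring)

theorem hasFDerivAt_Phi {t : ℝ} {v : ℝ × ℝ → ℝ} (hg : Good t v) (z : ℝ × ℝ) :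
    HasFDerivAt (Phi v)
      ((ContinuousLinearMap.fst ℝ ℝ ℝ).prod
        (dx (dp v) z • ContinuousLinearMap.fst ℝ ℝ ℝ +
          (1 + dp (dp v) z) • ContinuousLinearMap.snd ℝ ℝ ℝ)) z := by
  have h1 : HasFDerivAt (dp v) (fderiv ℝ (dp v) z) z :=
    (diff_of_smooth (cd_dp hg.2.2.1) z).hasFDerivAt
  have h2 : HasFDerivAt (Phi v)
      ((ContinuousLinearMap.fst ℝ ℝ ℝ).prod
        (ContinuousLinearMap.snd ℝ ℝ ℝ + fderiv ℝ (dp v) z)) z :=
    hasFDerivAt_fst.prodMk (hasFDerivAt_snd.add h1)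
  convert h2 using 1
  congr 1
  ext
  · simp [fderiv_eq_dx_dp]
  · simp [fderiv_eq_dx_dp]

theorem approx_Phi {t : ℝ} {v : ℝ × ℝ → ℝ} (hg : Good t v) :
    ApproximatesLinearOn (Phi v) ((ContinuousLinearEquiv.refl ℝ (ℝ × ℝ) :
      (ℝ × ℝ) ≃L[ℝ] (ℝ × ℝ)) : (ℝ × ℝ) →L[ℝ] (ℝ × ℝ)) univ (1 / 2 : ℝ≥0) := by
  have hl : LipschitzWith (1 / 2 : ℝ≥0) (dp v) := by
    refine lipschitzWith_of_nnnorm_fderiv_le (𝕜 := ℝ) (diff_of_smooth (cd_dp hg.2.2.1)) ?_
    intro z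
    rw [← NNReal.coe_le_coe, coe_nnnorm]
    refine ContinuousLinearMap.opNorm_le_bound _ (by positivity) ?_
    intro w
    rw [fderiv_eq_dx_dp]
    have h1 := good_xp hg z
    have h2 := good_pp hg z
    have h3 : |w.1| ≤ ‖w‖ := norm_fst_le w
    have h4 : |w.2| ≤ ‖w‖ := norm_snd_le w
    have h5 : |w.1 * dx (dp v) z| ≤ ‖w‖ * (1 / 4) := by
      rw [abs_mul]
      exact mul_le_mul h3 h1 (abs_nonneg _) (norm_nonneg _)
    have h6 : |w.2 * dp (dp v) z| ≤ ‖w‖ * (1 / 4) := by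
      rw [abs_mul]
      exact mul_le_mul h4 h2 (abs_nonneg _) (norm_nonneg _)
    rw [Real.norm_eq_abs]
    have h7 := abs_add_le (w.1 * dx (dp v) z) (w.2 * dp (dp v) z)
    push_cast
    linarith
  intro x _ y _
  have h1 : Phi v x - Phi v y -
      ((ContinuousLinearEquiv.refl ℝ (ℝ × ℝ) : (ℝ × ℝ) ≃L[ℝ] (ℝ × ℝ)) :
        (ℝ × ℝ) →L[ℝ] (ℝ × ℝ)) (x - y) = (0, dp v x - dp v y) := by
    ext
    · simp [Phi]
    · simp [Phi]
      ring
  rw [h1]
  have h2 := hl.dist_le_mul x y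
  rw [Real.dist_eq, dist_eq_norm] at h2
  have h3 : ‖((0 : ℝ), dp v x - dp v y)‖ = |dp v x - dp v y| := by
    rw [Prod.norm_def]
    simp
  rw [h3]
  exact h2

/-- the Legendre map has a smooth inverse -/
theorem exists_inverse {t : ℝ} {v : ℝ × ℝ → ℝ} (hg : Good t v) :
    ∃ Psi : ℝ × ℝ → ℝ × ℝ, ContDiff ℝ ∞ Psi ∧ (∀ z, Psi (Phi v z) = z) ∧
      ∀ q, Phi v (Psi q) = q := by
  have hc : (Subsingleton (ℝ × ℝ)) ∨ (1 / 2 : ℝ≥0) <
      ‖(((ContinuousLinearEquiv.refl ℝ (ℝ × ℝ)).symm : (ℝ × ℝ) ≃L[ℝ] (ℝ × ℝ)) :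
        (ℝ × ℝ) →L[ℝ] (ℝ × ℝ))‖₊⁻¹ := by
    right
    have : ‖(((ContinuousLinearEquiv.refl ℝ (ℝ × ℝ)).symm : (ℝ × ℝ) ≃L[ℝ] (ℝ × ℝ)) :
        (ℝ × ℝ) →L[ℝ] (ℝ × ℝ))‖₊ = 1 := by
      have h : (((ContinuousLinearEquiv.refl ℝ (ℝ × ℝ)).symm : (ℝ × ℝ) ≃L[ℝ] (ℝ × ℝ)) :
        (ℝ × ℝ) →L[ℝ] (ℝ × ℝ)) = ContinuousLinearMap.id ℝ (ℝ × ℝ) := rfl
      rw [h]
      ext
      simp
    rw [this]
    rw [← NNReal.coe_lt_coe]
    norm_num
  let e : (ℝ × ℝ) ≃ₜ (ℝ × ℝ) := (approx_Phi hg).toHomeomorph _ hc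
  have he : ∀ z, e z = Phi v z := fun z => rfl
  have hne : ∀ z, (1 + dp (dp v) z) ≠ 0 := fun z => by
    have := good_pos hg z
    positivity
  have hsm : ContDiff ℝ ∞ (Phi v) :=
    contDiff_fst.prodMk (contDiff_snd.add (cd_dp hg.2.2.1))
  have hsymm : ContDiff ℝ ∞ (e.symm : ℝ × ℝ → ℝ × ℝ) := by
    refine Homeomorph.contDiff_symm e (f₀' := fun z => shear (dx (dp v) z) _ (hne z)) ?_ hsm
    intro z
    exact hasFDerivAt_Phi hg z
  refine ⟨e.symm, hsymm, fun z => ?_, fun q => ?_⟩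
  · rw [← he]; exact e.symm_apply_apply z
  · rw [← he]; exact e.apply_symm_apply q

theorem comp_derivs {t : ℝ} {v : ℝ × ℝ → ℝ} (hg : Good t v) {H : ℝ × ℝ → ℝ}
    (hH : ContDiff ℝ ∞ H) (z : ℝ × ℝ) :
    dp (fun z => H (Phi v z)) z = (1 + dp (dp v) z) * dp H (Phi v z) ∧
    dx (fun z => H (Phi v z)) z = dx H (Phi v z) + dx (dp v) z * dp H (Phi v z) := by
  have h1 := (diff_of_smooth hH (Phi v z)).hasFDerivAt.comp z (hasFDerivAt_Phi hg z)
  have h2 : HasFDerivAt (fun z => H (Phi v z)) _ z := h1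
  constructor
  · simp only [dp]
    rw [h2.fderiv]
    simp [fderiv_eq_dx_dp]
  · simp only [dx]
    rw [h2.fderiv]
    simp [fderiv_eq_dx_dp]

section inverse
variable {t : ℝ} {v : ℝ × ℝ → ℝ} {Psi : ℝ × ℝ → ℝ × ℝ}

theorem derivs_comp_inv (hg : Good t v) (hP : ContDiff ℝ ∞ Psi)
    (h1 : ∀ z, Psi (Phi v z) = z) (h2 : ∀ q, Phi v (Psi q) = q) {h : ℝ × ℝ → ℝ}
    (hh : ContDiff ℝ ∞ h) :
    dp (fun q => h (Psi q)) = (fun q => D2 v h (Psi q)) ∧
    dx (fun q => h (Psi q)) = (fun q => D1 v h (Psi q)) := by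
  have hH : ContDiff ℝ ∞ (fun q => h (Psi q)) := hh.comp hP
  have key : ∀ q, dp h (Psi q) = (1 + dp (dp v) (Psi q)) * dp (fun q => h (Psi q)) q ∧
      dx h (Psi q) = dx (fun q => h (Psi q)) q +
        dx (dp v) (Psi q) * dp (fun q => h (Psi q)) q := by
    intro q
    have h3 := comp_derivs hg hH (Psi q)
    simp only [h1, h2] at h3
    exact h3
  have hne : ∀ z, (1 + dp (dp v) z) ≠ 0 := fun z => by
    have := good_pos hg z
    positivity
  have e1 : ∀ q, dp (fun q => h (Psi q)) q = D2 v h (Psi q) := by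
    intro q
    have h3 := (key q).1
    unfold D2 dd
    rw [h3]
    have := hne (Psi q)
    field_simp
  refine ⟨funext e1, ?_⟩
  funext q
  have h3 := (key q).2
  rw [e1 q] at h3
  unfold D1
  rw [h3]
  unfold D2
  ring

theorem cd_D2_iter (hg : Good t v) {h : ℝ × ℝ → ℝ} (hh : ContDiff ℝ ∞ h) (i : ℕ) :
    ContDiff ℝ ∞ ((D2 v)^[i] h) := by
  induction i generalizing h with
  | zero => simpa using hh
  | succ n ih => rw [Function.iterate_succ_apply]; exact ih (cd_D2 hg hh)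

theorem iter_comp_inv (hg : Good t v) (hP : ContDiff ℝ ∞ Psi)
    (h1 : ∀ z, Psi (Phi v z) = z) (h2 : ∀ q, Phi v (Psi q) = q) (a i : ℕ) {h : ℝ × ℝ → ℝ}
    (hh : ContDiff ℝ ∞ h) :
    dx^[a] (dp^[i] (fun q => h (Psi q))) = fun q => ((D1 v)^[a] ((D2 v)^[i] h)) (Psi q) := by
  have hi : ∀ (i : ℕ) {h : ℝ × ℝ → ℝ}, ContDiff ℝ ∞ h →
      dp^[i] (fun q => h (Psi q)) = fun q => ((D2 v)^[i] h) (Psi q) := by
    intro i
    induction i with
    | zero => intro h _; rfl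
    | succ n ih =>
      intro h hh
      rw [Function.iterate_succ_apply, Function.iterate_succ_apply,
        (derivs_comp_inv hg hP h1 h2 hh).1, ih (cd_D2 hg hh)]
  have ha : ∀ (a : ℕ) {h : ℝ × ℝ → ℝ}, ContDiff ℝ ∞ h →
      dx^[a] (fun q => h (Psi q)) = fun q => ((D1 v)^[a] h) (Psi q) := by
    intro a
    induction a with
    | zero => intro h _; rfl
    | succ n ih =>
      intro h hh
      rw [Function.iterate_succ_apply, Function.iterate_succ_apply,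
        (derivs_comp_inv hg hP h1 h2 hh).2, ih (cd_D1 hg hh)]
  rw [hi i hh, ha a (cd_D2_iter hg hh i)]

end inverse

/-- all admissible pairs (size, function) -/
abbrev Idx := {q : ℝ × (ℝ × ℝ → ℝ) // Good q.1 q.2}

/-- small families of order `n` -/
def Sm (n : ℕ) (f : Idx → ℝ × ℝ → ℝ) : Prop :=
  MB (fun _ : Idx => (1 : ℝ)) (fun _ => univ) (fun t => t.1.1) n n f

/-- bounded families of order `n` -/
def Ob (n : ℕ) (f : Idx → ℝ × ℝ → ℝ) : Prop :=
  MB (fun _ : Idx => (1 : ℝ)) (fun _ => univ) (fun _ => (1 : ℝ)) n n f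

theorem rho_nonneg (t : Idx) : 0 ≤ t.1.1 := t.2.1.le

theorem Sm.ob {n : ℕ} {f : Idx → ℝ × ℝ → ℝ} (h : Sm n f) : Ob n f := by
  refine MB.mono_rho (fun _ => zero_le_one) 1 zero_le_one ?_ h
  intro t
  have := t.2.2.1
  linarith

theorem Sm.dp' {n : ℕ} {f : Idx → ℝ × ℝ → ℝ} (h : Sm (n + 1) f) : Sm n (fun t => dp (f t)) := by
  have h1 := MB.dp' h
  simp only [mul_one] at h1
  exact h1.mono (fun _ => zero_le_one) (Nat.le_succ n) le_rfl

theorem Sm.dx' {n : ℕ} {f : Idx → ℝ × ℝ → ℝ} (h : Sm (n + 1) f) : Sm n (fun t => dx (f t)) := by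
  have h1 := MB.dx' h
  simp only [mul_one] at h1
  exact h1

theorem Sm.mono {n m : ℕ} (hm : m ≤ n) {f : Idx → ℝ × ℝ → ℝ} (h : Sm n f) : Sm m f :=
  MB.mono (fun _ => zero_le_one) hm hm h

theorem Ob.mono {n m : ℕ} (hm : m ≤ n) {f : Idx → ℝ × ℝ → ℝ} (h : Ob n f) : Ob m f :=
  MB.mono (fun _ => zero_le_one) hm hm h

theorem sm_v : Sm 12 (fun t => t.1.2) := by
  refine ⟨fun t => t.2.2.2.1, 1, zero_le_one, ?_⟩
  intro a i _ hai t z _
  have := t.2.2.2.2 a i hai z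
  simpa using this

theorem sm_vp : Sm 11 (fun t => dp t.1.2) := sm_v.dp'

theorem ob_dd : Ob 10 (fun t => dd t.1.2) := by
  have h1 : Ob 10 (fun t => dp (dp t.1.2)) := sm_vp.dp'.ob
  have h2 : Ob 10 (fun (_ : Idx) _ => (1 : ℝ)) := by
    have := MB.const (R := fun _ : Idx => (1 : ℝ)) (D := fun _ => univ) (A := 10) (N := 10)
      (fun _ => zero_le_one) (fun _ => (1 : ℝ))
    simp only [abs_one] at this
    exact this
  have h3 : Ob 10 (fun t z => (1 : ℝ) + dp (dp t.1.2) z) :=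
    MB.add (fun _ => zero_le_one) (fun _ => zero_le_one) h2 h1
  refine MB.inv (fun _ => le_rfl) (fun _ => isOpen_univ) h3 (fun t => cd_dd t.2) ?_ ?_
  · intro t z _
    have := good_pos t.2 z
    unfold dd
    rw [abs_of_pos (by positivity), inv_le_comm₀ (by positivity) (by norm_num)]
    linarith
  · intro t z _
    have := good_pos t.2 z
    unfold dd
    exact mul_inv_cancel₀ (by positivity)

theorem Sm.mul_ob {n : ℕ} {f g : Idx → ℝ × ℝ → ℝ} (hf : Sm n f) (hg : Ob n g) :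
    Sm n (fun t z => f t z * g t z) := by
  have h := MB.mul (fun _ => zero_le_one) rho_nonneg (fun _ => zero_le_one) hf hg
  simp only [mul_one] at h
  exact h

theorem Ob.mul {n : ℕ} {f g : Idx → ℝ × ℝ → ℝ} (hf : Ob n f) (hg : Ob n g) :
    Ob n (fun t z => f t z * g t z) :=
  MB.mul_one (fun _ => zero_le_one) hf hg

theorem Sm.sub {n : ℕ} {f g : Idx → ℝ × ℝ → ℝ} (hf : Sm n f) (hg : Sm n g) :
    Sm n (fun t z => f t z - g t z) :=
  MB.sub (fun _ => zero_le_one) rho_nonneg hf hg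

theorem Sm.const_mul {n : ℕ} {f : Idx → ℝ × ℝ → ℝ} (hf : Sm n f) (c : ℝ) :
    Sm n (fun t z => c * f t z) := by
  have h := MB.const_mul (fun _ => zero_le_one) (fun _ => c) hf
  exact MB.mono_rho (fun _ => zero_le_one) |c| (abs_nonneg c) (fun _ => le_rfl) h

theorem sm_D2 {n : ℕ} (hn : n ≤ 10) {h : Idx → ℝ × ℝ → ℝ} (hh : Sm (n + 1) h) :
    Sm n (fun t => D2 t.1.2 (h t)) :=
  hh.dp'.mul_ob (ob_dd.mono hn)

theorem sm_D1 {n : ℕ} (hn : n ≤ 10) {h : Idx → ℝ × ℝ → ℝ} (hh : Sm (n + 1) h) :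
    Sm n (fun t => D1 t.1.2 (h t)) :=
  hh.dx'.sub (hh.dp'.mul_ob ((sm_vp.dx'.ob.mul ob_dd).mono hn))

/-- the function whose composition with the inverse Legendre map is `w - p²/2` -/
noncomputable def h0 (v : ℝ × ℝ → ℝ) : ℝ × ℝ → ℝ :=
  fun z => (-1) * v z - (1 / 2) * (dp v z * dp v z)

theorem sm_h0 : Sm 10 (fun t => h0 t.1.2) :=
  ((sm_v.mono (by norm_num)).const_mul (-1)).sub
    (((sm_vp.mul_ob sm_vp.ob).mono (by norm_num)).const_mul (1 / 2))

theorem sm_iter2 (i : ℕ) : ∀ n, n + i ≤ 10 → Sm n (fun t => (D2 t.1.2)^[i] (h0 t.1.2)) := by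
  induction i with
  | zero => intro n hn; exact sm_h0.mono (by omega)
  | succ i ih =>
    intro n hn
    have := sm_D2 (n := n) (by omega) (ih (n + 1) (by omega))
    simp only [Function.iterate_succ_apply']
    exact this

theorem sm_iter (a i : ℕ) : ∀ n, n + a + i ≤ 10 →
    Sm n (fun t => (D1 t.1.2)^[a] ((D2 t.1.2)^[i] (h0 t.1.2))) := by
  induction a with
  | zero => intro n hn; exact sm_iter2 i n (by omega)
  | succ a ih =>
    intro n hn
    have := sm_D1 (n := n) (by omega) (ih (n + 1) (by omega))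
    simp only [Function.iterate_succ_apply']
    exact this

theorem exists_const : ∃ C : ℝ, 0 ≤ C ∧ ∀ a i : ℕ, a + i ≤ 10 → ∀ t : Idx, ∀ z,
    |((D1 t.1.2)^[a] ((D2 t.1.2)^[i] (h0 t.1.2))) z| ≤ C * t.1.1 := by
  have h : ∀ a i : ℕ, ∃ C : ℝ, 0 ≤ C ∧ (a + i ≤ 10 → ∀ t : Idx, ∀ z,
      |((D1 t.1.2)^[a] ((D2 t.1.2)^[i] (h0 t.1.2))) z| ≤ C * t.1.1) := by
    intro a i
    by_cases hai : a + i ≤ 10
    · obtain ⟨_, C, hC, hb⟩ := sm_iter a i 0 (by omega)
      refine ⟨C, hC, fun _ t z => ?_⟩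
      have := hb 0 0 le_rfl le_rfl t z (mem_univ _)
      simpa using this
    · exact ⟨0, le_rfl, fun h => absurd h hai⟩
  choose C hC hb using h
  refine ⟨∑ a ∈ Finset.range 11, ∑ i ∈ Finset.range 11, C a i, ?_, ?_⟩
  · exact Finset.sum_nonneg fun a _ => Finset.sum_nonneg fun i _ => hC a i
  · intro a i hai t z
    refine (hb a i hai t z).trans ?_
    refine mul_le_mul_of_nonneg_right ?_ (rho_nonneg t)
    calc C a i ≤ ∑ i ∈ Finset.range 11, C a i :=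
          Finset.single_le_sum (f := fun i => C a i) (fun i _ => hC a i)
            (Finset.mem_range.2 (by omega))
      _ ≤ ∑ a ∈ Finset.range 11, ∑ i ∈ Finset.range 11, C a i :=
          Finset.single_le_sum (f := fun a => ∑ i ∈ Finset.range 11, C a i)
            (fun a _ => Finset.sum_nonneg fun i _ => hC a i) (Finset.mem_range.2 (by omega))

end Leg

open Leg

/-- **Partial Legendre transform** `w(x,p) = p y - u(x,y)`, `p = u_y(x,y)`, of a function which is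
`C^12`-close to `y²/2` on the whole plane.
Proof: `Φ(x,y) = (x, u_y(x,y))` is a global diffeomorphism (`ApproximatesLinearOn.toHomeomorph`,
inverse is smooth), `w := (p y - u) ∘ Φ⁻¹`, `w_p ∘ Φ = y`, `w_x ∘ Φ = - u_x`.  Derivatives of
`h ∘ Φ⁻¹`: `dp (h ∘ Φ⁻¹) = (h_y/u_yy) ∘ Φ⁻¹`, `dx (h ∘ Φ⁻¹) = (h_x - h_y u_xy/u_yy) ∘ Φ⁻¹`; closeness by
the `MB` algebra (`R = 1`, weights `ρ = 1` or `ρ = δ_t`). -/
theorem legendre (δ : ℝ) (hδ : 0 < δ) : ∃ δ' : ℝ, 0 < δ' ∧ δ' ≤ δ ∧ ∀ u : ℝ × ℝ → ℝ,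
    ContDiff ℝ ∞ u →
    (∀ a i : ℕ, a + i ≤ 12 → ∀ z, |dx^[a] (dp^[i] (fun z => u z - z.2 ^ 2 / 2)) z| ≤ δ') →
    ∃ w : ℝ × ℝ → ℝ, ContDiff ℝ ∞ w ∧
    (∀ a i : ℕ, a + i ≤ 10 → ∀ z, |dx^[a] (dp^[i] (fun z => w z - z.2 ^ 2 / 2)) z| ≤ δ) ∧
    (∀ q : ℝ × ℝ, ∃ z : ℝ × ℝ, z.1 = q.1 ∧ dp u z = q.2 ∧ |z.2 - q.2| ≤ δ ∧
      dp w q = z.2 ∧ dx w q = - dx u z ∧ dp (dp w) q * dp (dp u) z = 1 ∧
      dp (dx w) q * dp (dp u) z = - dp (dx u) z ∧
      dx (dx w) q * dp (dp u) z = - dx (dx u) z * dp (dp u) z + dp (dx u) z ^ 2) := by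
  obtain ⟨C, hC, hb⟩ := Leg.exists_const
  refine ⟨min (min δ (1 / 4)) (δ / (1 + C)), by positivity,
    (min_le_left _ _).trans (min_le_left _ _), ?_⟩
  set δ' := min (min δ (1 / 4)) (δ / (1 + C)) with hδ'
  have hpos : 0 < δ' := by positivity
  have hle : δ' ≤ δ := (min_le_left _ _).trans (min_le_left _ _)
  have hle4 : δ' ≤ 1 / 4 := (min_le_left _ _).trans (min_le_right _ _)
  have hleC : C * δ' ≤ δ := by
    have h1 : δ' ≤ δ / (1 + C) := min_le_right _ _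
    rw [le_div_iff₀ (by positivity)] at h1
    nlinarith
  intro u hu hub
  set v : ℝ × ℝ → ℝ := fun z => u z - z.2 ^ 2 / 2 with hv
  have hvs : ContDiff ℝ ∞ v := hu.sub ((contDiff_snd.pow 2).div_const 2)
  have hg : Good δ' v := ⟨hpos, hle4, hvs, hub⟩
  obtain ⟨Psi, hP, h1, h2⟩ := exists_inverse hg
  have huv : u = fun z => v z + z.2 ^ 2 / 2 := by
    funext z
    simp [hv]
  have hsq : ContDiff ℝ ∞ (fun z : ℝ × ℝ => z.2 ^ 2 / 2) := (contDiff_snd.pow 2).div_const 2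
  have hd2 : ∀ z : ℝ × ℝ, DifferentiableAt ℝ (fun z : ℝ × ℝ => z.2) z := fun z =>
    differentiableAt_snd
  have hesq : (fun z : ℝ × ℝ => z.2 ^ 2 / 2) = fun z => (1 / 2) * (z.2 * z.2) := by
    funext z; ring
  have hsqp : dp (fun z : ℝ × ℝ => z.2 ^ 2 / 2) = fun z => z.2 := by
    rw [hesq]
    funext z
    rw [dp_mul (differentiableAt_const _) ((hd2 z).fun_mul (hd2 z)), dp_const,
      dp_mul (hd2 z) (hd2 z), dp_snd]
    ring
  have hsqx : dx (fun z : ℝ × ℝ => z.2 ^ 2 / 2) = fun _ => 0 := by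
    rw [hesq]
    funext z
    rw [dx_mul (differentiableAt_const _) ((hd2 z).fun_mul (hd2 z)), dx_const,
      dx_mul (hd2 z) (hd2 z), dx_snd]
    ring
  have hdpu : dp u = fun z => dp v z + z.2 := by
    rw [huv]
    funext z
    rw [dp_add (diff_of_smooth hvs z) (diff_of_smooth hsq z), hsqp]
  have hdxu : dx u = dx v := by
    rw [huv]
    funext z
    rw [dx_add (diff_of_smooth hvs z) (diff_of_smooth hsq z), hsqx]
    simp
  have hdppu : dp (dp u) = fun z => 1 + dp (dp v) z := by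
    rw [hdpu]
    funext z
    rw [dp_add (diff_of_smooth (cd_dp hvs) z) (diff_of_smooth contDiff_snd z), dp_snd]
    ring
  have hh0 : ContDiff ℝ ∞ (h0 v) :=
    (contDiff_const.mul hvs).sub (contDiff_const.mul ((cd_dp hvs).mul (cd_dp hvs)))
  have hPhi : ∀ q, (Psi q).1 = q.1 ∧ (Psi q).2 + dp v (Psi q) = q.2 := by
    intro q
    have h3 : Phi v (Psi q) = q := h2 q
    have h4 : (Phi v (Psi q)).1 = q.1 := by rw [h3]
    have h5 : (Phi v (Psi q)).2 = q.2 := by rw [h3]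
    exact ⟨h4, h5⟩
  -- the transform
  let w : ℝ × ℝ → ℝ := fun q => h0 v (Psi q) + q.2 ^ 2 / 2
  have hws : ContDiff ℝ ∞ w := (hh0.comp hP).add hsq
  have hne : ∀ z, (1 + dp (dp v) z) ≠ 0 := fun z => by
    have := good_pos hg z
    positivity
  have hdv : ∀ z, DifferentiableAt ℝ v z := fun z => diff_of_smooth hvs z
  have hdvp : ∀ z, DifferentiableAt ℝ (dp v) z := fun z => diff_of_smooth (cd_dp hvs) z
  have hdh0p : dp (h0 v) = fun z => - dp v z * (1 + dp (dp v) z) := by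
    funext z
    unfold h0
    rw [dp_sub ((differentiableAt_const _).fun_mul (hdv z))
      ((differentiableAt_const _).fun_mul ((hdvp z).fun_mul (hdvp z))),
      dp_mul (differentiableAt_const _) (hdv z), dp_const,
      dp_mul (differentiableAt_const _) ((hdvp z).fun_mul (hdvp z)), dp_const,
      dp_mul (hdvp z) (hdvp z)]
    ring
  have hdh0x : dx (h0 v) = fun z => - dx v z - dp v z * dx (dp v) z := by
    funext z
    unfold h0
    rw [dx_sub ((differentiableAt_const _).fun_mul (hdv z))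
      ((differentiableAt_const _).fun_mul ((hdvp z).fun_mul (hdvp z))),
      dx_mul (differentiableAt_const _) (hdv z), dx_const,
      dx_mul (differentiableAt_const _) ((hdvp z).fun_mul (hdvp z)), dx_const,
      dx_mul (hdvp z) (hdvp z)]
    ring
  have hc0 : ∀ q, DifferentiableAt ℝ (fun q => h0 v (Psi q)) q := fun q =>
    diff_of_smooth (hh0.comp hP) q
  have hcp : ∀ q, DifferentiableAt ℝ (fun q => dp v (Psi q)) q := fun q =>
    diff_of_smooth ((cd_dp hvs).comp hP) q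
  have hcx : ∀ q, DifferentiableAt ℝ (fun q => dx v (Psi q)) q := fun q =>
    diff_of_smooth ((cd_dx hvs).comp hP) q
  have hdpw : dp w = fun q => (-1) * dp v (Psi q) + q.2 := by
    funext q
    have e1 := (derivs_comp_inv hg hP h1 h2 hh0).1
    rw [dp_add (hc0 q) (diff_of_smooth hsq q), hsqp, e1]
    unfold D2 dd
    rw [hdh0p]
    have := hne (Psi q)
    simp only
    field_simp
    try ring
  have hdxw : dx w = fun q => (-1) * dx v (Psi q) := by
    funext q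
    have e1 := (derivs_comp_inv hg hP h1 h2 hh0).2
    rw [dx_add (hc0 q) (diff_of_smooth hsq q), hsqx, e1]
    unfold D1 dd
    rw [hdh0p, hdh0x]
    have := hne (Psi q)
    simp only
    field_simp
    try ring
  have e2 := derivs_comp_inv hg hP h1 h2 (cd_dp hvs)
  have e3 := derivs_comp_inv hg hP h1 h2 (cd_dx hvs)
  have hwpp : ∀ q, dp (dp w) q = dd v (Psi q) := by
    intro q
    rw [hdpw]
    rw [dp_add ((differentiableAt_const _).fun_mul (hcp q)) (hd2 q),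
      dp_mul (differentiableAt_const _) (hcp q), dp_const, dp_snd, e2.1]
    unfold D2 dd
    have := hne (Psi q)
    simp only
    field_simp
    try ring
  have hwxp : ∀ q, dp (dx w) q = - (dp (dx v) (Psi q) * dd v (Psi q)) := by
    intro q
    rw [hdxw]
    rw [dp_mul (differentiableAt_const _) (hcx q), dp_const, e3.1]
    unfold D2
    ring
  have hwxx : ∀ q, dx (dx w) q =
      - (dx (dx v) (Psi q) - dp (dx v) (Psi q) * (dx (dp v) (Psi q) * dd v (Psi q))) := by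
    intro q
    rw [hdxw]
    rw [dx_mul (differentiableAt_const _) (hcx q), dx_const, e3.2]
    unfold D1
    ring
  refine ⟨w, hws, ?_, ?_⟩
  · intro a i hai z
    have e : (fun z : ℝ × ℝ => w z - z.2 ^ 2 / 2) = fun q => h0 v (Psi q) := by
      funext q
      simp [w]
    rw [e, iter_comp_inv hg hP h1 h2 a i hh0]
    exact (hb a i hai ⟨(δ', v), hg⟩ (Psi z)).trans hleC
  · intro q
    refine ⟨Psi q, (hPhi q).1, ?_, ?_, ?_, ?_, ?_, ?_, ?_⟩
    · rw [hdpu]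
      have := (hPhi q).2
      simp only
      linarith
    · have h3 := (hPhi q).2
      have h4 : (Psi q).2 - q.2 = - dp v (Psi q) := by linarith
      rw [h4, abs_neg]
      exact (good_p hg _).trans hle
    · rw [hdpw]
      have h3 := (hPhi q).2
      simp only
      linarith
    · rw [hdxw, hdxu]
      simp only
      ring
    · rw [hwpp, hdppu]
      exact inv_mul_cancel₀ (hne _)
    · rw [hwxp, hdppu, hdxu]
      have := hne (Psi q)
      unfold dd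
      simp only
      field_simp
    · rw [hwxx, hdppu, hdxu]
      have := hne (Psi q)
      have hc : dx (dp v) (Psi q) = dp (dx v) (Psi q) := by rw [dx_dp_comm hvs]
      unfold dd
      simp only
      rw [hc]
      field_simp
      try ring

end Crest.Agent.Iso
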