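import Crest.Agent.Iso.Basic

/-!
# Row 220: mixed bounds

`MB R D ρ A N f`: the family `f t` is smooth and all derivatives `∂_x^a ∂_p^i (f t)` with `a ≤ A`,
`a + i ≤ N`, are bounded on `D t` by `C ρ_t R_t^{a+i}`, uniformly in `t`.
-/

set_option autoImplicit false

open scoped ContDiff
open MeasureTheory Set

namespace Crest.Agent.Iso

section
variable {ι : Type*} (R : ι → ℝ) (D : ι → Set (ℝ × ℝ))

def MB (ρ : ι → ℝ) (A N : ℕ) (f : ι → ℝ × ℝ → ℝ) : Prop :=
  (∀ t, ContDiff ℝ ∞ (f t)) ∧ ∃ C : ℝ, 0 ≤ C ∧ ∀ a i : ℕ, a ≤ A → a + i ≤ N → ∀ t, ∀ z ∈ D t,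
    |dx^[a] (dp^[i] (f t)) z| ≤ C * ρ t * R t ^ (a + i)

variable {R D}
variable {ρ ρ' : ι → ℝ} {A A' N N' : ℕ} {f g : ι → ℝ × ℝ → ℝ}

private theorem MB.zeroth (h : MB R D ρ A N f) :
    ∃ C : ℝ, 0 ≤ C ∧ ∀ t, ∀ z ∈ D t, |f t z| ≤ C * ρ t := by
  obtain ⟨_, C, hC, hb⟩ := h
  refine ⟨C, hC, fun t z hz => ?_⟩
  have := hb 0 0 (Nat.zero_le _) (Nat.zero_le _) t z hz
  simpa using this

private theorem MB.of_zero (hs : ∀ t, ContDiff ℝ ∞ (f t))
    (h0 : ∃ C : ℝ, 0 ≤ C ∧ ∀ t, ∀ z ∈ D t, |f t z| ≤ C * ρ t) : MB R D ρ A 0 f := by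
  obtain ⟨C, hC, hb⟩ := h0
  refine ⟨hs, C, hC, fun a i _ hai t z hz => ?_⟩
  obtain ⟨rfl, rfl⟩ : a = 0 ∧ i = 0 := by omega
  simpa using hb t z hz

/-- The recursive characterisation in `N`. -/
private theorem MB.of_succ (hR : ∀ t, 0 ≤ R t) (hρ : ∀ t, 0 ≤ ρ t)
    (hs : ∀ t, ContDiff ℝ ∞ (f t))
    (h0 : ∃ C : ℝ, 0 ≤ C ∧ ∀ t, ∀ z ∈ D t, |f t z| ≤ C * ρ t)
    (h1 : MB R D (fun t => ρ t * R t) A N (fun t => dp (f t)))
    (h2 : ∀ B, A = B + 1 → MB R D (fun t => ρ t * R t) B N (fun t => dx (f t))) :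
    MB R D ρ A (N + 1) f := by
  obtain ⟨C0, hC0, hb0⟩ := h0
  obtain ⟨_, C1, hC1, hb1⟩ := h1
  obtain ⟨C2, hC2, hb2⟩ : ∃ C2 : ℝ, 0 ≤ C2 ∧ ∀ B, A = B + 1 → ∀ a i : ℕ, a ≤ B → a + i ≤ N →
      ∀ t, ∀ z ∈ D t, |dx^[a] (dp^[i] (dx (f t))) z| ≤ C2 * (ρ t * R t) * R t ^ (a + i) := by
    rcases Nat.eq_zero_or_pos A with hA | hA
    · exact ⟨0, le_rfl, fun B hB => by omega⟩
    · obtain ⟨B, rfl⟩ : ∃ B, A = B + 1 := ⟨A - 1, by omega⟩
      obtain ⟨_, C2, hC2, hb2⟩ := h2 B rfl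
      refine ⟨C2, hC2, fun B' hB' => ?_⟩
      obtain rfl : B = B' := by omega
      exact hb2
  refine ⟨hs, C0 + C1 + C2, by positivity, fun a i ha hai t z hz => ?_⟩
  have key : ∀ c : ℝ, 0 ≤ c → c ≤ C0 + C1 + C2 →
      c * ρ t * R t ^ (a + i) ≤ (C0 + C1 + C2) * ρ t * R t ^ (a + i) := fun c _ hcl =>
    mul_le_mul_of_nonneg_right (mul_le_mul_of_nonneg_right hcl (hρ t)) (pow_nonneg (hR t) _)
  rcases Nat.eq_zero_or_pos i with hi | hi
  · subst hi
    rcases Nat.eq_zero_or_pos a with ha0 | ha0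
    · subst ha0
      refine le_trans ?_ (key C0 hC0 (by linarith))
      simpa using hb0 t z hz
    · obtain ⟨b, rfl⟩ : ∃ b, a = b + 1 := ⟨a - 1, by omega⟩
      refine le_trans ?_ (key C2 hC2 (by linarith))
      have := hb2 (A - 1) (by omega) b 0 (by omega) (by omega) t z hz
      simp only [Function.iterate_zero, id_eq, Function.iterate_succ_apply] at this ⊢
      refine this.trans (le_of_eq ?_)
      ring
  · obtain ⟨j, rfl⟩ : ∃ j, i = j + 1 := ⟨i - 1, by omega⟩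
    refine le_trans ?_ (key C1 hC1 (by linarith))
    have := hb1 a j ha (by omega) t z hz
    rw [Function.iterate_succ_apply]
    refine this.trans (le_of_eq ?_)
    ring

theorem MB.mono (hR : ∀ t, 0 ≤ R t) (hA : A' ≤ A) (hN : N' ≤ N) (h : MB R D ρ A N f) :
    MB R D ρ A' N' f := by
  obtain ⟨hs, C, hC, hb⟩ := h
  exact ⟨hs, C, hC, fun a i ha hai t z hz => hb a i (ha.trans hA) (hai.trans hN) t z hz⟩

theorem MB.mono_rho (hR : ∀ t, 0 ≤ R t) (c : ℝ) (hc : 0 ≤ c) (hρ : ∀ t, ρ t ≤ c * ρ' t)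
    (h : MB R D ρ A N f) : MB R D ρ' A N f := by
  obtain ⟨hs, C, hC, hb⟩ := h
  refine ⟨hs, C * c, mul_nonneg hC hc, fun a i ha hai t z hz => (hb a i ha hai t z hz).trans ?_⟩
  refine mul_le_mul_of_nonneg_right ?_ (pow_nonneg (hR t) _)
  rw [mul_assoc]
  exact mul_le_mul_of_nonneg_left (hρ t) hC

theorem MB.mono_dom {D' : ι → Set (ℝ × ℝ)} (hD : ∀ t, D' t ⊆ D t) (h : MB R D ρ A N f) :
    MB R D' ρ A N f := by
  obtain ⟨hs, C, hC, hb⟩ := h
  exact ⟨hs, C, hC, fun a i ha hai t z hz => hb a i ha hai t z (hD t hz)⟩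

theorem MB.add (hR : ∀ t, 0 ≤ R t) (hρ : ∀ t, 0 ≤ ρ t) (hf : MB R D ρ A N f)
    (hg : MB R D ρ A N g) : MB R D ρ A N (fun t z => f t z + g t z) := by
  obtain ⟨hfs, C, hC, hb⟩ := hf
  obtain ⟨hgs, C', hC', hb'⟩ := hg
  refine ⟨fun t => (hfs t).add (hgs t), C + C', add_nonneg hC hC', fun a i ha hai t z hz => ?_⟩
  rw [dp_iter_add (hfs t) (hgs t), dx_iter_add (cd_dp_iter (hfs t) i) (cd_dp_iter (hgs t) i)]
  refine (abs_add_le _ _).trans ?_
  have h1 := hb a i ha hai t z hz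
  have h2 := hb' a i ha hai t z hz
  calc |dx^[a] (dp^[i] (f t)) z| + |dx^[a] (dp^[i] (g t)) z|
      ≤ C * ρ t * R t ^ (a + i) + C' * ρ t * R t ^ (a + i) := add_le_add h1 h2
    _ = (C + C') * ρ t * R t ^ (a + i) := by ring

/-- multiplication by constants `c t`; `ρ` is multiplied by `|c t|` -/
theorem MB.const_mul (hR : ∀ t, 0 ≤ R t) (c : ι → ℝ) (hf : MB R D ρ A N f) :
    MB R D (fun t => |c t| * ρ t) A N (fun t z => c t * f t z) := by
  obtain ⟨hfs, C, hC, hb⟩ := hf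
  refine ⟨fun t => contDiff_const.mul (hfs t), C, hC, fun a i ha hai t z hz => ?_⟩
  rw [dp_iter_const_mul (hfs t), dx_iter_const_mul (cd_dp_iter (hfs t) i)]
  simp only
  rw [abs_mul]
  have h1 := hb a i ha hai t z hz
  calc |c t| * |dx^[a] (dp^[i] (f t)) z| ≤ |c t| * (C * ρ t * R t ^ (a + i)) :=
        mul_le_mul_of_nonneg_left h1 (abs_nonneg _)
    _ = C * (|c t| * ρ t) * R t ^ (a + i) := by ring

theorem MB.sub (hR : ∀ t, 0 ≤ R t) (hρ : ∀ t, 0 ≤ ρ t) (hf : MB R D ρ A N f)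
    (hg : MB R D ρ A N g) : MB R D ρ A N (fun t z => f t z - g t z) := by
  have h1 : MB R D ρ A N (fun t z => (-1 : ℝ) * g t z) := by
    have := MB.const_mul hR (fun _ => (-1 : ℝ)) hg
    refine MB.mono_rho hR 1 zero_le_one (fun t => ?_) this
    simp
  have := MB.add hR hρ hf h1
  have e : (fun t z => f t z + (-1 : ℝ) * g t z) = fun t z => f t z - g t z := by
    funext t z; ring
  rwa [e] at this

theorem MB.dp' (h : MB R D ρ A (N + 1) f) : MB R D (fun t => ρ t * R t) A N (fun t => dp (f t)) := by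
  obtain ⟨hs, C, hC, hb⟩ := h
  refine ⟨fun t => cd_dp (hs t), C, hC, fun a i ha hai t z hz => ?_⟩
  have := hb a (i + 1) ha (by omega) t z hz
  rw [Function.iterate_succ_apply] at this
  refine this.trans (le_of_eq ?_)
  ring

theorem MB.dx' (h : MB R D ρ (A + 1) (N + 1) f) :
    MB R D (fun t => ρ t * R t) A N (fun t => dx (f t)) := by
  obtain ⟨hs, C, hC, hb⟩ := h
  refine ⟨fun t => cd_dx (hs t), C, hC, fun a i ha hai t z hz => ?_⟩
  have := hb (a + 1) i (by omega) (by omega) t z hz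
  rw [Function.iterate_succ_apply, dx_dp_iter (hs t)] at this
  refine this.trans (le_of_eq ?_)
  ring

private theorem zeroth_mul (hρ : ∀ t, 0 ≤ ρ t)
    (hf : ∃ C : ℝ, 0 ≤ C ∧ ∀ t, ∀ z ∈ D t, |f t z| ≤ C * ρ t)
    (hg : ∃ C : ℝ, 0 ≤ C ∧ ∀ t, ∀ z ∈ D t, |g t z| ≤ C * ρ' t) :
    ∃ C : ℝ, 0 ≤ C ∧ ∀ t, ∀ z ∈ D t, |f t z * g t z| ≤ C * (ρ t * ρ' t) := by
  obtain ⟨C, hC, hb⟩ := hf
  obtain ⟨C', hC', hb'⟩ := hg
  refine ⟨C * C', mul_nonneg hC hC', fun t z hz => ?_⟩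
  rw [abs_mul]
  calc |f t z| * |g t z| ≤ (C * ρ t) * (C' * ρ' t) :=
        mul_le_mul (hb t z hz) (hb' t z hz) (abs_nonneg _) (mul_nonneg hC (hρ t))
    _ = C * C' * (ρ t * ρ' t) := by ring

theorem MB.mul (hR : ∀ t, 0 ≤ R t) (hρ : ∀ t, 0 ≤ ρ t) (hρ' : ∀ t, 0 ≤ ρ' t)
    (hf : MB R D ρ A N f) (hg : MB R D ρ' A N g) :
    MB R D (fun t => ρ t * ρ' t) A N (fun t z => f t z * g t z) := by
  induction N generalizing A ρ ρ' f g with
  | zero =>
    exact MB.of_zero (fun t => (hf.1 t).mul (hg.1 t)) (zeroth_mul hρ hf.zeroth hg.zeroth)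
  | succ N ih =>
    refine MB.of_succ hR (fun t => mul_nonneg (hρ t) (hρ' t)) (fun t => (hf.1 t).mul (hg.1 t))
      (zeroth_mul hρ hf.zeroth hg.zeroth) ?_ ?_
    · have h1 := ih (fun t => mul_nonneg (hρ t) (hR t)) hρ' hf.dp' (hg.mono hR le_rfl (Nat.le_succ N))
      have h2 := ih hρ (fun t => mul_nonneg (hρ' t) (hR t)) (hf.mono hR le_rfl (Nat.le_succ N)) hg.dp'
      have e1 : (fun t => ρ t * R t * ρ' t) = fun t => ρ t * ρ' t * R t := by funext t; ring
      have e2 : (fun t => ρ t * (ρ' t * R t)) = fun t => ρ t * ρ' t * R t := by funext t; ring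
      rw [e1] at h1
      rw [e2] at h2
      have h3 := MB.add hR (fun t => mul_nonneg (mul_nonneg (hρ t) (hρ' t)) (hR t)) h1 h2
      have e3 : (fun t => dp (fun z => f t z * g t z)) =
          fun t z => dp (f t) z * g t z + f t z * dp (g t) z := by
        funext t z
        exact dp_mul (diff_of_smooth (hf.1 t) z) (diff_of_smooth (hg.1 t) z)
      rw [e3]
      exact h3
    · rintro B rfl
      have h1 := ih (fun t => mul_nonneg (hρ t) (hR t)) hρ' hf.dx'
        (hg.mono hR (Nat.le_succ B) (Nat.le_succ N))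
      have h2 := ih hρ (fun t => mul_nonneg (hρ' t) (hR t))
        (hf.mono hR (Nat.le_succ B) (Nat.le_succ N)) hg.dx'
      have e1 : (fun t => ρ t * R t * ρ' t) = fun t => ρ t * ρ' t * R t := by funext t; ring
      have e2 : (fun t => ρ t * (ρ' t * R t)) = fun t => ρ t * ρ' t * R t := by funext t; ring
      rw [e1] at h1
      rw [e2] at h2
      have h3 := MB.add hR (fun t => mul_nonneg (mul_nonneg (hρ t) (hρ' t)) (hR t)) h1 h2
      have e3 : (fun t => dx (fun z => f t z * g t z)) =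
          fun t z => dx (f t) z * g t z + f t z * dx (g t) z := by
        funext t z
        exact dx_mul (diff_of_smooth (hf.1 t) z) (diff_of_smooth (hg.1 t) z)
      rw [e3]
      exact h3

/-- product in the case of weights one -/
theorem MB.mul_one (hR : ∀ t, 0 ≤ R t) (hf : MB R D (fun _ => 1) A N f)
    (hg : MB R D (fun _ => 1) A N g) : MB R D (fun _ => 1) A N (fun t z => f t z * g t z) := by
  have := MB.mul hR (fun _ => zero_le_one) (fun _ => zero_le_one) hf hg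
  simpa using this

private theorem MB.zero' (hR : ∀ t, 0 ≤ R t) (hρ : ∀ t, 0 ≤ ρ t) :
    MB R D ρ A N (fun _ _ => (0 : ℝ)) := by
  have hp : ∀ n, dp^[n] (fun _ => (0 : ℝ)) = fun _ => (0 : ℝ) := fun n => by
    induction n with
    | zero => rfl
    | succ n ih => rw [Function.iterate_succ_apply, dp_const, ih]
  have hx : ∀ n, dx^[n] (fun _ => (0 : ℝ)) = fun _ => (0 : ℝ) := fun n => by
    induction n with
    | zero => rfl
    | succ n ih => rw [Function.iterate_succ_apply, dx_const, ih]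
  refine ⟨fun _ => contDiff_const, 0, le_rfl, fun a i _ _ t z _ => ?_⟩
  rw [hp, hx]
  simp

theorem MB.const (hR : ∀ t, 0 ≤ R t) (c : ι → ℝ) : MB R D (fun t => |c t|) A N (fun t _ => c t) := by
  have h0 : ∃ C : ℝ, 0 ≤ C ∧ ∀ t, ∀ z ∈ D t, |(fun t (_ : ℝ × ℝ) => c t) t z| ≤ C * |c t| :=
    ⟨1, zero_le_one, fun t z _ => by simp⟩
  cases N with
  | zero => exact MB.of_zero (fun _ => contDiff_const) h0
  | succ N =>
    refine MB.of_succ hR (fun t => abs_nonneg _) (fun _ => contDiff_const) h0 ?_ ?_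
    · have e : (fun t => dp ((fun t (_ : ℝ × ℝ) => c t) t)) = fun _ _ => (0 : ℝ) := by
        funext t; exact dp_const _
      rw [e]
      exact MB.zero' hR (fun t => mul_nonneg (abs_nonneg _) (hR t))
    · intro B _
      have e : (fun t => dx ((fun t (_ : ℝ × ℝ) => c t) t)) = fun _ _ => (0 : ℝ) := by
        funext t; exact dx_const _
      rw [e]
      exact MB.zero' hR (fun t => mul_nonneg (abs_nonneg _) (hR t))

private theorem MB.one_R (hR : ∀ t, 1 ≤ R t) :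
    MB R D (fun t => 1 * R t) A N (fun _ _ => (1 : ℝ)) := by
  have h := MB.const (R := R) (D := D) (A := A) (N := N) (fun t => zero_le_one.trans (hR t))
    (fun _ => (1 : ℝ))
  refine MB.mono_rho (fun t => zero_le_one.trans (hR t)) 1 zero_le_one (fun t => ?_) h
  simpa using hR t

theorem MB.fst (hR : ∀ t, 1 ≤ R t) (hD : ∀ t, ∀ z ∈ D t, |z.1| ≤ 1) :
    MB R D (fun _ => 1) A N (fun _ z => z.1) := by
  have hR0 : ∀ t, 0 ≤ R t := fun t => zero_le_one.trans (hR t)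
  have h0 : ∃ C : ℝ, 0 ≤ C ∧ ∀ t, ∀ z ∈ D t, |(fun (_ : ι) (z : ℝ × ℝ) => z.1) t z| ≤ C * 1 :=
    ⟨1, zero_le_one, fun t z hz => by simpa using hD t z hz⟩
  cases N with
  | zero => exact MB.of_zero (fun _ => contDiff_fst) h0
  | succ N =>
    refine MB.of_succ hR0 (fun t => zero_le_one) (fun _ => contDiff_fst) h0 ?_ ?_
    · have e : (fun (_ : ι) => dp (fun z : ℝ × ℝ => z.1)) = fun _ _ => (0 : ℝ) := by
        funext t; exact dp_fst
      rw [e]
      exact MB.zero' hR0 (fun t => mul_nonneg zero_le_one (hR0 t))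
    · intro B _
      have e : (fun (_ : ι) => dx (fun z : ℝ × ℝ => z.1)) = fun _ _ => (1 : ℝ) := by
        funext t; exact dx_fst
      rw [e]
      exact MB.one_R hR

theorem MB.snd (hR : ∀ t, 1 ≤ R t) (hD : ∀ t, ∀ z ∈ D t, |z.2| ≤ 1) :
    MB R D (fun _ => 1) A N (fun _ z => z.2) := by
  have hR0 : ∀ t, 0 ≤ R t := fun t => zero_le_one.trans (hR t)
  have h0 : ∃ C : ℝ, 0 ≤ C ∧ ∀ t, ∀ z ∈ D t, |(fun (_ : ι) (z : ℝ × ℝ) => z.2) t z| ≤ C * 1 :=
    ⟨1, zero_le_one, fun t z hz => by simpa using hD t z hz⟩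
  cases N with
  | zero => exact MB.of_zero (fun _ => contDiff_snd) h0
  | succ N =>
    refine MB.of_succ hR0 (fun t => zero_le_one) (fun _ => contDiff_snd) h0 ?_ ?_
    · have e : (fun (_ : ι) => dp (fun z : ℝ × ℝ => z.2)) = fun _ _ => (1 : ℝ) := by
        funext t; exact dp_snd
      rw [e]
      exact MB.one_R hR
    · intro B _
      have e : (fun (_ : ι) => dx (fun z : ℝ × ℝ => z.2)) = fun _ _ => (0 : ℝ) := by
        funext t; exact dx_snd
      rw [e]
      exact MB.zero' hR0 (fun t => mul_nonneg zero_le_one (hR0 t))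

theorem MB.pow (hR : ∀ t, 0 ≤ R t) (hf : MB R D (fun _ => 1) A N f) (n : ℕ) :
    MB R D (fun _ => 1) A N (fun t z => f t z ^ n) := by
  induction n with
  | zero =>
    have := MB.const (R := R) (D := D) (A := A) (N := N) hR (fun _ => (1 : ℝ))
    simpa using this
  | succ n ih =>
    have := MB.mul_one hR ih hf
    simpa [pow_succ] using this

/-- functions that agree on the open sets `D t` -/
theorem MB.congr (hD : ∀ t, IsOpen (D t)) (hf : MB R D ρ A N f) (hg : ∀ t, ContDiff ℝ ∞ (g t))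
    (h : ∀ t, EqOn (f t) (g t) (D t)) : MB R D ρ A N g := by
  obtain ⟨hs, C, hC, hb⟩ := hf
  refine ⟨hg, C, hC, fun a i ha hai t z hz => ?_⟩
  rw [← dx_iter_congr (hD t) (dp_iter_congr (hD t) (h t) i) a hz]
  exact hb a i ha hai t z hz

/-- inverse: if `a d = 1` on `D t` (open) and `d` is bounded then `d` is `MB` with weight one.
Proof: induction on the order, `∂^{(a,i)} (f d) = 0` solved for `∂^{(a,i)} d`; or first prove it for
words: `dx d = - d² dx f`, `dp d = - d² dp f` on `D t`. -/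
theorem MB.inv (hR : ∀ t, 1 ≤ R t) (hD : ∀ t, IsOpen (D t)) (hf : MB R D (fun _ => 1) A N f)
    (hg : ∀ t, ContDiff ℝ ∞ (g t)) (hb : ∀ t, ∀ z ∈ D t, |g t z| ≤ 2)
    (hfg : ∀ t, ∀ z ∈ D t, f t z * g t z = 1) : MB R D (fun _ => 1) A N g := by
  have hR0 : ∀ t, 0 ≤ R t := fun t => zero_le_one.trans (hR t)
  have h0 : ∃ C : ℝ, 0 ≤ C ∧ ∀ t, ∀ z ∈ D t, |g t z| ≤ C * 1 :=
    ⟨2, by norm_num, fun t z hz => by simpa using hb t z hz⟩
  induction N generalizing A with
  | zero => exact MB.of_zero hg h0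
  | succ N ih =>
    refine MB.of_succ hR0 (fun t => zero_le_one) hg h0 ?_ ?_
    · have hgN : MB R D (fun _ => 1) A N g := ih (hf.mono hR0 le_rfl (Nat.le_succ N))
      have h2 := MB.mul hR0 (fun _ => zero_le_one) (fun t => mul_nonneg zero_le_one (hR0 t))
        (MB.mul_one hR0 hgN hgN) hf.dp'
      have h3 := MB.const_mul hR0 (fun _ => (-1 : ℝ)) h2
      have h4 : MB R D (fun t => 1 * R t) A N
          (fun t z => (-1 : ℝ) * (g t z * g t z * dp (f t) z)) := by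
        refine MB.mono_rho hR0 1 zero_le_one (fun t => ?_) h3
        simp
      refine MB.congr hD h4 (fun t => cd_dp (hg t)) (fun t z hz => ?_)
      have e1 : EqOn (fun z => f t z * g t z) (fun _ => (1 : ℝ)) (D t) := fun z hz => hfg t z hz
      have e2 := dp_congr (hD t) e1 hz
      rw [dp_const, dp_mul (diff_of_smooth (hf.1 t) z) (diff_of_smooth (hg t) z)] at e2
      have e3 := hfg t z hz
      have : dp (g t) z = (f t z * g t z) * dp (g t) z := by rw [e3, _root_.one_mul]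
      rw [this]
      linear_combination (-(g t z)) * e2
    · rintro B rfl
      have hgN : MB R D (fun _ => 1) B N g := ih (hf.mono hR0 (Nat.le_succ B) (Nat.le_succ N))
      have h2 := MB.mul hR0 (fun _ => zero_le_one) (fun t => mul_nonneg zero_le_one (hR0 t))
        (MB.mul_one hR0 hgN hgN) hf.dx'
      have h3 := MB.const_mul hR0 (fun _ => (-1 : ℝ)) h2
      have h4 : MB R D (fun t => 1 * R t) B N
          (fun t z => (-1 : ℝ) * (g t z * g t z * dx (f t) z)) := by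
        refine MB.mono_rho hR0 1 zero_le_one (fun t => ?_) h3
        simp
      refine MB.congr hD h4 (fun t => cd_dx (hg t)) (fun t z hz => ?_)
      have e1 : EqOn (fun z => f t z * g t z) (fun _ => (1 : ℝ)) (D t) := fun z hz => hfg t z hz
      have e2 := dx_congr (hD t) e1 hz
      rw [dx_const, dx_mul (diff_of_smooth (hf.1 t) z) (diff_of_smooth (hg t) z)] at e2
      have e3 := hfg t z hz
      have : dx (g t) z = (f t z * g t z) * dx (g t) z := by rw [e3, _root_.one_mul]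
      rw [this]
      linear_combination (-(g t z)) * e2

end

end Crest.Agent.Iso
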