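import Crest.Agent.Iso.Bump

/-!
# Row 220: the main term of the pairing (two integrations by parts in `p`)
-/

set_option autoImplicit false

open scoped ContDiff
open MeasureTheory Set

namespace Crest.Agent.Iso

namespace MainTerm

/-! ### the derivatives of `w - p²/2` -/

theorem dp_pert {w : ℝ × ℝ → ℝ} (hw : ContDiff ℝ ∞ w) :
    dp (fun z => w z - z.2 ^ 2 / 2) = fun z => dp w z - z.2 := by
  funext z
  refine dp_eq_of_hasDerivAt ?_ ?_
  · have := diff_of_smooth hw z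
    fun_prop
  · have h := (hasDerivAt_slice_p (diff_of_smooth hw z)).sub
      (((hasDerivAt_id z.2).pow 2).div_const 2)
    refine h.congr_deriv ?_
    simp

theorem dpdp_pert {w : ℝ × ℝ → ℝ} (hw : ContDiff ℝ ∞ w) :
    dp (dp (fun z => w z - z.2 ^ 2 / 2)) = fun z => dp (dp w) z - 1 := by
  rw [dp_pert hw]
  funext z
  rw [dp_sub (diff_of_smooth (cd_dp hw) z) differentiableAt_snd, dp_snd]

theorem dpdpdp_pert {w : ℝ × ℝ → ℝ} (hw : ContDiff ℝ ∞ w) :
    dp (dp (dp (fun z => w z - z.2 ^ 2 / 2))) = fun z => dp (dp (dp w)) z := by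
  rw [dpdp_pert hw]
  funext z
  rw [dp_sub (diff_of_smooth (cd_dp (cd_dp hw)) z) (differentiableAt_const _), dp_const]
  simp

theorem dxdp_pert {w : ℝ × ℝ → ℝ} (hw : ContDiff ℝ ∞ w) :
    dx (dp (fun z => w z - z.2 ^ 2 / 2)) = fun z => dx (dp w) z := by
  rw [dp_pert hw]
  funext z
  rw [dx_sub (diff_of_smooth (cd_dp hw) z) differentiableAt_snd, dx_snd]
  simp

/-- `|w_p - p| ≤ δ (|x| + |p|)` -/
theorem wp_near {w : ℝ × ℝ → ℝ} (hw : ContDiff ℝ ∞ w) {δ : ℝ} (h0 : dp w 0 = 0)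
    (h1 : ∀ z : ℝ × ℝ, z.1 ^ 2 + z.2 ^ 2 < 0.81 → |dx (dp w) z| ≤ δ)
    (h2 : ∀ z : ℝ × ℝ, z.1 ^ 2 + z.2 ^ 2 < 0.81 → |dp (dp w) z - 1| ≤ δ)
    {z : ℝ × ℝ} (hz : z.1 ^ 2 + z.2 ^ 2 < 0.81) : |dp w z - z.2| ≤ δ * (|z.1| + |z.2|) := by
  have hd : ∀ t : ℝ, HasDerivAt (fun t : ℝ => dp w (t • z) - t * z.2)
      (z.1 * dx (dp w) (t • z) + z.2 * (dp (dp w) (t • z) - 1)) t := by
    intro t
    have e1 : HasFDerivAt (dp w) (fderiv ℝ (dp w) (t • z)) (t • z) :=
      (diff_of_smooth (cd_dp hw) _).hasFDerivAt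
    have e2 : HasDerivAt (fun t : ℝ => t • z) z t := by
      simpa using (hasDerivAt_id t).smul_const z
    have e3 := e1.comp_hasDerivAt t e2
    rw [fderiv_eq_dx_dp] at e3
    have e4 := e3.sub ((hasDerivAt_id t).mul_const z.2)
    refine e4.congr_deriv ?_
    ring
  have hb : ∀ t ∈ Ico (0 : ℝ) 1, ‖z.1 * dx (dp w) (t • z) + z.2 * (dp (dp w) (t • z) - 1)‖
      ≤ δ * (|z.1| + |z.2|) := by
    intro t ht
    have hm : (t • z).1 ^ 2 + (t • z).2 ^ 2 < 0.81 := by
      have e : (t • z).1 ^ 2 + (t • z).2 ^ 2 = t ^ 2 * (z.1 ^ 2 + z.2 ^ 2) := by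
        simp only [Prod.smul_fst, Prod.smul_snd, smul_eq_mul]; ring
      rw [e]
      have ht2 : t ^ 2 ≤ 1 := by nlinarith [ht.1, ht.2]
      have := mul_le_mul_of_nonneg_right ht2 (by positivity : (0 : ℝ) ≤ z.1 ^ 2 + z.2 ^ 2)
      linarith
    have b1 := h1 _ hm
    have b2 := h2 _ hm
    rw [Real.norm_eq_abs]
    calc |z.1 * dx (dp w) (t • z) + z.2 * (dp (dp w) (t • z) - 1)|
        ≤ |z.1 * dx (dp w) (t • z)| + |z.2 * (dp (dp w) (t • z) - 1)| := abs_add_le _ _
      _ = |z.1| * |dx (dp w) (t • z)| + |z.2| * |dp (dp w) (t • z) - 1| := by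
          rw [abs_mul, abs_mul]
      _ ≤ |z.1| * δ + |z.2| * δ :=
          add_le_add (mul_le_mul_of_nonneg_left b1 (abs_nonneg _))
            (mul_le_mul_of_nonneg_left b2 (abs_nonneg _))
      _ = δ * (|z.1| + |z.2|) := by ring
  have := norm_image_sub_le_of_norm_deriv_le_segment_01'
    (fun t _ => (hd t).hasDerivWithinAt) hb
  simp only [one_smul, one_mul, zero_smul, zero_mul, h0, sub_zero, Real.norm_eq_abs] at this
  exact this

/-! ### the slice identity -/

/-- derivative of a function of `(x/b, w_p(x,t)/b)` -/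
theorem hasDerivAt_comp_slice {f w : ℝ × ℝ → ℝ} (hf : ContDiff ℝ ∞ f) (hw : ContDiff ℝ ∞ w)
    (b x p : ℝ) :
    HasDerivAt (fun t => f (x / b, dp w (x, t) / b))
      (dp f (x / b, dp w (x, p) / b) * (dp (dp w) (x, p) / b)) p := by
  have e1 : HasFDerivAt f (fderiv ℝ f (x / b, dp w (x, p) / b)) (x / b, dp w (x, p) / b) :=
    (diff_of_smooth hf _).hasFDerivAt
  have e0 : HasDerivAt (fun t => dp w (x, t)) (dp (dp w) (x, p)) p :=
    hasDerivAt_slice_p (z := (x, p)) (diff_of_smooth (cd_dp hw) _)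
  have e2 : HasDerivAt (fun t => (x / b, dp w (x, t) / b)) ((0 : ℝ), dp (dp w) (x, p) / b) p :=
    (hasDerivAt_const _ _).prodMk (e0.div_const b)
  have e3 := e1.comp_hasDerivAt p e2
  rw [fderiv_eq_dx_dp] at e3
  refine e3.congr_deriv ?_
  simp; ring

theorem slice_ibp {w : ℝ × ℝ → ℝ} (hw : ContDiff ℝ ∞ w) {b x μ : ℝ} (hb : 0 < b)
    (hpp : ∀ p ∈ Icc (-b) b, dp (dp w) (x, p) ≠ 0)
    (h1 : b / 2 < |dp w (x, b)|) (h2 : b / 2 < |dp w (x, -b)|) :
    ∫ p in (-b)..b, dp (dp P1) (x / b, dp w (x, p) / b) * dp (dp w) (x, p) * (p + μ * x) ^ 2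
      = b ^ 2 * ∫ p in (-b)..b, P1 (x / b, dp w (x, p) / b) *
        (2 / dp (dp w) (x, p) - 2 * (p + μ * x) * dp (dp (dp w)) (x, p) / dp (dp w) (x, p) ^ 2) := by
  have hbb : -b ≤ b := by linarith
  have cP := contDiff_P1
  have cP' := cd_dp cP
  have cP'' := cd_dp cP'
  have cw1 := cd_dp hw
  have cw2 := cd_dp cw1
  have cw3 := cd_dp cw2
  have kP := cP.continuous
  have kP' := cP'.continuous
  have kP'' := cP''.continuous
  have kw1 := cw1.continuous
  have kw2 := cw2.continuous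
  have kw3 := cw3.continuous
  have hsl : Continuous fun p : ℝ => (x, p) := by fun_prop
  have c1 : Continuous fun p => dp w (x, p) := kw1.comp hsl
  have c2 : Continuous fun p => dp (dp w) (x, p) := kw2.comp hsl
  have c3 : Continuous fun p => dp (dp (dp w)) (x, p) := kw3.comp hsl
  have hpt : Continuous fun p => (x / b, dp w (x, p) / b) :=
    continuous_const.prodMk (c1.div_const b)
  have d0 : Continuous fun p => P1 (x / b, dp w (x, p) / b) := kP.comp hpt
  have d1 : Continuous fun p => dp P1 (x / b, dp w (x, p) / b) := kP'.comp hpt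
  have d2 : Continuous fun p => dp (dp P1) (x / b, dp w (x, p) / b) := kP''.comp hpt
  -- the primitive
  set V : ℝ → ℝ := fun p => b * (dp P1 (x / b, dp w (x, p) / b) * (p + μ * x) ^ 2)
    - b ^ 2 * (P1 (x / b, dp w (x, p) / b) * (2 * (p + μ * x) / dp (dp w) (x, p))) with hV
  have hVd : ∀ p ∈ Icc (-b) b, HasDerivAt V
      (dp (dp P1) (x / b, dp w (x, p) / b) * dp (dp w) (x, p) * (p + μ * x) ^ 2
        - b ^ 2 * (P1 (x / b, dp w (x, p) / b) *
        (2 / dp (dp w) (x, p) - 2 * (p + μ * x) * dp (dp (dp w)) (x, p)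
          / dp (dp w) (x, p) ^ 2))) p := by
    intro p hp
    have hne := hpp p hp
    have e1 := hasDerivAt_comp_slice cP' hw b x p
    have e2 := hasDerivAt_comp_slice cP hw b x p
    have e3 : HasDerivAt (fun p => p + μ * x) 1 p := (hasDerivAt_id p).add_const _
    have e4 : HasDerivAt (fun t => dp (dp w) (x, t)) (dp (dp (dp w)) (x, p)) p :=
      hasDerivAt_slice_p (z := (x, p)) (diff_of_smooth cw2 _)
    have e5 := ((e1.mul (e3.pow 2)).const_mul b).sub
      ((e2.mul ((e3.const_mul 2).div e4 hne)).const_mul (b ^ 2))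
    refine e5.congr_deriv ?_
    simp only [Pi.pow_apply, Pi.div_apply]
    field_simp
    push_cast
    ring
  have hz : ∀ y : ℝ, b / 2 < |y| → 1 / 2 < |y / b| := by
    intro y hy
    rw [abs_div, abs_of_pos hb, lt_div_iff₀ hb]
    linarith
  have hVb : V b = 0 := by
    have a1 : P1 (x / b, dp w (x, b) / b) = 0 := P1_eq_zero (Or.inr (hz _ h1).le)
    have a2 : dp P1 (x / b, dp w (x, b) / b) = 0 := by
      have := P1_deriv_zero (z := (x / b, dp w (x, b) / b)) (Or.inr (hz _ h1)) 0 1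
      simpa using this
    simp only [hV, a1, a2]
    ring
  have hVb' : V (-b) = 0 := by
    have a1 : P1 (x / b, dp w (x, -b) / b) = 0 := P1_eq_zero (Or.inr (hz _ h2).le)
    have a2 : dp P1 (x / b, dp w (x, -b) / b) = 0 := by
      have := P1_deriv_zero (z := (x / b, dp w (x, -b) / b)) (Or.inr (hz _ h2)) 0 1
      simpa using this
    simp only [hV, a1, a2]
    ring
  have i1 : IntervalIntegrable (fun p => dp (dp P1) (x / b, dp w (x, p) / b) * dp (dp w) (x, p)
      * (p + μ * x) ^ 2) volume (-b) b := by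
    apply Continuous.intervalIntegrable
    fun_prop
  have i2 : IntervalIntegrable (fun p => P1 (x / b, dp w (x, p) / b) *
        (2 / dp (dp w) (x, p) - 2 * (p + μ * x) * dp (dp (dp w)) (x, p)
          / dp (dp w) (x, p) ^ 2)) volume (-b) b := by
    apply ContinuousOn.intervalIntegrable
    rw [uIcc_of_le hbb]
    refine d0.continuousOn.mul (ContinuousOn.sub ?_ ?_)
    · exact continuousOn_const.div c2.continuousOn hpp
    · refine ContinuousOn.div ?_ (c2.pow 2).continuousOn (fun p hp => pow_ne_zero 2 (hpp p hp))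
      exact Continuous.continuousOn (by fun_prop)
  have key := intervalIntegral.integral_eq_sub_of_hasDerivAt (f := V) (a := -b) (b := b)
    (f' := fun p => dp (dp P1) (x / b, dp w (x, p) / b) * dp (dp w) (x, p) * (p + μ * x) ^ 2
        - b ^ 2 * (P1 (x / b, dp w (x, p) / b) *
        (2 / dp (dp w) (x, p) - 2 * (p + μ * x) * dp (dp (dp w)) (x, p)
          / dp (dp w) (x, p) ^ 2)))
    (fun p hp => hVd p (by rwa [uIcc_of_le hbb] at hp)) (i1.sub (i2.const_mul _))
  rw [hVb, hVb', intervalIntegral.integral_sub i1 (i2.const_mul _),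
    intervalIntegral.integral_const_mul] at key
  linarith

/-- the data of a bumped solution near the origin -/
theorem slice_lower {w : ℝ × ℝ → ℝ} (hw : ContDiff ℝ ∞ w) {δ b x μ : ℝ} (hb : 0 < b)
    (hb1 : b ≤ 1 / 100) (hδ : δ ≤ 1 / 10) (hμ0 : 0 ≤ μ) (hμ : μ ≤ 1)
    (h1 : ∀ z : ℝ × ℝ, z.1 ^ 2 + z.2 ^ 2 < 0.81 → |dp w z - z.2| ≤ δ * (|z.1| + |z.2|))
    (h2 : ∀ z : ℝ × ℝ, z.1 ^ 2 + z.2 ^ 2 < 0.81 → |dp (dp w) z - 1| ≤ δ)
    (h3 : ∀ z : ℝ × ℝ, z.1 ^ 2 + z.2 ^ 2 < 0.81 → |dp (dp (dp w)) z| ≤ δ)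
    (hx : |x| ≤ b) :
    (0 ≤ ∫ p in (-b)..b, dp (dp P1) (x / b, dp w (x, p) / b) * dp (dp w) (x, p)
      * (p + μ * x) ^ 2) ∧
    (|x| ≤ b / 4 → b ^ 3 / 4 ≤ ∫ p in (-b)..b, dp (dp P1) (x / b, dp w (x, p) / b)
      * dp (dp w) (x, p) * (p + μ * x) ^ 2) := by
  have hbb : -b ≤ b := by linarith
  have hdom : ∀ p : ℝ, |p| ≤ b → x ^ 2 + p ^ 2 < 0.81 := by
    intro p hp
    have a1 : x ^ 2 ≤ b ^ 2 := by rw [← sq_abs x]; exact pow_le_pow_left₀ (abs_nonneg _) hx 2
    have a2 : p ^ 2 ≤ b ^ 2 := by rw [← sq_abs p]; exact pow_le_pow_left₀ (abs_nonneg _) hp 2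
    have a3 : b ^ 2 ≤ (1 / 100) ^ 2 := pow_le_pow_left₀ hb.le hb1 2
    norm_num at a3 ⊢
    linarith
  have hpp : ∀ p ∈ Icc (-b) b, 9 / 10 ≤ dp (dp w) (x, p) ∧ dp (dp w) (x, p) ≤ 11 / 10 := by
    intro p hp
    have := abs_le.1 (h2 (x, p) (hdom p (abs_le.2 hp)))
    constructor <;> linarith [this.1, this.2]
  have hend1 : b / 2 < |dp w (x, b)| := by
    have := abs_le.1 (h1 (x, b) (hdom b (by rw [abs_of_pos hb])))
    simp only [abs_of_pos hb] at this
    have h4 : δ * (|x| + b) ≤ 1 / 10 * (b + b) := by gcongr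
    have h5 : 8 / 10 * b ≤ dp w (x, b) := by linarith [this.1]
    rw [abs_of_pos (by linarith)]
    linarith
  have hend2 : b / 2 < |dp w (x, -b)| := by
    have := abs_le.1 (h1 (x, -b) (hdom (-b) (by rw [abs_neg, abs_of_pos hb])))
    simp only [abs_neg, abs_of_pos hb] at this
    have h4 : δ * (|x| + b) ≤ 1 / 10 * (b + b) := by gcongr
    have h5 : dp w (x, -b) ≤ -(8 / 10 * b) := by linarith [this.2]
    rw [abs_of_neg (by linarith)]
    linarith
  rw [slice_ibp hw hb (fun p hp => by linarith [(hpp p hp).1]) hend1 hend2]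
  -- lower bound for the derivative of `ζ_p / w_pp`
  have hg : ∀ p ∈ Icc (-b) b, 1 ≤ 2 / dp (dp w) (x, p)
      - 2 * (p + μ * x) * dp (dp (dp w)) (x, p) / dp (dp w) (x, p) ^ 2 := by
    intro p hp
    obtain ⟨a1, a2⟩ := hpp p hp
    have a3 := h3 (x, p) (hdom p (abs_le.2 hp))
    have hpos : 0 < dp (dp w) (x, p) := by linarith
    have a4 : |2 * (p + μ * x) * dp (dp (dp w)) (x, p)| ≤ 1 / 10 := by
      rw [abs_mul, abs_mul, abs_two]
      have a5 : |p + μ * x| ≤ 2 * b := by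
        calc |p + μ * x| ≤ |p| + |μ * x| := abs_add_le _ _
          _ = |p| + μ * |x| := by rw [abs_mul, abs_of_nonneg hμ0]
          _ ≤ b + 1 * b := by
              have := abs_le.2 hp
              gcongr
          _ = 2 * b := by ring
      calc 2 * |p + μ * x| * |dp (dp (dp w)) (x, p)| ≤ 2 * (2 * (1 / 100)) * (1 / 10) := by
            have : |dp (dp (dp w)) (x, p)| ≤ 1 / 10 := a3.trans hδ
            have a6 : |p + μ * x| ≤ 2 * (1 / 100) := a5.trans (by linarith)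
            gcongr
        _ ≤ 1 / 10 := by norm_num
    have a7 : 2 / dp (dp w) (x, p) - 2 * (p + μ * x) * dp (dp (dp w)) (x, p)
        / dp (dp w) (x, p) ^ 2
        = (2 * dp (dp w) (x, p) - 2 * (p + μ * x) * dp (dp (dp w)) (x, p))
          / dp (dp w) (x, p) ^ 2 := by
      field_simp
    rw [a7, le_div_iff₀ (by positivity)]
    have a8 := (abs_le.1 a4).2
    nlinarith
  have hP : ∀ p ∈ Icc (-b) b, 0 ≤ P1 (x / b, dp w (x, p) / b) *
        (2 / dp (dp w) (x, p) - 2 * (p + μ * x) * dp (dp (dp w)) (x, p)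
          / dp (dp w) (x, p) ^ 2) := by
    intro p hp
    exact mul_nonneg (P1_nonneg _) (by linarith [hg p hp])
  constructor
  · refine mul_nonneg (by positivity) ?_
    exact intervalIntegral.integral_nonneg hbb hP
  · intro hx4
    -- continuity
    have cP := contDiff_P1
    have cw1 := cd_dp hw
    have cw2 := cd_dp cw1
    have cw3 := cd_dp cw2
    have kP := cP.continuous
    have kw1 := cw1.continuous
    have kw2 := cw2.continuous
    have kw3 := cw3.continuous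
    have hsl : Continuous fun p : ℝ => (x, p) := by fun_prop
    have c1 : Continuous fun p => dp w (x, p) := kw1.comp hsl
    have c2 : Continuous fun p => dp (dp w) (x, p) := kw2.comp hsl
    have c3 : Continuous fun p => dp (dp (dp w)) (x, p) := kw3.comp hsl
    have hpt : Continuous fun p => (x / b, dp w (x, p) / b) :=
      continuous_const.prodMk (c1.div_const b)
    have d0 : Continuous fun p => P1 (x / b, dp w (x, p) / b) := kP.comp hpt
    have hcont : ContinuousOn (fun p => P1 (x / b, dp w (x, p) / b) *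
        (2 / dp (dp w) (x, p) - 2 * (p + μ * x) * dp (dp (dp w)) (x, p)
          / dp (dp w) (x, p) ^ 2)) (Icc (-b) b) := by
      have hne : ∀ p ∈ Icc (-b) b, dp (dp w) (x, p) ≠ 0 := fun p hp => by
        linarith [(hpp p hp).1]
      refine d0.continuousOn.mul (ContinuousOn.sub ?_ ?_)
      · exact continuousOn_const.div c2.continuousOn hne
      · refine ContinuousOn.div ?_ (c2.pow 2).continuousOn (fun p hp => pow_ne_zero 2 (hne p hp))
        exact Continuous.continuousOn (by fun_prop)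
    have hint : IntervalIntegrable (fun p => P1 (x / b, dp w (x, p) / b) *
        (2 / dp (dp w) (x, p) - 2 * (p + μ * x) * dp (dp (dp w)) (x, p)
          / dp (dp w) (x, p) ^ 2)) volume (-b) b := by
      apply ContinuousOn.intervalIntegrable
      rwa [uIcc_of_le hbb]
    have hsub : Icc (-(b / 8)) (b / 8) ⊆ Icc (-b) b := Icc_subset_Icc (by linarith) (by linarith)
    have hint' : IntervalIntegrable (fun p => P1 (x / b, dp w (x, p) / b) *
        (2 / dp (dp w) (x, p) - 2 * (p + μ * x) * dp (dp (dp w)) (x, p)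
          / dp (dp w) (x, p) ^ 2)) volume (-(b / 8)) (b / 8) := by
      apply ContinuousOn.intervalIntegrable
      rw [uIcc_of_le (by linarith)]
      exact hcont.mono hsub
    have m1 : ∫ p in (-(b / 8))..(b / 8), P1 (x / b, dp w (x, p) / b) *
        (2 / dp (dp w) (x, p) - 2 * (p + μ * x) * dp (dp (dp w)) (x, p)
          / dp (dp w) (x, p) ^ 2) ≤ ∫ p in (-b)..b, P1 (x / b, dp w (x, p) / b) *
        (2 / dp (dp w) (x, p) - 2 * (p + μ * x) * dp (dp (dp w)) (x, p)
          / dp (dp w) (x, p) ^ 2) := by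
      refine intervalIntegral.integral_mono_interval (by linarith) (by linarith) (by linarith)
        ?_ hint
      refine (ae_restrict_iff' measurableSet_Ioc).2 (Filter.Eventually.of_forall fun p hp => ?_)
      exact hP p ⟨hp.1.le, hp.2⟩
    have m2 : ∫ _p in (-(b / 8))..(b / 8), (1 : ℝ) ≤
        ∫ p in (-(b / 8))..(b / 8), P1 (x / b, dp w (x, p) / b) *
        (2 / dp (dp w) (x, p) - 2 * (p + μ * x) * dp (dp (dp w)) (x, p)
          / dp (dp w) (x, p) ^ 2) := by
      refine intervalIntegral.integral_mono_on (by linarith) (by simp) hint' (fun p hp => ?_)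
      have hp' := hsub hp
      have hpabs : |p| ≤ b / 8 := abs_le.2 hp
      have e1 : |dp w (x, p)| ≤ b / 4 := by
        have a1 := h1 (x, p) (hdom p (by linarith))
        simp only at a1
        have a2 : δ * (|x| + |p|) ≤ 1 / 10 * (b / 4 + b / 8) := by gcongr
        have a3 : |dp w (x, p)| ≤ |dp w (x, p) - p| + |p| := by
          have := abs_add_le (dp w (x, p) - p) p
          simpa using this
        linarith
      have e2 : P1 (x / b, dp w (x, p) / b) = 1 := by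
        apply P1_eq_one
        · simp only [abs_div, abs_of_pos hb]
          rw [div_le_iff₀ hb]; linarith
        · simp only [abs_div, abs_of_pos hb]
          rw [div_le_iff₀ hb]; linarith
      rw [e2, one_mul]
      exact hg p hp'
    have m3 : ∫ _p in (-(b / 8))..(b / 8), (1 : ℝ) = b / 4 := by
      rw [intervalIntegral.integral_const, smul_eq_mul]; ring
    have m4 : b / 4 ≤ ∫ p in (-b)..b, P1 (x / b, dp w (x, p) / b) *
        (2 / dp (dp w) (x, p) - 2 * (p + μ * x) * dp (dp (dp w)) (x, p)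
          / dp (dp w) (x, p) ^ 2) := by
      rw [← m3]; exact m2.trans m1
    calc b ^ 3 / 4 = b ^ 2 * (b / 4) := by ring
      _ ≤ _ := mul_le_mul_of_nonneg_left m4 (by positivity)

theorem continuous_opE {δ : ℝ} (S : Sol δ) :
    Continuous fun z => opE S.ϖ (E0 S.ϖ S.ε) S.w z := by
  have h : (fun z => opE S.ϖ (E0 S.ϖ S.ε) S.w z) = fun z =>
      dx (dx S.w) z + G1 S.ϖ S.ε S.w z * dp (dx S.w) z + G2 S.ϖ S.ε S.w z * dp (dp S.w) z
      + G3 S.ϖ S.ε S.w z := by
    funext z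
    apply opE_E0 S.ϖ_pos
    have := sol_one_sub S z
    show (1 - 2 * S.ϖ * S.ε * P0 z.1 (dp S.w z)) ≠ 0
    linarith
  rw [h]
  have k1 := (cd_dx (cd_dx S.smooth)).continuous
  have k2 := (cd_dp (cd_dx S.smooth)).continuous
  have k3 := (cd_dp (cd_dp S.smooth)).continuous
  have k4 := (cd_dx S.smooth).continuous
  have k5 := (cd_dp S.smooth).continuous
  have k6 := (sol_dd_smooth S).continuous
  unfold G1 G2 G3 Py kk Px
  fun_prop

end MainTerm

open MainTerm in
/-- the main term of the pairing -/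
theorem main_term : ∃ δ₀ : ℝ, 0 < δ₀ ∧ ∃ ε₀ : ℝ, 0 < ε₀ ∧ ∀ (n : ℕ) (δ : ℝ), δ ≤ δ₀ →
    ∀ S : BSol n δ, S.ε ≤ ε₀ → ∀ μ : ℝ, 0 ≤ μ → μ ≤ 1 →
    ∫ z in Ioo (-S.b) S.b ×ˢ Ioo (-(2 * S.b)) (2 * S.b),
      opE S.ϖ (E0 S.ϖ S.ε) S.w z * (z.2 + μ * z.1) ^ 2 ≤ - (S.κ * S.b ^ 4 / 32) := by
  obtain ⟨δs, hδs, εs, hεs, C, hC, hsrc⟩ := source
  refine ⟨min δs (1 / 10), lt_min hδs (by norm_num), min εs (1 / (2 * C)),
    lt_min hεs (by positivity), fun n δ hδ S hSε μ hμ0 hμ => ?_⟩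
  have hδ1 : δ ≤ 1 / 10 := hδ.trans (min_le_right _ _)
  obtain ⟨hs⟩ : Nonempty (∀ z : ℝ × ℝ, z.1 ^ 2 + z.2 ^ 2 < 0.81 →
      ((S.b / 2 < |z.1| ∨ S.b < |z.2|) → opE S.ϖ (E0 S.ϖ S.ε) S.w z = 0) ∧
      ((|z.1| ≤ S.b ∧ |z.2| ≤ S.b) → |opE S.ϖ (E0 S.ϖ S.ε) S.w z
        + S.κ * dp (dp P1) (z.1 / S.b, dp S.w z / S.b) * dp (dp S.w) z| ≤ C * S.κ * S.b ^ 2)) :=
    ⟨hsrc n δ (hδ.trans (min_le_left _ _)) S (hSε.trans (min_le_left _ _))⟩
  have hεC : S.ε ≤ 1 / (2 * C) := hSε.trans (min_le_right _ _)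
  have hε := S.ε_pos
  have hε1 := S.ε_le
  have hw := S.smooth
  have hb : 0 < S.b := lt_of_lt_of_le (pow_pos hε 4) S.b_ge
  have hbε : S.b ≤ S.ε := by
    refine S.b_le.trans ?_
    calc S.ε ^ 3 = S.ε * (S.ε * S.ε) := by ring
      _ ≤ S.ε * 1 := by
          apply mul_le_mul_of_nonneg_left _ hε.le
          nlinarith
      _ = S.ε := mul_one _
  have hb1 : S.b ≤ 1 / 100 := hbε.trans hε1
  have hκ : 0 < S.κ := lt_of_lt_of_le (pow_pos hε _) S.κ_ge
  have hCb : C * S.b ^ 2 ≤ 1 / 200 := by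
    have a1 : C * S.ε ≤ 1 / 2 := by
      calc C * S.ε ≤ C * (1 / (2 * C)) := mul_le_mul_of_nonneg_left hεC hC.le
        _ = 1 / 2 := by field_simp
    calc C * S.b ^ 2 = C * (S.b * S.b) := by ring
      _ ≤ C * (S.ε * (1 / 100)) := by gcongr
      _ = (C * S.ε) * (1 / 100) := by ring
      _ ≤ 1 / 2 * (1 / 100) := by gcongr
      _ = 1 / 200 := by norm_num
  -- closeness
  have g2 : ∀ z : ℝ × ℝ, z.1 ^ 2 + z.2 ^ 2 < 0.81 → |dp (dp S.w) z - 1| ≤ δ := by
    intro z hz
    have := S.close 0 2 (by norm_num) z hz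
    simp only [Function.iterate_zero, id_eq, Function.iterate_succ, Function.comp_apply] at this
    rw [dpdp_pert hw] at this
    exact this
  have g3 : ∀ z : ℝ × ℝ, z.1 ^ 2 + z.2 ^ 2 < 0.81 → |dp (dp (dp S.w)) z| ≤ δ := by
    intro z hz
    have := S.close 0 3 (by norm_num) z hz
    simp only [Function.iterate_zero, id_eq, Function.iterate_succ, Function.comp_apply] at this
    rw [dpdpdp_pert hw] at this
    exact this
  have g4 : ∀ z : ℝ × ℝ, z.1 ^ 2 + z.2 ^ 2 < 0.81 → |dx (dp S.w) z| ≤ δ := by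
    intro z hz
    have := S.close 1 1 (by norm_num) z hz
    simp only [Function.iterate_zero, id_eq, Function.iterate_succ, Function.comp_apply] at this
    rw [dxdp_pert hw] at this
    exact this
  have g1 : ∀ z : ℝ × ℝ, z.1 ^ 2 + z.2 ^ 2 < 0.81 →
      |dp S.w z - z.2| ≤ δ * (|z.1| + |z.2|) :=
    fun z hz => wp_near hw S.crit.2 g4 g2 hz
  -- the domain
  have hdom : ∀ x p : ℝ, |x| ≤ S.b → |p| ≤ 2 * S.b → x ^ 2 + p ^ 2 < 0.81 := by
    intro x p hx hp
    have a1 : x ^ 2 ≤ S.b ^ 2 := by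
      rw [← sq_abs x]; exact pow_le_pow_left₀ (abs_nonneg _) hx 2
    have a2 : p ^ 2 ≤ (2 * S.b) ^ 2 := by
      rw [← sq_abs p]; exact pow_le_pow_left₀ (abs_nonneg _) hp 2
    have a3 : S.b ^ 2 ≤ (1 / 100) ^ 2 := pow_le_pow_left₀ hb.le hb1 2
    norm_num at a3 ⊢
    nlinarith
  have cF := continuous_opE S.toSol
  -- integrability
  have cG : Continuous fun z : ℝ × ℝ =>
      opE S.ϖ (E0 S.ϖ S.ε) S.w z * (z.2 + μ * z.1) ^ 2 := by fun_prop
  have hint : IntegrableOn (fun z : ℝ × ℝ =>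
      opE S.ϖ (E0 S.ϖ S.ε) S.w z * (z.2 + μ * z.1) ^ 2)
      (Ioo (-S.b) S.b ×ˢ Ioo (-(2 * S.b)) (2 * S.b)) (volume.prod volume) := by
    refine (cG.continuousOn.integrableOn_compact
      (isCompact_Icc.prod isCompact_Icc : IsCompact (Icc (-S.b) S.b ×ˢ
        Icc (-(2 * S.b)) (2 * S.b)))).mono_set ?_
    exact prod_mono Ioo_subset_Icc_self Ioo_subset_Icc_self
  have hIint : IntegrableOn (fun x => ∫ p in Ioo (-(2 * S.b)) (2 * S.b),
      opE S.ϖ (E0 S.ϖ S.ε) S.w (x, p) * (p + μ * x) ^ 2) (Ioo (-S.b) S.b) := by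
    have := hint
    rw [IntegrableOn, ← Measure.prod_restrict] at this
    exact this.integral_prod_left
  rw [Measure.volume_eq_prod, setIntegral_prod _ hint]
  -- the slice estimate
  set J : ℝ → ℝ := fun x => 8 * (C * S.κ * S.b ^ 5)
    - (Icc (-(S.b / 4)) (S.b / 4)).indicator (fun _ => S.κ * (S.b ^ 3 / 4)) x with hJ
  have hslice : ∀ x ∈ Ioo (-S.b) S.b, (∫ p in Ioo (-(2 * S.b)) (2 * S.b),
      opE S.ϖ (E0 S.ϖ S.ε) S.w (x, p) * (p + μ * x) ^ 2) ≤ J x := by
    intro x hx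
    have hxb : |x| ≤ S.b := abs_le.2 ⟨hx.1.le, hx.2.le⟩
    have hsub : Icc (-S.b) S.b ⊆ Ioo (-(2 * S.b)) (2 * S.b) :=
      fun p hp => ⟨by linarith [hp.1], by linarith [hp.2]⟩
    rw [setIntegral_eq_of_subset_of_forall_sdiff_eq_zero measurableSet_Ioo hsub (fun p hp => by
      have hp1 : S.b < |p| := by
        by_contra hcon
        exact hp.2 (abs_le.1 (not_lt.1 hcon))
      have hp2 : |p| ≤ 2 * S.b := abs_le.2 ⟨hp.1.1.le, hp.1.2.le⟩
      rw [(hs (x, p) (hdom x p hxb hp2)).1 (Or.inr hp1), zero_mul]),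
      integral_Icc_eq_integral_Ioc, ← intervalIntegral.integral_of_le (by linarith)]
    -- continuity on the slice
    have cP'' := (cd_dp (cd_dp contDiff_P1)).continuous
    have kw1 := (cd_dp hw).continuous
    have kw2 := (cd_dp (cd_dp hw)).continuous
    have hsl : Continuous fun p : ℝ => (x, p) := by fun_prop
    have c1 : Continuous fun p => dp S.w (x, p) := kw1.comp hsl
    have c2 : Continuous fun p => dp (dp S.w) (x, p) := kw2.comp hsl
    have hpt : Continuous fun p => (x / S.b, dp S.w (x, p) / S.b) :=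
      continuous_const.prodMk (c1.div_const S.b)
    have d2 : Continuous fun p => dp (dp P1) (x / S.b, dp S.w (x, p) / S.b) := cP''.comp hpt
    have cF' : Continuous fun p => opE S.ϖ (E0 S.ϖ S.ε) S.w (x, p) := cF.comp hsl
    have i1 : IntervalIntegrable (fun p => (opE S.ϖ (E0 S.ϖ S.ε) S.w (x, p)
      + S.κ * dp (dp P1) (x / S.b, dp S.w (x, p) / S.b) * dp (dp S.w) (x, p))
        * (p + μ * x) ^ 2) volume (-S.b) S.b := by
      apply Continuous.intervalIntegrable
      fun_prop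
    have i2 : IntervalIntegrable (fun p => S.κ * (dp (dp P1) (x / S.b, dp S.w (x, p) / S.b)
        * dp (dp S.w) (x, p) * (p + μ * x) ^ 2)) volume (-S.b) S.b := by
      apply Continuous.intervalIntegrable
      fun_prop
    have e1 : ∫ p in (-S.b)..S.b, opE S.ϖ (E0 S.ϖ S.ε) S.w (x, p) * (p + μ * x) ^ 2
        = (∫ p in (-S.b)..S.b, (opE S.ϖ (E0 S.ϖ S.ε) S.w (x, p)
      + S.κ * dp (dp P1) (x / S.b, dp S.w (x, p) / S.b) * dp (dp S.w) (x, p))
        * (p + μ * x) ^ 2) - S.κ * ∫ p in (-S.b)..S.b,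
          dp (dp P1) (x / S.b, dp S.w (x, p) / S.b) * dp (dp S.w) (x, p) * (p + μ * x) ^ 2 := by
      rw [← intervalIntegral.integral_const_mul, ← intervalIntegral.integral_sub i1 i2]
      congr 1
      funext p
      ring
    have e2 : |∫ p in (-S.b)..S.b, (opE S.ϖ (E0 S.ϖ S.ε) S.w (x, p)
      + S.κ * dp (dp P1) (x / S.b, dp S.w (x, p) / S.b) * dp (dp S.w) (x, p))
        * (p + μ * x) ^ 2| ≤ 8 * (C * S.κ * S.b ^ 5) := by
      have := intervalIntegral.norm_integral_le_of_norm_le_const (a := -S.b) (b := S.b)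
        (f := fun p => (opE S.ϖ (E0 S.ϖ S.ε) S.w (x, p)
          + S.κ * dp (dp P1) (x / S.b, dp S.w (x, p) / S.b) * dp (dp S.w) (x, p))
          * (p + μ * x) ^ 2) (C := C * S.κ * S.b ^ 2 * (4 * S.b ^ 2)) (fun p hp => by
            rw [uIoc_of_le (by linarith)] at hp
            have hpb : |p| ≤ S.b := abs_le.2 ⟨hp.1.le, hp.2⟩
            have a1 := (hs (x, p) (hdom x p hxb (by linarith))).2 ⟨hxb, hpb⟩
            have a2 : |p + μ * x| ≤ 2 * S.b := by
              calc |p + μ * x| ≤ |p| + |μ * x| := abs_add_le _ _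
                _ = |p| + μ * |x| := by rw [abs_mul, abs_of_nonneg hμ0]
                _ ≤ S.b + 1 * S.b := by gcongr
                _ = 2 * S.b := by ring
            have a3 : (p + μ * x) ^ 2 ≤ 4 * S.b ^ 2 := by
              rw [← sq_abs]
              calc |p + μ * x| ^ 2 ≤ (2 * S.b) ^ 2 := pow_le_pow_left₀ (abs_nonneg _) a2 2
                _ = 4 * S.b ^ 2 := by ring
            rw [Real.norm_eq_abs, abs_mul, abs_of_nonneg (sq_nonneg (p + μ * x))]
            exact mul_le_mul a1 a3 (sq_nonneg _) (by positivity))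
      rw [Real.norm_eq_abs] at this
      refine this.trans (le_of_eq ?_)
      rw [show S.b - -S.b = 2 * S.b by ring, abs_of_pos (by positivity)]
      ring
    have e3 := slice_lower hw hb hb1 hδ1 hμ0 hμ g1 g2 g3 hxb
    rw [e1, hJ]
    simp only
    have e4 := (abs_le.1 e2).2
    by_cases hx4 : x ∈ Icc (-(S.b / 4)) (S.b / 4)
    · rw [indicator_of_mem hx4]
      have := mul_le_mul_of_nonneg_left (e3.2 (abs_le.2 hx4)) hκ.le
      linarith
    · rw [indicator_of_notMem hx4]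
      have := mul_nonneg hκ.le e3.1
      linarith
  have hJ1 : Integrable (fun _ : ℝ => 8 * (C * S.κ * S.b ^ 5))
      (volume.restrict (Ioo (-S.b) S.b)) := integrableOn_const (by simp)
  have hJ0 : Integrable (fun _ : ℝ => S.κ * (S.b ^ 3 / 4))
      (volume.restrict (Ioo (-S.b) S.b)) := integrableOn_const (by simp)
  have hJ2 : Integrable (fun x : ℝ => (Icc (-(S.b / 4)) (S.b / 4)).indicator
      (fun _ => S.κ * (S.b ^ 3 / 4)) x) (volume.restrict (Ioo (-S.b) S.b)) :=
    hJ0.indicator measurableSet_Icc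
  have hJint : IntegrableOn J (Ioo (-S.b) S.b) := hJ1.sub hJ2
  refine (setIntegral_mono_on hIint hJint measurableSet_Ioo hslice).trans ?_
  have hJval : ∫ x in Ioo (-S.b) S.b, J x
      = 16 * (C * S.κ * S.b ^ 6) - S.κ * S.b ^ 4 / 8 := by
    rw [hJ, integral_sub hJ1 hJ2, setIntegral_indicator measurableSet_Icc]
    have hinter : Ioo (-S.b) S.b ∩ Icc (-(S.b / 4)) (S.b / 4) = Icc (-(S.b / 4)) (S.b / 4) := by
      apply inter_eq_right.2
      intro y hy
      exact ⟨by linarith [hy.1], by linarith [hy.2]⟩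
    rw [hinter, setIntegral_const, setIntegral_const, Real.volume_real_Ioo_of_le (by linarith),
      Real.volume_real_Icc_of_le (by linarith)]
    simp only [smul_eq_mul]
    ring
  rw [hJval]
  have : 16 * (C * S.κ * S.b ^ 6) ≤ 16 * (S.κ * S.b ^ 4 * (1 / 200)) := by
    have e : C * S.κ * S.b ^ 6 = S.κ * S.b ^ 4 * (C * S.b ^ 2) := by ring
    rw [e]
    gcongr
  have hpos : 0 < S.κ * S.b ^ 4 := by positivity
  linarith

end Crest.Agent.Iso
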