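import Crest.Agent.Iso.Art
import Crest.Agent.Iso.MB

/-!
# Row 220: mixed derivative bounds from ART
-/

set_option autoImplicit false

open scoped ContDiff
open MeasureTheory Set

namespace Crest.Agent.Iso

section aux
variable {ι : Type*} {R : ι → ℝ} {D : ι → Set (ℝ × ℝ)} {A N : ℕ} {f g : ι → ℝ × ℝ → ℝ}

theorem mx_cmul (hR : ∀ t, 0 ≤ R t) {c : ι → ℝ} {M : ℝ} (hM : 0 ≤ M) (hc : ∀ t, |c t| ≤ M)
    (hf : MB R D (fun _ => 1) A N f) : MB R D (fun _ => 1) A N (fun t z => c t * f t z) :=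
  (hf.const_mul hR c).mono_rho hR M hM (fun t => by simpa using hc t)

theorem mx_const (hR : ∀ t, 0 ≤ R t) {c : ι → ℝ} {M : ℝ} (hM : 0 ≤ M) (hc : ∀ t, |c t| ≤ M) :
    MB R D (fun _ => 1) A N (fun t _ => c t) :=
  (MB.const hR c).mono_rho hR M hM (fun t => by simpa using hc t)

theorem mx_add (hR : ∀ t, 0 ≤ R t) (hf : MB R D (fun _ => 1) A N f)
    (hg : MB R D (fun _ => 1) A N g) : MB R D (fun _ => 1) A N (fun t z => f t z + g t z) :=
  MB.add hR (fun _ => zero_le_one) hf hg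

theorem mx_sub (hR : ∀ t, 0 ≤ R t) (hf : MB R D (fun _ => 1) A N f)
    (hg : MB R D (fun _ => 1) A N g) : MB R D (fun _ => 1) A N (fun t z => f t z - g t z) :=
  MB.sub hR (fun _ => zero_le_one) hf hg

end aux

/-- The coefficients are in `MB 1 A N` -/
theorem mx_coef {δ ε₁ : ℝ} {A N : ℕ}
    (hw : MB (fun S : SolI δ ε₁ => S.1.R) (fun S => DD S.1.ε S.1.b 1) (fun _ => 1) A N
      (fun S => dp S.1.w))
    (hv : MB (fun S : SolI δ ε₁ => S.1.R) (fun S => DD S.1.ε S.1.b 1) (fun _ => 1) A N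
      (fun S => dx S.1.w)) :
    MB (fun S : SolI δ ε₁ => S.1.R) (fun S => DD S.1.ε S.1.b 1) (fun _ => 1) A N
      (fun S => G1 S.1.ϖ S.1.ε S.1.w) ∧
    MB (fun S : SolI δ ε₁ => S.1.R) (fun S => DD S.1.ε S.1.b 1) (fun _ => 1) A N
      (fun S => G2 S.1.ϖ S.1.ε S.1.w) ∧
    MB (fun S : SolI δ ε₁ => S.1.R) (fun S => DD S.1.ε S.1.b 1) (fun _ => 1) A N
      (fun S => G3 S.1.ϖ S.1.ε S.1.w) := by
  have hR1 : ∀ S : SolI δ ε₁, 1 ≤ S.1.R := fun S => S.1.one_le_R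
  have hR : ∀ S : SolI δ ε₁, 0 ≤ S.1.R := fun S => zero_le_one.trans (hR1 S)
  have hDo : ∀ S : SolI δ ε₁, IsOpen (DD S.1.ε S.1.b 1) := fun S => isOpen_DD _ _ _
  have hdisc : ∀ (S : SolI δ ε₁), ∀ z ∈ DD S.1.ε S.1.b 1, z.1 ^ 2 + z.2 ^ 2 < 0.81 :=
    fun S z hz => art_DD_disc zero_le_one le_rfl hz
  have hD1 : ∀ (S : SolI δ ε₁), ∀ z ∈ DD S.1.ε S.1.b 1, |z.1| ≤ 1 := fun S z hz => by
    have := hdisc S z hz
    rw [abs_le]; constructor <;> nlinarith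
  have hD2 : ∀ (S : SolI δ ε₁), ∀ z ∈ DD S.1.ε S.1.b 1, |z.2| ≤ 1 := fun S z hz => by
    have := hdisc S z hz
    rw [abs_le]; constructor <;> nlinarith
  have bx := MB.fst (A := A) (N := N) hR1 hD1
  have bp := MB.snd (A := A) (N := N) hR1 hD2
  have hϖ : ∀ S : SolI δ ε₁, |S.1.ϖ| ≤ 1 := fun S => by
    rw [abs_of_pos S.1.ϖ_pos]; exact S.1.ϖ_le_one
  have hε : ∀ S : SolI δ ε₁, |S.1.ε| ≤ 1 := fun S => by
    rw [abs_of_pos S.1.ε_pos]; exact S.1.ε_le.trans (by norm_num)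
  have hϖε : ∀ S : SolI δ ε₁, |S.1.ϖ * S.1.ε| ≤ 1 := fun S => by
    rw [abs_mul]; exact mul_le_one₀ (hϖ S) (abs_nonneg _) (hε S)
  have h2 : ∀ S : SolI δ ε₁, |2 * S.1.ϖ * S.1.ε| ≤ 2 := fun S => by
    rw [mul_assoc, abs_mul, abs_two]; linarith [hϖε S]
  -- polynomials
  have x2 : MB (fun S : SolI δ ε₁ => S.1.R) (fun S => DD S.1.ε S.1.b 1) (fun _ => 1) A N
      (fun _ z => z.1 ^ 2 - 1 / 4) :=
    mx_sub hR (bx.pow hR 2) (mx_const hR (M := 1 / 4) (by norm_num) (fun _ => by norm_num))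
  have w2 := hw.pow hR 2
  have w3 := hw.pow hR 3
  have w4 := hw.pow hR 4
  have bP0 : MB (fun S : SolI δ ε₁ => S.1.R) (fun S => DD S.1.ε S.1.b 1) (fun _ => 1) A N
      (fun S z => P0 z.1 (dp S.1.w z)) := by
    have h1 := mx_cmul hR (c := fun _ => 1 / 2) (M := 1) zero_le_one (fun _ => by norm_num [abs_of_pos]) (x2.mul_one hR w2)
    have h2 := mx_cmul hR (c := fun _ => 1 / 12) (M := 1) zero_le_one (fun _ => by norm_num [abs_of_pos]) w4
    have h3 := mx_add hR h1 h2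
    have e : (fun (S : SolI δ ε₁) z => P0 z.1 (dp S.1.w z)) = fun (S : SolI δ ε₁) z =>
        1 / 2 * ((z.1 ^ 2 - 1 / 4) * dp S.1.w z ^ 2) + 1 / 12 * dp S.1.w z ^ 4 := by
      funext S z; unfold P0; ring
    rw [e]; exact h3
  have bPx : MB (fun S : SolI δ ε₁ => S.1.R) (fun S => DD S.1.ε S.1.b 1) (fun _ => 1) A N
      (fun S z => Px z.1 (dp S.1.w z)) := bx.mul_one hR w2
  have bPy : MB (fun S : SolI δ ε₁ => S.1.R) (fun S => DD S.1.ε S.1.b 1) (fun _ => 1) A N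
      (fun S z => Py z.1 (dp S.1.w z)) := by
    have h2 := mx_cmul hR (c := fun _ => 1 / 3) (M := 1) zero_le_one (fun _ => by norm_num [abs_of_pos]) w3
    have h3 := mx_add hR (x2.mul_one hR hw) h2
    have e : (fun (S : SolI δ ε₁) z => Py z.1 (dp S.1.w z)) = fun (S : SolI δ ε₁) z =>
        (z.1 ^ 2 - 1 / 4) * dp S.1.w z + 1 / 3 * dp S.1.w z ^ 3 := by
      funext S z; unfold Py; ring
    rw [e]; exact h3
  have bkk : MB (fun S : SolI δ ε₁ => S.1.R) (fun S => DD S.1.ε S.1.b 1) (fun _ => 1) A N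
      (fun S z => kk z.1 (dp S.1.w z)) := by
    have h3 := mx_add hR x2 w2
    have e : (fun (S : SolI δ ε₁) z => kk z.1 (dp S.1.w z)) = fun (S : SolI δ ε₁) z =>
        (z.1 ^ 2 - 1 / 4) + dp S.1.w z ^ 2 := by
      funext S z; unfold kk; ring
    rw [e]; exact h3
  -- the inverse
  have ba : MB (fun S : SolI δ ε₁ => S.1.R) (fun S => DD S.1.ε S.1.b 1) (fun _ => 1) A N
      (fun S z => 1 - 2 * S.1.ϖ * S.1.ε * P0 z.1 (dp S.1.w z)) :=
    mx_sub hR (mx_const hR (M := 1) zero_le_one (fun _ => by norm_num))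
      (mx_cmul hR (c := fun S : SolI δ ε₁ => 2 * S.1.ϖ * S.1.ε) (M := 2) (by norm_num) h2 bP0)
  have bd : MB (fun S : SolI δ ε₁ => S.1.R) (fun S => DD S.1.ε S.1.b 1) (fun _ => 1) A N
      (fun S => dd S.1.ϖ S.1.ε S.1.w) := by
    refine MB.inv hR1 hDo ba (fun S => sol_dd_smooth S.1) ?_ ?_
    · intro S z _
      have := sol_dd_bound S.1 z
      rw [abs_of_pos this.1]; exact this.2.1
    · intro S z _
      exact (sol_dd_bound S.1 z).2.2
  -- the coefficients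
  have bq : MB (fun S : SolI δ ε₁ => S.1.R) (fun S => DD S.1.ε S.1.b 1) (fun _ => 1) A N
      (fun S z => 1 - S.1.ϖ * z.2 ^ 2) :=
    mx_sub hR (mx_const hR (M := 1) zero_le_one (fun _ => by norm_num))
      (mx_cmul hR (c := fun S : SolI δ ε₁ => S.1.ϖ) (M := 1) zero_le_one hϖ (bp.pow hR 2))
  refine ⟨?_, ?_, ?_⟩
  · exact mx_cmul hR (c := fun S : SolI δ ε₁ => 2 * S.1.ϖ * S.1.ε) (M := 2) (by norm_num) h2
      ((bPy.mul_one hR hv).mul_one hR bd)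
  · have t1 := bkk.mul_one hR bq
    have t2 := mx_cmul hR (c := fun S : SolI δ ε₁ => S.1.ε) (M := 1) zero_le_one hε
      ((bPy.pow hR 2).mul_one hR bq)
    have t3 := bkk.mul_one hR (hv.pow hR 2)
    have t4 := (mx_sub hR t2 t3).mul_one hR bd
    have t5 := mx_add hR t1
      (mx_cmul hR (c := fun S : SolI δ ε₁ => S.1.ϖ) (M := 1) zero_le_one hϖ t4)
    have t6 := mx_cmul hR (c := fun S : SolI δ ε₁ => S.1.ε) (M := 1) zero_le_one hε t5
    have e : (fun (S : SolI δ ε₁) => G2 S.1.ϖ S.1.ε S.1.w) = fun (S : SolI δ ε₁) z =>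
        S.1.ε * (kk z.1 (dp S.1.w z) * (1 - S.1.ϖ * z.2 ^ 2) + S.1.ϖ *
          ((S.1.ε * (Py z.1 (dp S.1.w z) ^ 2 * (1 - S.1.ϖ * z.2 ^ 2))
            - kk z.1 (dp S.1.w z) * dx S.1.w z ^ 2) * dd S.1.ϖ S.1.ε S.1.w z)) := by
      funext S z; unfold G2; ring
    rw [e]; exact t6
  · have t1 := (bPx.mul_one hR hv).mul_one hR bd
    have t2 := bPy.mul_one hR bp
    exact mx_cmul hR (c := fun S : SolI δ ε₁ => S.1.ϖ * S.1.ε) (M := 1) zero_le_one hϖε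
      (mx_add hR t1 t2)

theorem mx_dx_iter_congr {f g : ℝ × ℝ → ℝ} {U : Set (ℝ × ℝ)} (hU : IsOpen U) (h : EqOn f g U)
    (a i : ℕ) : EqOn (dx^[a] (dp^[i] f)) (dx^[a] (dp^[i] g)) U :=
  dx_iter_congr hU (dp_iter_congr hU h i) a

/-- `w_xx` -/
theorem mx_xx {δ ε₁ : ℝ} {A N : ℕ}
    (hw : MB (fun S : SolI δ ε₁ => S.1.R) (fun S => DD S.1.ε S.1.b 1) (fun _ => 1) A (N + 1)
      (fun S => dp S.1.w))
    (hv : MB (fun S : SolI δ ε₁ => S.1.R) (fun S => DD S.1.ε S.1.b 1) (fun _ => 1) A (N + 1)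
      (fun S => dx S.1.w)) :
    MB (fun S : SolI δ ε₁ => S.1.R) (fun S => DD S.1.ε S.1.b 1) (fun S => S.1.R) A N
      (fun S => dx (dx S.1.w)) := by
  have hR1 : ∀ S : SolI δ ε₁, 1 ≤ S.1.R := fun S => S.1.one_le_R
  have hR : ∀ S : SolI δ ε₁, 0 ≤ S.1.R := fun S => zero_le_one.trans (hR1 S)
  have hDo : ∀ S : SolI δ ε₁, IsOpen (DD S.1.ε S.1.b 1) := fun S => isOpen_DD _ _ _
  obtain ⟨c1, c2, c3⟩ := mx_coef (hw.mono hR le_rfl (Nat.le_succ N)) (hv.mono hR le_rfl (Nat.le_succ N))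
  have m1 := hv.dp'
  have m2 := hw.dp'
  have h1 := MB.mul hR (fun _ => zero_le_one) (fun S => by simpa using hR S) c1 m1
  have h2 := MB.mul hR (fun _ => zero_le_one) (fun S => by simpa using hR S) c2 m2
  have h1' := h1.mono_rho (ρ' := fun S => S.1.R) hR 1 zero_le_one (fun S => by simp)
  have h2' := h2.mono_rho (ρ' := fun S => S.1.R) hR 1 zero_le_one (fun S => by simp)
  have h3' := c3.mono_rho (ρ' := fun S => S.1.R) hR 1 zero_le_one
    (fun S => by simpa using hR1 S)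
  have h4 := MB.add hR hR (MB.add hR hR h1' h2') h3'
  have h5 := h4.const_mul hR (fun _ => -1)
  have h6 := h5.mono_rho (ρ' := fun S => S.1.R) hR 1 zero_le_one (fun S => by simp)
  refine MB.congr hDo h6 (fun S => cd_dx (cd_dx S.1.smooth)) ?_
  intro S z hz
  have := art_pde S.1 zero_le_one le_rfl hz
  simp only
  linarith

/-- The mixed derivatives: induction on `A`.  `A = 0` is `art` (`eS (i+1) ≤ i`).  Step:
`∂_x^{a+1} ∂_p^i w_p = ∂_x^a ∂_p^{i+1} w_x`, and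
`∂_x^{a+1} ∂_p^i w_x = ∂_x^a ∂_p^i w_xx = - ∂_x^a ∂_p^i (G1 w_xp + G2 w_pp + G3)` with the coefficients
in `MB 1 A N` (polynomials in `x, p, w_p, w_x, dd`). -/
theorem mixed (A N : ℕ) : ∃ δ₀ : ℝ, 0 < δ₀ ∧ δ₀ ≤ 1 ∧ ∃ ε₀ : ℝ, 0 < ε₀ ∧ ∀ δ ε₁ : ℝ, δ ≤ δ₀ →
    ε₁ ≤ ε₀ →
    MB (fun S : SolI δ ε₁ => S.1.R) (fun S => DD S.1.ε S.1.b 1) (fun _ => 1) A N
      (fun S => dp S.1.w) ∧
    MB (fun S : SolI δ ε₁ => S.1.R) (fun S => DD S.1.ε S.1.b 1) (fun _ => 1) A N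
      (fun S => dx S.1.w) := by
  obtain ⟨δ₀, hδ₀, hδ1, ε₀, hε₀, hart⟩ := art (N + 4)
  refine ⟨δ₀, hδ₀, hδ1, ε₀, hε₀, fun δ ε₁ hδ hε₁ => ?_⟩
  obtain ⟨tw, tv⟩ := hart δ ε₁ hδ hε₁
  have hR1 : ∀ S : SolI δ ε₁, 1 ≤ S.1.R := fun S => S.1.one_le_R
  have hR : ∀ S : SolI δ ε₁, 0 ≤ S.1.R := fun S => zero_le_one.trans (hR1 S)
  -- base
  have base : ∀ {g : SolI δ ε₁ → ℝ × ℝ → ℝ},
      Tame (fun S : SolI δ ε₁ => S.1.R) (fun S => DD S.1.ε S.1.b 1) 1 (N + 4) g →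
      MB (fun S : SolI δ ε₁ => S.1.R) (fun S => DD S.1.ε S.1.b 1) (fun _ => 1) 0 N g := by
    intro g hg
    refine ⟨hg.smooth, ?_⟩
    have hb : ∀ i, i ≤ N → BS (fun S : SolI δ ε₁ => S.1.R) (fun S => DD S.1.ε S.1.b 1) (1 + i)
        (fun S => dp^[i] (g S)) := fun i hi => hg.bs i (by omega)
    have hchoose : ∀ i, ∃ C : ℝ, 0 ≤ C ∧ (i ≤ N → ∀ S : SolI δ ε₁, ∀ z ∈ DD S.1.ε S.1.b 1,
        |dp^[i] (g S) z| ≤ C * S.1.R ^ eS (1 + i)) := by
      intro i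
      by_cases hi : i ≤ N
      · obtain ⟨C, hC, h⟩ := hb i hi
        exact ⟨C, hC, fun _ => h⟩
      · exact ⟨0, le_rfl, fun h => absurd h hi⟩
    choose C hC hCb using hchoose
    refine ⟨∑ i ∈ Finset.range (N + 1), C i, Finset.sum_nonneg fun i _ => hC i, ?_⟩
    intro a i ha hai S z hz
    have ha0 : a = 0 := by omega
    subst ha0
    simp only [Function.iterate_zero, id, mul_one, zero_add] at *
    have h1 := hCb i hai S z hz
    have h2 : C i ≤ ∑ i ∈ Finset.range (N + 1), C i :=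
      Finset.single_le_sum (f := C) (fun i _ => hC i) (Finset.mem_range.2 (by omega))
    have h3 : S.1.R ^ eS (1 + i) ≤ S.1.R ^ i := by
      apply pow_le_pow_right₀ (hR1 S)
      unfold eS; split_ifs <;> omega
    exact h1.trans (mul_le_mul h2 h3 (pow_nonneg (hR S) _) (le_trans (hC i) h2))
  induction A with
  | zero => exact ⟨base tw, base tv⟩
  | succ A ih =>
    obtain ⟨⟨sw, Cw, hCw, bw⟩, ⟨sv, Cv, hCv, bv⟩⟩ := ih
    have key1 : MB (fun S : SolI δ ε₁ => S.1.R) (fun S => DD S.1.ε S.1.b 1) (fun _ => 1) (A + 1) N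
        (fun S => dp S.1.w) := by
      refine ⟨sw, Cw + Cv, by positivity, ?_⟩
      intro a i ha hai S z hz
      rcases a with _ | a
      · refine (bw 0 i (Nat.zero_le _) hai S z hz).trans ?_
        exact mul_le_mul_of_nonneg_right (by linarith) (pow_nonneg (hR S) _)
      · have e : dx^[a + 1] (dp^[i] (dp S.1.w)) = dx^[a] (dp^[i + 1] (dx S.1.w)) := by
          rw [Function.iterate_succ_apply, dx_dp_iter (cd_dp S.1.smooth), dx_dp_comm S.1.smooth,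
            ← Function.iterate_succ_apply]
        rw [e]
        refine (bv a (i + 1) (by omega) (by omega) S z hz).trans ?_
        rw [show a + (i + 1) = a + 1 + i by ring]
        exact mul_le_mul_of_nonneg_right (by linarith) (pow_nonneg (hR S) _)
    refine ⟨key1, ?_⟩
    rcases N with _ | N
    · refine ⟨sv, Cv, hCv, ?_⟩
      intro a i ha hai S z hz
      have : a = 0 := by omega
      subst this
      exact bv 0 i (Nat.zero_le _) hai S z hz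
    · obtain ⟨sxx, Cx, hCx, bxx⟩ := mx_xx (A := A) (N := N)
        ⟨sw, Cw, hCw, bw⟩ ⟨sv, Cv, hCv, bv⟩
      refine ⟨sv, Cv + Cx, by positivity, ?_⟩
      intro a i ha hai S z hz
      rcases a with _ | a
      · refine (bv 0 i (Nat.zero_le _) hai S z hz).trans ?_
        exact mul_le_mul_of_nonneg_right (by linarith) (pow_nonneg (hR S) _)
      · have e : dx^[a + 1] (dp^[i] (dx S.1.w)) = dx^[a] (dp^[i] (dx (dx S.1.w))) := by
          rw [Function.iterate_succ_apply, dx_dp_iter (cd_dx S.1.smooth)]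
        rw [e]
        refine (bxx a i (by omega) (by omega) S z hz).trans ?_
        have e2 : Cx * S.1.R * S.1.R ^ (a + i) = Cx * S.1.R ^ (a + 1 + i) := by
          rw [show a + 1 + i = (a + i) + 1 by ring, pow_succ]; ring
        rw [e2, mul_one]
        exact mul_le_mul_of_nonneg_right (by linarith) (pow_nonneg (hR S) _)

end Crest.Agent.Iso
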