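import Crest.Agent.Iso.Bump
import Crest.Agent.Iso.MainTerm
import Crest.Agent.Iso.Energy

/-!
# Row 220: auxiliary estimates for the nonexistence theorem
-/

set_option autoImplicit false

open scoped ContDiff
open MeasureTheory Set

namespace Crest.Agent.Iso

/-! ### product rule -/

theorem nb_dx_mul {χ e : ℝ × ℝ → ℝ} (hχ : ContDiff ℝ ∞ χ) (he : ContDiff ℝ ∞ e) :
    dx (fun z => χ z * e z) = fun z => dx χ z * e z + χ z * dx e z := by
  funext z; exact dx_mul (diff_of_smooth hχ z) (diff_of_smooth he z)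

theorem nb_dp_mul {χ e : ℝ × ℝ → ℝ} (hχ : ContDiff ℝ ∞ χ) (he : ContDiff ℝ ∞ e) :
    dp (fun z => χ z * e z) = fun z => dp χ z * e z + χ z * dp e z := by
  funext z; exact dp_mul (diff_of_smooth hχ z) (diff_of_smooth he z)

theorem nb_LL_mul {g1 g2 χ e : ℝ × ℝ → ℝ} (hχ : ContDiff ℝ ∞ χ) (he : ContDiff ℝ ∞ e)
    (z : ℝ × ℝ) :
    LL g1 g2 (fun _ => 0) (fun _ => 0) (fun z => χ z * e z) z =
      χ z * LL g1 g2 (fun _ => 0) (fun _ => 0) e z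
      + (e z * (dx (dx χ) z + g1 z * dp (dx χ) z + g2 z * dp (dp χ) z)
        + 2 * dx χ z * dx e z + g1 z * (dx χ z * dp e z + dp χ z * dx e z)
        + 2 * g2 z * (dp χ z * dp e z)) := by
  have d0 := diff_of_smooth hχ
  have d1 := diff_of_smooth he
  have d2 := diff_of_smooth (cd_dx hχ)
  have d3 := diff_of_smooth (cd_dx he)
  have d4 := diff_of_smooth (cd_dp hχ)
  have d5 := diff_of_smooth (cd_dp he)
  have h1 : dx (dx (fun z => χ z * e z)) z =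
      dx (dx χ) z * e z + dx χ z * dx e z + (dx χ z * dx e z + χ z * dx (dx e) z) := by
    rw [nb_dx_mul hχ he, dx_add ((d2 z).fun_mul (d1 z)) ((d0 z).fun_mul (d3 z)),
      dx_mul (d2 z) (d1 z), dx_mul (d0 z) (d3 z)]
  have h2 : dp (dx (fun z => χ z * e z)) z =
      dp (dx χ) z * e z + dx χ z * dp e z + (dp χ z * dx e z + χ z * dp (dx e) z) := by
    rw [nb_dx_mul hχ he, dp_add ((d2 z).fun_mul (d1 z)) ((d0 z).fun_mul (d3 z)),
      dp_mul (d2 z) (d1 z), dp_mul (d0 z) (d3 z)]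
  have h3 : dp (dp (fun z => χ z * e z)) z =
      dp (dp χ) z * e z + dp χ z * dp e z + (dp χ z * dp e z + χ z * dp (dp e) z) := by
    rw [nb_dp_mul hχ he, dp_add ((d4 z).fun_mul (d1 z)) ((d0 z).fun_mul (d5 z)),
      dp_mul (d4 z) (d1 z), dp_mul (d0 z) (d5 z)]
  simp only [LL, h1, h2, h3]
  ring

/-! ### the commutator -/

theorem nb_inner_zero {χ : ℝ × ℝ → ℝ} {x1 b8 : ℝ}
    (hχ1 : ∀ z : ℝ × ℝ, |z.1| ≤ x1 → |z.2| ≤ b8 → χ z = 1)
    {z : ℝ × ℝ} (hz1 : |z.1| < x1) (hz2 : |z.2| < b8) :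
    dx χ z = 0 ∧ dp χ z = 0 ∧ dx (dx χ) z = 0 ∧ dp (dx χ) z = 0 ∧ dp (dp χ) z = 0 := by
  set U : Set (ℝ × ℝ) := {z | |z.1| < x1 ∧ |z.2| < b8} with hU
  have hUo : IsOpen U := by
    apply IsOpen.inter
    · exact isOpen_lt (continuous_fst.abs) continuous_const
    · exact isOpen_lt (continuous_snd.abs) continuous_const
  have hzU : z ∈ U := ⟨hz1, hz2⟩
  have e0 : EqOn χ (fun _ => (1 : ℝ)) U := fun y hy => hχ1 y hy.1.le hy.2.le
  have ex : EqOn (dx χ) (fun _ => (0 : ℝ)) U := by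
    have := dx_congr hUo e0
    rwa [dx_const] at this
  have ep : EqOn (dp χ) (fun _ => (0 : ℝ)) U := by
    have := dp_congr hUo e0
    rwa [dp_const] at this
  have exx : EqOn (dx (dx χ)) (fun _ => (0 : ℝ)) U := by
    have := dx_congr hUo ex
    rwa [dx_const] at this
  have exp' : EqOn (dp (dx χ)) (fun _ => (0 : ℝ)) U := by
    have := dp_congr hUo ex
    rwa [dp_const] at this
  have epp : EqOn (dp (dp χ)) (fun _ => (0 : ℝ)) U := by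
    have := dp_congr hUo ep
    rwa [dp_const] at this
  exact ⟨ex hzU, ep hzU, exx hzU, exp' hzU, epp hzU⟩

theorem nb_comm_alg {e ex ep cx cp cxx cxp cpp g1 g2 η C b E : ℝ} (hb : 0 < b) (hb1 : b ≤ 1)
    (hC : 0 ≤ C) (he : |e| ≤ η) (hex : |ex| ≤ η) (hep : |ep| ≤ η) (hcx : |cx| ≤ C / b)
    (hcp : |cp| ≤ C / b) (hcxx : |cxx| ≤ C / b ^ 2) (hcxp : |cxp| ≤ C / b ^ 2)
    (hcpp : |cpp| ≤ C / b ^ 2) (hg1 : |g1| ≤ 1) (hg2 : |g2| ≤ 1) (hη : η / b ^ 2 ≤ E) :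
    |e * (cxx + g1 * cxp + g2 * cpp) + 2 * cx * ex + g1 * (cx * ep + cp * ex)
      + 2 * g2 * (cp * ep)| ≤ 9 * C * E ∧ |cx * e| ≤ C * E ∧ |cp * e| ≤ C * E := by
  have hη0 : 0 ≤ η := (abs_nonneg _).trans he
  have hCb : 0 ≤ C / b := by positivity
  have hCb2 : 0 ≤ C / b ^ 2 := by positivity
  have hle : C / b ≤ C / b ^ 2 := by
    apply div_le_div_of_nonneg_left hC (by positivity)
    nlinarith
  have m : ∀ {x y X Y : ℝ}, |x| ≤ X → |y| ≤ Y → |x * y| ≤ X * Y := by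
    intro x y X Y hx hy
    rw [abs_mul]
    exact mul_le_mul hx hy (abs_nonneg _) ((abs_nonneg _).trans hx)
  have key : C / b ^ 2 * η ≤ C * E := by
    have : C / b ^ 2 * η = C * (η / b ^ 2) := by ring
    rw [this]; exact mul_le_mul_of_nonneg_left hη hC
  have key' : C / b * η ≤ C * E := (mul_le_mul_of_nonneg_right hle hη0).trans key
  have t1 : |e * cxx| ≤ C * E := by
    have := m he hcxx
    linarith [mul_comm η (C / b ^ 2)]
  have t2 : |e * (g1 * cxp)| ≤ C * E := by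
    have := m he (m hg1 hcxp)
    linarith [mul_comm η (1 * (C / b ^ 2))]
  have t3 : |e * (g2 * cpp)| ≤ C * E := by
    have := m he (m hg2 hcpp)
    linarith [mul_comm η (1 * (C / b ^ 2))]
  have t4 : |cx * ex| ≤ C * E := (m hcx hex).trans key'
  have t5 : |g1 * (cx * ep)| ≤ C * E := by
    have := m hg1 ((m hcx hep).trans key')
    linarith
  have t6 : |g1 * (cp * ex)| ≤ C * E := by
    have := m hg1 ((m hcp hex).trans key')
    linarith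
  have t7 : |g2 * (cp * ep)| ≤ C * E := by
    have := m hg2 ((m hcp hep).trans key')
    linarith
  refine ⟨?_, (m hcx he).trans key', (m hcp he).trans key'⟩
  rw [abs_le] at t1 t2 t3 t4 t5 t6 t7
  obtain ⟨a1, a1'⟩ := t1
  obtain ⟨a2, a2'⟩ := t2
  obtain ⟨a3, a3'⟩ := t3
  obtain ⟨a4, a4'⟩ := t4
  obtain ⟨a5, a5'⟩ := t5
  obtain ⟨a6, a6'⟩ := t6
  obtain ⟨a7, a7'⟩ := t7
  have e1 : e * (cxx + g1 * cxp + g2 * cpp) + 2 * cx * ex + g1 * (cx * ep + cp * ex)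
      + 2 * g2 * (cp * ep) = e * cxx + e * (g1 * cxp) + e * (g2 * cpp) + 2 * (cx * ex)
      + g1 * (cx * ep) + g1 * (cp * ex) + 2 * (g2 * (cp * ep)) := by ring
  rw [e1, abs_le]
  constructor <;> linarith

/-- pointwise estimate -/
theorem nb_pointwise {ε b Cχ Cd : ℝ} {M : ℕ} {g1 g2 χ e f r : ℝ × ℝ → ℝ} (hε : 0 < ε)
    (hε1 : ε ≤ 1) (hb : 0 < b) (hb1 : b ≤ 1) (hbε : ε ^ 4 ≤ b) (hχs : ContDiff ℝ ∞ χ)
    (hes : ContDiff ℝ ∞ e) (hH : Hyp ε b g1 g2) (hCχ : 0 ≤ Cχ) (hCd : 0 ≤ Cd)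
    (hχ01 : ∀ z, 0 ≤ χ z ∧ χ z ≤ 1)
    (hχ1 : ∀ z : ℝ × ℝ, |z.1| ≤ (4 / 5) * X1 ε b → |z.2| ≤ 8 * b → χ z = 1)
    (hχd : ∀ z, |dx χ z| ≤ Cχ / b ∧ |dp χ z| ≤ Cχ / b ∧ |dx (dx χ) z| ≤ Cχ / b ^ 2 ∧
      |dp (dx χ) z| ≤ Cχ / b ^ 2 ∧ |dp (dp χ) z| ≤ Cχ / b ^ 2)
    (he : ∀ z ∈ Rct ε b, (8 * b ≤ |z.2| ∨ (3 / 4) * X1 ε b ≤ |z.1|) →
      |e z| ≤ ε ^ (M + 8) ∧ |dx e z| ≤ ε ^ (M + 8) ∧ |dp e z| ≤ ε ^ (M + 8))
    (hL : ∀ z ∈ Rct ε b, |LL g1 g2 (fun _ => 0) (fun _ => 0) e z - (f z - r z)| ≤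
      Cd * ε * (|dx e z| + |dp e z|))
    (hr : ∀ z ∈ Rct ε b, |r z| ≤ ε ^ (M + 8)) {z : ℝ × ℝ} (hz : z ∈ Rct ε b) :
    |LL g1 g2 (fun _ => 0) (fun _ => 0) (fun z => χ z * e z) z - χ z * f z| ≤
      (9 * Cχ + 1 + 2 * Cd * Cχ) * ε ^ M
        + Cd * ε * (|dx (fun z => χ z * e z) z| + |dp (fun z => χ z * e z) z|) := by
  have hX : 0 ≤ X1 ε b := by unfold X1; positivity
  have hη : ε ^ (M + 8) / b ^ 2 ≤ ε ^ M := by
    rw [div_le_iff₀ (by positivity), pow_add]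
    refine mul_le_mul_of_nonneg_left ?_ (by positivity)
    calc ε ^ 8 = (ε ^ 4) ^ 2 := by ring
      _ ≤ b ^ 2 := pow_le_pow_left₀ (by positivity) hbε 2
  have hg1 : |g1 z| ≤ 1 := (hH.h1 z hz).trans hε1
  have hg2 : |g2 z| ≤ 1 := by
    have := abs_le.1 (hH.h2 z hz)
    rw [abs_le]; constructor <;> linarith [this.1, this.2]
  obtain ⟨k1, k2, k3, k4, k5⟩ := hχd z
  have hEM : 0 ≤ Cχ * ε ^ M := by positivity
  -- commutator and lower order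
  have hcomm : |e z * (dx (dx χ) z + g1 z * dp (dx χ) z + g2 z * dp (dp χ) z)
        + 2 * dx χ z * dx e z + g1 z * (dx χ z * dp e z + dp χ z * dx e z)
        + 2 * g2 z * (dp χ z * dp e z)| ≤ 9 * Cχ * ε ^ M ∧ |dx χ z * e z| ≤ Cχ * ε ^ M ∧
        |dp χ z * e z| ≤ Cχ * ε ^ M := by
    by_cases hin : |z.1| < (4 / 5) * X1 ε b ∧ |z.2| < 8 * b
    · obtain ⟨z1, z2, z3, z4, z5⟩ := nb_inner_zero hχ1 hin.1 hin.2
      rw [z1, z2, z3, z4, z5]
      simp only [mul_zero, zero_mul, add_zero, abs_zero]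
      exact ⟨by linarith, hEM, hEM⟩
    · have hout : 8 * b ≤ |z.2| ∨ (3 / 4) * X1 ε b ≤ |z.1| := by
        by_contra hcon
        push Not at hcon
        exact hin ⟨by linarith [hcon.2], hcon.1⟩
      obtain ⟨j1, j2, j3⟩ := he z hz hout
      exact nb_comm_alg hb hb1 hCχ j1 j2 j3 k1 k2 k3 k4 k5 hg1 hg2 hη
  obtain ⟨hc1, hc2, hc3⟩ := hcomm
  rw [nb_LL_mul hχs hes z]
  have ex : dx (fun z => χ z * e z) z = dx χ z * e z + χ z * dx e z := by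
    rw [nb_dx_mul hχs hes]
  have ep : dp (fun z => χ z * e z) z = dp χ z * e z + χ z * dp e z := by
    rw [nb_dp_mul hχs hes]
  rw [ex, ep]
  set c := e z * (dx (dx χ) z + g1 z * dp (dx χ) z + g2 z * dp (dp χ) z)
        + 2 * dx χ z * dx e z + g1 z * (dx χ z * dp e z + dp χ z * dx e z)
        + 2 * g2 z * (dp χ z * dp e z) with hc
  set L := LL g1 g2 (fun _ => 0) (fun _ => 0) e z with hLdef
  obtain ⟨hχ0, hχ1'⟩ := hχ01 z
  have b1 : χ z * |dx e z| ≤ |dx χ z * e z + χ z * dx e z| + Cχ * ε ^ M := by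
    have : χ z * |dx e z| = |χ z * dx e z| := by rw [abs_mul, abs_of_nonneg hχ0]
    rw [this]
    have h := abs_sub_abs_le_abs_sub (χ z * dx e z) (-(dx χ z * e z))
    have h2 : χ z * dx e z - -(dx χ z * e z) = dx χ z * e z + χ z * dx e z := by ring
    rw [h2, abs_neg] at h
    linarith
  have b2 : χ z * |dp e z| ≤ |dp χ z * e z + χ z * dp e z| + Cχ * ε ^ M := by
    have : χ z * |dp e z| = |χ z * dp e z| := by rw [abs_mul, abs_of_nonneg hχ0]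
    rw [this]
    have h := abs_sub_abs_le_abs_sub (χ z * dp e z) (-(dp χ z * e z))
    have h2 : χ z * dp e z - -(dp χ z * e z) = dp χ z * e z + χ z * dp e z := by ring
    rw [h2, abs_neg] at h
    linarith
  have hpw : ε ^ (M + 8) ≤ ε ^ M := pow_le_pow_of_le_one hε.le hε1 (by omega)
  have b3 : |χ z * r z| ≤ ε ^ M := by
    rw [abs_mul, abs_of_nonneg hχ0]
    calc χ z * |r z| ≤ 1 * |r z| := mul_le_mul_of_nonneg_right hχ1' (abs_nonneg _)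
      _ ≤ ε ^ M := by rw [one_mul]; exact (hr z hz).trans hpw
  have b4 : |χ z * (L - (f z - r z))| ≤ Cd * ε * (χ z * |dx e z| + χ z * |dp e z|) := by
    rw [abs_mul, abs_of_nonneg hχ0]
    calc _ ≤ χ z * (Cd * ε * (|dx e z| + |dp e z|)) :=
          mul_le_mul_of_nonneg_left (hL z hz) hχ0
      _ = _ := by ring
  have hCdε : 0 ≤ Cd * ε := by positivity
  have b5 : Cd * ε * (χ z * |dx e z| + χ z * |dp e z|) ≤
      Cd * ε * (|dx χ z * e z + χ z * dx e z| + |dp χ z * e z + χ z * dp e z|)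
        + 2 * Cd * Cχ * ε ^ M := by
    have h1 : Cd * ε * (χ z * |dx e z| + χ z * |dp e z|) ≤ Cd * ε *
        ((|dx χ z * e z + χ z * dx e z| + Cχ * ε ^ M)
          + (|dp χ z * e z + χ z * dp e z| + Cχ * ε ^ M)) :=
      mul_le_mul_of_nonneg_left (by linarith) hCdε
    have h2 : Cd * ε * (2 * (Cχ * ε ^ M)) ≤ Cd * 1 * (2 * (Cχ * ε ^ M)) :=
      mul_le_mul_of_nonneg_right (mul_le_mul_of_nonneg_left hε1 hCd) (by positivity)
    nlinarith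
  have dec : χ z * L + c - χ z * f z = χ z * (L - (f z - r z)) - χ z * r z + c := by ring
  rw [dec]
  have tri : |χ z * (L - (f z - r z)) - χ z * r z + c| ≤
      |χ z * (L - (f z - r z))| + |χ z * r z| + |c| := by
    refine (abs_add_le _ _).trans ?_
    have := abs_sub (χ z * (L - (f z - r z))) (χ z * r z)
    linarith
  nlinarith

/-! ### integrals over the small rectangle -/

theorem nb_Rct_eq (ε b : ℝ) : Rct ε b =
    Ioo (-X1 ε b) (X1 ε b) ×ˢ Ioo (-(10 * b)) (10 * b) := by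
  ext z
  simp only [Rct, mem_ofPred_eq, mem_prod, mem_Ioo, abs_lt]

theorem nb_vol_box {a c : ℝ} (ha : 0 ≤ a) (hc : 0 ≤ c) :
    (volume : Measure (ℝ × ℝ)).real (Ioo (-a) a ×ˢ Ioo (-c) c) = 4 * a * c := by
  rw [Measure.real, Measure.volume_eq_prod, Measure.prod_prod, Real.volume_Ioo, Real.volume_Ioo,
    ENNReal.toReal_mul, ENNReal.toReal_ofReal (by linarith), ENNReal.toReal_ofReal (by linarith)]
  ring

theorem nb_vol_ne_top (a c : ℝ) :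
    (volume : Measure (ℝ × ℝ)) (Ioo (-a) a ×ˢ Ioo (-c) c) ≠ ⊤ := by
  rw [Measure.volume_eq_prod, Measure.prod_prod, Real.volume_Ioo, Real.volume_Ioo]
  exact ENNReal.mul_ne_top ENNReal.ofReal_ne_top ENNReal.ofReal_ne_top

theorem nb_integrableOn_box (a c : ℝ) {f : ℝ × ℝ → ℝ} (hf : Continuous f) :
    IntegrableOn f (Ioo (-a) a ×ˢ Ioo (-c) c) := by
  have hK : IsCompact (Icc (-a) a ×ˢ Icc (-c) c) := isCompact_Icc.prod isCompact_Icc
  exact (hf.continuousOn.integrableOn_compact hK).mono_set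
    (prod_mono Ioo_subset_Icc_self Ioo_subset_Icc_self)

theorem nb_measurableSet_box (a c : ℝ) : MeasurableSet (Ioo (-a) a ×ˢ Ioo (-c) c : Set (ℝ × ℝ)) :=
  measurableSet_Ioo.prod measurableSet_Ioo

/-- a function vanishing off the small box -/
theorem nb_int_sq {X Y b K : ℝ} (hb : 0 < b) (hX : b ≤ X) (hY : 2 * b ≤ Y) {f : ℝ × ℝ → ℝ}
    (hf : Continuous f)
    (h0 : ∀ z ∈ Ioo (-X) X ×ˢ Ioo (-Y) Y, (b / 2 < |z.1| ∨ b < |z.2|) → f z = 0)
    (h1 : ∀ z ∈ Ioo (-X) X ×ˢ Ioo (-Y) Y, |f z| ≤ K) :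
    ∫ z in Ioo (-X) X ×ˢ Ioo (-Y) Y, f z ^ 2 ≤ 8 * b ^ 2 * K ^ 2 := by
  have hsub : (Ioo (-b) b ×ˢ Ioo (-(2 * b)) (2 * b) : Set (ℝ × ℝ)) ⊆
      Ioo (-X) X ×ˢ Ioo (-Y) Y :=
    prod_mono (Ioo_subset_Ioo (by linarith) hX) (Ioo_subset_Ioo (by linarith) hY)
  have e1 : ∫ z in Ioo (-X) X ×ˢ Ioo (-Y) Y, f z ^ 2 =
      ∫ z in Ioo (-b) b ×ˢ Ioo (-(2 * b)) (2 * b), f z ^ 2 := by
    refine (setIntegral_eq_of_subset_of_forall_sdiff_eq_zero (μ := volume)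
      (f := fun z : ℝ × ℝ => f z ^ 2) (nb_measurableSet_box X Y) hsub ?_)
    rintro z ⟨hz, hz'⟩
    have : b / 2 < |z.1| ∨ b < |z.2| := by
      by_contra hcon
      push Not at hcon
      apply hz'
      simp only [mem_prod, mem_Ioo, ← abs_lt]
      constructor <;> linarith [hcon.1, hcon.2]
    rw [h0 z hz this]; ring
  rw [e1]
  have e2 : ∫ z in Ioo (-b) b ×ˢ Ioo (-(2 * b)) (2 * b), f z ^ 2 ≤
      ∫ _z in (Ioo (-b) b ×ˢ Ioo (-(2 * b)) (2 * b) : Set (ℝ × ℝ)), K ^ 2 := by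
    refine setIntegral_mono_on (nb_integrableOn_box _ _ (hf.pow 2))
      (nb_integrableOn_box _ _ continuous_const) (nb_measurableSet_box _ _) ?_
    intro z hz
    rw [← sq_abs]
    exact pow_le_pow_left₀ (abs_nonneg _) (h1 z (hsub hz)) 2
  refine e2.trans ?_
  rw [setIntegral_const, nb_vol_box hb.le (by linarith), smul_eq_mul]
  apply le_of_eq; ring

/-- integral of the square of the right side -/
theorem nb_int_F {X Y b K c : ℝ} (hb : 0 < b) (hX : b ≤ X) (hY : 2 * b ≤ Y) {f : ℝ × ℝ → ℝ}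
    (hf : Continuous f)
    (h0 : ∀ z ∈ Ioo (-X) X ×ˢ Ioo (-Y) Y, (b / 2 < |z.1| ∨ b < |z.2|) → f z = 0)
    (h1 : ∀ z ∈ Ioo (-X) X ×ˢ Ioo (-Y) Y, |f z| ≤ K) :
    ∫ z in Ioo (-X) X ×ˢ Ioo (-Y) Y, (|f z| + c) ^ 2 ≤ 16 * b ^ 2 * K ^ 2 + 8 * X * Y * c ^ 2 := by
  have i1 : IntegrableOn (fun z => f z ^ 2) (Ioo (-X) X ×ˢ Ioo (-Y) Y) :=
    nb_integrableOn_box _ _ (hf.pow 2)
  have i2 : IntegrableOn (fun _ : ℝ × ℝ => 2 * c ^ 2) (Ioo (-X) X ×ˢ Ioo (-Y) Y) :=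
    nb_integrableOn_box _ _ continuous_const
  have i3 : IntegrableOn (fun z => 2 * f z ^ 2) (Ioo (-X) X ×ˢ Ioo (-Y) Y) := i1.const_mul 2
  have e1 : ∫ z in Ioo (-X) X ×ˢ Ioo (-Y) Y, (|f z| + c) ^ 2 ≤
      ∫ z in Ioo (-X) X ×ˢ Ioo (-Y) Y, (2 * f z ^ 2 + 2 * c ^ 2) := by
    refine setIntegral_mono_on (nb_integrableOn_box _ _ ((hf.abs.add continuous_const).pow 2))
      (i3.add i2) (nb_measurableSet_box _ _) ?_
    intro z _
    have := sq_abs (f z)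
    nlinarith [sq_nonneg (|f z| - c)]
  refine e1.trans ?_
  rw [integral_add i3 i2, integral_const_mul, setIntegral_const,
    nb_vol_box (by linarith) (by linarith), smul_eq_mul]
  have := nb_int_sq hb hX hY hf h0 h1
  nlinarith

/-- first powers are controlled by squares -/
theorem nb_int_abs {X Y t : ℝ} (hX : 0 ≤ X) (hY : 0 ≤ Y) (ht : 0 < t) {f : ℝ × ℝ → ℝ}
    (hf : Continuous f) :
    ∫ z in Ioo (-X) X ×ˢ Ioo (-Y) Y, |f z| ≤
      2 * X * Y * t + (2 * t)⁻¹ * ∫ z in Ioo (-X) X ×ˢ Ioo (-Y) Y, f z ^ 2 := by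
  have i1 : IntegrableOn (fun z => f z ^ 2) (Ioo (-X) X ×ˢ Ioo (-Y) Y) :=
    nb_integrableOn_box _ _ (hf.pow 2)
  have i2 : IntegrableOn (fun _ : ℝ × ℝ => t / 2) (Ioo (-X) X ×ˢ Ioo (-Y) Y) :=
    nb_integrableOn_box _ _ continuous_const
  have i3 : IntegrableOn (fun z => (2 * t)⁻¹ * f z ^ 2) (Ioo (-X) X ×ˢ Ioo (-Y) Y) :=
    i1.const_mul _
  have e1 : ∫ z in Ioo (-X) X ×ˢ Ioo (-Y) Y, |f z| ≤
      ∫ z in Ioo (-X) X ×ˢ Ioo (-Y) Y, (t / 2 + (2 * t)⁻¹ * f z ^ 2) := by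
    refine setIntegral_mono_on (nb_integrableOn_box _ _ hf.abs)
      (i2.add i3) (nb_measurableSet_box _ _) ?_
    intro z _
    have h := sq_abs (f z)
    have h2 := sq_nonneg (|f z| - t)
    have h3 : t / 2 + (2 * t)⁻¹ * f z ^ 2 - |f z| = (|f z| - t) ^ 2 / (2 * t) := by
      rw [← h]; field_simp; ring
    have h4 : 0 ≤ (|f z| - t) ^ 2 / (2 * t) := by positivity
    linarith
  refine e1.trans ?_
  rw [integral_add i2 i3, integral_const_mul, setIntegral_const,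
    nb_vol_box hX hY, smul_eq_mul]
  apply le_of_eq; ring

/-! ### the final inequality -/

theorem nb_zero_off {φ : ℝ × ℝ → ℝ} {z : ℝ × ℝ} (hz : z ∉ tsupport φ) :
    dx φ z = 0 ∧ dp φ z = 0 ∧ dx (dx φ) z = 0 ∧ dp (dx φ) z = 0 ∧ dp (dp φ) z = 0 := by
  have hUo : IsOpen (tsupport φ)ᶜ := (isClosed_tsupport φ).isOpen_compl
  have hzU : z ∈ (tsupport φ)ᶜ := hz
  have e0 : EqOn φ (fun _ => (0 : ℝ)) (tsupport φ)ᶜ := fun y hy => image_eq_zero_of_notMem_tsupport hy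
  have ex : EqOn (dx φ) (fun _ => (0 : ℝ)) (tsupport φ)ᶜ := by
    have := dx_congr hUo e0
    rwa [dx_const] at this
  have ep : EqOn (dp φ) (fun _ => (0 : ℝ)) (tsupport φ)ᶜ := by
    have := dp_congr hUo e0
    rwa [dp_const] at this
  have exx : EqOn (dx (dx φ)) (fun _ => (0 : ℝ)) (tsupport φ)ᶜ := by
    have := dx_congr hUo ex
    rwa [dx_const] at this
  have exp' : EqOn (dp (dx φ)) (fun _ => (0 : ℝ)) (tsupport φ)ᶜ := by
    have := dp_congr hUo ex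
    rwa [dp_const] at this
  have epp : EqOn (dp (dp φ)) (fun _ => (0 : ℝ)) (tsupport φ)ᶜ := by
    have := dp_congr hUo ep
    rwa [dp_const] at this
  exact ⟨ex hzU, ep hzU, exx hzU, exp' hzU, epp hzU⟩

/-- the constant of the energy bound -/
noncomputable def nbC2 (Cχ Cd : ℝ) : ℝ := 9 * Cχ + 1 + 2 * Cd * Cχ
noncomputable def nbC4 (Cχ Cd C3 Ce : ℝ) : ℝ := Ce * 90000 * (16 * C3 ^ 2 + 24000 * nbC2 Cχ Cd ^ 2)
noncomputable def nbCtot (Cχ Cd C3 Ce Cp : ℝ) : ℝ :=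
  Cp * √(nbC4 Cχ Cd C3 Ce)
    + 96100 * (12000 * nbC2 Cχ Cd + 12000 * Cd + Cd * nbC4 Cχ Cd C3 Ce)

theorem nb_alg1 {ε κ X b I1 I2 Jx Jp A2 : ℝ} (hε : 0 < ε) (hε1 : ε ≤ 1) (hκ : 0 < κ)
    (nx : 0 ≤ Jx) (np : 0 ≤ Jp) (hA : Jx + ε * Jp = A2)
    (h1 : I1 ≤ 2 * X * (10 * b) * κ + (2 * κ)⁻¹ * Jx)
    (h2 : I2 ≤ 2 * X * (10 * b) * κ + (2 * κ)⁻¹ * Jp) :
    ε * (I1 + I2) ≤ ε * (40 * X * b * κ) + κ⁻¹ * A2 := by
  have t1 : ε * Jx ≤ A2 := by nlinarith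
  have t2 : ε * Jp ≤ A2 := by linarith
  have g1 := mul_le_mul_of_nonneg_left h1 hε.le
  have g2 := mul_le_mul_of_nonneg_left h2 hε.le
  have h3 : (2 * κ)⁻¹ * (ε * Jx) ≤ (2 * κ)⁻¹ * A2 :=
    mul_le_mul_of_nonneg_left t1 (by positivity)
  have h4 : (2 * κ)⁻¹ * (ε * Jp) ≤ (2 * κ)⁻¹ * A2 :=
    mul_le_mul_of_nonneg_left t2 (by positivity)
  have h5 : (2 * κ)⁻¹ * A2 + (2 * κ)⁻¹ * A2 = κ⁻¹ * A2 := by
    field_simp; ring
  linear_combination g1 + g2 + h3 + h4 - h5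

set_option maxHeartbeats 1000000 in
theorem nb_core {ε b κ q μ Cχ Cd C3 Ce Cp : ℝ} {n : ℕ} {g1 g2 φ χ f : ℝ × ℝ → ℝ}
    (hq : 0 < q) (hq1 : q ≤ 1 / 10) (hqε : ε = q ^ 4) (hb : 0 < b)
    (hbε3 : b ≤ ε ^ 3) (hκ : ε ^ (2 * n) ≤ κ) (hμ : 0 ≤ μ) (hμ1 : μ ≤ q ^ 2)
    (hCχ : 0 ≤ Cχ) (hCd : 0 ≤ Cd) (hCe : 0 ≤ Ce) (hCp : 0 ≤ Cp)
    (hg1 : Continuous g1) (hg2 : Continuous g2) (hφs : ContDiff ℝ ∞ φ)
    (hχs : Continuous χ) (hfs : Continuous f) (hφt : tsupport φ ⊆ Rct ε b)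
    (hχ1 : ∀ z : ℝ × ℝ, |z.1| ≤ (4 / 5) * X1 ε b → |z.2| ≤ 8 * b → χ z = 1)
    (hf0 : ∀ z ∈ Rct ε b, (b / 2 < |z.1| ∨ b < |z.2|) → f z = 0)
    (hf1 : ∀ z ∈ Rct ε b, |f z| ≤ C3 * κ)
    (hpt : ∀ z ∈ Rct ε b, |LL g1 g2 (fun _ => 0) (fun _ => 0) φ z - χ z * f z| ≤
      nbC2 Cχ Cd * ε ^ (2 * n + 2) + Cd * ε * (|dx φ z| + |dp φ z|))
    (hE : ∫ z, (dx φ z ^ 2 + ε * dp φ z ^ 2) ≤
      Ce * X1 ε b ^ 2 * ∫ z in Rct ε b, (|f z| + nbC2 Cχ Cd * ε ^ (2 * n + 2)) ^ 2)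
    (hP : |∫ z, LL g1 g2 (fun _ => 0) (fun _ => 0) φ z * (z.2 + μ * z.1) ^ 2| ≤
      Cp * b ^ 2 * q ^ 3 * √(∫ z, (dx φ z ^ 2 + ε * dp φ z ^ 2)))
    (hM : ∫ z in Ioo (-b) b ×ˢ Ioo (-(2 * b)) (2 * b), f z * (z.2 + μ * z.1) ^ 2 ≤
      - (κ * b ^ 4 / 32)) :
    1 / 32 ≤ nbCtot Cχ Cd C3 Ce Cp * q := by
  have hε : 0 < ε := by rw [hqε]; positivity
  have hq1' : q ≤ 1 := by linarith
  have hε1 : ε ≤ 1 := by rw [hqε]; exact pow_le_one₀ hq.le hq1'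
  have hκ0 : 0 < κ := lt_of_lt_of_le (by positivity) hκ
  have hsq : √ε = q ^ 2 := by
    rw [hqε, show q ^ 4 = (q ^ 2) ^ 2 by ring]
    exact Real.sqrt_sq (by positivity)
  set X := X1 ε b with hXdef
  have hXq : X * q ^ 2 = 300 * b := by
    rw [hXdef]; unfold X1; rw [hsq]; field_simp
  have hX0 : 0 < X := by rw [hXdef]; unfold X1; positivity
  have hbX300 : 300 * b ≤ X := by
    have h2 : q ^ 2 ≤ 1 := pow_le_one₀ hq.le hq1'
    nlinarith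
  have hbX : b ≤ X := by linarith
  have hbq : b ≤ q ^ 12 := by
    refine hbε3.trans (le_of_eq ?_)
    rw [hqε]; ring
  set C2 := nbC2 Cχ Cd with hC2def
  have hC2 : 0 ≤ C2 := by rw [hC2def]; unfold nbC2; positivity
  set C4 := nbC4 Cχ Cd C3 Ce with hC4def
  have hC4 : 0 ≤ C4 := by rw [hC4def]; unfold nbC4; positivity
  set c := C2 * ε ^ (2 * n + 2) with hcdef
  have hc0 : 0 ≤ c := by positivity
  -- c is small
  have hcκ : c ≤ C2 * κ * q ^ 8 := by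
    have : ε ^ (2 * n + 2) ≤ κ * q ^ 8 := by
      rw [pow_add]
      calc ε ^ (2 * n) * ε ^ 2 ≤ κ * ε ^ 2 := mul_le_mul_of_nonneg_right hκ (by positivity)
        _ = κ * q ^ 8 := by rw [hqε]; ring
    calc c ≤ C2 * (κ * q ^ 8) := mul_le_mul_of_nonneg_left this hC2
      _ = _ := by ring
  have hRct := nb_Rct_eq ε b
  rw [← hXdef] at hRct
  -- energy
  set A2 := ∫ z, (dx φ z ^ 2 + ε * dp φ z ^ 2) with hA2
  have hA2nn : 0 ≤ A2 := integral_nonneg fun z => by positivity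
  have hA2le : A2 * q ^ 4 ≤ C4 * (κ * b ^ 2) ^ 2 := by
    have h1 : ∫ z in Rct ε b, (|f z| + c) ^ 2 ≤
        16 * b ^ 2 * (C3 * κ) ^ 2 + 8 * X * (10 * b) * c ^ 2 := by
      rw [hRct]
      rw [hRct] at hf0 hf1
      exact nb_int_F hb hbX (by linarith) hfs hf0 hf1
    have h2 : 8 * X * (10 * b) * c ^ 2 ≤ 24000 * C2 ^ 2 * b ^ 2 * κ ^ 2 := by
      have e1 : c ^ 2 ≤ (C2 * κ * q ^ 8) ^ 2 := pow_le_pow_left₀ hc0 hcκ 2
      calc 8 * X * (10 * b) * c ^ 2 ≤ 8 * X * (10 * b) * (C2 * κ * q ^ 8) ^ 2 :=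
            mul_le_mul_of_nonneg_left e1 (by positivity)
        _ = 80 * (X * q ^ 2) * b * C2 ^ 2 * κ ^ 2 * q ^ 14 := by ring
        _ = (24000 * C2 ^ 2 * b ^ 2 * κ ^ 2) * q ^ 14 := by rw [hXq]; ring
        _ ≤ (24000 * C2 ^ 2 * b ^ 2 * κ ^ 2) * 1 :=
            mul_le_mul_of_nonneg_left (pow_le_one₀ hq.le hq1') (by positivity)
        _ = _ := by ring
    have h3 : A2 ≤ Ce * X ^ 2 * (b ^ 2 * κ ^ 2 * (16 * C3 ^ 2 + 24000 * C2 ^ 2)) := by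
      refine hE.trans ?_
      refine mul_le_mul_of_nonneg_left ?_ (by positivity)
      refine h1.trans ?_
      nlinarith
    calc A2 * q ^ 4 ≤ (Ce * X ^ 2 * (b ^ 2 * κ ^ 2 * (16 * C3 ^ 2 + 24000 * C2 ^ 2))) * q ^ 4 :=
          mul_le_mul_of_nonneg_right h3 (by positivity)
      _ = Ce * (X * q ^ 2) ^ 2 * (b ^ 2 * κ ^ 2 * (16 * C3 ^ 2 + 24000 * C2 ^ 2)) := by ring
      _ = C4 * (κ * b ^ 2) ^ 2 := by rw [hXq, hC4def]; unfold nbC4; rw [← hC2def]; ring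
  have hsqrt : √A2 * q ^ 2 ≤ √C4 * (κ * b ^ 2) := by
    have e1 : √A2 * q ^ 2 = √(A2 * q ^ 4) := by
      rw [Real.sqrt_mul hA2nn, show q ^ 4 = (q ^ 2) ^ 2 by ring, Real.sqrt_sq (by positivity)]
    have e2 : √C4 * (κ * b ^ 2) = √(C4 * (κ * b ^ 2) ^ 2) := by
      rw [Real.sqrt_mul hC4, Real.sqrt_sq (by positivity)]
    rw [e1, e2]
    exact Real.sqrt_le_sqrt hA2le
  have hpair : |∫ z, LL g1 g2 (fun _ => 0) (fun _ => 0) φ z * (z.2 + μ * z.1) ^ 2| ≤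
      Cp * √C4 * (κ * b ^ 4 * q) := by
    refine hP.trans ?_
    calc Cp * b ^ 2 * q ^ 3 * √A2 = Cp * b ^ 2 * q * (√A2 * q ^ 2) := by ring
      _ ≤ Cp * b ^ 2 * q * (√C4 * (κ * b ^ 2)) :=
          mul_le_mul_of_nonneg_left hsqrt (by positivity)
      _ = _ := by ring
  -- reduce to the rectangle
  have hzero : ∀ z, z ∉ Rct ε b → LL g1 g2 (fun _ => 0) (fun _ => 0) φ z * (z.2 + μ * z.1) ^ 2 = 0 := by
    intro z hz
    obtain ⟨z1, z2, z3, z4, z5⟩ := nb_zero_off (fun h => hz (hφt h))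
    simp only [LL, z1, z2, z3, z4, z5]; ring
  have hzero2 : ∀ z, z ∉ Rct ε b → dx φ z ^ 2 + ε * dp φ z ^ 2 = 0 := by
    intro z hz
    obtain ⟨z1, z2, -⟩ := nb_zero_off (fun h => hz (hφt h))
    simp only [z1, z2]; ring
  have cφx := (cd_dx hφs).continuous
  have cφp := (cd_dp hφs).continuous
  have cLL : Continuous (LL g1 g2 (fun _ => 0) (fun _ => 0) φ) := by
    have u1 := (cd_dx (cd_dx hφs)).continuous
    have u2 := (cd_dp (cd_dx hφs)).continuous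
    have u3 := (cd_dp (cd_dp hφs)).continuous
    unfold LL
    exact (((u1.add (hg1.mul u2)).add (hg2.mul u3)).add (continuous_const.mul cφp)).add
      (continuous_const.mul cφx)
  have cζ : Continuous (fun z : ℝ × ℝ => (z.2 + μ * z.1) ^ 2) := by fun_prop
  have hI1 : ∫ z, LL g1 g2 (fun _ => 0) (fun _ => 0) φ z * (z.2 + μ * z.1) ^ 2 =
      (∫ z in Rct ε b, χ z * f z * (z.2 + μ * z.1) ^ 2) +
      ∫ z in Rct ε b, (LL g1 g2 (fun _ => 0) (fun _ => 0) φ z - χ z * f z) * (z.2 + μ * z.1) ^ 2 := by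
    rw [← setIntegral_eq_integral_of_forall_compl_eq_zero hzero, ← integral_add]
    · congr 1; ext z; ring
    · rw [hRct]; exact nb_integrableOn_box _ _ ((hχs.mul hfs).mul cζ)
    · rw [hRct]; exact nb_integrableOn_box _ _ ((cLL.sub (hχs.mul hfs)).mul cζ)
  have hI2 : ∫ z in Rct ε b, χ z * f z * (z.2 + μ * z.1) ^ 2 ≤ - (κ * b ^ 4 / 32) := by
    refine le_trans (le_of_eq ?_) hM
    have hsub : (Ioo (-b) b ×ˢ Ioo (-(2 * b)) (2 * b) : Set (ℝ × ℝ)) ⊆ Rct ε b := by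
      rw [hRct]
      exact prod_mono (Ioo_subset_Ioo (by linarith) hbX)
        (Ioo_subset_Ioo (by linarith) (by linarith))
    have e1 : ∫ z in Rct ε b, χ z * f z * (z.2 + μ * z.1) ^ 2 =
        ∫ z in Ioo (-b) b ×ˢ Ioo (-(2 * b)) (2 * b), χ z * f z * (z.2 + μ * z.1) ^ 2 := by
      refine setIntegral_eq_of_subset_of_forall_sdiff_eq_zero (μ := volume)
        (f := fun z : ℝ × ℝ => χ z * f z * (z.2 + μ * z.1) ^ 2)
        (by rw [hRct]; exact nb_measurableSet_box _ _) hsub ?_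
      rintro z ⟨hz, hz'⟩
      have : b / 2 < |z.1| ∨ b < |z.2| := by
        by_contra hcon
        push Not at hcon
        apply hz'
        simp only [mem_prod, mem_Ioo, ← abs_lt]
        constructor <;> linarith [hcon.1, hcon.2]
      simp only [hf0 z hz this]; ring
    rw [e1]
    refine setIntegral_congr_fun (nb_measurableSet_box _ _) ?_
    intro z hz
    simp only [mem_prod, mem_Ioo, ← abs_lt] at hz
    have h1 : χ z = 1 := hχ1 z (by linarith [hz.1]) (by linarith [hz.2])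
    simp only [h1, one_mul]
  -- the error
  have hζ : ∀ z ∈ Rct ε b, (z.2 + μ * z.1) ^ 2 ≤ 96100 * b ^ 2 := by
    intro z hz
    have h1 : |z.1| < X := hz.1
    have h2 : |z.2| < 10 * b := hz.2
    have h3 : |μ * z.1| ≤ 300 * b := by
      rw [abs_mul, abs_of_nonneg hμ, ← hXq, mul_comm X]
      exact mul_le_mul hμ1 h1.le (abs_nonneg _) (by positivity)
    have h4 : |z.2 + μ * z.1| ≤ 310 * b := (abs_add_le _ _).trans (by linarith)
    calc (z.2 + μ * z.1) ^ 2 = |z.2 + μ * z.1| ^ 2 := (sq_abs _).symm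
      _ ≤ (310 * b) ^ 2 := pow_le_pow_left₀ (abs_nonneg _) h4 2
      _ = _ := by ring
  have hAr : ∫ z in Rct ε b, (dx φ z ^ 2 + ε * dp φ z ^ 2) = A2 := by
    rw [hA2]
    exact setIntegral_eq_integral_of_forall_compl_eq_zero hzero2
  have ix : IntegrableOn (fun z => dx φ z ^ 2) (Rct ε b) := by
    rw [hRct]; exact nb_integrableOn_box _ _ (cφx.pow 2)
  have ip : IntegrableOn (fun z => dp φ z ^ 2) (Rct ε b) := by
    rw [hRct]; exact nb_integrableOn_box _ _ (cφp.pow 2)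
  have hAr2 : (∫ z in Rct ε b, dx φ z ^ 2) + ε * (∫ z in Rct ε b, dp φ z ^ 2) = A2 := by
    rw [← hAr, integral_add ix (ip.const_mul _), integral_const_mul]
  have nx : 0 ≤ ∫ z in Rct ε b, dx φ z ^ 2 := integral_nonneg fun z => sq_nonneg _
  have np : 0 ≤ ∫ z in Rct ε b, dp φ z ^ 2 := integral_nonneg fun z => sq_nonneg _
  have hax : ∫ z in Rct ε b, |dx φ z| ≤
      2 * X * (10 * b) * κ + (2 * κ)⁻¹ * ∫ z in Rct ε b, dx φ z ^ 2 := by
    rw [hRct]; exact nb_int_abs hX0.le (by linarith) hκ0 cφx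
  have hap : ∫ z in Rct ε b, |dp φ z| ≤
      2 * X * (10 * b) * κ + (2 * κ)⁻¹ * ∫ z in Rct ε b, dp φ z ^ 2 := by
    rw [hRct]; exact nb_int_abs hX0.le (by linarith) hκ0 cφp
  have iax : IntegrableOn (fun z => |dx φ z|) (Rct ε b) := by
    rw [hRct]; exact nb_integrableOn_box _ _ cφx.abs
  have iap : IntegrableOn (fun z => |dp φ z|) (Rct ε b) := by
    rw [hRct]; exact nb_integrableOn_box _ _ cφp.abs
  have icc : IntegrableOn (fun _ : ℝ × ℝ => c) (Rct ε b) := by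
    rw [hRct]; exact nb_integrableOn_box _ _ continuous_const
  have isum : IntegrableOn (fun z => Cd * ε * (|dx φ z| + |dp φ z|)) (Rct ε b) :=
    (iax.add iap).const_mul _
  have hvol : (volume : Measure (ℝ × ℝ)).real (Rct ε b) = 40 * X * b := by
    rw [hRct, nb_vol_box hX0.le (by linarith)]; ring
  have hI3 : |∫ z in Rct ε b, (LL g1 g2 (fun _ => 0) (fun _ => 0) φ z - χ z * f z)
      * (z.2 + μ * z.1) ^ 2| ≤ 96100 * b ^ 2 * (40 * X * b * c +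
        Cd * ε * ((∫ z in Rct ε b, |dx φ z|) + ∫ z in Rct ε b, |dp φ z|)) := by
    have e1 : ‖∫ z in Rct ε b, (LL g1 g2 (fun _ => 0) (fun _ => 0) φ z - χ z * f z)
      * (z.2 + μ * z.1) ^ 2‖ ≤ ∫ z in Rct ε b, (96100 * b ^ 2 * (c + Cd * ε * (|dx φ z| + |dp φ z|))) := by
      refine norm_integral_le_of_norm_le ?_ ?_
      · exact (icc.add isum).const_mul _
      · refine (ae_restrict_iff' (by rw [hRct]; exact nb_measurableSet_box _ _)).2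
          (Filter.Eventually.of_forall fun z hz => ?_)
        rw [Real.norm_eq_abs, abs_mul, abs_of_nonneg (sq_nonneg (z.2 + μ * z.1))]
        calc _ ≤ (c + Cd * ε * (|dx φ z| + |dp φ z|)) * (96100 * b ^ 2) :=
              mul_le_mul (hpt z hz) (hζ z hz) (sq_nonneg _)
                (by positivity)
          _ = _ := by ring
    rw [Real.norm_eq_abs] at e1
    refine e1.trans (le_of_eq ?_)
    have e3 : ∫ z in Rct ε b, (c + Cd * ε * (|dx φ z| + |dp φ z|)) =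
        (∫ _z in Rct ε b, c) + ∫ z in Rct ε b, Cd * ε * (|dx φ z| + |dp φ z|) :=
      integral_add icc isum
    have e4 : ∫ z in Rct ε b, Cd * ε * (|dx φ z| + |dp φ z|) =
        Cd * ε * ((∫ z in Rct ε b, |dx φ z|) + ∫ z in Rct ε b, |dp φ z|) := by
      rw [integral_const_mul]
      congr 1
      exact integral_add iax iap
    have e5 : ∫ _z in Rct ε b, c = 40 * X * b * c := by
      rw [setIntegral_const, hvol, smul_eq_mul]
    rw [integral_const_mul, e3, e4, e5]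
  -- final computation
  have hκb : 0 < κ * b ^ 4 := by positivity
  have q2 : q ^ 2 ≤ q := by nlinarith
  have q6 : q ^ 6 ≤ q := by
    calc q ^ 6 = q * q ^ 5 := by ring
      _ ≤ q * 1 := mul_le_mul_of_nonneg_left (pow_le_one₀ hq.le hq1') hq.le
      _ = q := by ring
  have hXb : 40 * X * b * q ^ 2 = 12000 * b ^ 2 := by
    calc 40 * X * b * q ^ 2 = 40 * (X * q ^ 2) * b := by ring
      _ = _ := by rw [hXq]; ring
  have s1 : 40 * X * b * c ≤ 12000 * C2 * (κ * b ^ 2 * q) := by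
    calc 40 * X * b * c ≤ 40 * X * b * (C2 * κ * q ^ 8) :=
          mul_le_mul_of_nonneg_left hcκ (by positivity)
      _ = (40 * X * b * q ^ 2) * (C2 * κ) * q ^ 6 := by ring
      _ = (12000 * C2 * (κ * b ^ 2)) * q ^ 6 := by rw [hXb]; ring
      _ ≤ (12000 * C2 * (κ * b ^ 2)) * q := mul_le_mul_of_nonneg_left q6 (by positivity)
      _ = _ := by ring
  have s2 : ε * ((∫ z in Rct ε b, |dx φ z|) + ∫ z in Rct ε b, |dp φ z|) ≤
      (12000 + C4) * (κ * b ^ 2 * q) := by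
    have t3 : ε * ((∫ z in Rct ε b, |dx φ z|) + ∫ z in Rct ε b, |dp φ z|) ≤
        ε * (40 * X * b * κ) + κ⁻¹ * A2 := nb_alg1 hε hε1 hκ0 nx np hAr2 hax hap
    have t4 : ε * (40 * X * b * κ) ≤ 12000 * (κ * b ^ 2 * q) := by
      calc ε * (40 * X * b * κ) = (40 * X * b * q ^ 2) * κ * q ^ 2 := by rw [hqε]; ring
        _ = (12000 * (κ * b ^ 2)) * q ^ 2 := by rw [hXb]; ring
        _ ≤ (12000 * (κ * b ^ 2)) * q := mul_le_mul_of_nonneg_left q2 (by positivity)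
        _ = _ := by ring
    have t5 : κ⁻¹ * A2 ≤ C4 * (κ * b ^ 2 * q) := by
      have h1 : A2 * q ^ 4 ≤ (C4 * (κ * b ^ 2 * q)) * κ * q ^ 4 := by
        refine hA2le.trans ?_
        have hb2 : b ^ 2 ≤ q ^ 5 := by
          calc b ^ 2 ≤ (q ^ 12) ^ 2 := pow_le_pow_left₀ hb.le hbq 2
            _ = q ^ 5 * q ^ 19 := by ring
            _ ≤ q ^ 5 * 1 := mul_le_mul_of_nonneg_left (pow_le_one₀ hq.le hq1') (by positivity)
            _ = q ^ 5 := by ring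
        calc C4 * (κ * b ^ 2) ^ 2 = (C4 * κ ^ 2 * b ^ 2) * b ^ 2 := by ring
          _ ≤ (C4 * κ ^ 2 * b ^ 2) * q ^ 5 := mul_le_mul_of_nonneg_left hb2 (by positivity)
          _ = _ := by ring
      have h2 : A2 ≤ (C4 * (κ * b ^ 2 * q)) * κ := le_of_mul_le_mul_right h1 (by positivity)
      rw [inv_mul_le_iff₀ hκ0]
      linarith
    nlinarith
  have s3 : Cd * ε * ((∫ z in Rct ε b, |dx φ z|) + ∫ z in Rct ε b, |dp φ z|) ≤
      Cd * ((12000 + C4) * (κ * b ^ 2 * q)) := by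
    rw [mul_assoc]
    exact mul_le_mul_of_nonneg_left s2 hCd
  have hfin : κ * b ^ 4 / 32 ≤ Cp * √C4 * (κ * b ^ 4 * q) + 96100 * b ^ 2 *
      (12000 * C2 * (κ * b ^ 2 * q) + Cd * ((12000 + C4) * (κ * b ^ 2 * q))) := by
    have h1 := (abs_le.1 hpair).1
    rw [hI1] at h1
    have h2 := (abs_le.1 hI3).2
    have h3 : 96100 * b ^ 2 * (40 * X * b * c +
        Cd * ε * ((∫ z in Rct ε b, |dx φ z|) + ∫ z in Rct ε b, |dp φ z|)) ≤ 96100 * b ^ 2 *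
      (12000 * C2 * (κ * b ^ 2 * q) + Cd * ((12000 + C4) * (κ * b ^ 2 * q))) :=
      mul_le_mul_of_nonneg_left (by linarith) (by positivity)
    linarith
  have e1 : Cp * √C4 * (κ * b ^ 4 * q) + 96100 * b ^ 2 *
      (12000 * C2 * (κ * b ^ 2 * q) + Cd * ((12000 + C4) * (κ * b ^ 2 * q))) =
      (nbCtot Cχ Cd C3 Ce Cp * q) * (κ * b ^ 4) := by
    unfold nbCtot
    rw [← hC4def, ← hC2def]; ring
  rw [e1] at hfin
  have : (1 / 32) * (κ * b ^ 4) ≤ (nbCtot Cχ Cd C3 Ce Cp * q) * (κ * b ^ 4) := by linarith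
  exact le_of_mul_le_mul_right this hκb

/-! ### continuity of the operator -/

theorem nb_E0_ne {δ : ℝ} (S : Sol δ) (z : ℝ × ℝ) : E0 S.ϖ S.ε (z.1, dp S.w z) ≠ 0 := by
  have := (abs_le.1 (S.bdd z)).2
  unfold E0
  simp only
  intro h
  linarith

theorem nb_opE_continuous {δ : ℝ} (S : Sol δ) (h1 : Continuous (G1 S.ϖ S.ε S.w))
    (h2 : Continuous (G2 S.ϖ S.ε S.w)) : Continuous (fun z => opE S.ϖ (E0 S.ϖ S.ε) S.w z) := by
  have e : (fun z => opE S.ϖ (E0 S.ϖ S.ε) S.w z) = fun z => dx (dx S.w) z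
      + G1 S.ϖ S.ε S.w z * dp (dx S.w) z + G2 S.ϖ S.ε S.w z * dp (dp S.w) z
      + G3 S.ϖ S.ε S.w z := by
    funext z
    exact opE_E0 S.ϖ_pos S.w z (nb_E0_ne S z)
  rw [e]
  have u1 := (cd_dx (cd_dx S.smooth)).continuous
  have u2 := (cd_dp (cd_dx S.smooth)).continuous
  have u3 := (cd_dp (cd_dp S.smooth)).continuous
  have u4 := (cd_dp S.smooth).continuous
  have u5 := (cd_dx S.smooth).continuous
  have u6 := (sol_dd_smooth S).continuous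
  have u7 : Continuous (G3 S.ϖ S.ε S.w) := by
    unfold G3 Px Py
    fun_prop
  exact ((u1.add (h1.mul u2)).add (h2.mul u3)).add u7

set_option maxHeartbeats 1000000 in
/-- **Nonexistence**, given the hypotheses on the coefficients -/
theorem no_bsol_of (hsol : ∃ δ₀ : ℝ, 0 < δ₀ ∧ ∃ ε₀ : ℝ, 0 < ε₀ ∧ ∀ δ : ℝ, δ ≤ δ₀ →
    ∀ S : Sol δ, S.ε ≤ ε₀ → Hyp S.ε S.b (G1 S.ϖ S.ε S.w) (G2 S.ϖ S.ε S.w)) (n : ℕ) :
    ∃ δ : ℝ, 0 < δ ∧ ∃ ε₁ : ℝ, 0 < ε₁ ∧ ∀ S : BSol n δ, S.ε ≤ ε₁ → False := by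
  obtain ⟨δh, hδh, εh, hεh, hsol⟩ := hsol
  obtain ⟨δa, hδa, -, εa, hεa, happ⟩ := approx (2 * n + 2 + 8)
  obtain ⟨δs, hδs, εs, hεs, Cs, hCs, hsrc⟩ := source
  obtain ⟨δm, hδm, εm, hεm, hmain⟩ := main_term
  obtain ⟨Cχ, hCχ, hcut⟩ := exists_cutoff_rct
  obtain ⟨Cd, hCd, εd, hεd, hdiff⟩ := opE_diff
  obtain ⟨εe, hεe, Ce, hCe, hen⟩ := energy_lin Cd hCd.le
  obtain ⟨εp, hεp, Cp, hCp, hpair⟩ := pairing_lin
  obtain ⟨CP, hCP⟩ := P1_deriv_bdd 0 2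
  have hCP0 : 0 ≤ CP := (abs_nonneg _).trans (hCP 0)
  set C3 := Cs + 2 * CP with hC3def
  have hC3 : 0 ≤ C3 := by positivity
  set Ctot := nbCtot Cχ Cd C3 Ce Cp with hCtot
  have hCtot0 : 0 ≤ Ctot := by
    rw [hCtot]; unfold nbCtot nbC4 nbC2; positivity
  set q1 := min (1 / 10) (1 / (64 * (Ctot + 1))) with hq1def
  have hq1pos : 0 < q1 := by positivity
  obtain ⟨δ, hδ0, d1, d2, d3, d4, d5⟩ : ∃ δ : ℝ, 0 < δ ∧ δ ≤ δh ∧ δ ≤ δa ∧ δ ≤ δs ∧ δ ≤ δm ∧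
      δ ≤ 1 / 10 :=
    ⟨min (min δh δa) (min (min δs δm) (1 / 10)), by positivity,
      (min_le_left _ _).trans (min_le_left _ _), (min_le_left _ _).trans (min_le_right _ _),
      (min_le_right _ _).trans ((min_le_left _ _).trans (min_le_left _ _)),
      (min_le_right _ _).trans ((min_le_left _ _).trans (min_le_right _ _)),
      (min_le_right _ _).trans (min_le_right _ _)⟩
  refine ⟨δ, hδ0,
    min (min (min εh εa) (min εs εm)) (min (min εd εe) (min εp (q1 ^ 4))), by positivity, ?_⟩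
  intro S hSε
  simp only [le_min_iff] at hSε
  obtain ⟨⟨⟨hh1, hh2⟩, hh3, hh4⟩, ⟨hh5, hh6⟩, hh7, hh8⟩ := hSε
  have hε := S.ε_pos
  have hb : 0 < S.b := S.toSol.b_pos
  have hb1 : S.b ≤ 1 := S.toSol.b_le_one
  have hbε := S.b_ge
  have hbε3 := S.b_le
  have hε1 : S.ε ≤ 1 := S.ε_le.trans (by norm_num)
  have hκ : S.ε ^ (2 * n) ≤ S.κ := S.κ_ge
  have hκ0 : 0 < S.κ := lt_of_lt_of_le (by positivity) hκ
  -- the root
  set q := S.ε ^ (1 / 4 : ℝ) with hqdef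
  have hq : 0 < q := Real.rpow_pos_of_pos hε _
  have hq4 : S.ε = q ^ 4 := by
    rw [hqdef, ← Real.rpow_natCast, ← Real.rpow_mul hε.le]; norm_num
  have hq3 : S.ε ^ (3 / 4 : ℝ) = q ^ 3 := by
    rw [hqdef, ← Real.rpow_natCast, ← Real.rpow_mul hε.le]; norm_num
  have hqq1 : q ≤ q1 := by
    have h := hh8
    rw [hq4] at h
    exact le_of_pow_le_pow_left₀ (by norm_num) hq1pos.le h
  have hq10 : q ≤ 1 / 10 := hqq1.trans (min_le_left _ _)
  have hsq : √S.ε = q ^ 2 := by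
    rw [hq4, show q ^ 4 = (q ^ 2) ^ 2 by ring]
    exact Real.sqrt_sq (by positivity)
  -- hypotheses
  have hH := hsol δ d1 S.toSol hh1
  obtain ⟨v, hvs, hv1, hv2, hv3⟩ := happ δ d2 S.toSol hh2
  obtain ⟨χ, hχs, hχc, hχt, hχ01, hχ1, hχd⟩ := hcut S.ε S.b hε hε1 hb hb1
  -- the disc
  have hdisc : ∀ z ∈ Rct S.ε S.b, z.1 ^ 2 + z.2 ^ 2 < 0.81 := by
    intro z hz
    have h1 : |z.1| < X1 S.ε S.b := hz.1
    have h2 : |z.2| < 10 * S.b := hz.2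
    have hbq : S.b ≤ q ^ 12 := by
      refine hbε3.trans (le_of_eq ?_)
      rw [hq4]; ring
    have hX : X1 S.ε S.b ≤ 300 * q ^ 10 := by
      unfold X1
      rw [hsq, div_le_iff₀ (by positivity)]
      nlinarith
    have hq10' : q ^ 10 ≤ (1 / 10) ^ 10 := pow_le_pow_left₀ hq.le hq10 10
    have hq12' : q ^ 12 ≤ (1 / 10) ^ 12 := pow_le_pow_left₀ hq.le hq10 12
    have h3 : |z.1| ≤ 1 / 10 := by
      norm_num at hq10'
      linarith
    have h4 : |z.2| ≤ 1 / 10 := by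
      norm_num at hq12'
      linarith
    rw [← sq_abs z.1, ← sq_abs z.2]
    have := pow_le_pow_left₀ (abs_nonneg _) h3 2
    have := pow_le_pow_left₀ (abs_nonneg _) h4 2
    norm_num at *
    linarith
  -- the functions
  set f : ℝ × ℝ → ℝ := fun z => opE S.ϖ (E0 S.ϖ S.ε) S.w z with hfdef
  set e : ℝ × ℝ → ℝ := fun z => S.w z - v z with hedef
  set φ : ℝ × ℝ → ℝ := fun z => χ z * e z with hφdef
  have hes : ContDiff ℝ ∞ e := S.smooth.sub hvs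
  have hφs : ContDiff ℝ ∞ φ := hχs.mul hes
  have hφc : HasCompactSupport φ := hχc.mul_right
  have hφt : tsupport φ ⊆ Rct S.ε S.b := (tsupport_mul_subset_left).trans hχt
  have hfc : Continuous f := nb_opE_continuous S.toSol hH.c1.continuous hH.c2.continuous
  have hdxe : ∀ z, dx e z = dx S.w z - dx v z := fun z =>
    dx_sub (diff_of_smooth S.smooth z) (diff_of_smooth hvs z)
  have hdpe : ∀ z, dp e z = dp S.w z - dp v z := fun z =>
    dp_sub (diff_of_smooth S.smooth z) (diff_of_smooth hvs z)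
  have hf0 : ∀ z ∈ Rct S.ε S.b, (S.b / 2 < |z.1| ∨ S.b < |z.2|) → f z = 0 := fun z hz hz' =>
    (hsrc n δ d3 S hh3 z (hdisc z hz)).1 hz'
  have hf1 : ∀ z ∈ Rct S.ε S.b, |f z| ≤ C3 * S.κ := by
    intro z hz
    by_cases hz' : S.b / 2 < |z.1| ∨ S.b < |z.2|
    · rw [hf0 z hz hz', abs_zero]; positivity
    · push Not at hz'
      have h1 := (hsrc n δ d3 S hh3 z (hdisc z hz)).2 ⟨by linarith [hz'.1], hz'.2⟩
      have h2 : |dp (dp P1) (z.1 / S.b, dp S.w z / S.b)| ≤ CP := hCP _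
      have h3 : |dp (dp S.w) z| ≤ 2 :=
        art_base_dp (i := 1) (d5.trans (by norm_num)) S.toSol (by norm_num) (hdisc z hz)
      have h4 : |S.κ * dp (dp P1) (z.1 / S.b, dp S.w z / S.b) * dp (dp S.w) z| ≤
          S.κ * CP * 2 := by
        rw [abs_mul, abs_mul, abs_of_pos hκ0]
        exact mul_le_mul (mul_le_mul_of_nonneg_left h2 hκ0.le) h3 (abs_nonneg _) (by positivity)
      have h5 : Cs * S.κ * S.b ^ 2 ≤ Cs * S.κ := by
        have : S.b ^ 2 ≤ 1 := pow_le_one₀ hb.le hb1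
        exact mul_le_of_le_one_right (by positivity) this
      have h6 : |f z| ≤ |f z + S.κ * dp (dp P1) (z.1 / S.b, dp S.w z / S.b) * dp (dp S.w) z|
          + |S.κ * dp (dp P1) (z.1 / S.b, dp S.w z / S.b) * dp (dp S.w) z| := by
        have := abs_sub (f z + S.κ * dp (dp P1) (z.1 / S.b, dp S.w z / S.b) * dp (dp S.w) z)
          (S.κ * dp (dp P1) (z.1 / S.b, dp S.w z / S.b) * dp (dp S.w) z)
        rwa [add_sub_cancel_right] at this
      rw [hC3def]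
      linarith
  have hpt : ∀ z ∈ Rct S.ε S.b, |LL (G1 S.ϖ S.ε S.w) (G2 S.ϖ S.ε S.w) (fun _ => 0) (fun _ => 0) φ z
      - χ z * f z| ≤
      nbC2 Cχ Cd * S.ε ^ (2 * n + 2) + Cd * S.ε * (|dx φ z| + |dp φ z|) := by
    intro z hz
    refine nb_pointwise (r := fun z => opE S.ϖ (E0 S.ϖ S.ε) v z) hε hε1 hb hb1 hbε hχs hes hH
      hCχ.le hCd.le hχ01 hχ1 hχd ?_ ?_ ?_ hz
    · intro y hy hy'
      rw [hdxe, hdpe]
      exact hv3 y hy (by
        rcases hy' with h | h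
        · exact Or.inl h
        · exact Or.inr h)
    · intro y hy
      rw [hdxe, hdpe]
      obtain ⟨k1, k2, k3, k4⟩ := hv1 y hy
      exact hdiff δ d5 S.toSol hh5 v hvs y hy k1 k2 k3 k4
    · intro y hy
      exact hv2 y hy
  have hC2 : 0 ≤ nbC2 Cχ Cd := by unfold nbC2; positivity
  have hRct := nb_Rct_eq S.ε S.b
  have hFc : Continuous (fun z => |f z| + nbC2 Cχ Cd * S.ε ^ (2 * n + 2)) :=
    hfc.abs.add continuous_const
  have hE := hen S.ε S.b hε hh6 hb hbε3 (G1 S.ϖ S.ε S.w) (G2 S.ϖ S.ε S.w) φ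
    (fun z => |f z| + nbC2 Cχ Cd * S.ε ^ (2 * n + 2)) hH hφs hφc hφt hFc.continuousOn
    (by rw [hRct]; exact nb_integrableOn_box _ _ (hFc.pow 2)) (by
      intro z hz
      have h1 := hpt z hz
      have h2 : |χ z * f z| ≤ |f z| := by
        rw [abs_mul, abs_of_nonneg (hχ01 z).1]
        exact mul_le_of_le_one_left (abs_nonneg _) (hχ01 z).2
      have h3 : |LL (G1 S.ϖ S.ε S.w) (G2 S.ϖ S.ε S.w) (fun _ => 0) (fun _ => 0) φ z| ≤
          |LL (G1 S.ϖ S.ε S.w) (G2 S.ϖ S.ε S.w) (fun _ => 0) (fun _ => 0) φ z - χ z * f z|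
          + |χ z * f z| := by
        have := abs_add_le
          (LL (G1 S.ϖ S.ε S.w) (G2 S.ϖ S.ε S.w) (fun _ => 0) (fun _ => 0) φ z - χ z * f z)
          (χ z * f z)
        rwa [sub_add_cancel] at this
      linarith)
  have hP := hpair S.ε S.b hε hh7 hb hbε3 (G1 S.ϖ S.ε S.w) (G2 S.ϖ S.ε S.w) φ hH hφs hφc hφt
  rw [hq3] at hP
  -- the slope
  have h0R : (0 : ℝ × ℝ) ∈ Rct S.ε S.b := by
    constructor
    · simp only [Prod.fst_zero, abs_zero]; unfold X1; positivity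
    · simp only [Prod.snd_zero, abs_zero]; positivity
  have hg20 := abs_le.1 (hH.h2 0 h0R)
  have hμ : 0 ≤ √(-G2 S.ϖ S.ε S.w 0) := Real.sqrt_nonneg _
  have hμ1 : √(-G2 S.ϖ S.ε S.w 0) ≤ q ^ 2 := by
    rw [← hsq]
    exact Real.sqrt_le_sqrt (by linarith [hg20.1])
  have hμ2 : √(-G2 S.ϖ S.ε S.w 0) ≤ 1 := hμ1.trans (pow_le_one₀ hq.le (by linarith))
  have hM := hmain n δ d4 S hh4 _ hμ hμ2
  have hfinal := nb_core hq hq10 hq4 hb hbε3 hκ hμ hμ1 hCχ.le hCd.le hCe.le hCp.le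
    hH.c1.continuous hH.c2.continuous hφs hχs.continuous hfc hφt hχ1 hf0 hf1 hpt hE hP hM
  have hlast : nbCtot Cχ Cd C3 Ce Cp * q ≤ 1 / 64 := by
    rw [← hCtot]
    have h1 : q ≤ 1 / (64 * (Ctot + 1)) := hqq1.trans (min_le_right _ _)
    calc Ctot * q ≤ Ctot * (1 / (64 * (Ctot + 1))) := mul_le_mul_of_nonneg_left h1 hCtot0
      _ ≤ 1 / 64 := by
        rw [mul_one_div, div_le_div_iff₀ (by positivity) (by norm_num)]
        nlinarith
  linarith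

end Crest.Agent.Iso
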