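import Crest.Agent.Iso.Bump
import Crest.Agent.Iso.Energy
import Crest.Agent.Iso.NoBAux

/-!
# Row 220: there are no solutions of the bumped equation
-/

set_option autoImplicit false

open scoped ContDiff
open MeasureTheory Set

namespace Crest.Agent.Iso

/-- coefficients of solutions satisfy the hypotheses in the small rectangle -/
theorem sol_hyp : ∃ δ₀ : ℝ, 0 < δ₀ ∧ ∃ ε₀ : ℝ, 0 < ε₀ ∧ ∀ δ : ℝ, δ ≤ δ₀ → ∀ S : Sol δ, S.ε ≤ ε₀ →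
    Hyp S.ε S.b (G1 S.ϖ S.ε S.w) (G2 S.ϖ S.ε S.w) := by
  obtain ⟨δ₀, hδ₀, ε₀, hε₀, hs⟩ := sol_small (σ := 1 / 16) (by norm_num)
  refine ⟨δ₀, hδ₀, ε₀, hε₀, fun δ hδ S hSε => ?_⟩
  have hε := S.ε_pos
  have hsm : ∀ z ∈ Rct S.ε S.b, |z.1| ≤ 1 / 10 ∧ |z.2| ≤ 1 / 10 := fun z hz =>
    ea_Rct_small S.ε_pos S.ε_le S.b_pos S.b_le hz
  have key := fun z (hz : z ∈ Rct S.ε S.b) => hs δ hδ S hSε 0 z (ea_disc (hsm z hz))
  have hd := sol_dd_smooth S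
  have hw := cd_dp S.smooth
  have hv := cd_dx S.smooth
  have s1 : ContDiff ℝ ∞ (G1 S.ϖ S.ε S.w) := by
    unfold G1 Py; fun_prop
  have s2 : ContDiff ℝ ∞ (G2 S.ϖ S.ε S.w) := by
    unfold G2 Py kk; fun_prop
  refine ⟨s1.of_le (by exact_mod_cast le_top), s2.of_le (by exact_mod_cast le_top), ?_, ?_, ?_,
    ?_, ?_, ?_⟩
  · intro z hz
    linarith [(key z hz).h1]
  · intro z hz
    linarith [(key z hz).h1x]
  · intro z hz
    linarith [(key z hz).h1p]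
  · intro z hz
    have h := abs_le.1 (key z hz).h2
    obtain ⟨b1, b2⟩ := hsm z hz
    have q1 := pow_le_pow_left₀ (abs_nonneg _) b1 2
    have q2 := pow_le_pow_left₀ (abs_nonneg _) b2 2
    rw [sq_abs] at q1 q2
    have q3 : S.ε * (z.1 ^ 2 + z.2 ^ 2) ≤ S.ε * (2 / 100) :=
      mul_le_mul_of_nonneg_left (by norm_num at q1 q2; linarith) hε.le
    have q4 : 0 ≤ S.ε * (z.1 ^ 2 + z.2 ^ 2) := by positivity
    rw [abs_le]
    constructor <;> linarith [h.1, h.2]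
  · intro z hz
    have h := abs_le.1 (key z hz).h2x
    obtain ⟨b1, -⟩ := hsm z hz
    have q3 : |2 * S.ε * z.1| ≤ 2 * S.ε * (1 / 10) := by
      rw [abs_mul, abs_of_pos (by positivity : 0 < 2 * S.ε)]
      exact mul_le_mul_of_nonneg_left b1 (by positivity)
    have q4 := abs_le.1 q3
    rw [abs_le]
    constructor <;> linarith [h.1, h.2, q4.1, q4.2]
  · intro z hz
    have h := abs_le.1 (key z hz).h2p
    obtain ⟨-, b1⟩ := hsm z hz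
    have q3 : |2 * S.ε * z.2| ≤ 2 * S.ε * (1 / 10) := by
      rw [abs_mul, abs_of_pos (by positivity : 0 < 2 * S.ε)]
      exact mul_le_mul_of_nonneg_left b1 (by positivity)
    have q4 := abs_le.1 q3
    rw [abs_le]
    constructor <;> linarith [h.1, h.2, q4.1, q4.2]

/-- **Nonexistence.**  `e = w - v`, `φ = χ e`.  `LL φ = opE0 w - χ N + tiny`, `|N| ≤ C ε (|e_x|+|e_p|)`.
`energy_lin` with `F = |opE0 w| + ε^{N'}`: `A := (∫ φ_x² + ε φ_p²)^{1/2} ≤ C X1 κ b`.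
`pairing_lin`: `|∫ LL φ ζ| ≤ C b² ε^{3/4} A ≤ C κ b⁴ ε^{1/4}`, and
`∫ LL φ ζ = ∫ opE0 w ζ + O(ε b³ ε^{-1/4} ε^{-1/2} A) + tiny`, `∫ opE0 w ζ ≤ - κ b⁴/32` (`main_term`). -/
theorem no_bsol (n : ℕ) : ∃ δ : ℝ, 0 < δ ∧ ∃ ε₁ : ℝ, 0 < ε₁ ∧ ∀ S : BSol n δ, S.ε ≤ ε₁ → False :=
  no_bsol_of sol_hyp n

end Crest.Agent.Iso
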