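import Crest.Agent.Iso.BDef

/-!
# Row 220, part B: zoom near a flat point
-/

set_option autoImplicit false

open scoped ContDiff
open MeasureTheory Set

namespace Crest.Agent.Iso

/-- the rescaled map `F̃(X,Y) = r⁻¹ (F(q + rX e + rY rot e) - F(q))` -/
noncomputable def zoomF (F : E2 → E3) (q e : E2) (r : ℝ) (z : ℝ × ℝ) : E3 :=
  r⁻¹ • (F (q + (r * z.1) • e + (r * z.2) • rot e) - F q)

/-- the affine chart -/
private noncomputable def aff (q e : E2) (r : ℝ) (z : ℝ × ℝ) : E2 :=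
  q + (r * z.1) • e + (r * z.2) • rot e

private theorem contDiff_aff (q e : E2) (r : ℝ) : ContDiff ℝ ∞ (aff q e r) := by
  unfold aff
  fun_prop

/-- the linear part of the chart -/
private noncomputable def affL (e : E2) (r : ℝ) : ℝ × ℝ →L[ℝ] E2 :=
  r • ((ContinuousLinearMap.fst ℝ ℝ ℝ).smulRight e + (ContinuousLinearMap.snd ℝ ℝ ℝ).smulRight (rot e))

private theorem hasFDerivAt_aff (q e : E2) (r : ℝ) (z : ℝ × ℝ) :
    HasFDerivAt (aff q e r) (affL e r) z := by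
  have h : aff q e r = fun z => affL e r z + q := by
    funext z
    simp only [aff, affL, _root_.smul_apply, _root_.add_apply,
      ContinuousLinearMap.smulRight_apply, ContinuousLinearMap.coe_fst',
      ContinuousLinearMap.coe_snd', smul_add, smul_smul]
    abel
  rw [h]
  exact (affL e r).hasFDerivAt.add_const q

private theorem affL_one (e : E2) (r : ℝ) : affL e r (1, 0) = r • e := by
  simp [affL]

private theorem affL_two (e : E2) (r : ℝ) : affL e r (0, 1) = r • rot e := by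
  simp [affL]

theorem contDiff_zoomF {F : E2 → E3} (hF : ContDiff ℝ ∞ F) (q e : E2) (r : ℝ) :
    ContDiff ℝ ∞ (zoomF F q e r) := by
  have h : zoomF F q e r = fun z => r⁻¹ • (F (aff q e r z) - F q) := rfl
  rw [h]
  have h1 : ContDiff ℝ ∞ (fun z => F (aff q e r z) - F q) :=
    (hF.comp (contDiff_aff q e r)).sub contDiff_const
  exact h1.const_smul r⁻¹

theorem fderiv_zoomF {F : E2 → E3} (hF : ContDiff ℝ ∞ F) (q e : E2) {r : ℝ} (hr : 0 < r)
    (z : ℝ × ℝ) :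
    fderiv ℝ (zoomF F q e r) z (1, 0) = fderiv ℝ F (q + (r * z.1) • e + (r * z.2) • rot e) e ∧
    fderiv ℝ (zoomF F q e r) z (0, 1) =
      fderiv ℝ F (q + (r * z.1) • e + (r * z.2) • rot e) (rot e) := by
  have h : zoomF F q e r = fun z => r⁻¹ • (F (aff q e r z) - F q) := rfl
  have h1 : HasFDerivAt (zoomF F q e r)
      (r⁻¹ • ((fderiv ℝ F (aff q e r z)).comp (affL e r))) z := by
    rw [h]
    have hd : HasFDerivAt F (fderiv ℝ F (aff q e r z)) (aff q e r z) :=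
      (hF.differentiable (by simp) _).hasFDerivAt
    have h2 : HasFDerivAt (fun z => F (aff q e r z) - F q)
      ((fderiv ℝ F (aff q e r z)).comp (affL e r)) z :=
      (hd.comp z (hasFDerivAt_aff q e r z)).sub_const _
    exact h2.const_smul r⁻¹
  rw [h1.fderiv]
  have hr' : r⁻¹ * r = 1 := inv_mul_cancel₀ hr.ne'
  constructor
  · rw [_root_.smul_apply, ContinuousLinearMap.comp_apply, affL_one, map_smul,
      smul_smul, hr', one_smul]
    rfl
  · rw [_root_.smul_apply, ContinuousLinearMap.comp_apply, affL_two, map_smul,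
      smul_smul, hr', one_smul]
    rfl

/-- existence of a unit normal -/
theorem exists_normal (A : E2 →L[ℝ] E3) (N : E3) : ∃ N0 : E3, ‖N0‖ = 1 ∧
    (∀ v : E2, inner ℝ (A v) N0 = (0 : ℝ)) ∧ (0 : ℝ) ≤ inner ℝ N N0 := by
  have h1 : Module.finrank ℝ (LinearMap.range (A : E2 →ₗ[ℝ] E3)) ≤ 2 := by
    have := LinearMap.finrank_range_le (A : E2 →ₗ[ℝ] E3)
    simpa using this
  have h2 := Submodule.finrank_add_finrank_orthogonal (LinearMap.range (A : E2 →ₗ[ℝ] E3))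
  rw [finrank_euclideanSpace_fin] at h2
  have h3 : 0 < Module.finrank ℝ ((LinearMap.range (A : E2 →ₗ[ℝ] E3))ᗮ : Submodule ℝ E3) := by
    omega
  have h4 : ((LinearMap.range (A : E2 →ₗ[ℝ] E3))ᗮ : Submodule ℝ E3) ≠ ⊥ := by
    intro h
    rw [h, finrank_bot] at h3
    exact lt_irrefl _ h3
  obtain ⟨w, hw, hw0⟩ := Submodule.exists_mem_ne_zero_of_ne_bot h4
  rw [Submodule.mem_orthogonal] at hw
  have hw' : ∀ v : E2, inner ℝ (A v) w = (0 : ℝ) := fun v => hw _ ⟨v, rfl⟩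
  have hn : ‖w‖ ≠ 0 := norm_ne_zero_iff.2 hw0
  by_cases hs : (0 : ℝ) ≤ inner ℝ N w
  · refine ⟨‖w‖⁻¹ • w, ?_, fun v => ?_, ?_⟩
    · rw [norm_smul, norm_inv, norm_norm, inv_mul_cancel₀ hn]
    · rw [real_inner_smul_right, hw' v, mul_zero]
    · rw [real_inner_smul_right]
      exact mul_nonneg (by positivity) hs
  · refine ⟨-(‖w‖⁻¹ • w), ?_, fun v => ?_, ?_⟩
    · rw [norm_neg, norm_smul, norm_inv, norm_norm, inv_mul_cancel₀ hn]
    · rw [inner_neg_right, real_inner_smul_right, hw' v, mul_zero, neg_zero]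
    · rw [inner_neg_right, real_inner_smul_right]
      push Not at hs
      have : ‖w‖⁻¹ * inner ℝ N w ≤ 0 := mul_nonpos_of_nonneg_of_nonpos (by positivity) hs.le
      linarith

/-- directional derivative -/
private noncomputable def Dv (v : E2) (G : E2 → ℝ) : E2 → ℝ := fun x => fderiv ℝ G x v

private theorem cd_Dv {G : E2 → ℝ} (hG : ContDiff ℝ ∞ G) (v : E2) : ContDiff ℝ ∞ (Dv v G) := by
  unfold Dv
  exact (hG.fderiv_right (m := ∞) (by simp)).clm_apply contDiff_const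

private theorem cd_Dv_iter {G : E2 → ℝ} (hG : ContDiff ℝ ∞ G) (v : E2) (n : ℕ) :
    ContDiff ℝ ∞ ((Dv v)^[n] G) := by
  induction n generalizing G with
  | zero => simpa using hG
  | succ n ih => rw [Function.iterate_succ_apply]; exact ih (cd_Dv hG v)

private theorem norm_Dv {G : E2 → ℝ} (hG : ContDiff ℝ ∞ G) {v : E2} (hv : ‖v‖ = 1) (k : ℕ)
    (x : E2) : ‖iteratedFDeriv ℝ k (Dv v G) x‖ ≤ ‖iteratedFDeriv ℝ (k + 1) G x‖ := by
  have h := norm_iteratedFDeriv_clm_apply_const (𝕜 := ℝ) (f := fderiv ℝ G) (c := v) (x := x)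
    (N := ∞) (n := k) (hG.fderiv_right (m := ∞) (by simp)).contDiffAt (by exact_mod_cast le_top)
  rw [hv, one_mul, norm_iteratedFDeriv_fderiv] at h
  exact h

private theorem norm_Dv_iter {G : E2 → ℝ} (hG : ContDiff ℝ ∞ G) {v : E2} (hv : ‖v‖ = 1) (n k : ℕ)
    (x : E2) : ‖iteratedFDeriv ℝ k ((Dv v)^[n] G) x‖ ≤ ‖iteratedFDeriv ℝ (k + n) G x‖ := by
  induction n generalizing k with
  | zero => simp
  | succ n ih =>
    rw [Function.iterate_succ_apply']
    refine (norm_Dv (cd_Dv_iter hG v n) hv k x).trans ((ih (k + 1)).trans (le_of_eq ?_))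
    rw [show k + 1 + n = k + (n + 1) by ring]

private theorem dx_comp_aff {G : E2 → ℝ} (hG : ContDiff ℝ ∞ G) (q e : E2) (r : ℝ) :
    dx (fun z => G (aff q e r z)) = fun z => r * Dv e G (aff q e r z) := by
  funext z
  have hd : HasFDerivAt G (fderiv ℝ G (aff q e r z)) (aff q e r z) :=
    (hG.differentiable (by simp) _).hasFDerivAt
  have h := hd.comp z (hasFDerivAt_aff q e r z)
  have h' : HasFDerivAt (fun z => G (aff q e r z))
    ((fderiv ℝ G (aff q e r z)).comp (affL e r)) z := h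
  simp only [dx, Dv]
  rw [h'.fderiv, ContinuousLinearMap.comp_apply, affL_one, map_smul, smul_eq_mul]

private theorem dp_comp_aff {G : E2 → ℝ} (hG : ContDiff ℝ ∞ G) (q e : E2) (r : ℝ) :
    dp (fun z => G (aff q e r z)) = fun z => r * Dv (rot e) G (aff q e r z) := by
  funext z
  have hd : HasFDerivAt G (fderiv ℝ G (aff q e r z)) (aff q e r z) :=
    (hG.differentiable (by simp) _).hasFDerivAt
  have h := hd.comp z (hasFDerivAt_aff q e r z)
  have h' : HasFDerivAt (fun z => G (aff q e r z))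
    ((fderiv ℝ G (aff q e r z)).comp (affL e r)) z := h
  simp only [dp, Dv]
  rw [h'.fderiv, ContinuousLinearMap.comp_apply, affL_two, map_smul, smul_eq_mul]

private theorem cd_comp_aff {G : E2 → ℝ} (hG : ContDiff ℝ ∞ G) (q e : E2) (r : ℝ) :
    ContDiff ℝ ∞ (fun z => G (aff q e r z)) := hG.comp (contDiff_aff q e r)

private theorem dx_iter_aff {G : E2 → ℝ} (hG : ContDiff ℝ ∞ G) (q e : E2) (r : ℝ) (n : ℕ) :
    dx^[n] (fun z => G (aff q e r z)) = fun z => r ^ n * (Dv e)^[n] G (aff q e r z) := by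
  induction n generalizing G with
  | zero => funext z; simp
  | succ n ih =>
    rw [Function.iterate_succ_apply, dx_comp_aff hG,
      dx_iter_const_mul (cd_comp_aff (cd_Dv hG e) q e r), ih (cd_Dv hG e)]
    funext z
    rw [Function.iterate_succ_apply]
    ring

private theorem dp_iter_aff {G : E2 → ℝ} (hG : ContDiff ℝ ∞ G) (q e : E2) (r : ℝ) (n : ℕ) :
    dp^[n] (fun z => G (aff q e r z)) = fun z => r ^ n * (Dv (rot e))^[n] G (aff q e r z) := by
  induction n generalizing G with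
  | zero => funext z; simp
  | succ n ih =>
    rw [Function.iterate_succ_apply, dp_comp_aff hG,
      dp_iter_const_mul (cd_comp_aff (cd_Dv hG _) q e r), ih (cd_Dv hG _)]
    funext z
    rw [Function.iterate_succ_apply]
    ring

private theorem dxp_iter_aff {G : E2 → ℝ} (hG : ContDiff ℝ ∞ G) (q e : E2) (r : ℝ) (a i : ℕ) :
    dx^[a] (dp^[i] (fun z => G (aff q e r z))) =
      fun z => r ^ (a + i) * (Dv e)^[a] ((Dv (rot e))^[i] G) (aff q e r z) := by
  rw [dp_iter_aff hG, dx_iter_const_mul (cd_comp_aff (cd_Dv_iter hG _ i) q e r),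
    dx_iter_aff (cd_Dv_iter hG _ i)]
  funext z
  ring

private theorem dx_sq : dx (fun z : ℝ × ℝ => z.2 ^ 2 / 2) = fun _ => 0 := by
  funext z
  have := dx_mul (f := fun z : ℝ × ℝ => z.2) (g := fun z : ℝ × ℝ => z.2 / 2) (z := z)
    (by fun_prop) (by fun_prop)
  have h2 : dx (fun z : ℝ × ℝ => z.2 / 2) z = 0 := by
    have := dx_mul (f := fun z : ℝ × ℝ => z.2) (g := fun z : ℝ × ℝ => (1 / 2 : ℝ)) (z := z)
      (by fun_prop) (by fun_prop)
    rw [dx_snd, dx_const] at this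
    simpa [div_eq_mul_inv] using this
  rw [dx_snd, h2] at this
  have e : (fun z : ℝ × ℝ => z.2 ^ 2 / 2) = fun z => z.2 * (z.2 / 2) := by funext z; ring
  rw [e, this]; simp

private theorem dp_sq : dp (fun z : ℝ × ℝ => z.2 ^ 2 / 2) = fun z => z.2 := by
  funext z
  have := dp_mul (f := fun z : ℝ × ℝ => z.2) (g := fun z : ℝ × ℝ => z.2 / 2) (z := z)
    (by fun_prop) (by fun_prop)
  have h2 : dp (fun z : ℝ × ℝ => z.2 / 2) z = 1 / 2 := by
    have := dp_mul (f := fun z : ℝ × ℝ => z.2) (g := fun z : ℝ × ℝ => (1 / 2 : ℝ)) (z := z)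
      (by fun_prop) (by fun_prop)
    rw [dp_snd, dp_const] at this
    simpa [div_eq_mul_inv] using this
  rw [dp_snd, h2] at this
  have e : (fun z : ℝ × ℝ => z.2 ^ 2 / 2) = fun z => z.2 * (z.2 / 2) := by funext z; ring
  rw [e, this]; ring

/-- derivatives of order `≥ 3` of `y²/2` vanish -/
private theorem iter_sq {a i : ℕ} (h : 3 ≤ a + i) :
    dx^[a] (dp^[i] (fun z : ℝ × ℝ => z.2 ^ 2 / 2)) = fun _ => 0 := by
  have z1 : ∀ n, dx^[n] (fun _ : ℝ × ℝ => (0 : ℝ)) = fun _ => 0 := by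
    intro n
    induction n with
    | zero => rfl
    | succ n ih => rw [Function.iterate_succ_apply, dx_const, ih]
  have z2 : ∀ n, dp^[n] (fun _ : ℝ × ℝ => (0 : ℝ)) = fun _ => 0 := by
    intro n
    induction n with
    | zero => rfl
    | succ n ih => rw [Function.iterate_succ_apply, dp_const, ih]
  have e1 := dx_sq
  have e2 := dp_sq
  match i with
  | 0 =>
    obtain ⟨a, rfl⟩ : ∃ b, a = b + 1 := ⟨a - 1, by omega⟩
    rw [Function.iterate_zero, id, Function.iterate_succ_apply, e1, z1]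
  | 1 =>
    obtain ⟨a, rfl⟩ : ∃ b, a = b + 1 := ⟨a - 1, by omega⟩
    rw [Function.iterate_one, e2, Function.iterate_succ_apply, dx_snd, z1]
  | 2 =>
    obtain ⟨a, rfl⟩ : ∃ b, a = b + 1 := ⟨a - 1, by omega⟩
    rw [Function.iterate_succ_apply, Function.iterate_succ_apply, Function.iterate_one, e2, dp_snd,
      dx_const, z1]
  | i + 3 =>
    rw [Function.iterate_succ_apply, Function.iterate_succ_apply, Function.iterate_succ_apply, e2,
      dp_snd, dp_const, z2, z1]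

/-- integration on the open square -/
private theorem sq_bound {h : ℝ × ℝ → ℝ} (hh : ContDiff ℝ ∞ h) {K : ℝ} (h0 : h 0 = 0)
    (hx : ∀ z : ℝ × ℝ, |z.1| < 1 → |z.2| < 1 → |dx h z| ≤ K)
    (hp : ∀ z : ℝ × ℝ, |z.1| < 1 → |z.2| < 1 → |dp h z| ≤ K) :
    ∀ z : ℝ × ℝ, |z.1| < 1 → |z.2| < 1 → |h z| ≤ 2 * K := by
  intro z hz1 hz2
  have hK : 0 ≤ K := (abs_nonneg _).trans (hx z hz1 hz2)
  have hmem : ∀ y : ℝ × ℝ, y ∈ Metric.ball (0 : ℝ × ℝ) 1 ↔ |y.1| < 1 ∧ |y.2| < 1 := by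
    intro y
    rw [mem_ball_zero_iff, Prod.norm_def, max_lt_iff, Real.norm_eq_abs, Real.norm_eq_abs]
  have hb : ∀ y ∈ Metric.ball (0 : ℝ × ℝ) 1, ‖fderiv ℝ h y‖ ≤ 2 * K := by
    intro y hy
    rw [hmem] at hy
    refine ContinuousLinearMap.opNorm_le_bound _ (by positivity) (fun v => ?_)
    rw [fderiv_eq_dx_dp, Real.norm_eq_abs]
    have hv1 : |v.1| ≤ ‖v‖ := norm_fst_le v
    have hv2 : |v.2| ≤ ‖v‖ := norm_snd_le v
    calc |v.1 * dx h y + v.2 * dp h y| ≤ |v.1 * dx h y| + |v.2 * dp h y| := abs_add_le _ _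
      _ = |v.1| * |dx h y| + |v.2| * |dp h y| := by rw [abs_mul, abs_mul]
      _ ≤ ‖v‖ * K + ‖v‖ * K := add_le_add
          (mul_le_mul hv1 (hx y hy.1 hy.2) (abs_nonneg _) (norm_nonneg _))
          (mul_le_mul hv2 (hp y hy.1 hy.2) (abs_nonneg _) (norm_nonneg _))
      _ = 2 * K * ‖v‖ := by ring
  have hz : z ∈ Metric.ball (0 : ℝ × ℝ) 1 := (hmem z).2 ⟨hz1, hz2⟩
  have h1 := (convex_ball (0 : ℝ × ℝ) 1).norm_image_sub_le_of_norm_fderiv_le (𝕜 := ℝ)
    (fun y _ => diff_of_smooth hh y) hb (Metric.mem_ball_self one_pos) hz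
  rw [h0, sub_zero, sub_zero, Real.norm_eq_abs] at h1
  have h2 : ‖z‖ ≤ 1 := by
    rw [mem_ball_zero_iff] at hz
    exact hz.le
  calc |h z| ≤ 2 * K * ‖z‖ := h1
    _ ≤ 2 * K * 1 := mul_le_mul_of_nonneg_left h2 (by positivity)
    _ = 2 * K := by ring

private theorem inner_E2' (x y : E2) : inner ℝ x y = x 0 * y 0 + x 1 * y 1 := by
  rw [PiLp.inner_apply, Fin.sum_univ_two]
  simp only [RCLike.inner_apply, conj_trivial]
  ring

private theorem norm_rot' (e : E2) : ‖rot e‖ = ‖e‖ := by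
  have h : ‖rot e‖ ^ 2 = ‖e‖ ^ 2 := by
    rw [← real_inner_self_eq_norm_sq, ← real_inner_self_eq_norm_sq, inner_E2', inner_E2']
    simp only [rot, Matrix.cons_val_zero, Matrix.cons_val_one, PiLp.toLp_apply]
    ring
  exact (pow_left_inj₀ (norm_nonneg _) (norm_nonneg _) two_ne_zero).1 h

private theorem inner_rot_self' (e : E2) : inner ℝ e (rot e) = (0 : ℝ) := by
  rw [inner_E2']
  simp only [rot, Matrix.cons_val_zero, Matrix.cons_val_one, PiLp.toLp_apply]
  ring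

private theorem normal_close {A B : E2 →L[ℝ] E3} {N N0 : E3} {κ : ℝ}
    (hA : ∀ v w : E2, inner ℝ (A v) (A w) = (inner ℝ v w : ℝ)) (hN : ‖N‖ = 1)
    (hAN : ∀ v : E2, inner ℝ (A v) N = (0 : ℝ)) (hN0 : ‖N0‖ = 1)
    (hB : ∀ v : E2, inner ℝ (B v) N0 = (0 : ℝ)) (hAB : ‖A - B‖ ≤ κ)
    (hpos : (0 : ℝ) ≤ inner ℝ N N0) :
    (inner ℝ N N0 : ℝ) ≤ 1 ∧ 1 - (inner ℝ N N0 : ℝ) ≤ 2 * κ ^ 2 := by
  set t : ℝ := inner ℝ N N0 with ht
  have h1 : ∀ v : E2, ‖v‖ = 1 → (inner ℝ (A v) N0 : ℝ) ^ 2 ≤ κ ^ 2 := by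
    intro v hv
    have e : (inner ℝ (A v) N0 : ℝ) = inner ℝ ((A - B) v) N0 := by
      rw [_root_.sub_apply, inner_sub_left, hB v, sub_zero]
    have h2 : |(inner ℝ (A v) N0 : ℝ)| ≤ κ := by
      rw [e]
      calc |(inner ℝ ((A - B) v) N0 : ℝ)| ≤ ‖(A - B) v‖ * ‖N0‖ := abs_real_inner_le_norm _ _
        _ ≤ (‖A - B‖ * ‖v‖) * ‖N0‖ := by gcongr; exact (A - B).le_opNorm v
        _ ≤ κ := by rw [hv, hN0]; simpa using hAB
    rw [← sq_abs]
    exact pow_le_pow_left₀ (abs_nonneg _) h2 2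
  set v1 : E2 := !₂[1, 0] with hv1
  set v2 : E2 := !₂[0, 1] with hv2
  have i11 : (inner ℝ v1 v1 : ℝ) = 1 := by rw [inner_E2']; simp [hv1]
  have i22 : (inner ℝ v2 v2 : ℝ) = 1 := by rw [inner_E2']; simp [hv2]
  have i12 : (inner ℝ v1 v2 : ℝ) = 0 := by rw [inner_E2']; simp [hv1, hv2]
  have n1 : ‖v1‖ = 1 := by
    rw [real_inner_self_eq_norm_sq] at i11
    exact (pow_eq_one_iff_of_nonneg (norm_nonneg _) two_ne_zero).1 i11
  have n2 : ‖v2‖ = 1 := by
    rw [real_inner_self_eq_norm_sq] at i22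
    exact (pow_eq_one_iff_of_nonneg (norm_nonneg _) two_ne_zero).1 i22
  have k1 := h1 v1 n1
  have k2 := h1 v2 n2
  have a11 := hA v1 v1
  have a22 := hA v2 v2
  have a12 := hA v1 v2
  rw [i11] at a11
  rw [i22] at a22
  rw [i12] at a12
  have aN1 := hAN v1
  have aN2 := hAN v2
  have iN : (inner ℝ N N : ℝ) = 1 := by rw [real_inner_self_eq_norm_sq, hN]; norm_num
  have iN0 : (inner ℝ N0 N0 : ℝ) = 1 := by rw [real_inner_self_eq_norm_sq, hN0]; norm_num
  have key : t ^ 2 = 1 - (inner ℝ (A v1) N0 : ℝ) ^ 2 - (inner ℝ (A v2) N0 : ℝ) ^ 2 := by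
    rw [ht]
    rw [inner_E3] at a11 a22 a12 aN1 aN2 iN iN0 ⊢
    rw [inner_E3, inner_E3]
    set a : Fin 3 → ℝ := fun i => A v1 i with ha
    set b : Fin 3 → ℝ := fun i => A v2 i with hb
    have g1 := gram3 (fun i => N i) (fun i => N i) a b
    have g2 := gram3 (fun i => N0 i) (fun i => N0 i) a b
    have g3 := gram3 (fun i => N i) (fun i => N0 i) a b
    simp only [ha, hb] at g1 g2 g3
    have aN1' : N 0 * A v1 0 + N 1 * A v1 1 + N 2 * A v1 2 = 0 := by linarith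
    have aN2' : N 0 * A v2 0 + N 1 * A v2 1 + N 2 * A v2 2 = 0 := by linarith
    rw [a11, a22, a12, iN, aN1', aN2'] at g1
    rw [a11, a22, a12, iN0] at g2
    rw [a11, a22, a12, aN1', aN2'] at g3
    set P := (N 0 * (A v1 1 * A v2 2 - A v1 2 * A v2 1) + N 1 * (A v1 2 * A v2 0 - A v1 0 * A v2 2) +
        N 2 * (A v1 0 * A v2 1 - A v1 1 * A v2 0)) with hP
    set Q := (N0 0 * (A v1 1 * A v2 2 - A v1 2 * A v2 1) +
        N0 1 * (A v1 2 * A v2 0 - A v1 0 * A v2 2) +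
        N0 2 * (A v1 0 * A v2 1 - A v1 1 * A v2 0)) with hQ
    clear_value P Q
    have e1 : P * P = 1 := by linarith
    have e3 : P * Q = N 0 * N0 0 + N 1 * N0 1 + N 2 * N0 2 := by linarith
    rw [← e3]
    have e4 : (P * Q) ^ 2 = (P * P) * (Q * Q) := by ring
    rw [e4, e1, g2]
    ring
  have ht2 : t ^ 2 ≤ 1 := by
    rw [key]
    have q1 := sq_nonneg (inner ℝ (A v1) N0 : ℝ)
    have q2 := sq_nonneg (inner ℝ (A v2) N0 : ℝ)
    linarith
  have ht1 : t ≤ 1 := by nlinarith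
  refine ⟨ht1, ?_⟩
  have : t ^ 2 ≤ t := by nlinarith
  linarith

/-- derivatives of order `≥ 1` do not see constants -/
private theorem iter_add_const (f : ℝ × ℝ → ℝ) (k : ℝ) {a i : ℕ} (h : 1 ≤ a + i) :
    dx^[a] (dp^[i] (fun z => f z + k)) = dx^[a] (dp^[i] f) := by
  have e1 : dx (fun z => f z + k) = dx f := by
    funext z
    simp only [dx, fderiv_add_const]
  have e2 : dp (fun z => f z + k) = dp f := by
    funext z
    simp only [dp, fderiv_add_const]
  cases i with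
  | zero =>
    obtain ⟨a, rfl⟩ : ∃ b, a = b + 1 := ⟨a - 1, by omega⟩
    simp only [Function.iterate_zero, id]
    rw [Function.iterate_succ_apply, Function.iterate_succ_apply, e1]
  | succ i =>
    rw [Function.iterate_succ_apply dp, Function.iterate_succ_apply dp, e2]

private theorem htd_aux {M d t : ℝ} (hM : 1 ≤ M) (hd : 0 ≤ d) (h : 1 - t ≤ 2 * (M * d) ^ 2)
    (ht : 0 ≤ t) : 1 - t ≤ 2 * M ^ 2 * d := by
  have hM2 : 1 ≤ M ^ 2 := one_le_pow₀ hM
  rcases le_total d 1 with h1 | h1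
  · refine h.trans ?_
    have h2 : d ^ 2 ≤ d := by nlinarith
    have h3 : M ^ 2 * d ^ 2 ≤ M ^ 2 * d := mul_le_mul_of_nonneg_left h2 (by linarith)
    rw [mul_pow]
    linarith
  · have h3 : 1 * 1 ≤ M ^ 2 * d := mul_le_mul hM2 h1 zero_le_one (by linarith)
    linarith

private theorem ang_aux {σ t δ2 A : ℝ} (hσ : |σ| ≤ 1) (h1 : 1 - σ = δ2 ^ 2 / 2) (hδ : 0 ≤ δ2)
    (hδ2 : δ2 ≤ 2) (ht0 : 0 ≤ t) (ht1 : t ≤ 1) (htd : 1 - t ≤ A) :
    |(σ * σ) * t - 1| ≤ 2 * δ2 + A := by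
  obtain ⟨g1, g2⟩ := abs_le.1 hσ
  have g0 : 0 ≤ σ * σ := mul_self_nonneg σ
  have g3 : σ * σ ≤ 1 := by nlinarith
  have g4 : (σ * σ) * t ≤ 1 * 1 := mul_le_mul g3 ht1 ht0 zero_le_one
  have g5 : 1 - σ ≤ δ2 := by rw [h1]; nlinarith
  have g6 : (σ * σ) * (1 - t) ≤ 1 * (1 - t) := mul_le_mul_of_nonneg_right g3 (by linarith)
  have g7 : 1 - σ * σ ≤ 2 * (1 - σ) := by nlinarith
  rw [abs_le]
  constructor <;> linarith

set_option maxHeartbeats 2000000 in
/-- **Zoom.**  `u(X,Y) = ⟪F̃(X,Y), N0⟫ / (r Λ)` is close to `Y²/2` in `C^12` on the square.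
Orders `≥ 3`: `r^{k-2} M / Λ`.  Order `2`: compare `D²F` at `q + ..` and at `p`
(`≤ M (‖q-p‖ + 2r)`), `⟪N,N0⟫ ≥ 1 - 2 M² ‖q-p‖²`, `|⟪e',e⟫| ≤ ‖rot e' - e‖`.  Orders `0, 1`: integrate. -/
theorem zoom_close (M Λ₀ : ℝ) (hM : 1 ≤ M) (hΛ₀ : 0 < Λ₀) : ∃ C : ℝ, 0 < C ∧
    ∀ F : E2 → E3, ContDiff ℝ ∞ F → ∀ (p : E2) (ρ : ℝ), 0 < ρ →
    (∀ k : ℕ, k ≤ 13 → ∀ x ∈ Metric.ball p ρ, ‖iteratedFDeriv ℝ k F x‖ ≤ M) →
    ∀ (N : E3) (e : E2) (Λ : ℝ), ‖N‖ = 1 → ‖e‖ = 1 → Λ₀ ≤ Λ → Λ ≤ M →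
    (∀ v w : E2, inner ℝ (fderiv ℝ F p v) (fderiv ℝ F p w) = inner ℝ v w) →
    (∀ v : E2, inner ℝ (fderiv ℝ F p v) N = (0 : ℝ)) →
    (∀ v w : E2, fderiv ℝ (fderiv ℝ F) p v w = (Λ * (inner ℝ v e * inner ℝ w e)) • N) →
    ∀ (q e' : E2) (r : ℝ) (N0 : E3), ‖e'‖ = 1 → 0 < r → r ≤ 1 → ‖q - p‖ + 3 * r < ρ →
    ‖N0‖ = 1 → (∀ v : E2, inner ℝ (fderiv ℝ F q v) N0 = (0 : ℝ)) → (0 : ℝ) ≤ inner ℝ N N0 →
    ∀ u : ℝ × ℝ → ℝ, (∀ z, u z = inner ℝ (zoomF F q e' r z) N0 / (r * Λ)) →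
    dx u 0 = 0 ∧ dp u 0 = 0 ∧
    ∀ a i : ℕ, a + i ≤ 12 → ∀ z : ℝ × ℝ, |z.1| < 1 → |z.2| < 1 →
      |dx^[a] (dp^[i] (fun z => u z - z.2 ^ 2 / 2)) z| ≤ C * (‖q - p‖ + ‖rot e' - e‖ + r) := by
  refine ⟨4 * (2 * M / Λ₀ + 2 + 2 * M ^ 2), by positivity, ?_⟩
  intro F hF p ρ hρ hbd N e Λ hN he hΛ hΛM hiso hNp hII q e' r N0 he' hr hr1 hq hN0 hNq hNN u hu
  have hΛpos : 0 < Λ := hΛ₀.trans_le hΛ
  have hM0 : 0 ≤ M := by linarith
  -- smoothness
  have cF1 : ContDiff ℝ ∞ (fderiv ℝ F) := hF.fderiv_right (m := ∞) (by simp)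
  have cF2 : ContDiff ℝ ∞ (fderiv ℝ (fderiv ℝ F)) := cF1.fderiv_right (m := ∞) (by simp)
  -- the domain
  have hpball : p ∈ Metric.ball p ρ := Metric.mem_ball_self hρ
  have hqball : q ∈ Metric.ball p ρ := by
    rw [mem_ball_iff_norm]
    linarith
  have hxball : ∀ z : ℝ × ℝ, |z.1| < 1 → |z.2| < 1 →
      aff q e' r z ∈ Metric.ball p ρ ∧ ‖aff q e' r z - p‖ ≤ ‖q - p‖ + 2 * r := by
    intro z hz1 hz2
    have h1 : ‖aff q e' r z - p‖ ≤ ‖q - p‖ + 2 * r := by
      have e1 : aff q e' r z - p = (q - p) + ((r * z.1) • e' + (r * z.2) • rot e') := by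
        simp only [aff]; abel
      rw [e1]
      refine (norm_add_le _ _).trans ?_
      have h2 : ‖(r * z.1) • e' + (r * z.2) • rot e'‖ ≤ r * 1 + r * 1 := by
        refine (norm_add_le _ _).trans (add_le_add ?_ ?_)
        · rw [norm_smul, he', mul_one, Real.norm_eq_abs, abs_mul, abs_of_pos hr]
          exact mul_le_mul_of_nonneg_left hz1.le hr.le
        · rw [norm_smul, norm_rot', he', mul_one, Real.norm_eq_abs, abs_mul, abs_of_pos hr]
          exact mul_le_mul_of_nonneg_left hz2.le hr.le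
      linarith
    refine ⟨?_, h1⟩
    rw [mem_ball_iff_norm]
    linarith
  -- Lipschitz bounds
  have hL1 : ‖fderiv ℝ F p - fderiv ℝ F q‖ ≤ M * ‖q - p‖ := by
    have h := (convex_ball p ρ).norm_image_sub_le_of_norm_fderiv_le (𝕜 := ℝ) (f := fderiv ℝ F)
      (C := M) (fun y _ => cF1.differentiable (by simp) y) (fun y hy => by
        rw [← norm_iteratedFDeriv_one, norm_iteratedFDeriv_fderiv]
        exact hbd 2 (by norm_num) y hy) hqball hpball
    rwa [norm_sub_rev p q] at h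
  have hL2 : ∀ z : ℝ × ℝ, |z.1| < 1 → |z.2| < 1 →
      ‖fderiv ℝ (fderiv ℝ F) (aff q e' r z) - fderiv ℝ (fderiv ℝ F) p‖ ≤
        M * (‖q - p‖ + 2 * r) := by
    intro z hz1 hz2
    obtain ⟨hx, hx'⟩ := hxball z hz1 hz2
    have h := (convex_ball p ρ).norm_image_sub_le_of_norm_fderiv_le (𝕜 := ℝ)
      (f := fderiv ℝ (fderiv ℝ F))
      (C := M) (fun y _ => cF2.differentiable (by simp) y) (fun y hy => by
        rw [← norm_iteratedFDeriv_one, norm_iteratedFDeriv_fderiv, norm_iteratedFDeriv_fderiv]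
        exact hbd 3 (by norm_num) y hy) hpball hx
    exact h.trans (mul_le_mul_of_nonneg_left hx' hM0)
  -- the normal
  obtain ⟨ht1, ht2⟩ := normal_close hiso hN hNp hN0 hNq hL1 hNN
  set t : ℝ := inner ℝ N N0 with ht
  -- the angle
  have cs : ∀ v w : E2, ‖v‖ = 1 → ‖w‖ = 1 → |(inner ℝ v w : ℝ)| ≤ 1 := by
    intro v w hv hw
    have := abs_real_inner_le_norm v w
    rwa [hv, hw, mul_one] at this
  have hre' : ‖rot e'‖ = 1 := by rw [norm_rot', he']
  set δ2 : ℝ := ‖rot e' - e‖ with hδ2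
  have hδ20 : 0 ≤ δ2 := norm_nonneg _
  have hδ22 : δ2 ≤ 2 := by
    have := norm_sub_le (rot e') e
    rw [hre', he] at this
    linarith
  have hang1 : |(inner ℝ e' e : ℝ)| ≤ δ2 := by
    have e1 : (inner ℝ e' e : ℝ) = - inner ℝ e' (rot e' - e) := by
      rw [inner_sub_right, inner_rot_self']; ring
    rw [e1, abs_neg]
    have := abs_real_inner_le_norm e' (rot e' - e)
    rwa [he', one_mul] at this
  have hang2 : 1 - (inner ℝ (rot e') e : ℝ) = δ2 ^ 2 / 2 := by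
    have := norm_sub_sq_real (rot e') e
    rw [hre', he] at this
    rw [hδ2]
    linarith
  -- the height function
  set φ : E2 → ℝ := fun x => inner ℝ (F x) N0 with hφ
  have cφ : ContDiff ℝ ∞ φ := hF.inner ℝ contDiff_const
  have hD1 : ∀ v x, Dv v φ x = inner ℝ (fderiv ℝ F x v) N0 := by
    intro v x
    have h1 : HasFDerivAt F (fderiv ℝ F x) x := (hF.differentiable (by simp) x).hasFDerivAt
    have h2 := h1.inner ℝ (hasFDerivAt_const N0 x)
    simp only [Dv]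
    rw [h2.fderiv]
    simp
  have hD2 : ∀ v w x, Dv v (Dv w φ) x = inner ℝ (fderiv ℝ (fderiv ℝ F) x v w) N0 := by
    intro v w x
    have h0 : Dv w φ = fun x => inner ℝ (fderiv ℝ F x w) N0 := by
      funext x; exact hD1 w x
    have h1 : HasFDerivAt (fun x => fderiv ℝ F x w) ((fderiv ℝ (fderiv ℝ F) x).flip w) x := by
      have := (cF1.differentiable (by simp) x).hasFDerivAt.clm_apply (hasFDerivAt_const w x)
      simp only [ContinuousLinearMap.comp_zero, zero_add] at this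
      exact this
    have h2 := h1.inner ℝ (hasFDerivAt_const N0 x)
    rw [h0]
    simp only [Dv]
    rw [h2.fderiv]
    simp
  set c : ℝ := 1 / (r ^ 2 * Λ) with hc
  have hcpos : 0 < c := by positivity
  have hcr : c * r ^ 2 = 1 / Λ := by rw [hc]; field_simp
  have hu' : u = fun z => (fun z => c * φ (aff q e' r z)) z + (-(c * φ q)) := by
    funext z
    rw [hu z]
    have : zoomF F q e' r z = r⁻¹ • (F (aff q e' r z) - F q) := rfl
    rw [this, real_inner_smul_left, inner_sub_left]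
    simp only [hφ, hc]
    field_simp
    ring
  have cA : ContDiff ℝ ∞ (fun z => φ (aff q e' r z)) := cd_comp_aff cφ q e' r
  have cu : ContDiff ℝ ∞ u := by
    rw [hu']
    exact (contDiff_const.mul cA).add contDiff_const
  have hiter : ∀ a i, 1 ≤ a + i → ∀ z, dx^[a] (dp^[i] u) z =
      c * (r ^ (a + i) * (Dv e')^[a] ((Dv (rot e'))^[i] φ) (aff q e' r z)) := by
    intro a i h z
    rw [hu', iter_add_const _ _ h, dp_iter_const_mul cA, dx_iter_const_mul (cd_dp_iter cA i),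
      dxp_iter_aff cφ]
  set s : ℝ × ℝ → ℝ := fun z => z.2 ^ 2 / 2 with hs
  have cs2 : ContDiff ℝ ∞ s := by rw [hs]; fun_prop
  set h : ℝ × ℝ → ℝ := fun z => u z - z.2 ^ 2 / 2 with hh
  have ch : ContDiff ℝ ∞ h := cu.sub cs2
  have hsub : ∀ a i z, dx^[a] (dp^[i] h) z = dx^[a] (dp^[i] u) z - dx^[a] (dp^[i] s) z := by
    intro a i z
    have e1 : h = fun z => u z + (-1) * s z := by funext z; simp only [hh, hs]; ring
    rw [e1, dp_iter_add cu (contDiff_const.mul cs2), dp_iter_const_mul cs2,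
      dx_iter_add (cd_dp_iter cu i) (contDiff_const.mul (cd_dp_iter cs2 i)),
      dx_iter_const_mul (cd_dp_iter cs2 i)]
    ring
  have hs10 : dx s = fun _ => 0 := dx_sq
  have hs01 : dp s = fun z => z.2 := dp_sq
  have hs20 : dx (dx s) = fun _ => 0 := by rw [hs10, dx_const]
  have hs11 : dx (dp s) = fun _ => 0 := by rw [hs01, dx_snd]
  have hs02 : dp (dp s) = fun _ => 1 := by rw [hs01, dp_snd]
  -- first derivatives at the origin
  have haff0 : aff q e' r 0 = q := by simp [aff]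
  have hu10 : dx u 0 = 0 := by
    have := hiter 1 0 (by norm_num) 0
    simp only [Function.iterate_zero, Function.iterate_one, id, haff0] at this
    rw [this, hD1, hNq]
    ring
  have hu01 : dp u 0 = 0 := by
    have := hiter 0 1 (by norm_num) 0
    simp only [Function.iterate_zero, Function.iterate_one, id, haff0] at this
    rw [this, hD1, hNq]
    ring
  refine ⟨hu10, hu01, ?_⟩
  set δ : ℝ := ‖q - p‖ + δ2 + r with hδ
  have hδ1 : 0 ≤ ‖q - p‖ := norm_nonneg _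
  have hδ0 : 0 ≤ δ := by positivity
  set K : ℝ := 2 * M / Λ₀ + 2 + 2 * M ^ 2 with hK
  -- second derivatives
  have hsec : ∀ v w : E2, ‖v‖ = 1 → ‖w‖ = 1 → ∀ z : ℝ × ℝ, |z.1| < 1 → |z.2| < 1 →
      |c * (r ^ 2 * Dv v (Dv w φ) (aff q e' r z)) - (inner ℝ v e * inner ℝ w e) * t| ≤
        2 * M / Λ₀ * (‖q - p‖ + r) := by
    intro v w hv hw z hz1 hz2
    have e1 : c * (r ^ 2 * Dv v (Dv w φ) (aff q e' r z)) - (inner ℝ v e * inner ℝ w e) * t =
        (1 / Λ) * inner ℝ ((fderiv ℝ (fderiv ℝ F) (aff q e' r z) -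
          fderiv ℝ (fderiv ℝ F) p) v w) N0 := by
      rw [_root_.sub_apply, _root_.sub_apply, inner_sub_left, hII, real_inner_smul_left, hD2,
        ← mul_assoc, hcr, ← ht]
      field_simp
    rw [e1, abs_mul, abs_of_pos (by positivity : 0 < 1 / Λ)]
    have e2 : |(inner ℝ ((fderiv ℝ (fderiv ℝ F) (aff q e' r z) -
          fderiv ℝ (fderiv ℝ F) p) v w) N0 : ℝ)| ≤ M * (‖q - p‖ + 2 * r) := by
      refine (abs_real_inner_le_norm _ _).trans ?_
      rw [hN0, mul_one]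
      refine (ContinuousLinearMap.le_opNorm₂ _ v w).trans ?_
      rw [hv, hw, mul_one, mul_one]
      exact hL2 z hz1 hz2
    calc 1 / Λ * |(inner ℝ ((fderiv ℝ (fderiv ℝ F) (aff q e' r z) -
          fderiv ℝ (fderiv ℝ F) p) v w) N0 : ℝ)| ≤ 1 / Λ₀ * (M * (‖q - p‖ + 2 * r)) :=
          mul_le_mul (one_div_le_one_div_of_le hΛ₀ hΛ) e2 (abs_nonneg _) (by positivity)
      _ ≤ 1 / Λ₀ * (M * (2 * (‖q - p‖ + r))) := by gcongr; linarith
      _ = 2 * M / Λ₀ * (‖q - p‖ + r) := by ring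
  -- the defect of the normal
  have htd : 1 - t ≤ 2 * M ^ 2 * ‖q - p‖ := htd_aux hM hδ1 ht2 hNN
  have hKδ : 2 * M / Λ₀ * (‖q - p‖ + r) ≤ 2 * M / Λ₀ * δ := by
    gcongr
    rw [hδ]; linarith
  have hδ2δ : δ2 ≤ δ := by rw [hδ]; linarith
  have hδ1δ : ‖q - p‖ ≤ δ := by rw [hδ]; linarith
  have hx1 : |(inner ℝ e' e : ℝ)| ≤ 1 := cs _ _ he' he
  have hx2 : |(inner ℝ (rot e') e : ℝ)| ≤ 1 := cs _ _ hre' he
  have hta : |t| ≤ 1 := abs_le.2 ⟨by linarith, ht1⟩
  have hMδ : 0 ≤ 2 * M ^ 2 * δ := by positivity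
  have h20 : ∀ z : ℝ × ℝ, |z.1| < 1 → |z.2| < 1 → |dx (dx h) z| ≤ K * δ := by
    intro z hz1 hz2
    have e1 := hsub 2 0 z
    have e2 := hiter 2 0 (by norm_num) z
    simp only [Function.iterate_zero, Function.iterate_succ, Function.comp_apply, id] at e1 e2
    rw [e1, e2, hs20]
    have e3 := hsec e' e' he' he' z hz1 hz2
    have e4 : |(inner ℝ e' e * inner ℝ e' e : ℝ) * t| ≤ δ2 := by
      rw [abs_mul, abs_mul]
      calc |(inner ℝ e' e : ℝ)| * |(inner ℝ e' e : ℝ)| * |t| ≤ δ2 * 1 * 1 := by gcongr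
        _ = δ2 := by ring
    simp only [Nat.add_zero, sub_zero]
    have e5 : c * (r ^ 2 * Dv e' (Dv e' φ) (aff q e' r z)) =
      (c * (r ^ 2 * Dv e' (Dv e' φ) (aff q e' r z)) - (inner ℝ e' e * inner ℝ e' e) * t) +
        (inner ℝ e' e * inner ℝ e' e) * t := by ring
    rw [e5]
    refine (abs_add_le _ _).trans ?_
    rw [hK]
    linarith
  have h11 : ∀ z : ℝ × ℝ, |z.1| < 1 → |z.2| < 1 → |dx (dp h) z| ≤ K * δ := by
    intro z hz1 hz2
    have e1 := hsub 1 1 z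
    have e2 := hiter 1 1 (by norm_num) z
    simp only [Function.iterate_zero, Function.iterate_succ, Function.comp_apply, id] at e1 e2
    rw [e1, e2, hs11]
    have e3 := hsec e' (rot e') he' hre' z hz1 hz2
    have e4 : |(inner ℝ e' e * inner ℝ (rot e') e : ℝ) * t| ≤ δ2 := by
      rw [abs_mul, abs_mul]
      calc |(inner ℝ e' e : ℝ)| * |(inner ℝ (rot e') e : ℝ)| * |t| ≤ δ2 * 1 * 1 := by gcongr
        _ = δ2 := by ring
    simp only [Nat.reduceAdd, sub_zero]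
    have e5 : c * (r ^ 2 * Dv e' (Dv (rot e') φ) (aff q e' r z)) =
      (c * (r ^ 2 * Dv e' (Dv (rot e') φ) (aff q e' r z)) -
        (inner ℝ e' e * inner ℝ (rot e') e) * t) +
        (inner ℝ e' e * inner ℝ (rot e') e) * t := by ring
    rw [e5]
    refine (abs_add_le _ _).trans ?_
    rw [hK]
    linarith
  have h02 : ∀ z : ℝ × ℝ, |z.1| < 1 → |z.2| < 1 → |dp (dp h) z| ≤ K * δ := by
    intro z hz1 hz2
    have e1 := hsub 0 2 z
    have e2 := hiter 0 2 (by norm_num) z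
    simp only [Function.iterate_zero, Function.iterate_succ, Function.comp_apply, id] at e1 e2
    rw [e1, e2, hs02]
    have e3 := hsec (rot e') (rot e') hre' hre' z hz1 hz2
    set σ : ℝ := inner ℝ (rot e') e with hσ
    have e4 : |(σ * σ) * t - 1| ≤ 2 * δ2 + 2 * M ^ 2 * ‖q - p‖ :=
      ang_aux hx2 hang2 hδ20 hδ22 hNN ht1 htd
    simp only [Nat.zero_add]
    have e5 : c * (r ^ 2 * Dv (rot e') (Dv (rot e') φ) (aff q e' r z)) - 1 =
      (c * (r ^ 2 * Dv (rot e') (Dv (rot e') φ) (aff q e' r z)) - (σ * σ) * t) +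
        ((σ * σ) * t - 1) := by ring
    rw [e5]
    refine (abs_add_le _ _).trans ?_
    have e6 : 2 * M ^ 2 * ‖q - p‖ ≤ 2 * M ^ 2 * δ := by gcongr
    rw [hK]
    linarith
  have hcomm : dp (dx h) = dx (dp h) := (dx_dp_comm ch).symm
  -- values at the origin
  have hu0 : u 0 = 0 := by
    have := hu 0
    rw [this]
    have h1 : zoomF F q e' r 0 = r⁻¹ • (F (aff q e' r 0) - F q) := rfl
    rw [h1, haff0, sub_self, smul_zero, inner_zero_left, zero_div]
  have h00 : h 0 = 0 := by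
    simp only [hh, hu0]
    simp
  have h10 : dx h 0 = 0 := by
    have := hsub 1 0 0
    simp only [Function.iterate_zero, Function.iterate_one, id] at this
    rw [this, hu10, hs10, sub_zero]
  have h01 : dp h 0 = 0 := by
    have := hsub 0 1 0
    simp only [Function.iterate_zero, Function.iterate_one, id] at this
    rw [this, hu01, hs01]
    simp
  have b10 := sq_bound (cd_dx ch) h10 h20 (by rw [hcomm]; exact h11)
  have b01 := sq_bound (cd_dp ch) h01 h11 h02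
  have b00 := sq_bound ch h00 b10 b01
  have hK0 : 0 ≤ K * δ := by positivity
  intro a i hai z hz1 hz2
  by_cases h3 : 3 ≤ a + i
  · rw [hsub, hs, iter_sq h3, sub_zero, hiter a i (by omega)]
    set x := aff q e' r z with hx
    have e1 : ‖(Dv e')^[a] ((Dv (rot e'))^[i] φ) x‖ ≤ M := by
      rw [← norm_iteratedFDeriv_zero (𝕜 := ℝ)]
      refine (norm_Dv_iter (cd_Dv_iter cφ _ i) he' a 0 x).trans ?_
      refine (norm_Dv_iter cφ hre' i (0 + a) x).trans ?_
      have e2 : φ = (innerSL ℝ N0) ∘ F := by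
        funext y
        simp only [hφ, Function.comp_apply, innerSL_apply_apply]
        exact real_inner_comm _ _
      rw [e2]
      refine (ContinuousLinearMap.norm_iteratedFDeriv_comp_left (𝕜 := ℝ) (innerSL ℝ N0)
        (f := F) (x := x) (N := ∞) hF.contDiffAt (by exact_mod_cast le_top)).trans ?_
      rw [innerSL_apply_norm, hN0, one_mul]
      exact hbd _ (by omega) x (hxball z hz1 hz2).1
    rw [Real.norm_eq_abs] at e1
    rw [abs_mul, abs_mul, abs_of_pos hcpos, abs_of_pos (pow_pos hr _)]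
    have e3 : r ^ (a + i) ≤ r ^ 3 := pow_le_pow_of_le_one hr.le hr1 h3
    have hrδ : r ≤ δ := by rw [hδ]; linarith
    calc c * (r ^ (a + i) * |(Dv e')^[a] ((Dv (rot e'))^[i] φ) x|) ≤ c * (r ^ 3 * M) := by gcongr
      _ = (c * r ^ 2) * (M * r) := by ring
      _ = 1 / Λ * (M * r) := by rw [hcr]
      _ ≤ 1 / Λ₀ * (M * δ) := by gcongr
      _ = (M / Λ₀) * δ := by ring
      _ ≤ 4 * K * δ := by
        gcongr
        have g1 : 0 ≤ M / Λ₀ := by positivity
        have g2 : 0 ≤ M ^ 2 := sq_nonneg M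
        rw [hK, mul_div_assoc]
        linarith
  · have ha : a ≤ 2 := by omega
    have hi : i ≤ 2 := by omega
    interval_cases a <;> interval_cases i <;>
      simp only [Function.iterate_zero, Function.iterate_succ, Function.comp_apply, id]
    · exact (b00 z hz1 hz2).trans (by linarith)
    · exact (b01 z hz1 hz2).trans (by linarith)
    · exact (h02 z hz1 hz2).trans (by linarith)
    · exact (b10 z hz1 hz2).trans (by linarith)
    · exact (h11 z hz1 hz2).trans (by linarith)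
    · omega
    · exact (h20 z hz1 hz2).trans (by linarith)
    · omega
    · omega

end Crest.Agent.Iso
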