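import Crest.Agent.Iso.Flat
import Crest.Agent.Iso.Zoom

/-!
# Row 220, part B: no immersion with a nonzero second derivative on a circle
-/

set_option autoImplicit false

open scoped ContDiff
open MeasureTheory Set

namespace Crest.Agent.Iso

namespace NoImm

theorem norm_rot' (e : E2) : ‖rot e‖ = ‖e‖ := by
  rw [EuclideanSpace.norm_eq, EuclideanSpace.norm_eq]
  simp [rot, Fin.sum_univ_two, add_comm]

theorem rot_neg_rot' (e : E2) : rot (-(rot e)) = e := by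
  ext i
  fin_cases i <;> simp [rot]

theorem rot_sub' (a b : E2) : rot a - rot b = rot (a - b) := by
  ext i
  fin_cases i <;> simp [rot]
  ring

theorem inner_rot' (e : E2) : inner ℝ e (rot e) = (0 : ℝ) := by
  simp [rot, PiLp.inner_apply, Fin.sum_univ_two]
  ring

theorem inner_rot'' (e : E2) : inner ℝ (rot e) e = (0 : ℝ) := by
  rw [real_inner_comm]
  exact inner_rot' e

theorem inner_self_one {e : E2} (he : ‖e‖ = 1) : inner ℝ e e = (1 : ℝ) := by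
  rw [real_inner_self_eq_norm_sq, he]
  norm_num

/-- local bounds for the derivatives -/
theorem exists_bound {F : E2 → E3} (hF : ContDiff ℝ ∞ F) (z : E2) : ∃ M : ℝ, 1 ≤ M ∧
    ∀ k : ℕ, k ≤ 13 → ∀ x ∈ Metric.closedBall z 1, ‖iteratedFDeriv ℝ k F x‖ ≤ M := by
  have h : ∀ k : ℕ, ∃ C : ℝ, 0 ≤ C ∧ ∀ x ∈ Metric.closedBall z 1, ‖iteratedFDeriv ℝ k F x‖ ≤ C := by
    intro k
    have hc : Continuous (fun x => iteratedFDeriv ℝ k F x) :=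
      hF.continuous_iteratedFDeriv (by exact_mod_cast le_top)
    obtain ⟨C, hC⟩ := (isCompact_closedBall z 1).exists_bound_of_continuousOn hc.continuousOn
    exact ⟨max C 0, le_max_right _ _, fun x hx => (hC x hx).trans (le_max_left _ _)⟩
  choose C hC0 hC using h
  refine ⟨1 + ∑ k ∈ Finset.range 14, C k, ?_, ?_⟩
  · have := Finset.sum_nonneg (s := Finset.range 14) (fun k _ => hC0 k)
    linarith
  · intro k hk x hx
    have h1 : C k ≤ ∑ k ∈ Finset.range 14, C k :=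
      Finset.single_le_sum (f := C) (fun k _ => hC0 k) (Finset.mem_range.2 (by omega))
    have := hC k x hx
    linarith

theorem norm_D2_eq {F : E2 → E3} (x : E2) :
    ‖fderiv ℝ (fderiv ℝ F) x‖ = ‖iteratedFDeriv ℝ 2 F x‖ := by
  have h1 : ‖iteratedFDeriv ℝ 2 F x‖ = ‖iteratedFDeriv ℝ 1 (fderiv ℝ F) x‖ := by
    exact (norm_iteratedFDeriv_fderiv (𝕜 := ℝ) (f := F) (n := 1) (x := x)).symm
  rw [h1]
  rw [← norm_iteratedFDeriv_fderiv (𝕜 := ℝ) (f := fderiv ℝ F) (n := 0) (x := x)]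
  rw [norm_iteratedFDeriv_zero]

end NoImm

open NoImm

/-- With `d n` the constant of `thmC n` (`n ≥ 2`), choose `σ n = min (d n) 1 / (n+1)^3` and `H n r`
the amplitude of `thmC n` for `ϖ₁ = (r/(n+1))²`.  Given `F`, `z`: take `ρ, M` with
`‖D^k F‖ ≤ M` on `ball z (2ρ)`, `k ≤ 13`, `Λ₀ = ‖D²F(z)‖/2`; for `n` large `z'` is close to `z`,
`flat_point` at `z'` gives `N, e, Λ` with `Λ₀ ≤ Λ ≤ M`, apply `StructProp` with direction
`- rot e` (`rot (- rot e) = e`), `exists_normal`, `zoom_close`, and `thmC n` with `ϖ = (r Λ)²`. -/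
theorem no_immersion : ∃ σ : ℕ → ℝ, (∀ n, 0 < σ n) ∧ ∃ H : ℕ → ℝ → ℝ, (∀ n r, 0 < r → 0 < H n r) ∧
    ∀ g : Met, ContDiff ℝ ∞ g → FlatProp g → StructProp g σ H →
    ∀ F : E2 → E3, ContDiff ℝ ∞ F → ∀ V : Set E2, IsOpen V →
    (∀ x ∈ V, ∀ v w : E2, inner ℝ (fderiv ℝ F x v) (fderiv ℝ F x w) = g x v w) →
    ∀ j : ℕ, ∀ z ∈ Circ j, z ∈ V → fderiv ℝ (fderiv ℝ F) z ≠ 0 → False := by
  -- constants of `thmC`
  have hC : ∀ n : ℕ, ∃ δ : ℝ, 0 < δ ∧ ∀ ϖ₁ : ℝ, 0 < ϖ₁ → ∃ η₁ : ℝ, 0 < η₁ ∧ (2 ≤ n →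
      ∀ ϖ η : ℝ, ϖ₁ ≤ ϖ → ϖ ≤ δ → 0 < η → η ≤ η₁ → ∀ F : ℝ × ℝ → E3, ContDiff ℝ ∞ F →
      (∀ z : ℝ × ℝ, |z.1| < 1 → |z.2| < 1 →
        inner ℝ (fderiv ℝ F z (1, 0)) (fderiv ℝ F z (1, 0)) = Es n η z ∧
        inner ℝ (fderiv ℝ F z (1, 0)) (fderiv ℝ F z (0, 1)) = (0 : ℝ) ∧
        inner ℝ (fderiv ℝ F z (0, 1)) (fderiv ℝ F z (0, 1)) = (1 : ℝ)) →
      ∀ N0 : E3, ‖N0‖ = 1 → ∀ u : ℝ × ℝ → ℝ, (∀ z, u z = inner ℝ (F z) N0 / √ϖ) →
      dx u 0 = 0 → dp u 0 = 0 →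
      (∀ a i : ℕ, a + i ≤ 12 → ∀ z : ℝ × ℝ, |z.1| < 1 → |z.2| < 1 →
        |dx^[a] (dp^[i] (fun z => u z - z.2 ^ 2 / 2)) z| ≤ δ) → False) := by
    intro n
    by_cases hn : 2 ≤ n
    · obtain ⟨δ, hδ, h⟩ := thmC n hn
      refine ⟨δ, hδ, fun ϖ₁ hϖ => ?_⟩
      obtain ⟨η₁, hη, h'⟩ := h ϖ₁ hϖ
      exact ⟨η₁, hη, fun _ => h'⟩
    · exact ⟨1, one_pos, fun _ _ => ⟨1, one_pos, fun h => absurd h hn⟩⟩
  choose d hd hC using hC
  choose! H0 hH0 hC using hC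
  refine ⟨fun n => min (d n) 1 / ((n : ℝ) + 1) ^ 3, fun n => ?_,
    fun n r => H0 n ((r / ((n : ℝ) + 1)) ^ 2), fun n r hr => ?_, ?_⟩
  · have := hd n
    positivity
  · exact hH0 n _ (by positivity)
  intro g hg hflat hstr F hF V hV hiso j z hz hzV hne
  obtain ⟨M, hM, hMb⟩ := exists_bound hF z
  have hD2c : Continuous (fun x => ‖fderiv ℝ (fderiv ℝ F) x‖) := by
    have h1 : ContDiff ℝ ∞ (fderiv ℝ F) := hF.fderiv_right (m := ∞) (by simp)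
    exact (h1.continuous_fderiv (by simp)).norm
  set Λ₀ : ℝ := ‖fderiv ℝ (fderiv ℝ F) z‖ / 2 with hΛ₀
  have hD2pos : 0 < ‖fderiv ℝ (fderiv ℝ F) z‖ :=
    lt_of_le_of_ne (ContinuousLinearMap.opNorm_nonneg _)
      (fun h => hne ((ContinuousLinearMap.opNorm_zero_iff _).1 h.symm))
  have hΛ₀pos : 0 < Λ₀ := by positivity
  -- radius
  obtain ⟨ρ₁, hρ₁, hρ₁V⟩ := Metric.isOpen_iff.1 hV z hzV
  obtain ⟨ρ₂, hρ₂, hρ₂D⟩ : ∃ ρ₂ > 0, ∀ x ∈ Metric.ball z ρ₂, Λ₀ < ‖fderiv ℝ (fderiv ℝ F) x‖ := by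
    have h1 : IsOpen {x | Λ₀ < ‖fderiv ℝ (fderiv ℝ F) x‖} := isOpen_lt continuous_const hD2c
    have h2 : z ∈ {x | Λ₀ < ‖fderiv ℝ (fderiv ℝ F) x‖} := by
      show Λ₀ < ‖fderiv ℝ (fderiv ℝ F) z‖
      rw [hΛ₀]; linarith
    obtain ⟨ρ₂, h3, h4⟩ := Metric.isOpen_iff.1 h1 z h2
    exact ⟨ρ₂, h3, fun x hx => h4 hx⟩
  obtain ⟨ρ, hρ, hρ1, hρV, hρD⟩ : ∃ ρ : ℝ, 0 < ρ ∧ 2 * ρ ≤ 1 ∧ 2 * ρ ≤ ρ₁ ∧ 2 * ρ ≤ ρ₂ := by
    refine ⟨min 1 (min ρ₁ ρ₂) / 2, by positivity, ?_, ?_, ?_⟩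
    · have := min_le_left 1 (min ρ₁ ρ₂); linarith
    · have h1 := min_le_right 1 (min ρ₁ ρ₂)
      have h2 := min_le_left ρ₁ ρ₂
      linarith
    · have h1 := min_le_right 1 (min ρ₁ ρ₂)
      have h2 := min_le_right ρ₁ ρ₂
      linarith
  obtain ⟨C, hCpos, hzoom⟩ := zoom_close M Λ₀ hM hΛ₀pos
  -- choice of `n`
  obtain ⟨n, hn⟩ := exists_nat_ge (2 + (j : ℝ) + 8 / ρ + 1 / Λ₀ + M + 3 * C)
  have hp1 : 0 < 8 / ρ := by positivity
  have hp2 : 0 < 1 / Λ₀ := by positivity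
  have hj0 : (0 : ℝ) ≤ j := Nat.cast_nonneg j
  have hn2 : 2 ≤ n := by
    have : (2 : ℝ) ≤ n := by linarith
    exact_mod_cast this
  have hjn : j ≤ n := by
    have : (j : ℝ) ≤ n := by linarith
    exact_mod_cast this
  have hn1pos : (0 : ℝ) < (n : ℝ) + 1 := by positivity
  have hn8 : 1 / ((n : ℝ) + 1) ≤ ρ / 8 := by
    have h1 : 8 / ρ ≤ (n : ℝ) + 1 := by linarith
    rw [div_le_iff₀ hρ] at h1
    rw [div_le_iff₀ hn1pos]
    linarith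
  have hnΛ : 1 / ((n : ℝ) + 1) ≤ Λ₀ := by
    have h1 : 1 / Λ₀ ≤ (n : ℝ) + 1 := by linarith
    rw [div_le_iff₀ hΛ₀pos] at h1
    rw [div_le_iff₀ hn1pos]
    linarith
  have hcube : (n : ℝ) + 1 ≤ ((n : ℝ) + 1) ^ 3 := by
    have h1 : (1 : ℝ) ≤ (n : ℝ) + 1 := by linarith [(Nat.cast_nonneg n : (0 : ℝ) ≤ n)]
    calc (n : ℝ) + 1 = ((n : ℝ) + 1) ^ 1 := (pow_one _).symm
      _ ≤ ((n : ℝ) + 1) ^ 3 := pow_le_pow_right₀ h1 (by norm_num)
  have hM3 : M ≤ ((n : ℝ) + 1) ^ 3 := by linarith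
  have hC3 : 3 * C ≤ ((n : ℝ) + 1) ^ 3 := by linarith
  set σ : ℝ := min (d n) 1 / ((n : ℝ) + 1) ^ 3 with hσ
  have hdn := hd n
  have hσpos : 0 < σ := by positivity
  have hσ1 : σ * ((n : ℝ) + 1) ^ 3 ≤ d n := by
    rw [hσ, div_mul_cancel₀ _ (by positivity)]
    exact min_le_left _ _
  have hσ2 : σ * ((n : ℝ) + 1) ^ 3 ≤ 1 := by
    rw [hσ, div_mul_cancel₀ _ (by positivity)]
    exact min_le_right _ _
  have hσ3 : σ ≤ 1 / ((n : ℝ) + 1) := by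
    rw [le_div_iff₀ hn1pos]
    nlinarith
  have hσ4 : σ ≤ ρ / 8 := hσ3.trans hn8
  obtain ⟨z', hz', hzz', hdir⟩ := hstr n j hjn z hz
  have hzz8 : ‖z - z'‖ ≤ ρ / 8 := hzz'.trans hn8
  have hz'z : dist z' z ≤ ρ / 8 := by rw [dist_comm, dist_eq_norm]; exact hzz8
  have hz'V : z' ∈ V := hρ₁V (Metric.mem_ball.2 (by linarith))
  have hfl := hflat j z' hz'
  obtain ⟨N, e, Λ, hN, he, hΛ, hNn, hB⟩ := flat_point hF hg hV hz'V hiso
    (fun v w => (hfl v w).1) (fun v w => (hfl v w).2.1) (fun v w => (hfl v w).2.2)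
  -- `Λ` is the norm of the second derivative
  have hΛnorm : ‖fderiv ℝ (fderiv ℝ F) z'‖ = Λ := by
    apply le_antisymm
    · refine ContinuousLinearMap.opNorm_le_bound₂ _ hΛ ?_
      intro v w
      rw [hB v w, norm_smul, hN, mul_one, Real.norm_eq_abs, abs_mul, abs_mul, abs_of_nonneg hΛ]
      have h1 := abs_real_inner_le_norm v e
      have h2 := abs_real_inner_le_norm w e
      rw [he, mul_one] at h1 h2
      calc Λ * (|inner ℝ v e| * |inner ℝ w e|) ≤ Λ * (‖v‖ * ‖w‖) :=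
            mul_le_mul_of_nonneg_left (mul_le_mul h1 h2 (abs_nonneg _) (norm_nonneg _)) hΛ
        _ = Λ * ‖v‖ * ‖w‖ := by ring
    · have h1 := (fderiv ℝ (fderiv ℝ F) z').le_opNorm₂ e e
      rw [hB e e, norm_smul, hN, inner_self_one he, he] at h1
      simpa [abs_of_nonneg hΛ] using h1
  have hΛ₀Λ : Λ₀ ≤ Λ := by
    rw [← hΛnorm]
    exact (hρ₂D z' (Metric.mem_ball.2 (by linarith))).le
  have hΛM : Λ ≤ M := by
    rw [← hΛnorm, norm_D2_eq]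
    exact hMb 2 (by norm_num) z' (Metric.mem_closedBall.2 (by linarith))
  have hΛpos : 0 < Λ := lt_of_lt_of_le hΛ₀pos hΛ₀Λ
  obtain ⟨e', q, r, η, he', hee', hq, hr, hrσ, hη, hηH, hmet⟩ := hdir (-(rot e))
    (by rw [norm_neg, norm_rot', he])
  have hrot : ‖rot e' - e‖ ≤ σ := by
    have h1 : rot e' - e = rot (e' - (-(rot e))) := by
      rw [← rot_sub', rot_neg_rot']
    rw [h1, norm_rot', norm_sub_rev]
    exact hee'
  obtain ⟨N0, hN0, hN0n, hNN0⟩ := exists_normal (fderiv ℝ F q) N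
  have hr1 : r ≤ 1 := by linarith
  obtain ⟨hu1, hu2, hu3⟩ := hzoom F hF z' ρ hρ
    (fun k hk x hx => hMb k hk x (by
      rw [Metric.mem_closedBall]
      have h1 := dist_triangle x z' z
      have h2 := Metric.mem_ball.1 hx
      linarith))
    N e Λ hN he hΛ₀Λ hΛM
    (fun v w => by rw [hiso z' hz'V v w, (hfl v w).1]) hNn hB q e' r N0 he' hr hr1
    (by linarith) hN0 hN0n hNN0
    (fun z => inner ℝ (zoomF F q e' r z) N0 / (r * Λ)) (fun z => rfl)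
  -- points of the square are in `V`
  have hsq : ∀ X Y : ℝ, |X| < 1 → |Y| < 1 → q + (r * X) • e' + (r * Y) • rot e' ∈ V := by
    intro X Y hX hY
    apply hρ₁V
    rw [Metric.mem_ball, dist_eq_norm]
    have h1 : q + (r * X) • e' + (r * Y) • rot e' - z =
        (q - z') + (z' - z) + ((r * X) • e' + (r * Y) • rot e') := by abel
    have h2 : ‖(r * X) • e'‖ ≤ r := by
      rw [norm_smul, he', mul_one, Real.norm_eq_abs, abs_mul, abs_of_pos hr]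
      nlinarith
    have h3 : ‖(r * Y) • rot e'‖ ≤ r := by
      rw [norm_smul, norm_rot', he', mul_one, Real.norm_eq_abs, abs_mul, abs_of_pos hr]
      nlinarith
    rw [h1]
    have h4 := norm_add_le ((q - z') + (z' - z)) ((r * X) • e' + (r * Y) • rot e')
    have h5 := norm_add_le (q - z') (z' - z)
    have h6 := norm_add_le ((r * X) • e') ((r * Y) • rot e')
    have h7 : ‖z' - z‖ ≤ ρ / 8 := by rw [norm_sub_rev]; exact hzz8
    linarith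
  have hsqrt : √((r * Λ) ^ 2) = r * Λ := Real.sqrt_sq (by positivity)
  refine hC n ((r / ((n : ℝ) + 1)) ^ 2) (by positivity) hn2 ((r * Λ) ^ 2) η ?_ ?_ hη hηH
    (zoomF F q e' r) (contDiff_zoomF hF q e' r) ?_ N0 hN0
    (fun z => inner ℝ (zoomF F q e' r z) N0 / (r * Λ)) (fun z => by rw [hsqrt]) hu1 hu2 ?_
  · -- ϖ₁ ≤ ϖ
    have h1 : r / ((n : ℝ) + 1) ≤ r * Λ := by
      calc r / ((n : ℝ) + 1) = r * (1 / ((n : ℝ) + 1)) := by ring
        _ ≤ r * Λ := mul_le_mul_of_nonneg_left (hnΛ.trans hΛ₀Λ) hr.le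
    exact pow_le_pow_left₀ (by positivity) h1 2
  · -- ϖ ≤ δ
    have h1 : r * Λ ≤ σ * ((n : ℝ) + 1) ^ 3 :=
      mul_le_mul hrσ (hΛM.trans hM3) hΛpos.le hσpos.le
    have h2 : 0 ≤ r * Λ := by positivity
    calc (r * Λ) ^ 2 = (r * Λ) * (r * Λ) := by ring
      _ ≤ d n * 1 := mul_le_mul (h1.trans hσ1) (h1.trans hσ2) h2 hdn.le
      _ = d n := mul_one _
  · -- the metric
    intro z h1 h2
    obtain ⟨f1, f2⟩ := fderiv_zoomF hF q e' hr z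
    have hV' := hsq z.1 z.2 h1 h2
    rw [f1, f2, hiso _ hV', hiso _ hV', hiso _ hV', hmet z.1 z.2 h1 h2, hmet z.1 z.2 h1 h2,
      hmet z.1 z.2 h1 h2, inner_rot', inner_rot'', inner_self_one he',
      inner_self_one (by rw [norm_rot', he'] : ‖rot e'‖ = 1)]
    refine ⟨by ring, by ring, by ring⟩
  · intro a i hai z h1 h2
    refine (hu3 a i hai z h1 h2).trans ?_
    have h3 : ‖q - z'‖ + ‖rot e' - e‖ + r ≤ 3 * σ := by linarith
    calc C * (‖q - z'‖ + ‖rot e' - e‖ + r) ≤ C * (3 * σ) :=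
          mul_le_mul_of_nonneg_left h3 hCpos.le
      _ = σ * (3 * C) := by ring
      _ ≤ σ * ((n : ℝ) + 1) ^ 3 := mul_le_mul_of_nonneg_left hC3 hσpos.le
      _ ≤ d n := hσ1

end Crest.Agent.Iso
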