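import Crest.Agent.Iso.SmallDef

/-!
# Row 220: positivity of the quadratic form of the multiplier identity
-/

set_option autoImplicit false

open scoped ContDiff
open MeasureTheory Set

namespace Crest.Agent.Iso

private theorem form_alg {A B M cp e X Y : ℝ} (hcp : 0 ≤ cp)
    (hA : 0.12 * cp ≤ A) (hB : 0.019 * e ^ 2 * cp ≤ B) (hM : |M| ≤ 0.06 * e * cp) :
    (1 / 100) * cp * (X ^ 2 + e ^ 2 * Y ^ 2) ≤ A * X ^ 2 + B * Y ^ 2 + M * (X * Y) := by
  have h1 : 0.12 * cp * X ^ 2 ≤ A * X ^ 2 := mul_le_mul_of_nonneg_right hA (sq_nonneg X)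
  have h2 : 0.019 * e ^ 2 * cp * Y ^ 2 ≤ B * Y ^ 2 := mul_le_mul_of_nonneg_right hB (sq_nonneg Y)
  have h3 : -(0.06 * e * cp * (|X| * |Y|)) ≤ M * (X * Y) := by
    have h5 : |M * (X * Y)| ≤ 0.06 * e * cp * (|X| * |Y|) := by
      rw [abs_mul, abs_mul]
      exact mul_le_mul_of_nonneg_right hM (by positivity)
    linarith [neg_abs_le (M * (X * Y))]
  have h4 : 0 ≤ cp * (|X| - 0.3 * e * |Y|) ^ 2 := by positivity
  have hx : |X| ^ 2 = X ^ 2 := sq_abs X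
  have hy : |Y| ^ 2 = Y ^ 2 := sq_abs Y
  have h6 : cp * (|X| - 0.3 * e * |Y|) ^ 2 =
      cp * X ^ 2 - 0.6 * e * cp * (|X| * |Y|) + 0.09 * e ^ 2 * cp * Y ^ 2 := by
    rw [← hx, ← hy]; ring
  rw [h6] at h4
  have h7 : 0 ≤ cp * X ^ 2 := by positivity
  nlinarith

private theorem ab {u v U V : ℝ} (hu : |u| ≤ U) (hv : |v| ≤ V) : |u * v| ≤ U * V := by
  rw [abs_mul]
  exact mul_le_mul hu hv (abs_nonneg _) ((abs_nonneg _).trans hu)

private theorem form_core {K σ ε e j x y cp c cx b b' g1 g1x g1p g2 g2x g2p a1 a2 : ℝ}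
    (hK : 2 ≤ K) (hj0 : 0 ≤ j) (hjK : j + 2 ≤ K) (hσ : σ = 1 / (10000 * K)) (he0 : 0 < e)
    (heK : e ≤ 1 / (1000 * K)) (hε : ε = e ^ 2)
    (hcp : 0 ≤ cp) (hb1 : |b' - cp| ≤ 2 * cp) (hb2 : cp / 8 ≤ (cp - b') / 2) (hb : |b| ≤ cp)
    (hc : |c| ≤ 1.8 * cp) (hcx : |cx| ≤ (1 / 32) * e * cp)
    (hmain : 0.02 * cp ≤ (cp - b') * (1 / 4 - x ^ 2 - y ^ 2) / 2 + b * x + (2 * j + 1) * (y * c))
    (hy : |y| ≤ 0.9)
    (h1 : |g1| ≤ σ * ε) (h1x : |g1x| ≤ σ * ε) (h1p : |g1p| ≤ σ * ε)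
    (h2 : |g2 - ε * (x ^ 2 + y ^ 2 - 1 / 4)| ≤ σ * ε)
    (h2x : |g2x - 2 * ε * x| ≤ σ * ε) (h2p : |g2p - 2 * ε * y| ≤ σ * ε)
    (ha1 : |a1 - (j + 1) * (2 * ε * y)| ≤ (j + 1) * (σ * ε)) (ha2 : |a2| ≤ (j + 1) * (σ * ε)) :
    0.12 * cp ≤ (cp - b') / 2 - b * g1p / 2 + a2 * b ∧
    0.019 * e ^ 2 * cp ≤ (b' * g2 + b * g2x - cp * g2 - c * g2p) / 2
      - (cx * g1 + c * g1x) / 2 + a1 * c ∧
    |-cx - b * g2p + a1 * b + a2 * c| ≤ 0.06 * e * cp := by
  have hK0 : 0 < K := by linarith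
  have hKe : K * e ≤ 1 / 1000 := by
    have := mul_le_mul_of_nonneg_left heK hK0.le
    calc K * e ≤ K * (1 / (1000 * K)) := this
      _ = 1 / 1000 := by field_simp
  have he1 : e ≤ 1 / 2000 := by
    have := mul_le_mul_of_nonneg_right hK he0.le
    linarith
  have hε0 : 0 < ε := by rw [hε]; positivity
  have hε1 : ε ≤ 1 := by rw [hε]; exact pow_le_one₀ he0.le (by linarith)
  have hσ0 : 0 < σ := by rw [hσ]; positivity
  have hKσ : K * σ = 1 / 10000 := by rw [hσ]; field_simp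
  set s : ℝ := σ * ε with hs
  have hs0 : 0 < s := by positivity
  have hKs : K * s = ε / 10000 := by rw [hs, ← mul_assoc, hKσ]; ring
  set T : ℝ := s * cp with hT
  have hT0 : 0 ≤ T := by positivity
  have hKT : K * T = ε * cp / 10000 := by rw [hT, ← mul_assoc, hKs]; ring
  have hjT : (j + 1) * T ≤ ε * cp / 10000 := by
    rw [← hKT]; exact mul_le_mul_of_nonneg_right (by linarith) hT0
  have hTT : 2 * T ≤ ε * cp / 10000 := by
    rw [← hKT]; exact mul_le_mul_of_nonneg_right hK hT0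
  have hεcp : ε * cp ≤ cp := by
    have := mul_le_mul_of_nonneg_right hε1 hcp
    linarith
  have hεcp0 : 0 ≤ ε * cp := by positivity
  refine ⟨?_, ?_, ?_⟩
  · have e1 := ab hb h1p
    have e2 := ab ha2 hb
    have e3 := (abs_le.mp e1).2
    have e4 := (abs_le.mp e2).1
    have e5 : cp * s = T := by rw [hT]; ring
    have e6 : (j + 1) * s * cp = (j + 1) * T := by rw [hT]; ring
    rw [e5] at e3
    rw [e6] at e4
    linarith
  · have f1 := (abs_le.mp (ab hb1 h2)).1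
    have f2 := (abs_le.mp (ab hb h2x)).1
    have f3 := (abs_le.mp (ab hc h2p)).2
    have f4 := (abs_le.mp (ab hcx h1)).2
    have f5 := (abs_le.mp (ab hc h1x)).2
    have f6 := (abs_le.mp (ab hc ha1)).1
    have g1' : 2 * cp * s = 2 * T := by rw [hT]; ring
    have g2' : cp * s = T := by rw [hT]; ring
    have g3' : 1.8 * cp * s = 1.8 * T := by rw [hT]; ring
    have g4' : (1 / 32) * e * cp * s ≤ T := by
      have h5 : (1 / 32) * e * cp * s = (1 / 32) * e * T := by rw [hT]; ring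
      have h6 : (1 / 32) * e * T ≤ 1 * T := mul_le_mul_of_nonneg_right (by linarith) hT0
      rw [h5]; linarith
    have g5' : 1.8 * cp * ((j + 1) * s) = 1.8 * ((j + 1) * T) := by rw [hT]; ring
    rw [g1'] at f1
    rw [g2'] at f2
    rw [g3'] at f3 f5
    rw [g5'] at f6
    have hid : (b' * g2 + b * g2x - cp * g2 - c * g2p) / 2
      - (cx * g1 + c * g1x) / 2 + a1 * c =
      ε * ((cp - b') * (1 / 4 - x ^ 2 - y ^ 2) / 2 + b * x + (2 * j + 1) * (y * c)) +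
      ((b' - cp) * (g2 - ε * (x ^ 2 + y ^ 2 - 1 / 4)) / 2 + b * (g2x - 2 * ε * x) / 2
        - c * (g2p - 2 * ε * y) / 2 - cx * g1 / 2 - c * g1x / 2
        + c * (a1 - (j + 1) * (2 * ε * y))) := by ring
    rw [hid]
    have hm := mul_le_mul_of_nonneg_left hmain hε0.le
    rw [← hε]
    linarith
  · have f1 := ab hb h2p
    have f2 := ab hb ha1
    have f3 := ab ha2 hc
    have f4 : |2 * j * ε * y * b| ≤ 1.8 * j * ε * cp := by
      have : |2 * j * ε * y * b| = 2 * j * ε * (|y| * |b|) := by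
        rw [abs_mul, abs_mul, abs_of_nonneg (by positivity : (0:ℝ) ≤ 2 * j * ε)]; ring
      rw [this]
      have h5 : |y| * |b| ≤ 0.9 * cp := mul_le_mul hy hb (abs_nonneg _) (by norm_num)
      have h6 : 0 ≤ 2 * j * ε := by positivity
      have h7 := mul_le_mul_of_nonneg_left h5 h6
      linarith
    have g2' : cp * s = T := by rw [hT]; ring
    have g3' : cp * ((j + 1) * s) = (j + 1) * T := by rw [hT]; ring
    have g4' : (j + 1) * s * (1.8 * cp) = 1.8 * ((j + 1) * T) := by rw [hT]; ring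
    rw [g2'] at f1
    rw [g3'] at f2
    rw [g4'] at f3
    have hid : -cx - b * g2p + a1 * b + a2 * c = -cx - b * (g2p - 2 * ε * y)
        + b * (a1 - (j + 1) * (2 * ε * y)) + 2 * j * ε * y * b + a2 * c := by ring
    have he2 : ε * cp ≤ e * cp / 2000 := by
      have h5 : e * (e * cp) ≤ 1 / 2000 * (e * cp) := mul_le_mul_of_nonneg_right he1 (by positivity)
      have h6 : ε * cp = e * (e * cp) := by rw [hε]; ring
      rw [h6]
      linarith
    have he3 : j * ε * cp ≤ e * cp / 1000 := by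
      have h5 : j * e ≤ 1 / 1000 := by
        have := mul_le_mul_of_nonneg_right (by linarith : j ≤ K) he0.le
        linarith
      have h7 : j * e * (e * cp) ≤ 1 / 1000 * (e * cp) :=
        mul_le_mul_of_nonneg_right h5 (by positivity)
      have h6 : j * ε * cp = j * e * (e * cp) := by rw [hε]; ring
      rw [h6]
      linarith
    have hecp : 0 ≤ e * cp := by positivity
    rw [hid, abs_le]
    rw [abs_le] at f1 f2 f3 f4 hcx
    constructor <;> linarith [f1.1, f1.2, f2.1, f2.2, f3.1, f3.2, f4.1, f4.2, hcx.1, hcx.2]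

private theorem main_b {X y cp β yc j : ℝ} (hcp1 : 1 ≤ cp)
    (hcp2 : cp ≤ 2) (hj : 1 ≤ j) (hyc0 : 0 ≤ yc) (hyc : y ^ 2 - 10 * β ≤ yc)
    (hβ : 30 * β ≤ 0.003) :
    0.02 * cp ≤ (cp - 3 / 4) * (1 / 4 - X ^ 2 - y ^ 2) / 2 + (3 / 4 * X ^ 2 - 9 / 64 * X) +
      (2 * j + 1) * yc := by
  have h1 : 3 * yc ≤ (2 * j + 1) * yc := mul_le_mul_of_nonneg_right (by linarith) hyc0
  have hA1 : 0 ≤ 0.00825 + 0.625 * X ^ 2 - 0.140625 * X + 2.875 * y ^ 2 := by
    nlinarith [sq_nonneg (X - 0.1125), sq_nonneg y]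
  have hA2 : 0 ≤ 0.11325 + 0.125 * X ^ 2 - 0.140625 * X + 2.375 * y ^ 2 := by
    nlinarith [sq_nonneg (X - 0.5625), sq_nonneg y]
  have h2 := mul_nonneg (by linarith : 0 ≤ 2 - cp) hA1
  have h3 := mul_nonneg (by linarith : 0 ≤ cp - 1) hA2
  nlinarith

private theorem main_a {X y cp β yc j b' bx : ℝ} (hX0 : 0 ≤ X) (hX : X ≤ 1 / 4) (hb'0 : 0 ≤ b')
    (hb'1 : b' ≤ 3 / 4) (hbx : 0 ≤ bx) (hcp1 : 1 ≤ cp)
    (hcp2 : cp ≤ 2) (hj : 1 ≤ j) (hyc0 : 0 ≤ yc) (hyc : y ^ 2 - 10 * β ≤ yc)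
    (hβ : 30 * β ≤ 0.003) :
    0.02 * cp ≤ (cp - b') * (1 / 4 - X ^ 2 - y ^ 2) / 2 + bx +
      (2 * j + 1) * yc := by
  have h1 : 3 * yc ≤ (2 * j + 1) * yc := mul_le_mul_of_nonneg_right (by linarith) hyc0
  have hX2 : X ^ 2 ≤ 1 / 16 := by nlinarith
  have hd0 : 0 ≤ cp - b' := by linarith
  have h2 : (cp - b') * (3 / 16) ≤ (cp - b') * (1 / 4 - X ^ 2) :=
    mul_le_mul_of_nonneg_left (by linarith) hd0
  have h3 : (cp - b') * y ^ 2 ≤ 2 * y ^ 2 :=
    mul_le_mul_of_nonneg_right (by linarith) (sq_nonneg y)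
  have h4 : 0 ≤ y ^ 2 := sq_nonneg y
  nlinarith

private theorem main_c {x y cp β yc j : ℝ} (hx : x ^ 2 ≤ 1 / 64) (hcp0 : 0 ≤ cp)
    (hcp2 : cp ≤ 2) (hj : 1 ≤ j) (hyc0 : 0 ≤ yc) (hyc : y ^ 2 - 10 * β ≤ yc)
    (hβ : 30 * β ≤ 0.003) :
    0.02 * cp ≤ cp * (1 / 4 - x ^ 2 - y ^ 2) / 2 + (2 * j + 1) * yc := by
  have h1 : 3 * yc ≤ (2 * j + 1) * yc := mul_le_mul_of_nonneg_right (by linarith) hyc0
  have h2 : cp * (15 / 64 - y ^ 2) ≤ cp * (1 / 4 - x ^ 2 - y ^ 2) :=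
    mul_le_mul_of_nonneg_left (by linarith) hcp0
  rcases le_total (y ^ 2) (1 / 16) with hy | hy
  · have h3 : cp * (11 / 64) ≤ cp * (15 / 64 - y ^ 2) :=
      mul_le_mul_of_nonneg_left (by linarith) hcp0
    linarith
  · have hA1 : 0 ≤ 3 * y ^ 2 - 0.003 := by linarith
    have hA2 : 0 ≤ 15 / 64 - y ^ 2 - 0.04 + 3 * y ^ 2 - 0.003 := by linarith
    have h3 := mul_nonneg (by linarith : 0 ≤ 1 - cp / 2) hA1
    have h4 := mul_nonneg (by linarith : 0 ≤ cp / 2) hA2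
    nlinarith

private theorem Xi_nonneg' (t : ℝ) : 0 ≤ Xi t := by
  unfold Xi
  have h1 : 0 ≤ max (t - 1) 0 := le_max_right _ _
  have h2 : max (t - 1) 0 ≤ max t 0 := max_le_max (by linarith) le_rfl
  nlinarith

private theorem Xi_mid {t : ℝ} (h0 : 0 ≤ t) (h1 : t ≤ 1) : Xi t = t ^ 2 / 2 := by
  unfold Xi
  rw [max_eq_left h0, max_eq_right (by linarith)]; ring

private theorem Xi_big {t : ℝ} (h1 : 1 ≤ t) : Xi t = t - 1 / 2 := by
  unfold Xi
  rw [max_eq_left (by linarith), max_eq_left (by linarith)]; ring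

private theorem bb_mul (z : ℝ × ℝ) : bb z * z.1 = (3 / 32) * Xi (8 * |z.1| - 1) * |z.1| := by
  unfold bb
  rcases le_total 0 z.1 with h | h
  · rw [abs_of_nonneg h, Xi_eq_zero (by linarith : -8 * z.1 - 1 ≤ 0)]; ring
  · rw [abs_of_nonpos h, Xi_eq_zero (by linarith : 8 * z.1 - 1 ≤ 0)]
    have : 8 * -z.1 - 1 = -8 * z.1 - 1 := by ring
    rw [this]; ring

private theorem abs_bb (z : ℝ × ℝ) : |bb z| = (3 / 32) * Xi (8 * |z.1| - 1) := by
  unfold bb
  rcases le_total 0 z.1 with h | h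
  · rw [abs_of_nonneg h, Xi_eq_zero (by linarith : -8 * z.1 - 1 ≤ 0), sub_zero,
      abs_of_nonneg (mul_nonneg (by norm_num) (Xi_nonneg' _))]
  · rw [abs_of_nonpos h, Xi_eq_zero (by linarith : 8 * z.1 - 1 ≤ 0), zero_sub, mul_neg, abs_neg]
    have : 8 * -z.1 - 1 = -8 * z.1 - 1 := by ring
    rw [this, abs_of_nonneg (mul_nonneg (by norm_num) (Xi_nonneg' _))]

private theorem dx_bb' (z : ℝ × ℝ) : dx bb z = (3 / 4) * Lam (8 * |z.1| - 1) := by
  rw [dx_bb]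
  rcases le_total 0 z.1 with h | h
  · rw [abs_of_nonneg h, Lam_eq_zero (by linarith : -8 * z.1 - 1 ≤ 0), add_zero]
  · rw [abs_of_nonpos h, Lam_eq_zero (by linarith : 8 * z.1 - 1 ≤ 0), zero_add]
    have : 8 * -z.1 - 1 = -8 * z.1 - 1 := by ring
    rw [this]

set_option maxHeartbeats 800000 in
/-- the form is positive: `≥ (1/100) c_p (X² + ε Y²)` on the disc of radius `0.9`.
(Numerically the best constant is `0.0325`.)  Main part with `σ = 0`: write `c_p, c, c_x` for the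
derivatives of `cc`, `b = bb`, `b' = dx bb`; then
`Axx = (c_p - b')/2`, `App/ε = (c_p - b')(1/4 - x² - p²)/2 + b x + (2 j + 1) p c`,
`|Axp| ≤ √ε c_p/32 + 2 j ε |p| b`. If `|x| ≤ 1/8` then `b = b' = 0`; if `|x| ≥ 1/8` then
`c_p ∈ [1,2]` (because `b ≤ ε³` and `hh < -τ`), `b' ≤ 3/4`. -/
theorem form_pos (J : ℕ) : ∃ σ : ℝ, 0 < σ ∧ ∃ ε₁ : ℝ, 0 < ε₁ ∧ ∀ ε b s τ : ℝ, 0 < ε → ε ≤ ε₁ →
    0 < b → b ≤ ε ^ 3 → 0 ≤ s → s ≤ 1 → 0 < τ → τ ≤ 3 * b → ∀ j : ℕ, 1 ≤ j → j ≤ J →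
    ∀ (g1 g2 a1 a2 : ℝ × ℝ → ℝ) (z : ℝ × ℝ), z.1 ^ 2 + z.2 ^ 2 ≤ 0.81 →
    Small σ ε j g1 g2 a1 a2 z → ∀ X Y : ℝ,
    (1 / 100) * dp (cc ε b s τ) z * (X ^ 2 + ε * Y ^ 2) ≤
      Axx g1 a2 bb (cc ε b s τ) z * X ^ 2 + App g1 g2 a1 bb (cc ε b s τ) z * Y ^ 2
        + Axp g2 a1 a2 bb (cc ε b s τ) z * (X * Y) := by
  set K : ℝ := (J : ℝ) + 2 with hK
  have hK2 : 2 ≤ K := by rw [hK]; have := Nat.cast_nonneg (α := ℝ) J; linarith
  have hK0 : 0 < K := by linarith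
  refine ⟨1 / (10000 * K), by positivity, (1 / (1000 * K)) ^ 2, by positivity, ?_⟩
  intro ε b s τ hε hε1 hb hbε hs0 hs1 hτ hτb j hj1 hjJ g1 g2 a1 a2 z hz hS X Y
  set e : ℝ := √ε with he
  have he0 : 0 < e := Real.sqrt_pos.mpr hε
  have hee : ε = e ^ 2 := (Real.sq_sqrt hε.le).symm
  have heK : e ≤ 1 / (1000 * K) := by
    have h1 : e ≤ √((1 / (1000 * K)) ^ 2) := Real.sqrt_le_sqrt hε1
    rwa [Real.sqrt_sq (by positivity)] at h1
  have heK' : e ≤ 1 / 2000 := by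
    refine heK.trans ?_
    rw [div_le_div_iff₀ (by positivity) (by norm_num)]
    linarith
  have hb6 : b ≤ e * (1 / 2000) ^ 5 := by
    have h1 : ε ^ 3 = e * e ^ 5 := by rw [hee]; ring
    rw [h1] at hbε
    exact hbε.trans (mul_le_mul_of_nonneg_left (pow_le_pow_left₀ he0.le heK' 5) he0.le)
  have hb30 : 30 * b ≤ 0.003 := by
    have h1 : e * (1 / 2000) ^ 5 ≤ (1 / 2000) * (1 / 2000) ^ 5 :=
      mul_le_mul_of_nonneg_right heK' (by positivity)
    have h2 : (1 / 2000 : ℝ) * (1 / 2000) ^ 5 ≤ 0.0001 := by norm_num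
    linarith
  have hx2 : 0 ≤ z.1 ^ 2 := sq_nonneg _
  have hy2 : 0 ≤ z.2 ^ 2 := sq_nonneg _
  have hxa : |z.1| ≤ 0.9 := abs_le_of_sq_le_sq (by norm_num; norm_num at hz; linarith) (by norm_num)
  have hya : |z.2| ≤ 0.9 := abs_le_of_sq_le_sq (by norm_num; norm_num at hz; linarith) (by norm_num)
  set cp : ℝ := dp (cc ε b s τ) z with hcp
  set c : ℝ := cc ε b s τ z with hc
  have hcp0 : 0 ≤ cp := dp_cc_nonneg hb hτ z
  have hcp2 : cp ≤ 2 := dp_cc_le_two hb hτ z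
  obtain ⟨hyc1, hyc0⟩ := mul_cc_ge hε.le hb hτ hs0 hs1 hτb z
  have hyc : z.2 ^ 2 - 10 * b ≤ z.2 * c := by
    have h1 : |z.2| * (|z.2| - 10 * b) = z.2 ^ 2 - 10 * (|z.2| * b) := by
      rw [← sq_abs z.2]; ring
    have h2 : |z.2| * b ≤ 1 * b := mul_le_mul_of_nonneg_right (by linarith) hb.le
    rw [h1] at hyc1
    linarith
  have hj1' : (1 : ℝ) ≤ j := by exact_mod_cast hj1
  have hjK : (j : ℝ) + 2 ≤ K := by
    rw [hK]
    have : (j : ℝ) ≤ J := by exact_mod_cast hjJ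
    linarith
  have habc : |c| ≤ 1.8 * cp := by
    have h1 := abs_cc_le (ε := ε) (s := s) hb hτ z
    have h2 : 2 * |z.2| * cp ≤ 1.8 * cp := mul_le_mul_of_nonneg_right (by linarith) hcp0
    exact h1.trans h2
  have hcx := abs_dx_cc_le (s := s) hε.le hb hτ z
  have hfin : |dx bb z - cp| ≤ 2 * cp ∧ cp / 8 ≤ (cp - dx bb z) / 2 ∧ |bb z| ≤ cp ∧
      0.02 * cp ≤ (cp - dx bb z) * (1 / 4 - z.1 ^ 2 - z.2 ^ 2) / 2 + bb z * z.1 +
        (2 * j + 1) * (z.2 * c) := by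
    rcases le_total |z.1| (1 / 8) with h8 | h8
    · -- inner strip
      have e1 : bb z = 0 := by
        have := abs_bb z
        rw [Xi_eq_zero (by linarith), mul_zero, abs_eq_zero] at this
        exact this
      have e2 : dx bb z = 0 := by
        rw [dx_bb', Lam_eq_zero (by linarith), mul_zero]
      have hx : z.1 ^ 2 ≤ 1 / 64 := by
        have := pow_le_pow_left₀ (abs_nonneg z.1) h8 2
        rw [sq_abs] at this
        norm_num at this
        linarith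
      rw [e1, e2]
      refine ⟨?_, by linarith, by simpa using hcp0, ?_⟩
      · rw [zero_sub, abs_neg, abs_of_nonneg hcp0]; linarith
      · have := main_c hx hcp0 hcp2 hj1' hyc0 hyc hb30
        linarith
    · -- outside
      have hh1 : hh ε b s z.1 + τ ≤ |z.2| := by
        have h1 : (1 / 8 : ℝ) ≤ √(z.1 ^ 2 + b ^ 2) := by
          apply Real.le_sqrt_of_sq_le
          rw [← sq_abs z.1]
          have := pow_le_pow_left₀ (by norm_num) h8 2
          linarith [sq_nonneg b]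
        have h2 : b * (4 + 3 * s) ≤ b * 7 := mul_le_mul_of_nonneg_left (by linarith) hb.le
        have h3 : (1 / 32) * e * (1 / 8) ≤ (1 / 32) * e * √(z.1 ^ 2 + b ^ 2) :=
          mul_le_mul_of_nonneg_left h1 (by positivity)
        have h4 : 10 * b ≤ (1 / 32) * e * (1 / 8) := by
          have h5 : e * (1 / 2000) ^ 5 ≤ e * (1 / 2560) :=
            mul_le_mul_of_nonneg_left (by norm_num) he0.le
          linarith
        unfold hh
        have := abs_nonneg z.2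
        linarith
      have hcp1 : 1 ≤ cp := one_le_dp_cc hb hτ hh1
      have hb' := dx_bb' z
      have hL0 := Lam_nonneg (8 * |z.1| - 1)
      have hL1 := Lam_le_one (8 * |z.1| - 1)
      have hb'0 : 0 ≤ dx bb z := by rw [hb']; linarith
      have hb'1 : dx bb z ≤ 3 / 4 := by rw [hb']; linarith
      have habs := sq_abs z.1
      refine ⟨?_, by linarith, ?_, ?_⟩
      · rw [abs_le]; constructor <;> linarith
      · rw [abs_bb]
        rcases le_total |z.1| (1 / 4) with h4 | h4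
        · rw [Xi_mid (by linarith) (by linarith)]
          have h5 : (8 * |z.1| - 1) ^ 2 ≤ 1 := pow_le_one₀ (by linarith) (by linarith)
          linarith
        · rw [Xi_big (by linarith)]
          linarith
      · rcases le_total |z.1| (1 / 4) with h4 | h4
        · have h5 : 0 ≤ bb z * z.1 := by
            rw [bb_mul]
            have := Xi_nonneg' (8 * |z.1| - 1)
            positivity
          rw [← habs]
          exact main_a (abs_nonneg z.1) h4 hb'0 hb'1 h5 hcp1 hcp2 hj1' hyc0 hyc hb30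
        · have h5 : bb z * z.1 = 3 / 4 * |z.1| ^ 2 - 9 / 64 * |z.1| := by
            rw [bb_mul, Xi_big (by linarith)]; ring
          have h6 : dx bb z = 3 / 4 := by
            rw [hb', Lam_eq_one (by linarith)]; ring
          rw [← habs, h5, h6]
          exact main_b hcp1 hcp2 hj1' hyc0 hyc hb30
  obtain ⟨h1, h2, h3, h4⟩ := hfin
  obtain ⟨k1, k2, k3⟩ := form_core hK2 (by linarith : (0:ℝ) ≤ j) hjK rfl he0 heK hee hcp0 h1 h2 h3
    habc hcx h4 hya hS.h1 hS.h1x hS.h1p hS.h2 hS.h2x hS.h2p hS.ha1 hS.ha2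
  have := form_alg (X := X) (Y := Y) hcp0 k1 k2 k3
  have h9 : (1 / 100) * cp * (X ^ 2 + ε * Y ^ 2) = (1 / 100) * cp * (X ^ 2 + e ^ 2 * Y ^ 2) := by
    rw [← hee]
  rw [h9]
  exact this

end Crest.Agent.Iso
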