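import Crest.Agent.Iso.Tame
import Crest.Agent.Iso.Geom
import Crest.Agent.Iso.CoefDef

/-!
# Row 220: the equation, its coefficients, and the structure `Sol`

`P0 x y = (x²-1/4) y²/2 + y⁴/12`, `∂_y P0 = Py`, `∂_x P0 = Px`, `∂_y² P0 = kk = x²+y²-1/4`.
Metric `E dx² + dy²`, `E0 = 1 - 2 π ε P0` (π is written `ϖ`).
-/

set_option autoImplicit false

open scoped ContDiff
open MeasureTheory Set

namespace Crest.Agent.Iso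

noncomputable def P0 (x y : ℝ) : ℝ := (x ^ 2 - 1 / 4) * y ^ 2 / 2 + y ^ 4 / 12
noncomputable def Px (x y : ℝ) : ℝ := x * y ^ 2
noncomputable def Py (x y : ℝ) : ℝ := (x ^ 2 - 1 / 4) * y + y ^ 3 / 3
noncomputable def kk (x y : ℝ) : ℝ := x ^ 2 + y ^ 2 - 1 / 4

/-- the metric coefficient without bump, as a function on `ℝ × ℝ ∋ (x,y)` -/
noncomputable def E0 (ϖ ε : ℝ) (Y : ℝ × ℝ) : ℝ := 1 - 2 * ϖ * ε * P0 Y.1 Y.2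

/-- The Legendre-transformed Darboux operator of the metric `E dx² + dy²` at `(x,p)`:
`w_xx - (E_y/E) w_x w_xp - (E_x/(2E)) w_x - (E_y/2) p
  + [ϖ⁻¹ (E_y²/(4E) - E_yy/2) (1 - ϖ p²) + (E_yy/(2E)) w_x²] w_pp`,
`E` and its derivatives are evaluated at `(x, w_p)`. -/
noncomputable def opE (ϖ : ℝ) (E : ℝ × ℝ → ℝ) (w : ℝ × ℝ → ℝ) (z : ℝ × ℝ) : ℝ :=
  dx (dx w) z - dp E (z.1, dp w z) / E (z.1, dp w z) * dx w z * dp (dx w) z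
    - dx E (z.1, dp w z) / (2 * E (z.1, dp w z)) * dx w z - dp E (z.1, dp w z) / 2 * z.2
    + (ϖ⁻¹ * (dp E (z.1, dp w z) ^ 2 / (4 * E (z.1, dp w z)) - dp (dp E) (z.1, dp w z) / 2)
        * (1 - ϖ * z.2 ^ 2)
      + dp (dp E) (z.1, dp w z) / (2 * E (z.1, dp w z)) * dx w z ^ 2) * dp (dp w) z

/-! ### explicit coefficients for `E0`; `y = w_p`, `v = w_x`, `d = 1/E0` -/
section coeffs
variable (ϖ ε : ℝ) (w : ℝ × ℝ → ℝ)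

noncomputable def dd : ℝ × ℝ → ℝ := fun z => (1 - 2 * ϖ * ε * P0 z.1 (dp w z))⁻¹

noncomputable def G1 : ℝ × ℝ → ℝ := fun z =>
  2 * ϖ * ε * (Py z.1 (dp w z) * dx w z * dd ϖ ε w z)

noncomputable def G1W : ℝ × ℝ → ℝ := fun z =>
  2 * ϖ * ε * (dx w z * (kk z.1 (dp w z) * dd ϖ ε w z
    + Py z.1 (dp w z) * (2 * ϖ * ε * Py z.1 (dp w z) * dd ϖ ε w z ^ 2)))

noncomputable def G1V : ℝ × ℝ → ℝ := fun z =>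
  2 * ϖ * ε * (Py z.1 (dp w z) * dd ϖ ε w z)

noncomputable def G2 : ℝ × ℝ → ℝ := fun z =>
  ε * (kk z.1 (dp w z) * (1 - ϖ * z.2 ^ 2)
    + ϖ * ((ε * Py z.1 (dp w z) ^ 2 * (1 - ϖ * z.2 ^ 2) - kk z.1 (dp w z) * dx w z ^ 2)
      * dd ϖ ε w z))

noncomputable def G2W : ℝ × ℝ → ℝ := fun z =>
  ε * (2 * dp w z * (1 - ϖ * z.2 ^ 2)
    + ϖ * ((2 * ε * Py z.1 (dp w z) * kk z.1 (dp w z) * (1 - ϖ * z.2 ^ 2)
        - 2 * dp w z * dx w z ^ 2) * dd ϖ ε w z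
      + (ε * Py z.1 (dp w z) ^ 2 * (1 - ϖ * z.2 ^ 2) - kk z.1 (dp w z) * dx w z ^ 2)
        * (2 * ϖ * ε * Py z.1 (dp w z) * dd ϖ ε w z ^ 2)))

noncomputable def G2V : ℝ × ℝ → ℝ := fun z =>
  ε * (ϖ * (- (2 * kk z.1 (dp w z) * dx w z) * dd ϖ ε w z))

noncomputable def G3 : ℝ × ℝ → ℝ := fun z =>
  ϖ * ε * (Px z.1 (dp w z) * dx w z * dd ϖ ε w z + Py z.1 (dp w z) * z.2)

noncomputable def G3W : ℝ × ℝ → ℝ := fun z =>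
  ϖ * ε * (dx w z * (2 * z.1 * dp w z * dd ϖ ε w z
    + Px z.1 (dp w z) * (2 * ϖ * ε * Py z.1 (dp w z) * dd ϖ ε w z ^ 2)) + kk z.1 (dp w z) * z.2)

noncomputable def G3V : ℝ × ℝ → ℝ := fun z =>
  ϖ * ε * (Px z.1 (dp w z) * dd ϖ ε w z)

end coeffs

/-- A solution of the unperturbed equation outside the diamond, `C^10`-close to `p²/2`. -/
structure Sol (δ : ℝ) where
  ε : ℝ
  ϖ : ℝ
  b : ℝ
  w : ℝ × ℝ → ℝ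
  ε_pos : 0 < ε
  ε_le : ε ≤ 1 / 100
  ϖ_pos : 0 < ϖ
  ϖ_le : ϖ ≤ δ
  ϖ_le_one : ϖ ≤ 1
  b_ge : ε ^ 4 ≤ b
  b_le : b ≤ ε ^ 3
  smooth : ContDiff ℝ ∞ w
  bdd : ∀ z, |2 * ϖ * ε * P0 z.1 (dp w z)| ≤ 1 / 2
  close : ∀ a i : ℕ, a + i ≤ 10 → ∀ z : ℝ × ℝ, z.1 ^ 2 + z.2 ^ 2 < 0.81 →
    |dx^[a] (dp^[i] (fun z => w z - z.2 ^ 2 / 2)) z| ≤ δ
  pde : ∀ z : ℝ × ℝ, z.1 ^ 2 + z.2 ^ 2 < 0.81 → hh ε b 0 z.1 < |z.2| →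
    dx (dx w) z + G1 ϖ ε w z * dp (dx w) z + G2 ϖ ε w z * dp (dp w) z + G3 ϖ ε w z = 0

/-- the cost of a derivative -/
noncomputable def Sol.R {δ : ℝ} (S : Sol δ) : ℝ := (S.ε ^ 2)⁻¹

/-- index type: solutions with `ε ≤ ε₁` -/
def SolI (δ ε₁ : ℝ) : Type := {S : Sol δ // S.ε ≤ ε₁}

end Crest.Agent.Iso
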