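import Crest.Agent.Iso.Basic

/-!
# Row 220: tame algebra (uniform L²/sup bounds with orders)

`ι` is an index type of "situations"; all functions are families `f : ι → ℝ × ℝ → ℝ`; `R t ≥ 1`
is the cost of a derivative and `D t` the domain.  Constants are uniform in `t : ι`.

* `BS n f`: `sup_{D t} |f t| ≤ C (R t)^{eS n}` ("f has order n, sup bound")
* `B2 n f`: `∫_{D t} (f t)² ≤ C (R t)^{2 e2 n}`
* `Tame k N g`: smooth, and `dp^[i] (g t)` has the `L²` bound of order `k+i` for `k+i ≤ N` and the sup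
  bound of order `k+i` for `k + i ≤ max 8 (N-3)`.
-/

set_option autoImplicit false

open scoped ContDiff
open MeasureTheory Set

namespace Crest.Agent.Iso

/-- exponent for sup norms -/
def eS (k : ℕ) : ℕ := if k ≤ 8 then 0 else k - 4
/-- exponent for L² norms -/
def e2 (k : ℕ) : ℕ := k - 8

section
variable {ι : Type*} (R : ι → ℝ) (D : ι → Set (ℝ × ℝ))

/-- standing assumptions on `R` and `D` -/
structure Dom : Prop where
  one_le : ∀ t, 1 ≤ R t
  isOpen : ∀ t, IsOpen (D t)
  sub : ∀ t, D t ⊆ Icc (-1) 1 ×ˢ Icc (-1) 1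

def BS (n : ℕ) (f : ι → ℝ × ℝ → ℝ) : Prop :=
  ∃ C : ℝ, 0 ≤ C ∧ ∀ t, ∀ z ∈ D t, |f t z| ≤ C * R t ^ eS n

def B2 (n : ℕ) (f : ι → ℝ × ℝ → ℝ) : Prop :=
  ∃ C : ℝ, 0 ≤ C ∧ ∀ t, ∫ z in D t, (f t z) ^ 2 ≤ C * R t ^ (2 * e2 n)

structure Tame (k N : ℕ) (g : ι → ℝ × ℝ → ℝ) : Prop where
  smooth : ∀ t, ContDiff ℝ ∞ (g t)
  b2 : ∀ i, k + i ≤ N → B2 R D (k + i) (fun t => dp^[i] (g t))
  bs : ∀ i, k + i ≤ max 8 (N - 3) → BS R D (k + i) (fun t => dp^[i] (g t))

variable {R D}

theorem eS_mono {a b : ℕ} (h : a ≤ b) : eS a ≤ eS b := by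
  unfold eS; split_ifs <;> omega

theorem e2_mono {a b : ℕ} (h : a ≤ b) : e2 a ≤ e2 b := by
  unfold e2; omega

/-- the compact square -/
private def KK : Set (ℝ × ℝ) := Icc (-1) 1 ×ˢ Icc (-1) 1

private theorem KK_compact : IsCompact KK := isCompact_Icc.prod isCompact_Icc

private theorem tame_intOn (hD : Dom R D) (t : ι) {f : ℝ × ℝ → ℝ} (hf : Continuous f) :
    IntegrableOn f (D t) :=
  (hf.continuousOn.integrableOn_compact KK_compact).mono_set (hD.sub t)

private theorem tame_vol_lt_top (hD : Dom R D) (t : ι) : volume (D t) < ⊤ :=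
  lt_of_le_of_lt (measure_mono (hD.sub t)) KK_compact.measure_lt_top

private theorem tame_vol_le (hD : Dom R D) (t : ι) : volume.real (D t) ≤ volume.real KK :=
  measureReal_mono (hD.sub t) KK_compact.measure_lt_top.ne

private theorem tame_int_mono (hD : Dom R D) (t : ι) {f g : ℝ × ℝ → ℝ} (hf : Continuous f)
    (hg : Continuous g) (h : ∀ z ∈ D t, f z ≤ g z) : ∫ z in D t, f z ≤ ∫ z in D t, g z :=
  setIntegral_mono_on (tame_intOn hD t hf) (tame_intOn hD t hg) (hD.isOpen t).measurableSet h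

private theorem R_pow_pos (hD : Dom R D) (t : ι) (n : ℕ) : 0 < R t ^ n :=
  pow_pos (lt_of_lt_of_le one_pos (hD.one_le t)) n

private theorem R_pow_mono (hD : Dom R D) (t : ι) {m n : ℕ} (h : m ≤ n) : R t ^ m ≤ R t ^ n :=
  pow_le_pow_right₀ (hD.one_le t) h

theorem BS.mono (hD : Dom R D) {a b : ℕ} {f : ι → ℝ × ℝ → ℝ} (hf : BS R D a f) (h : a ≤ b) :
    BS R D b f := by
  obtain ⟨C, hC, hf⟩ := hf
  exact ⟨C, hC, fun t z hz => (hf t z hz).trans
    (mul_le_mul_of_nonneg_left (R_pow_mono hD t (eS_mono h)) hC)⟩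

theorem B2.mono (hD : Dom R D) {a b : ℕ} {f : ι → ℝ × ℝ → ℝ} (hf : B2 R D a f) (h : a ≤ b) :
    B2 R D b f := by
  obtain ⟨C, hC, hf⟩ := hf
  exact ⟨C, hC, fun t => (hf t).trans
    (mul_le_mul_of_nonneg_left (R_pow_mono hD t (Nat.mul_le_mul_left 2 (e2_mono h))) hC)⟩

/-- sup bounds of order `n ≤ 8` give `L²` bounds of order `n` (bounded domain) -/
theorem BS.toB2 (hD : Dom R D) {n : ℕ} (hn : n ≤ 8) {f : ι → ℝ × ℝ → ℝ}
    (hc : ∀ t, Continuous (f t)) (hf : BS R D n f) : B2 R D n f := by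
  obtain ⟨C, hC, hf⟩ := hf
  refine ⟨C ^ 2 * volume.real KK, by positivity, fun t => ?_⟩
  have hS : eS n = 0 := by unfold eS; rw [if_pos hn]
  have h2 : e2 n = 0 := by unfold e2; omega
  rw [h2, mul_zero, pow_zero, mul_one]
  have h1 : ∀ z ∈ D t, f t z ^ 2 ≤ C ^ 2 := by
    intro z hz
    have := hf t z hz
    rw [hS, pow_zero, mul_one] at this
    rw [← sq_abs]
    exact pow_le_pow_left₀ (abs_nonneg _) this 2
  calc ∫ z in D t, (f t z) ^ 2 ≤ ∫ z in D t, C ^ 2 :=
        tame_int_mono hD t ((hc t).pow 2) continuous_const h1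
    _ = volume.real (D t) * C ^ 2 := by rw [setIntegral_const, smul_eq_mul]
    _ ≤ C ^ 2 * volume.real KK := by
        rw [mul_comm]
        exact mul_le_mul_of_nonneg_left (tame_vol_le hD t) (sq_nonneg C)

theorem BS.add (hD : Dom R D) {n : ℕ} {f g : ι → ℝ × ℝ → ℝ} (hf : BS R D n f) (hg : BS R D n g) :
    BS R D n (fun t z => f t z + g t z) := by
  obtain ⟨C, hC, hf⟩ := hf
  obtain ⟨C', hC', hg⟩ := hg
  refine ⟨C + C', by positivity, fun t z hz => ?_⟩
  calc |f t z + g t z| ≤ |f t z| + |g t z| := abs_add_le _ _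
    _ ≤ C * R t ^ eS n + C' * R t ^ eS n := add_le_add (hf t z hz) (hg t z hz)
    _ = (C + C') * R t ^ eS n := by ring

theorem B2.add (hD : Dom R D) {n : ℕ} {f g : ι → ℝ × ℝ → ℝ} (hfc : ∀ t, Continuous (f t))
    (hgc : ∀ t, Continuous (g t)) (hf : B2 R D n f) (hg : B2 R D n g) :
    B2 R D n (fun t z => f t z + g t z) := by
  obtain ⟨C, hC, hf⟩ := hf
  obtain ⟨C', hC', hg⟩ := hg
  refine ⟨2 * C + 2 * C', by positivity, fun t => ?_⟩
  have hi1 : IntegrableOn (fun z => f t z ^ 2) (D t) := tame_intOn hD t ((hfc t).pow 2)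
  have hi2 : IntegrableOn (fun z => g t z ^ 2) (D t) := tame_intOn hD t ((hgc t).pow 2)
  calc ∫ z in D t, (f t z + g t z) ^ 2
      ≤ ∫ z in D t, (2 * f t z ^ 2 + 2 * g t z ^ 2) := by
        apply tame_int_mono hD t (((hfc t).add (hgc t)).pow 2)
          ((continuous_const.mul ((hfc t).pow 2)).add (continuous_const.mul ((hgc t).pow 2)))
        intro z _
        show (f t z + g t z) ^ 2 ≤ 2 * f t z ^ 2 + 2 * g t z ^ 2
        nlinarith [sq_nonneg (f t z - g t z)]
    _ = 2 * (∫ z in D t, f t z ^ 2) + 2 * ∫ z in D t, g t z ^ 2 := by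
        rw [integral_add (hi1.const_mul 2) (hi2.const_mul 2), integral_const_mul,
          integral_const_mul]
    _ ≤ 2 * (C * R t ^ (2 * e2 n)) + 2 * (C' * R t ^ (2 * e2 n)) := by
        have h1 := hf t
        have h2 := hg t
        linarith
    _ = (2 * C + 2 * C') * R t ^ (2 * e2 n) := by ring

theorem BS.const_mul (hD : Dom R D) {n : ℕ} {f : ι → ℝ × ℝ → ℝ} (c : ι → ℝ)
    (hc : ∃ M : ℝ, ∀ t, |c t| ≤ M) (hf : BS R D n f) : BS R D n (fun t z => c t * f t z) := by
  obtain ⟨C, hC, hf⟩ := hf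
  obtain ⟨M, hM⟩ := hc
  refine ⟨|M| * C, by positivity, fun t z hz => ?_⟩
  rw [abs_mul, mul_assoc]
  exact mul_le_mul ((hM t).trans (le_abs_self M)) (hf t z hz) (abs_nonneg _) (abs_nonneg _)

theorem B2.const_mul (hD : Dom R D) {n : ℕ} {f : ι → ℝ × ℝ → ℝ} (c : ι → ℝ)
    (hc : ∃ M : ℝ, ∀ t, |c t| ≤ M) (hf : B2 R D n f) : B2 R D n (fun t z => c t * f t z) := by
  obtain ⟨C, hC, hf⟩ := hf
  obtain ⟨M, hM⟩ := hc
  refine ⟨M ^ 2 * C, by positivity, fun t => ?_⟩
  have h1 : ∀ z, (c t * f t z) ^ 2 = c t ^ 2 * f t z ^ 2 := fun z => mul_pow _ _ _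
  simp only [h1]
  rw [integral_const_mul, mul_assoc]
  have h2 : c t ^ 2 ≤ M ^ 2 := by
    rw [← sq_abs]
    exact pow_le_pow_left₀ (abs_nonneg _) (hM t) 2
  exact mul_le_mul h2 (hf t) (integral_nonneg fun z => sq_nonneg _) (sq_nonneg _)

private theorem eS_add_le {K L N : ℕ} (hK : K ≤ N) (hL : L ≤ N) (hKL : K + L ≤ N + 4) :
    eS K + eS L ≤ eS N := by
  unfold eS; split_ifs <;> omega

/-- product of a function of order `K` and one of order `L`, `K, L ≤ N`, `K + L ≤ N + 4`: order `N`.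
Proof: if one order is `≤ 8` its exponent is `0`; if both are `> 8` then
`(K - 4) + (L - 4) ≤ N - 4`. -/
theorem BS.mul (hD : Dom R D) {K L N : ℕ} (hK : K ≤ N) (hL : L ≤ N) (hKL : K + L ≤ N + 4)
    {f g : ι → ℝ × ℝ → ℝ} (hf : BS R D K f) (hg : BS R D L g) :
    BS R D N (fun t z => f t z * g t z) := by
  obtain ⟨C, hC, hf⟩ := hf
  obtain ⟨C', hC', hg⟩ := hg
  refine ⟨C * C', by positivity, fun t z hz => ?_⟩
  have hR := R_pow_pos hD t (eS K)
  calc |f t z * g t z| = |f t z| * |g t z| := abs_mul _ _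
    _ ≤ (C * R t ^ eS K) * (C' * R t ^ eS L) :=
        mul_le_mul (hf t z hz) (hg t z hz) (abs_nonneg _) (by positivity)
    _ = C * C' * R t ^ (eS K + eS L) := by rw [pow_add]; ring
    _ ≤ C * C' * R t ^ eS N :=
        mul_le_mul_of_nonneg_left (R_pow_mono hD t (eS_add_le hK hL hKL)) (by positivity)

/-- product of a sup-bounded and an `L²`-bounded function -/
private theorem B2.mul_aux (hD : Dom R D) {a b N : ℕ} (hab : eS a + e2 b ≤ e2 N)
    {f g : ι → ℝ × ℝ → ℝ} (hfc : ∀ t, Continuous (f t)) (hgc : ∀ t, Continuous (g t))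
    (hf : BS R D a f) (hg : B2 R D b g) : B2 R D N (fun t z => f t z * g t z) := by
  obtain ⟨C, hC, hf⟩ := hf
  obtain ⟨C', hC', hg⟩ := hg
  refine ⟨C ^ 2 * C', by positivity, fun t => ?_⟩
  have hR := R_pow_pos hD t (eS a)
  calc ∫ z in D t, (f t z * g t z) ^ 2
      ≤ ∫ z in D t, (C * R t ^ eS a) ^ 2 * g t z ^ 2 := by
        apply tame_int_mono hD t (((hfc t).mul (hgc t)).pow 2)
          (continuous_const.mul ((hgc t).pow 2))
        intro z hz
        show (f t z * g t z) ^ 2 ≤ (C * R t ^ eS a) ^ 2 * g t z ^ 2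
        rw [mul_pow]
        apply mul_le_mul_of_nonneg_right _ (sq_nonneg _)
        rw [← sq_abs]
        exact pow_le_pow_left₀ (abs_nonneg _) (hf t z hz) 2
    _ = (C * R t ^ eS a) ^ 2 * ∫ z in D t, g t z ^ 2 := integral_const_mul _ _
    _ ≤ (C * R t ^ eS a) ^ 2 * (C' * R t ^ (2 * e2 b)) :=
        mul_le_mul_of_nonneg_left (hg t) (sq_nonneg _)
    _ = C ^ 2 * C' * R t ^ (2 * (eS a + e2 b)) := by
        rw [mul_add, pow_add, mul_pow, ← pow_mul]; ring
    _ ≤ C ^ 2 * C' * R t ^ (2 * e2 N) :=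
        mul_le_mul_of_nonneg_left (R_pow_mono hD t (Nat.mul_le_mul_left 2 hab)) (by positivity)

private theorem B2.comm {n : ℕ} {f g : ι → ℝ × ℝ → ℝ} (h : B2 R D n (fun t z => g t z * f t z)) :
    B2 R D n (fun t z => f t z * g t z) := by
  have : (fun t z => f t z * g t z) = fun (t : ι) z => g t z * f t z := by
    funext t z; exact mul_comm _ _
  rw [this]; exact h

/-- the `L²` version.  The smaller of the two orders is `≤ (N+4)/2 ≤ max 8 (N-3)`, so that its sup
bound is available; exponents: if the smaller order is `≤ 8` it costs nothing, otherwise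
`(K - 8) + (L - 4) ≤ N - 8`. -/
theorem B2.mul (hD : Dom R D) {K L N : ℕ} (hK : K ≤ N) (hL : L ≤ N) (hKL : K + L ≤ N + 4)
    {f g : ι → ℝ × ℝ → ℝ} (hfc : ∀ t, Continuous (f t)) (hgc : ∀ t, Continuous (g t))
    (hf : B2 R D K f) (hg : B2 R D L g)
    (hf' : K ≤ max 8 (N - 3) → BS R D K f) (hg' : L ≤ max 8 (N - 3) → BS R D L g) :
    B2 R D N (fun t z => f t z * g t z) := by
  rcases le_total K L with h | h
  · refine B2.mul_aux hD ?_ hfc hgc (hf' (by omega)) hg
    unfold eS e2; split_ifs <;> omega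
  · refine B2.comm (B2.mul_aux hD ?_ hgc hfc (hg' (by omega)) hf)
    unfold eS e2; split_ifs <;> omega

/-- product with a function whose sup bound has exponent `0` -/
theorem B2.mul_bdd (hD : Dom R D) {n m : ℕ} (hm : m ≤ 8) {f g : ι → ℝ × ℝ → ℝ}
    (hfc : ∀ t, Continuous (f t)) (hgc : ∀ t, Continuous (g t))
    (hf : B2 R D n f) (hg : BS R D m g) : B2 R D n (fun t z => f t z * g t z) := by
  refine B2.comm (B2.mul_aux hD ?_ hgc hfc hg hf)
  unfold eS e2; rw [if_pos hm]; omega

theorem BS.congr {n : ℕ} {f g : ι → ℝ × ℝ → ℝ} (hf : BS R D n f)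
    (h : ∀ t, EqOn (f t) (g t) (D t)) : BS R D n g := by
  obtain ⟨C, hC, hf⟩ := hf
  exact ⟨C, hC, fun t z hz => by rw [← h t hz]; exact hf t z hz⟩

theorem B2.congr (hD : Dom R D) {n : ℕ} {f g : ι → ℝ × ℝ → ℝ} (hf : B2 R D n f)
    (h : ∀ t, EqOn (f t) (g t) (D t)) : B2 R D n g := by
  obtain ⟨C, hC, hf⟩ := hf
  refine ⟨C, hC, fun t => ?_⟩
  rw [← setIntegral_congr_fun (hD.isOpen t).measurableSet (f := fun z => (f t z) ^ 2)
    (fun z hz => by simp only [h t hz])]
  exact hf t

private theorem BS.zero (hD : Dom R D) (n : ℕ) : BS R D n (fun (_ : ι) _ => 0) :=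
  ⟨0, le_rfl, fun t z _ => by rw [abs_zero, zero_mul]⟩

private theorem B2.zero (hD : Dom R D) (n : ℕ) : B2 R D n (fun (_ : ι) _ => 0) :=
  ⟨0, le_rfl, fun t => by simp⟩

theorem BS.sum (hD : Dom R D) {n : ℕ} {α : Type*} (s : Finset α) {f : α → ι → ℝ × ℝ → ℝ}
    (hf : ∀ a ∈ s, BS R D n (f a)) : BS R D n (fun t z => ∑ a ∈ s, f a t z) := by
  classical
  induction s using Finset.induction_on with
  | empty => simpa using BS.zero hD n
  | insert a s ha ih =>
    have h1 := BS.add hD (hf a (Finset.mem_insert_self a s))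
      (ih fun b hb => hf b (Finset.mem_insert_of_mem hb))
    simpa only [Finset.sum_insert ha] using h1

theorem B2.sum (hD : Dom R D) {n : ℕ} {α : Type*} (s : Finset α) {f : α → ι → ℝ × ℝ → ℝ}
    (hc : ∀ a ∈ s, ∀ t, Continuous (f a t))
    (hf : ∀ a ∈ s, B2 R D n (f a)) : B2 R D n (fun t z => ∑ a ∈ s, f a t z) := by
  classical
  induction s using Finset.induction_on with
  | empty => simpa using B2.zero hD n
  | insert a s ha ih =>
    have h1 := B2.add hD (hc a (Finset.mem_insert_self a s))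
      (fun t => continuous_finsetSum s fun b hb => hc b (Finset.mem_insert_of_mem hb) t)
      (hf a (Finset.mem_insert_self a s))
      (ih (fun b hb => hc b (Finset.mem_insert_of_mem hb))
        fun b hb => hf b (Finset.mem_insert_of_mem hb))
    simpa only [Finset.sum_insert ha] using h1

theorem Tame.dp' {k N : ℕ} {g : ι → ℝ × ℝ → ℝ} (hg : Tame R D k N g) :
    Tame R D (k + 1) N (fun t => dp (g t)) := by
  refine ⟨fun t => cd_dp (hg.smooth t), fun i hi => ?_, fun i hi => ?_⟩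
  · have h1 := hg.b2 (i + 1) (by omega)
    have e : k + 1 + i = k + (i + 1) := by omega
    rw [e]
    simpa only [Function.iterate_succ_apply] using h1
  · have h1 := hg.bs (i + 1) (by omega)
    have e : k + 1 + i = k + (i + 1) := by omega
    rw [e]
    simpa only [Function.iterate_succ_apply] using h1

/-- raising the order -/
theorem Tame.mono (hD : Dom R D) {k k' N : ℕ} (h : k ≤ k') {g : ι → ℝ × ℝ → ℝ}
    (hg : Tame R D k N g) : Tame R D k' N g :=
  ⟨hg.smooth, fun i hi => (hg.b2 i (by omega)).mono hD (by omega),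
    fun i hi => (hg.bs i (by omega)).mono hD (by omega)⟩

theorem Tame.add (hD : Dom R D) {k N : ℕ} {f g : ι → ℝ × ℝ → ℝ} (hf : Tame R D k N f)
    (hg : Tame R D k N g) : Tame R D k N (fun t z => f t z + g t z) := by
  refine ⟨fun t => (hf.smooth t).add (hg.smooth t), fun i hi => ?_, fun i hi => ?_⟩
  · have h1 := B2.add hD (fun t => (cd_dp_iter (hf.smooth t) i).continuous)
      (fun t => (cd_dp_iter (hg.smooth t) i).continuous) (hf.b2 i hi) (hg.b2 i hi)
    have e : (fun t => dp^[i] (fun z => f t z + g t z)) =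
        fun t z => dp^[i] (f t) z + dp^[i] (g t) z := by
      funext t
      exact dp_iter_add (hf.smooth t) (hg.smooth t) i
    rw [e]; exact h1
  · have h1 := BS.add hD (hf.bs i hi) (hg.bs i hi)
    have e : (fun t => dp^[i] (fun z => f t z + g t z)) =
        fun t z => dp^[i] (f t) z + dp^[i] (g t) z := by
      funext t
      exact dp_iter_add (hf.smooth t) (hg.smooth t) i
    rw [e]; exact h1

theorem Tame.const_mul (hD : Dom R D) {k N : ℕ} {f : ι → ℝ × ℝ → ℝ} (c : ι → ℝ)
    (hc : ∃ M : ℝ, ∀ t, |c t| ≤ M) (hf : Tame R D k N f) :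
    Tame R D k N (fun t z => c t * f t z) := by
  have e : ∀ i, (fun t => dp^[i] (fun z => c t * f t z)) =
      fun t z => c t * dp^[i] (f t) z := by
    intro i
    funext t
    exact dp_iter_const_mul (hf.smooth t) (c t) i
  refine ⟨fun t => contDiff_const.mul (hf.smooth t), fun i hi => ?_, fun i hi => ?_⟩
  · rw [e]; exact B2.const_mul hD c hc (hf.b2 i hi)
  · rw [e]; exact BS.const_mul hD c hc (hf.bs i hi)

theorem Tame.mul (hD : Dom R D) {k N : ℕ} (hk : k ≤ 4) {f g : ι → ℝ × ℝ → ℝ}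
    (hf : Tame R D k N f) (hg : Tame R D k N g) : Tame R D k N (fun t z => f t z * g t z) := by
  have e : ∀ i, (fun t => dp^[i] (fun z => f t z * g t z)) =
      fun t z => ∑ j ∈ Finset.range (i + 1),
        ((i.choose j : ℝ) * (dp^[j] (f t) z * dp^[i - j] (g t) z)) := by
    intro i
    funext t z
    exact dp_iter_mul (hf.smooth t) (hg.smooth t) i z
  refine ⟨fun t => (hf.smooth t).mul (hg.smooth t), fun i hi => ?_, fun i hi => ?_⟩
  · rw [e]
    apply B2.sum hD
    · intro j _ t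
      exact continuous_const.mul (((cd_dp_iter (hf.smooth t) j).continuous).mul
        (cd_dp_iter (hg.smooth t) (i - j)).continuous)
    · intro j hj
      have hj' : j ≤ i := by rw [Finset.mem_range] at hj; omega
      apply B2.const_mul hD (fun _ => (i.choose j : ℝ)) ⟨|(i.choose j : ℝ)|, fun _ => le_rfl⟩
      apply B2.mul hD (K := k + j) (L := k + (i - j)) (N := k + i) (by omega) (by omega)
        (by omega) (fun t => (cd_dp_iter (hf.smooth t) j).continuous)
        (fun t => (cd_dp_iter (hg.smooth t) (i - j)).continuous)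
        (hf.b2 j (by omega)) (hg.b2 (i - j) (by omega))
        (fun h => hf.bs j (by omega)) (fun h => hg.bs (i - j) (by omega))
  · rw [e]
    apply BS.sum hD
    intro j hj
    have hj' : j ≤ i := by rw [Finset.mem_range] at hj; omega
    apply BS.const_mul hD (fun _ => (i.choose j : ℝ)) ⟨|(i.choose j : ℝ)|, fun _ => le_rfl⟩
    exact BS.mul hD (K := k + j) (L := k + (i - j)) (N := k + i) (by omega) (by omega)
      (by omega) (hf.bs j (by omega)) (hg.bs (i - j) (by omega))

private theorem BS.of_bdd (hD : Dom R D) (n : ℕ) {f : ι → ℝ × ℝ → ℝ} (M : ℝ)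
    (hM : ∀ t, ∀ z ∈ D t, |f t z| ≤ M) : BS R D n f := by
  have h0 : BS R D 0 f := by
    refine ⟨|M|, abs_nonneg _, fun t z hz => ?_⟩
    have : eS 0 = 0 := by unfold eS; rw [if_pos (by omega)]
    rw [this, pow_zero, mul_one]
    exact (hM t z hz).trans (le_abs_self M)
  exact h0.mono hD (Nat.zero_le n)

private theorem B2.of_bdd (hD : Dom R D) (n : ℕ) {f : ι → ℝ × ℝ → ℝ} (M : ℝ)
    (hc : ∀ t, Continuous (f t)) (hM : ∀ t, ∀ z ∈ D t, |f t z| ≤ M) : B2 R D n f :=
  ((BS.of_bdd hD 0 M hM).toB2 hD (Nat.zero_le 8) hc).mono hD (Nat.zero_le n)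

private theorem Tame.of_bdd (hD : Dom R D) (k N : ℕ) {f : ι → ℝ × ℝ → ℝ} (M : ℝ)
    (hs : ∀ t, ContDiff ℝ ∞ (f t)) (hM : ∀ i t, ∀ z ∈ D t, |dp^[i] (f t) z| ≤ M) :
    Tame R D k N f :=
  ⟨hs, fun i _ => B2.of_bdd hD _ M (fun t => (cd_dp_iter (hs t) i).continuous) (hM i),
    fun i _ => BS.of_bdd hD _ M (hM i)⟩

private theorem dp_iter_zero (i : ℕ) : dp^[i] (fun _ : ℝ × ℝ => (0 : ℝ)) = fun _ => 0 := by
  induction i with
  | zero => rfl
  | succ i ih => rw [Function.iterate_succ_apply, dp_const, ih]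

/-- bounded constants -/
theorem Tame.const (hD : Dom R D) {k N : ℕ} (c : ι → ℝ) (hc : ∃ M : ℝ, ∀ t, |c t| ≤ M) :
    Tame R D k N (fun t _ => c t) := by
  obtain ⟨M, hM⟩ := hc
  refine Tame.of_bdd hD k N M (fun t => contDiff_const) ?_
  intro i t z _
  cases i with
  | zero => exact hM t
  | succ i =>
    rw [Function.iterate_succ_apply, dp_const, dp_iter_zero, abs_zero]
    exact (abs_nonneg _).trans (hM t)

/-- the coordinate functions -/
theorem Tame.fst (hD : Dom R D) {k N : ℕ} : Tame R D k N (fun _ z => z.1) := by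
  refine Tame.of_bdd hD k N 1 (fun t => contDiff_fst) ?_
  intro i t z hz
  cases i with
  | zero =>
    have := (hD.sub t hz).1
    exact abs_le.2 this
  | succ i =>
    rw [Function.iterate_succ_apply, dp_fst, dp_iter_zero, abs_zero]
    exact zero_le_one

theorem Tame.snd (hD : Dom R D) {k N : ℕ} : Tame R D k N (fun _ z => z.2) := by
  refine Tame.of_bdd hD k N 1 (fun t => contDiff_snd) ?_
  intro i t z hz
  match i with
  | 0 =>
    have := (hD.sub t hz).2
    exact abs_le.2 this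
  | 1 =>
    rw [Function.iterate_one, dp_snd, abs_one]
  | i + 2 =>
    rw [Function.iterate_succ_apply, Function.iterate_succ_apply, dp_snd, dp_const, dp_iter_zero,
      abs_zero]
    exact zero_le_one

theorem Tame.pow (hD : Dom R D) {k N : ℕ} (hk : k ≤ 4) {f : ι → ℝ × ℝ → ℝ}
    (hf : Tame R D k N f) (n : ℕ) : Tame R D k N (fun t z => f t z ^ n) := by
  induction n with
  | zero =>
    simp only [pow_zero]
    exact Tame.const hD (fun _ => 1) ⟨1, fun _ => by rw [abs_one]⟩
  | succ n ih =>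
    simp only [pow_succ]
    exact Tame.mul hD hk ih hf

/-- inverse: if `a d = 1` on `D t` and `d` is bounded on `D t` then `d` is tame.
Proof: strong induction on the order, `a ∂^j d = - Σ_{l ≥ 1} C(j,l) ∂^l a ∂^{j-l} d` on `D t`. -/
theorem Tame.inv (hD : Dom R D) {N : ℕ} {a d : ι → ℝ × ℝ → ℝ} (ha : Tame R D 1 N a)
    (hd : ∀ t, ContDiff ℝ ∞ (d t)) (hb : ∀ t, ∀ z ∈ D t, |d t z| ≤ 2)
    (had : ∀ t, ∀ z ∈ D t, a t z * d t z = 1) : Tame R D 1 N d := by
  have hdc : ∀ i t, Continuous (dp^[i] (d t)) := fun i t => (cd_dp_iter (hd t) i).continuous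
  have hac : ∀ i t, Continuous (dp^[i] (a t)) := fun i t =>
    (cd_dp_iter (ha.smooth t) i).continuous
  -- the recursion
  have hrec : ∀ j, 1 ≤ j → ∀ t, EqOn
      (fun z => (∑ l ∈ Finset.range j, (-(j.choose (l + 1) : ℝ)) *
        (dp^[l + 1] (a t) z * dp^[j - (l + 1)] (d t) z)) * d t z) (dp^[j] (d t)) (D t) := by
    intro j hj t z hz
    have h1 := dp_iter_mul (ha.smooth t) (hd t) j z
    have h2 : dp^[j] (fun z => a t z * d t z) z = 0 := by
      have h3 := dp_iter_congr (hD.isOpen t) (f := fun z => a t z * d t z) (g := fun _ => (1 : ℝ))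
        (fun z hz => had t z hz) j hz
      rw [h3]
      obtain ⟨i, rfl⟩ : ∃ i, j = i + 1 := ⟨j - 1, by omega⟩
      rw [Function.iterate_succ_apply, dp_const, dp_iter_zero]
    rw [h2, Finset.sum_range_succ'] at h1
    simp only [Nat.choose_zero_right, Nat.cast_one, one_mul, Function.iterate_zero, id_eq,
      Nat.sub_zero] at h1
    have h4 := had t z hz
    have h5 : ∑ l ∈ Finset.range j, (-(j.choose (l + 1) : ℝ)) *
        (dp^[l + 1] (a t) z * dp^[j - (l + 1)] (d t) z) = a t z * dp^[j] (d t) z := by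
      simp only [neg_mul, Finset.sum_neg_distrib]
      linarith
    simp only
    rw [h5]
    calc a t z * dp^[j] (d t) z * d t z = (a t z * d t z) * dp^[j] (d t) z := by ring
      _ = dp^[j] (d t) z := by rw [h4, one_mul]
  have hd1 : BS R D 1 d := BS.of_bdd hD 1 2 hb
  have key : ∀ j, (1 + j ≤ max 8 (N - 3) → BS R D (1 + j) (fun t => dp^[j] (d t))) ∧
      (1 + j ≤ N → B2 R D (1 + j) (fun t => dp^[j] (d t))) := by
    intro j
    induction j using Nat.strong_induction_on with
    | _ j ih =>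
      rcases Nat.eq_zero_or_pos j with rfl | hj
      · refine ⟨fun _ => hd1, fun _ => ?_⟩
        exact hd1.toB2 hD (by omega) (fun t => (hd t).continuous)
      · constructor
        · intro hjN
          refine BS.congr ?_ (hrec j hj)
          refine BS.mul hD (K := 1 + j) (L := 1) (by omega) (by omega) (by omega) ?_ hd1
          apply BS.sum hD
          intro l hl
          rw [Finset.mem_range] at hl
          apply BS.const_mul hD (fun _ => (-(j.choose (l + 1) : ℝ)))
            ⟨|(-(j.choose (l + 1) : ℝ))|, fun _ => le_rfl⟩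
          exact BS.mul hD (K := 1 + (l + 1)) (L := 1 + (j - (l + 1))) (by omega) (by omega)
            (by omega) (ha.bs (l + 1) (by omega)) ((ih (j - (l + 1)) (by omega)).1 (by omega))
        · intro hjN
          refine B2.congr hD ?_ (hrec j hj)
          refine B2.mul_bdd hD (m := 1) (by omega) ?_ (fun t => (hd t).continuous) ?_ hd1
          · intro t
            exact continuous_finsetSum _ fun l _ => continuous_const.mul
              ((hac (l + 1) t).mul (hdc (j - (l + 1)) t))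
          · apply B2.sum hD
            · intro l _ t
              exact continuous_const.mul ((hac (l + 1) t).mul (hdc (j - (l + 1)) t))
            · intro l hl
              rw [Finset.mem_range] at hl
              apply B2.const_mul hD (fun _ => (-(j.choose (l + 1) : ℝ)))
                ⟨|(-(j.choose (l + 1) : ℝ))|, fun _ => le_rfl⟩
              exact B2.mul hD (K := 1 + (l + 1)) (L := 1 + (j - (l + 1))) (by omega) (by omega)
                (by omega) (hac (l + 1)) (hdc (j - (l + 1)))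
                (ha.b2 (l + 1) (by omega)) ((ih (j - (l + 1)) (by omega)).2 (by omega))
                (fun _ => ha.bs (l + 1) (by omega))
                (fun _ => (ih (j - (l + 1)) (by omega)).1 (by omega))
  exact ⟨hd, fun i hi => (key i).2 hi, fun i hi => (key i).1 hi⟩

end

end Crest.Agent.Iso
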