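import Crest.Agent.Iso.BDef

/-!
# Row 220, part B: nets of tasks and disjoint balls
-/

set_option autoImplicit false

open scoped ContDiff
open MeasureTheory Set

namespace Crest.Agent.Iso

/-- Finite nets of the circles and of the unit circle, for every `n`, enumerated as one sequence of
tasks `(n, z, e)`; each `n` occurs only finitely often. -/
theorem exists_tasks (σ : ℕ → ℝ) (hσ : ∀ n, 0 < σ n) : ∃ task : ℕ → ℕ × E2 × E2,
    (∀ m, ∃ j, (task m).2.1 ∈ Circ j) ∧ (∀ m, ‖(task m).2.2‖ = 1) ∧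
    (∀ k, {m | (task m).1 ≤ k}.Finite) ∧
    ∀ n j : ℕ, j ≤ n → ∀ z ∈ Circ j, ∃ z' ∈ Circ j, ‖z - z'‖ ≤ 1 / (n + 1) ∧
      ∀ e : E2, ‖e‖ = 1 → ∃ m, (task m).1 = n ∧ (task m).2.1 = z' ∧ ‖e - (task m).2.2‖ ≤ σ n := by
  classical
  have hZ : ∀ n j : ℕ, ∃ t : Set E2, t ⊆ Circ j ∧ t.Finite ∧
      Circ j ⊆ ⋃ x ∈ t, Metric.ball x (1 / ((n : ℝ) + 1)) := by
    intro n j
    exact (isCompact_sphere (cj j) (Rj j)).finite_cover_balls (by positivity)
  choose Z hZsub hZfin hZcov using hZ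
  have hE : ∀ n : ℕ, ∃ t : Set E2, t ⊆ Metric.sphere (0 : E2) 1 ∧ t.Finite ∧
      Metric.sphere (0 : E2) 1 ⊆ ⋃ x ∈ t, Metric.ball x (σ n) := by
    intro n
    exact (isCompact_sphere (0 : E2) 1).finite_cover_balls (hσ n)
  choose E hEsub hEfin hEcov using hE
  set T : ℕ → Set (E2 × E2) := fun n => (⋃ j ∈ Set.Iic n, Z n j) ×ˢ (E n) with hT
  have hTfin : ∀ n, (T n).Finite := by
    intro n
    exact Set.Finite.prod (Set.Finite.biUnion (Set.finite_Iic n) (fun j _ => hZfin n j)) (hEfin n)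
  have hmem : ∀ n j : ℕ, j ≤ n → ∀ z' ∈ Z n j, ∀ e' ∈ E n, (z', e') ∈ T n := by
    intro n j hj z' hz' e' he'
    refine ⟨?_, he'⟩
    exact Set.mem_biUnion (Set.mem_Iic.2 hj) hz'
  have hcirc0 : ∃ z : E2, z ∈ Circ 0 := by
    have : (Metric.sphere (cj 0) (Rj 0)).Nonempty := by
      have hr : (0 : ℝ) ≤ Rj 0 := by unfold Rj; positivity
      exact NormedSpace.sphere_nonempty.2 hr
    exact this
  have hTne : ∀ n, (T n).Nonempty := by
    intro n
    obtain ⟨z, hz⟩ := hcirc0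
    have h1 := hZcov n 0 hz
    obtain ⟨x, hx, _⟩ := Set.mem_iUnion₂.1 h1
    have he : (e1 : E2) ∈ Metric.sphere (0 : E2) 1 := by
      simp [e1, EuclideanSpace.norm_eq, Fin.sum_univ_two]
    have h2 := hEcov n he
    obtain ⟨y, hy, _⟩ := Set.mem_iUnion₂.1 h2
    exact ⟨(x, y), hmem n 0 (Nat.zero_le n) x hx y hy⟩
  have hfinT : ∀ n, Finite (T n) := fun n => (hTfin n).to_subtype
  have : Countable (Σ n : ℕ, (T n)) := inferInstance
  have : Infinite (Σ n : ℕ, (T n)) := by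
    refine Infinite.of_injective (fun n : ℕ => (⟨n, ⟨(hTne n).some, (hTne n).some_mem⟩⟩ :
      Σ n : ℕ, (T n))) ?_
    intro a b hab
    have := congrArg Sigma.fst hab
    exact this
  obtain ⟨φ⟩ : Nonempty (ℕ ≃ (Σ n : ℕ, (T n))) := nonempty_equiv_of_countable
  refine ⟨fun m => ((φ m).1, ((φ m).2 : E2 × E2)), ?_, ?_, ?_, ?_⟩
  · intro m
    have h := (φ m).2.2
    obtain ⟨h1, _⟩ := h
    obtain ⟨j, _, hj2⟩ := Set.mem_iUnion₂.1 h1
    exact ⟨j, hZsub _ _ hj2⟩
  · intro m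
    have h := (φ m).2.2
    obtain ⟨_, h2⟩ := h
    have := hEsub _ h2
    simpa using this
  · intro k
    have hfin : (Set.range (fun x : (Σ n : Set.Iic k, (T (n : ℕ))) =>
        (⟨(x.1 : ℕ), x.2⟩ : Σ n : ℕ, (T n)))).Finite := by
      have : Finite (Set.Iic k) := (Set.finite_Iic k).to_subtype
      exact Set.finite_range _
    refine Set.Finite.subset (hfin.preimage (φ.injective.injOn)) ?_
    intro m hm
    have hm' : (φ m).1 ≤ k := hm
    exact ⟨⟨⟨(φ m).1, hm'⟩, (φ m).2⟩, rfl⟩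
  · intro n j hj z hz
    obtain ⟨z', hz', hzz⟩ := Set.mem_iUnion₂.1 (hZcov n j hz)
    refine ⟨z', hZsub n j hz', ?_, ?_⟩
    · rw [Metric.mem_ball, dist_eq_norm] at hzz
      exact hzz.le
    · intro e he
      obtain ⟨e', he', hee⟩ := Set.mem_iUnion₂.1 (hEcov n (by simpa using he :
        e ∈ Metric.sphere (0 : E2) 1))
      have hφ := φ.apply_symm_apply ⟨n, ⟨(z', e'), hmem n j hj z' hz' e' he'⟩⟩
      refine ⟨φ.symm ⟨n, ⟨(z', e'), hmem n j hj z' hz' e' he'⟩⟩, ?_, ?_, ?_⟩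
      · change (φ (φ.symm _)).1 = n
        rw [hφ]
      · change ((φ (φ.symm _)).2 : E2 × E2).1 = z'
        rw [hφ]
      · change ‖e - ((φ (φ.symm _)).2 : E2 × E2).2‖ ≤ σ n
        rw [hφ]
        rw [Metric.mem_ball, dist_eq_norm] at hee
        exact hee.le

theorem tk_norm_cj (j : ℕ) : ‖cj j‖ = (1 / 2 : ℝ) ^ (j + 1) := by
  simp [cj, EuclideanSpace.norm_eq, Fin.sum_univ_two]

theorem tk_norm_cj_sub (i j : ℕ) : ‖cj i - cj j‖ = |(1 / 2 : ℝ) ^ (i + 1) - (1 / 2 : ℝ) ^ (j + 1)| := by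
  simp [cj, EuclideanSpace.norm_eq, Fin.sum_univ_two, Real.sqrt_sq_eq_abs]

theorem tk_pow_sub {i j : ℕ} (hij : i < j) :
    (1 / 2 : ℝ) ^ (i + 1) / 2 ≤ (1 / 2 : ℝ) ^ (i + 1) - (1 / 2 : ℝ) ^ (j + 1) := by
  have h : (1 / 2 : ℝ) ^ (j + 1) ≤ (1 / 2 : ℝ) ^ (i + 1 + 1) :=
    pow_le_pow_of_le_one (by norm_num) (by norm_num) (by omega)
  rw [pow_succ (1 / 2 : ℝ) (i + 1)] at h
  linarith

theorem tk_Rj_pos (j : ℕ) : 0 < Rj j := by unfold Rj; positivity

theorem isClosed_KK : IsClosed KK := by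
  rw [← isOpen_compl_iff, Metric.isOpen_iff]
  intro x hx
  have hx0 : x ≠ 0 := by
    rintro rfl
    exact hx (Or.inl rfl)
  have hxn : 0 < ‖x‖ := norm_pos_iff.2 hx0
  obtain ⟨J, hJ⟩ := exists_pow_lt_of_lt_one (show (0 : ℝ) < ‖x‖ / 4 by positivity)
    (show (1 / 2 : ℝ) < 1 by norm_num)
  have hclosed : IsClosed (⋃ j ∈ Set.Iio J, Metric.closedBall (cj j) (Rj j)) :=
    Set.Finite.isClosed_biUnion (Set.finite_Iio J) (fun j _ => Metric.isClosed_closedBall)
  have hxc : x ∈ (⋃ j ∈ Set.Iio J, Metric.closedBall (cj j) (Rj j))ᶜ := by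
    intro h
    obtain ⟨j, _, hj⟩ := Set.mem_iUnion₂.1 h
    exact hx (Or.inr (Set.mem_iUnion.2 ⟨j, hj⟩))
  obtain ⟨ε, hε, hεs⟩ := Metric.isOpen_iff.1 hclosed.isOpen_compl x hxc
  refine ⟨min ε (‖x‖ / 2), lt_min hε (by positivity), ?_⟩
  intro y hy hyK
  rw [Metric.mem_ball, lt_min_iff] at hy
  have hyn : ‖x‖ / 2 < ‖y‖ := by
    have h1 := hy.2
    rw [dist_eq_norm] at h1
    have h2 : ‖x‖ ≤ ‖y‖ + ‖y - x‖ := by
      have := norm_sub_le y (y - x)
      simpa using this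
    linarith
  rcases hyK with h | h
  · rw [Set.mem_singleton_iff] at h
    rw [h, norm_zero] at hyn
    linarith
  · obtain ⟨j, hj⟩ := Set.mem_iUnion.1 h
    by_cases hjJ : j < J
    · exact hεs (Metric.mem_ball.2 hy.1) (Set.mem_biUnion (Set.mem_Iio.2 hjJ) hj)
    · push Not at hjJ
      rw [Metric.mem_closedBall, dist_eq_norm] at hj
      have h1 : ‖y‖ ≤ ‖y - cj j‖ + ‖cj j‖ := by
        have := norm_add_le (y - cj j) (cj j)
        simpa using this
      rw [tk_norm_cj] at h1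
      unfold Rj at hj
      have h2 : (1 / 2 : ℝ) ^ (j + 1) ≤ (1 / 2 : ℝ) ^ J :=
        pow_le_pow_of_le_one (by norm_num) (by norm_num) (by omega)
      have h3 : (0 : ℝ) < (1 / 2 : ℝ) ^ (j + 1) := by positivity
      linarith

/-- points of the circles are not interior points of `KK`: there are points outside `KK` arbitrarily
close (`z + s (z - c_j)`, `s > 0` small) -/
theorem exists_notMem_KK {j : ℕ} {z : E2} (hz : z ∈ Circ j) {s : ℝ} (hs : 0 < s) :
    ∃ q : E2, ‖q - z‖ < s ∧ q ∉ KK := by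
  have hR := tk_Rj_pos j
  have hzn : ‖z - cj j‖ = Rj j := by
    have : z ∈ Metric.sphere (cj j) (Rj j) := hz
    simpa [dist_eq_norm] using this
  set t : ℝ := min 1 (s / (2 * Rj j)) with ht
  have ht0 : 0 < t := lt_min one_pos (by positivity)
  have ht1 : t ≤ 1 := min_le_left _ _
  have ht2 : t * Rj j ≤ s / 2 := by
    have h := min_le_right 1 (s / (2 * Rj j))
    calc t * Rj j ≤ s / (2 * Rj j) * Rj j := mul_le_mul_of_nonneg_right h hR.le
      _ = s / 2 := by field_simp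
  have hqc : ‖z + t • (z - cj j) - cj j‖ = (1 + t) * Rj j := by
    have : z + t • (z - cj j) - cj j = (1 + t) • (z - cj j) := by
      rw [add_smul, one_smul]; abel
    rw [this, norm_smul, hzn, Real.norm_eq_abs, abs_of_pos (by linarith)]
  refine ⟨z + t • (z - cj j), ?_, ?_⟩
  · have : z + t • (z - cj j) - z = t • (z - cj j) := by abel
    rw [this, norm_smul, hzn, Real.norm_eq_abs, abs_of_pos ht0]
    linarith
  · rintro (h | h)
    · rw [Set.mem_singleton_iff] at h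
      rw [h, zero_sub, norm_neg, tk_norm_cj] at hqc
      unfold Rj at hqc
      have h3 : (0 : ℝ) < (1 / 2 : ℝ) ^ (j + 1) := by positivity
      nlinarith
    · obtain ⟨i, hi⟩ := Set.mem_iUnion.1 h
      rw [Metric.mem_closedBall, dist_eq_norm] at hi
      have htri : ‖cj i - cj j‖ ≤ Rj i + (1 + t) * Rj j := by
        have h1 : cj i - cj j = -(z + t • (z - cj j) - cj i) + (z + t • (z - cj j) - cj j) := by abel
        calc ‖cj i - cj j‖ = ‖-(z + t • (z - cj j) - cj i) + (z + t • (z - cj j) - cj j)‖ := by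
              rw [← h1]
          _ ≤ ‖-(z + t • (z - cj j) - cj i)‖ + ‖(z + t • (z - cj j) - cj j)‖ := norm_add_le _ _
          _ ≤ Rj i + (1 + t) * Rj j := by rw [norm_neg, hqc]; linarith
      rw [tk_norm_cj_sub] at htri
      have ha : (0 : ℝ) < (1 / 2 : ℝ) ^ (i + 1) := by positivity
      have hb : (0 : ℝ) < (1 / 2 : ℝ) ^ (j + 1) := by positivity
      have htR : (1 + t) * Rj j ≤ 2 * Rj j := by nlinarith
      rcases lt_trichotomy i j with hij | hij | hij
      · have h1 := tk_pow_sub hij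
        rw [abs_of_pos (by linarith)] at htri
        unfold Rj at htri htR
        linarith
      · subst hij
        rw [hqc] at hi
        nlinarith
      · have h1 := tk_pow_sub hij
        rw [abs_sub_comm, abs_of_pos (by linarith)] at htri
        unfold Rj at htri htR
        linarith

/-- one step of the recursion in `exists_balls` -/
theorem tk_step {S : Set E2} (hS : IsClosed S) (hSK : Disjoint S KK) {z : E2}
    (hz : ∃ j, z ∈ Circ j) {σ : ℝ} (hσ : 0 < σ) :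
    ∃ (q : E2) (r : ℝ), 0 < r ∧ r ≤ σ ∧ ‖q - z‖ ≤ σ ∧
      Disjoint (Metric.closedBall q (3 * r)) KK ∧ Disjoint (Metric.closedBall q (3 * r)) S := by
  obtain ⟨j, hj⟩ := hz
  have hzK : z ∈ KK := by
    refine Or.inr (Set.mem_iUnion.2 ⟨j, ?_⟩)
    exact Metric.sphere_subset_closedBall hj
  have hzS : z ∈ Sᶜ := fun h => Set.disjoint_left.1 hSK h hzK
  obtain ⟨ε, hε, hεs⟩ := Metric.isOpen_iff.1 hS.isOpen_compl z hzS
  obtain ⟨q, hq1, hq2⟩ := exists_notMem_KK hj (lt_min hε hσ)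
  rw [lt_min_iff] at hq1
  have hqS : q ∈ Sᶜ := hεs (by rw [Metric.mem_ball, dist_eq_norm]; exact hq1.1)
  have hqU : q ∈ (S ∪ KK)ᶜ := by
    intro h
    rcases h with h | h
    · exact hqS h
    · exact hq2 h
  obtain ⟨δ, hδ, hδs⟩ := Metric.isOpen_iff.1 (hS.union isClosed_KK).isOpen_compl q hqU
  refine ⟨q, min σ (δ / 6), lt_min hσ (by positivity), min_le_left _ _, hq1.2.le, ?_, ?_⟩
  · rw [Set.disjoint_left]
    intro y hy hyK
    have : y ∈ Metric.ball q δ := by
      rw [Metric.mem_closedBall] at hy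
      rw [Metric.mem_ball]
      have h1 := min_le_right σ (δ / 6)
      linarith
    exact hδs this (Or.inr hyK)
  · rw [Set.disjoint_left]
    intro y hy hyS
    have : y ∈ Metric.ball q δ := by
      rw [Metric.mem_closedBall] at hy
      rw [Metric.mem_ball]
      have h1 := min_le_right σ (δ / 6)
      linarith
    exact hδs this (Or.inl hyS)

/-- disjoint balls near given points of the circles, by recursion: the previous closed balls do not
contain `z m ∈ KK` -/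
theorem exists_balls (z : ℕ → E2) (hz : ∀ m, ∃ j, z m ∈ Circ j) (σ : ℕ → ℝ) (hσ : ∀ m, 0 < σ m) :
    ∃ (q : ℕ → E2) (r : ℕ → ℝ), (∀ m, 0 < r m ∧ r m ≤ σ m ∧ ‖q m - z m‖ ≤ σ m) ∧
    (∀ m, Disjoint (Metric.closedBall (q m) (3 * r m)) KK) ∧
    ∀ m m', m ≠ m' →
      Disjoint (Metric.closedBall (q m) (3 * r m)) (Metric.closedBall (q m') (3 * r m')) := by
  have hstep : ∀ (S : Set E2) (m : ℕ), ∃ (q : E2) (r : ℝ), (IsClosed S ∧ Disjoint S KK) →
      (0 < r ∧ r ≤ σ m ∧ ‖q - z m‖ ≤ σ m ∧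
      Disjoint (Metric.closedBall q (3 * r)) KK ∧ Disjoint (Metric.closedBall q (3 * r)) S) := by
    intro S m
    by_cases h : IsClosed S ∧ Disjoint S KK
    · obtain ⟨q, r, h1⟩ := tk_step h.1 h.2 (hz m) (hσ m)
      exact ⟨q, r, fun _ => h1⟩
    · exact ⟨0, 0, fun h' => absurd h' h⟩
  choose Q R hQR using hstep
  let S : ℕ → Set E2 := fun m => Nat.rec (motive := fun _ => Set E2) ∅
    (fun m S => S ∪ Metric.closedBall (Q S m) (3 * R S m)) m
  have hS0 : S 0 = ∅ := rfl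
  have hSs : ∀ m, S (m + 1) = S m ∪ Metric.closedBall (Q (S m) m) (3 * R (S m) m) := fun m => rfl
  have hSok : ∀ m, IsClosed (S m) ∧ Disjoint (S m) KK := by
    intro m
    induction m with
    | zero => rw [hS0]; exact ⟨isClosed_empty, Set.empty_disjoint _⟩
    | succ m ih =>
      rw [hSs]
      refine ⟨ih.1.union Metric.isClosed_closedBall, ?_⟩
      rw [Set.disjoint_union_left]
      exact ⟨ih.2, (hQR (S m) m ih).2.2.2.1⟩
  have hmono : ∀ m k, S m ⊆ S (m + k) := by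
    intro m k
    induction k with
    | zero => exact subset_rfl
    | succ k ih =>
      refine ih.trans ?_
      rw [← add_assoc, hSs]
      exact Set.subset_union_left
  have hball : ∀ m m', m < m' → Metric.closedBall (Q (S m) m) (3 * R (S m) m) ⊆ S m' := by
    intro m m' h
    obtain ⟨k, rfl⟩ := Nat.exists_eq_add_of_lt h
    have h1 : Metric.closedBall (Q (S m) m) (3 * R (S m) m) ⊆ S (m + 1) := by
      rw [hSs]; exact Set.subset_union_right
    refine h1.trans ?_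
    have := hmono (m + 1) k
    rwa [show m + 1 + k = m + k + 1 by ring] at this
  have hdis : ∀ m m', m < m' → Disjoint (Metric.closedBall (Q (S m) m) (3 * R (S m) m))
      (Metric.closedBall (Q (S m') m') (3 * R (S m') m')) := by
    intro m m' h
    exact ((hQR (S m') m' (hSok m')).2.2.2.2.mono_right (hball m m' h)).symm
  refine ⟨fun m => Q (S m) m, fun m => R (S m) m, ?_, ?_, ?_⟩
  · intro m
    have := hQR (S m) m (hSok m)
    exact ⟨this.1, this.2.1, this.2.2.1⟩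
  · intro m
    exact (hQR (S m) m (hSok m)).2.2.2.1
  · intro m m' hne
    rcases lt_or_gt_of_ne hne with h | h
    · exact hdis m m' h
    · exact (hdis m' m h).symm

end Crest.Agent.Iso
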