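import Crest.Agent.Iso.NoBSol
import Crest.Agent.Iso.Legendre
import Crest.Agent.Iso.Darboux

/-!
# Row 220: Theorem C
-/

set_option autoImplicit false

open scoped ContDiff
open MeasureTheory Set

namespace Crest.Agent.Iso

/-- the structure metric `E dX² + dY²` on the square `(-1,1)²`, amplitude `η`, bump exponent `n` -/
noncomputable def Es (n : ℕ) (η : ℝ) (Y : ℝ × ℝ) : ℝ :=
  1 - 2 * (η * P0 Y.1 Y.2 + η ^ n * (η ^ 3) ^ 2 * P1 (Y.1 / η ^ 3, Y.2 / η ^ 3))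

theorem Es_eq {n : ℕ} {η ϖ : ℝ} (hϖ : 0 < ϖ) :
    Es n η = E1 ϖ (η / ϖ) (η ^ n / ϖ) (η ^ 3) := by
  funext Y
  simp only [Es, E1]
  field_simp

section aux

private theorem hc_dx {f : ℝ × ℝ → ℝ} (hc : HasCompactSupport f) : HasCompactSupport (dx f) :=
  hc.fderiv_apply (𝕜 := ℝ) (1, 0)

private theorem hc_dp {f : ℝ × ℝ → ℝ} (hc : HasCompactSupport f) : HasCompactSupport (dp f) :=
  hc.fderiv_apply (𝕜 := ℝ) (0, 1)

private theorem hc_dp_iter {f : ℝ × ℝ → ℝ} (hc : HasCompactSupport f) (n : ℕ) :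
    HasCompactSupport (dp^[n] f) := by
  induction n generalizing f with
  | zero => exact hc
  | succ n ih => rw [Function.iterate_succ_apply]; exact ih (hc_dp hc)

private theorem hc_dx_iter {f : ℝ × ℝ → ℝ} (hc : HasCompactSupport f) (n : ℕ) :
    HasCompactSupport (dx^[n] f) := by
  induction n generalizing f with
  | zero => exact hc
  | succ n ih => rw [Function.iterate_succ_apply]; exact ih (hc_dx hc)

private theorem bdd_deriv {f : ℝ × ℝ → ℝ} (hf : ContDiff ℝ ∞ f) (hc : HasCompactSupport f)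
    (a i : ℕ) : ∃ C : ℝ, 0 ≤ C ∧ ∀ z, |dx^[a] (dp^[i] f) z| ≤ C := by
  have hs : ContDiff ℝ ∞ (dx^[a] (dp^[i] f)) := cd_dx_iter (cd_dp_iter hf i) a
  obtain ⟨C, hC⟩ := hs.continuous.bounded_above_of_compact_support
    (hc_dx_iter (hc_dp_iter hc i) a)
  exact ⟨C, (norm_nonneg _).trans (hC 0), fun z => hC z⟩

private theorem bdd_derivs {f : ℝ × ℝ → ℝ} (hf : ContDiff ℝ ∞ f) (hc : HasCompactSupport f)
    (N : ℕ) : ∃ C : ℝ, 0 ≤ C ∧ ∀ a i : ℕ, a + i ≤ N → ∀ z, |dx^[a] (dp^[i] f) z| ≤ C := by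
  choose C hC0 hC using fun p : ℕ × ℕ => bdd_deriv hf hc p.1 p.2
  refine ⟨∑ p ∈ Finset.range (N + 1) ×ˢ Finset.range (N + 1), C p,
    Finset.sum_nonneg fun p _ => hC0 p, fun a i hai z => (hC (a, i) z).trans ?_⟩
  exact Finset.single_le_sum (f := C) (fun p _ => hC0 p)
    (Finset.mem_product.2 ⟨Finset.mem_range.2 (by simp; omega), Finset.mem_range.2 (by simp; omega)⟩)

/-- derivatives vanish off the support -/
private theorem deriv_zero {f : ℝ × ℝ → ℝ} {z : ℝ × ℝ} (hz : z ∉ tsupport f) (a i : ℕ) :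
    dx^[a] (dp^[i] f) z = 0 := by
  have hU : IsOpen (tsupport f)ᶜ := (isClosed_tsupport f).isOpen_compl
  have h0 : EqOn f (fun _ => (0 : ℝ)) (tsupport f)ᶜ := fun x hx => image_eq_zero_of_notMem_tsupport hx
  have h1 := dx_iter_congr hU (dp_iter_congr hU h0 i) a hz
  rw [h1]
  have hp : ∀ n, dp^[n] (fun _ => (0 : ℝ)) = fun _ => (0 : ℝ) := fun n => by
    induction n with
    | zero => rfl
    | succ n ih => rw [Function.iterate_succ_apply, dp_const, ih]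
  have hx : ∀ n, dx^[n] (fun _ => (0 : ℝ)) = fun _ => (0 : ℝ) := fun n => by
    induction n with
    | zero => rfl
    | succ n ih => rw [Function.iterate_succ_apply, dx_const, ih]
  rw [hp, hx]

/-- cutoff functions -/
private noncomputable def cutA : ContDiffBump (0 : ℝ × ℝ) :=
  ⟨0.96, 0.98, by norm_num, by norm_num⟩

private noncomputable def cutB : ContDiffBump (0 : ℝ × ℝ) := ⟨1, 2, by norm_num, by norm_num⟩

private theorem cutA_one {z : ℝ × ℝ} (h1 : |z.1| ≤ 0.96) (h2 : |z.2| ≤ 0.96) : cutA z = 1 := by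
  apply cutA.one_of_mem_closedBall
  rw [mem_closedBall_zero_iff, Prod.norm_def]
  exact max_le h1 h2

private theorem cutB_one {z : ℝ × ℝ} (h1 : |z.1| ≤ 1) (h2 : |z.2| ≤ 1) : cutB z = 1 := by
  apply cutB.one_of_mem_closedBall
  rw [mem_closedBall_zero_iff, Prod.norm_def]
  exact max_le h1 h2

private theorem cutA_support {z : ℝ × ℝ} (h : ¬ (|z.1| < 1 ∧ |z.2| < 1)) :
    z ∉ tsupport (cutA : ℝ × ℝ → ℝ) := by
  intro hz
  rw [cutA.tsupport_eq, mem_closedBall_zero_iff, Prod.norm_def] at hz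
  have h3 : (cutA.rOut : ℝ) = 0.98 := rfl
  rw [h3] at hz
  have h1 : ‖z.1‖ ≤ 0.98 := (le_max_left _ _).trans hz
  have h2 : ‖z.2‖ ≤ 0.98 := (le_max_right _ _).trans hz
  rw [Real.norm_eq_abs] at h1 h2
  exact h ⟨by linarith, by linarith⟩

private theorem cutB_support {z : ℝ × ℝ} (h : 2 < |z.1| ∨ 2 < |z.2|) :
    z ∉ tsupport (cutB : ℝ × ℝ → ℝ) := by
  intro hz
  rw [cutB.tsupport_eq, mem_closedBall_zero_iff, Prod.norm_def] at hz
  have h3 : (cutB.rOut : ℝ) = 2 := rfl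
  rw [h3] at hz
  have h1 : ‖z.1‖ ≤ 2 := (le_max_left _ _).trans hz
  have h2 : ‖z.2‖ ≤ 2 := (le_max_right _ _).trans hz
  rw [Real.norm_eq_abs] at h1 h2
  rcases h with h | h <;> linarith

/-- products with a fixed cutoff function -/
private theorem cut_mul (N : ℕ) : ∃ C : ℝ, 1 ≤ C ∧ ∀ (ρ : ℝ) (g : ℝ × ℝ → ℝ), 0 ≤ ρ →
    ContDiff ℝ ∞ g →
    (∀ a i : ℕ, a + i ≤ N → ∀ z : ℝ × ℝ, |z.1| < 1 → |z.2| < 1 → |dx^[a] (dp^[i] g) z| ≤ ρ) →
    ∀ a i : ℕ, a + i ≤ N → ∀ z : ℝ × ℝ, |dx^[a] (dp^[i] (fun z => cutA z * g z)) z| ≤ C * ρ := by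
  let ι : Type := {p : ℝ × (ℝ × ℝ → ℝ) // 0 ≤ p.1 ∧ ContDiff ℝ ∞ p.2 ∧
    ∀ a i : ℕ, a + i ≤ N → ∀ z : ℝ × ℝ, |z.1| < 1 → |z.2| < 1 → |dx^[a] (dp^[i] p.2) z| ≤ p.1}
  let D : ι → Set (ℝ × ℝ) := fun _ => {z | |z.1| < 1 ∧ |z.2| < 1}
  let R : ι → ℝ := fun _ => 1
  have hR : ∀ t, 0 ≤ R t := fun _ => zero_le_one
  have hg : MB R D (fun t : ι => t.1.1) N N (fun t => t.1.2) := by
    refine ⟨fun t => t.2.2.1, 1, zero_le_one, fun a i _ hai t z hz => ?_⟩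
    have := t.2.2.2 a i hai z hz.1 hz.2
    simpa [R] using this
  obtain ⟨Cχ, hCχ, hbχ⟩ := bdd_derivs (f := (cutA : ℝ × ℝ → ℝ)) cutA.contDiff
    cutA.hasCompactSupport N
  have hχ : MB R D (fun _ : ι => (1 : ℝ)) N N (fun _ => (cutA : ℝ × ℝ → ℝ)) := by
    refine ⟨fun _ => cutA.contDiff, Cχ, hCχ, fun a i _ hai t z _ => ?_⟩
    have := hbχ a i hai z
    simpa [R] using this
  obtain ⟨_, C, hC, hb⟩ := MB.mul hR (fun _ => zero_le_one) (fun t => t.2.1) hχ hg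
  refine ⟨C + 1, by linarith, fun ρ g hρ hg hbg a i hai z => ?_⟩
  by_cases hz : |z.1| < 1 ∧ |z.2| < 1
  · have := hb a i (by omega) hai ⟨(ρ, g), hρ, hg, hbg⟩ z hz
    simp only [R, one_pow, mul_one, one_mul] at this
    refine this.trans ?_
    nlinarith
  · have h1 : z ∉ tsupport (fun z => cutA z * g z) := by
      intro h2
      have h3 : tsupport (fun z => cutA z * g z) ⊆ tsupport (cutA : ℝ × ℝ → ℝ) :=
        tsupport_mul_subset_left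
      exact cutA_support hz (h3 h2)
    rw [deriv_zero h1, abs_zero]
    positivity

private theorem dp_halfsq : dp (fun z : ℝ × ℝ => z.2 ^ 2 / 2) = fun z => z.2 := by
  funext z
  have e : (fun z : ℝ × ℝ => z.2 ^ 2 / 2) = fun z => (1 / 2 : ℝ) * (z.2 * z.2) := by
    funext z; ring
  rw [e, dp_mul (f := fun _ => (1 / 2 : ℝ)) (g := fun z : ℝ × ℝ => z.2 * z.2)
    (differentiableAt_const _) (by fun_prop), dp_const,
    dp_mul (f := fun z : ℝ × ℝ => z.2) (g := fun z : ℝ × ℝ => z.2) (by fun_prop) (by fun_prop),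
    dp_snd]
  ring

private theorem dx_halfsq : dx (fun z : ℝ × ℝ => z.2 ^ 2 / 2) = fun _ => 0 := by
  funext z
  have e : (fun z : ℝ × ℝ => z.2 ^ 2 / 2) = fun z => (1 / 2 : ℝ) * (z.2 * z.2) := by
    funext z; ring
  rw [e, dx_mul (f := fun _ => (1 / 2 : ℝ)) (g := fun z : ℝ × ℝ => z.2 * z.2)
    (differentiableAt_const _) (by fun_prop), dx_const,
    dx_mul (f := fun z : ℝ × ℝ => z.2) (g := fun z : ℝ × ℝ => z.2) (by fun_prop) (by fun_prop),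
    dx_snd]
  ring

private theorem cd_halfsq : ContDiff ℝ ∞ (fun z : ℝ × ℝ => z.2 ^ 2 / 2) :=
  (contDiff_snd.pow 2).div_const 2

/-- weaken the closeness parameter -/
private theorem BSol.weaken {n : ℕ} {δ δ' : ℝ} (h : δ ≤ δ') (S : BSol n δ) :
    ∃ S' : BSol n δ', S'.ε = S.ε :=
  ⟨{ ε := S.ε, ϖ := S.ϖ, b := S.b, w := S.w, ε_pos := S.ε_pos, ε_le := S.ε_le,
     ϖ_pos := S.ϖ_pos, ϖ_le := S.ϖ_le.trans h, ϖ_le_one := S.ϖ_le_one, b_ge := S.b_ge,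
     b_le := S.b_le, smooth := S.smooth, bdd := S.bdd,
     close := fun a i hai z hz => (S.close a i hai z hz).trans h, pde := S.pde, κ := S.κ,
     κ_ge := S.κ_ge, κ_le := S.κ_le, pdeB := S.pdeB, crit := S.crit }, rfl⟩

/-- the cut off transform has bounded `P0` -/
private theorem cutB_bound : ∃ C : ℝ, 0 ≤ C ∧ ∀ w : ℝ × ℝ → ℝ, ContDiff ℝ ∞ w →
    (∀ z, |w z - z.2 ^ 2 / 2| ≤ 1) → (∀ z, |dp w z - z.2| ≤ 1) →
    ∀ z : ℝ × ℝ, |P0 z.1 (dp (fun z => cutB z * w z) z)| ≤ C := by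
  obtain ⟨C1, hC1, hb1⟩ := bdd_derivs (f := (cutB : ℝ × ℝ → ℝ)) cutB.contDiff
    cutB.hasCompactSupport 1
  set M : ℝ := C1 * 3 + 3 with hM
  have hM0 : 0 ≤ M := by positivity
  refine ⟨5 * M ^ 2 + M ^ 4, by positivity, fun w hw h0 h1 z => ?_⟩
  by_cases hz : 2 < |z.1| ∨ 2 < |z.2|
  · have h3 : z ∉ tsupport (fun z => cutB z * w z) := by
      intro h2
      have h3 : tsupport (fun z => cutB z * w z) ⊆ tsupport (cutB : ℝ × ℝ → ℝ) :=
        tsupport_mul_subset_left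
      exact cutB_support hz (h3 h2)
    have h4 := deriv_zero h3 0 1
    simp only [Function.iterate_zero, id_eq, Function.iterate_one] at h4
    rw [h4]
    simp only [P0]
    norm_num
    positivity
  · push Not at hz
    obtain ⟨hz1, hz2⟩ := hz
    have e1 : dp (fun z => cutB z * w z) z = dp cutB z * w z + cutB z * dp w z :=
      dp_mul (diff_of_smooth cutB.contDiff z) (diff_of_smooth hw z)
    have k1 : |dp cutB z| ≤ C1 := by
      have := hb1 0 1 (by norm_num) z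
      simpa using this
    have k2 : |w z| ≤ 3 := by
      have a1 := h0 z
      rw [abs_le] at a1 hz2 ⊢
      constructor <;> nlinarith
    have k3 : |dp w z| ≤ 3 := by
      have a1 := h1 z
      rw [abs_le] at a1 hz2 ⊢
      constructor <;> linarith
    have k4 : |cutB z| ≤ 1 := by
      rw [abs_of_nonneg cutB.nonneg]
      exact cutB.le_one
    have k5 : |dp (fun z => cutB z * w z) z| ≤ M := by
      rw [e1]
      refine (abs_add_le _ _).trans ?_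
      rw [abs_mul, abs_mul]
      have a1 : |dp cutB z| * |w z| ≤ C1 * 3 := mul_le_mul k1 k2 (abs_nonneg _) hC1
      have a2 : |cutB z| * |dp w z| ≤ 1 * 3 := mul_le_mul k4 k3 (abs_nonneg _) zero_le_one
      linarith
    set y := dp (fun z => cutB z * w z) z with hy
    have y2 : y ^ 2 ≤ M ^ 2 := by
      rw [← sq_abs]
      exact pow_le_pow_left₀ (abs_nonneg _) k5 2
    have y4 : y ^ 4 ≤ M ^ 4 := by
      have : y ^ 4 = |y| ^ 4 := by
        rw [← abs_pow, abs_of_nonneg (by positivity)]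
      rw [this]
      exact pow_le_pow_left₀ (abs_nonneg _) k5 4
    have x2 : z.1 ^ 2 ≤ 4 := by
      rw [← sq_abs]
      nlinarith [abs_nonneg z.1]
    have y20 : 0 ≤ y ^ 2 := sq_nonneg _
    have y40 : 0 ≤ y ^ 4 := by positivity
    simp only [P0]
    rw [abs_le]
    constructor
    · nlinarith [sq_nonneg z.1, mul_nonneg (sq_nonneg z.1) y20]
    · nlinarith [sq_nonneg z.1, mul_nonneg (sub_nonneg.2 x2) y20]

private theorem P0_sq {x y : ℝ} (hx : |x| ≤ 1) (hy : |y| ≤ 1) : |P0 x y| ≤ 1 / 2 := by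
  have x2 : x ^ 2 ≤ 1 := by rw [← sq_abs]; nlinarith [abs_nonneg x]
  have y2 : y ^ 2 ≤ 1 := by rw [← sq_abs]; nlinarith [abs_nonneg y]
  have x0 : 0 ≤ x ^ 2 := sq_nonneg _
  have y0 : 0 ≤ y ^ 2 := sq_nonneg _
  have e : P0 x y = (x ^ 2 - 1 / 4) * y ^ 2 / 2 + (y ^ 2) ^ 2 / 12 := by simp only [P0]; ring
  rw [e, abs_le]
  constructor
  · nlinarith [mul_nonneg x0 y0, sq_nonneg (y ^ 2)]
  · nlinarith [mul_nonneg (sub_nonneg.2 x2) y0, mul_nonneg (sub_nonneg.2 y2) y0]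

private theorem contDiff_Es (n : ℕ) (η : ℝ) : ContDiff ℝ ∞ (Es n η) := by
  unfold Es P0
  have h1 : ContDiff ℝ ∞ (fun Y : ℝ × ℝ => P1 (Y.1 / η ^ 3, Y.2 / η ^ 3)) :=
    contDiff_P1.comp ((contDiff_fst.div_const _).prodMk (contDiff_snd.div_const _))
  fun_prop

private theorem alg_final (E Ex Ey Eyy ϖ ux uy uxx uxy uyy wx wxx wxp wpp : ℝ) (hE : 0 < E)
    (hϖ : 0 < ϖ)
    (hD : ϖ * ((E * uxx - Ex * ux / 2 + E * Ey * uy / 2) * uyy - E * uxy ^ 2 + Ey * ux * uxy) =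
      (Ey ^ 2 / 4 - E * Eyy / 2) * (1 - ϖ * uy ^ 2) + Eyy / 2 * (ϖ * ux ^ 2))
    (h1 : wx = - ux) (h2 : wpp * uyy = 1) (h3 : wxp * uyy = - uxy)
    (h4 : wxx * uyy = - uxx * uyy + uxy ^ 2) :
    wxx - Ey / E * wx * wxp - Ex / (2 * E) * wx - Ey / 2 * uy
      + (ϖ⁻¹ * (Ey ^ 2 / (4 * E) - Eyy / 2) * (1 - ϖ * uy ^ 2) + Eyy / (2 * E) * wx ^ 2) * wpp
      = 0 := by
  have huyy : uyy ≠ 0 := by
    rintro rfl
    rw [mul_zero] at h2
    exact zero_ne_one h2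
  have e2 : wpp = 1 / uyy := by field_simp; exact h2
  have e3 : wxp = - uxy / uyy := by field_simp; exact h3
  have e4 : wxx = (- uxx * uyy + uxy ^ 2) / uyy := by rw [eq_div_iff huyy]; exact h4
  subst h1
  rw [e2, e3, e4]
  field_simp
  linear_combination (-8 : ℝ) * hD

private theorem isOpen_sqr (c : ℝ) : IsOpen {z : ℝ × ℝ | |z.1| < c ∧ |z.2| < c} :=
  (isOpen_lt continuous_fst.abs continuous_const).and
    (isOpen_lt continuous_snd.abs continuous_const)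

private theorem Es_pos (n : ℕ) {η : ℝ} (hη : 0 < η) (hη1 : η ≤ 1 / 10) {z : ℝ × ℝ}
    (h1 : |z.1| ≤ 1) (h2 : |z.2| ≤ 1) : 0 < Es n η z := by
  have b1 := P0_sq h1 h2
  have b2 := P1_le_one (z.1 / η ^ 3, z.2 / η ^ 3)
  have b3 := P1_nonneg (z.1 / η ^ 3, z.2 / η ^ 3)
  have c0 : η ≤ 1 := by linarith
  have c1 : η ^ n ≤ 1 := pow_le_one₀ hη.le c0
  have c2 : (η ^ 3) ^ 2 ≤ 1 / 10 := by
    have e1 : (η ^ 3) ^ 2 = η * η ^ 5 := by ring
    have c3 : η ^ 5 ≤ 1 := pow_le_one₀ hη.le c0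
    rw [e1]
    calc η * η ^ 5 ≤ η * 1 := mul_le_mul_of_nonneg_left c3 hη.le
      _ ≤ 1 / 10 := by linarith
  have b4 : η ^ n * (η ^ 3) ^ 2 ≤ 1 / 10 :=
    calc η ^ n * (η ^ 3) ^ 2 ≤ 1 * (η ^ 3) ^ 2 := mul_le_mul_of_nonneg_right c1 (by positivity)
      _ ≤ 1 / 10 := by rw [one_mul]; exact c2
  have b5 : 0 ≤ η ^ n * (η ^ 3) ^ 2 := by positivity
  have b6 : η * P0 z.1 z.2 ≤ 1 / 20 :=
    calc η * P0 z.1 z.2 ≤ η * (1 / 2) := mul_le_mul_of_nonneg_left (abs_le.1 b1).2 hη.le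
      _ ≤ 1 / 20 := by linarith
  have b7 : η ^ n * (η ^ 3) ^ 2 * P1 (z.1 / η ^ 3, z.2 / η ^ 3) ≤ 1 / 10 :=
    calc η ^ n * (η ^ 3) ^ 2 * P1 (z.1 / η ^ 3, z.2 / η ^ 3) ≤ η ^ n * (η ^ 3) ^ 2 * 1 :=
          mul_le_mul_of_nonneg_left b2 b5
      _ ≤ 1 / 10 := by rw [mul_one]; exact b4
  simp only [Es]
  linarith

private theorem disc_sq {z : ℝ × ℝ} (hz : z.1 ^ 2 + z.2 ^ 2 < 0.81) : |z.1| < 0.9 ∧ |z.2| < 0.9 := by
  constructor
  · apply abs_lt_of_sq_lt_sq _ (by norm_num)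
    have := sq_nonneg z.2
    norm_num at hz ⊢
    linarith
  · apply abs_lt_of_sq_lt_sq _ (by norm_num)
    have := sq_nonneg z.1
    norm_num at hz ⊢
    linarith

/-- the parameters -/
private theorem params {n : ℕ} (hn : 2 ≤ n) {ϖ η : ℝ} (hϖ0 : 0 < ϖ) (hϖ1 : ϖ ≤ 1) (hη : 0 < η)
    (hη0 : η ≤ 1) (p1 : η ≤ ϖ ^ 4) :
    (η / ϖ) ^ 4 ≤ η ^ 3 ∧ η ^ 3 ≤ (η / ϖ) ^ 3 ∧ (η / ϖ) ^ (2 * n) ≤ η ^ n / ϖ ∧
      η ^ n / ϖ ≤ (η / ϖ) ^ 2 := by
  refine ⟨?_, ?_, ?_, ?_⟩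
  · rw [div_pow, div_le_iff₀ (by positivity)]
    have : η ^ 4 = η ^ 3 * η := by ring
    rw [this]
    exact mul_le_mul_of_nonneg_left p1 (by positivity)
  · apply pow_le_pow_left₀ hη.le
    rw [le_div_iff₀ hϖ0]
    exact mul_le_of_le_one_right hη.le hϖ1
  · rw [div_pow, div_le_div_iff₀ (by positivity) hϖ0]
    have c1 : η ^ n ≤ ϖ ^ (2 * n) := by
      rw [pow_mul]
      apply pow_le_pow_left₀ hη.le
      refine p1.trans ?_
      have : ϖ ^ 4 = ϖ ^ 2 * ϖ ^ 2 := by ring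
      rw [this]
      have c2 : ϖ ^ 2 ≤ 1 := pow_le_one₀ hϖ0.le hϖ1
      exact mul_le_of_le_one_right (sq_nonneg ϖ) c2
    calc η ^ (2 * n) * ϖ = η ^ n * (η ^ n * ϖ) := by ring
      _ ≤ η ^ n * (ϖ ^ (2 * n) * 1) := by
          apply mul_le_mul_of_nonneg_left _ (by positivity)
          exact mul_le_mul c1 hϖ1 hϖ0.le (by positivity)
      _ = η ^ n * ϖ ^ (2 * n) := by ring
  · rw [div_pow, div_le_div_iff₀ hϖ0 (by positivity)]
    obtain ⟨k, rfl⟩ : ∃ k, n = 2 + k := ⟨n - 2, by omega⟩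
    have c1 : η ^ k ≤ 1 := pow_le_one₀ hη.le hη0
    have c2 : ϖ * η ^ k ≤ 1 := mul_le_one₀ hϖ1 (by positivity) c1
    calc η ^ (2 + k) * ϖ ^ 2 = (η ^ 2 * ϖ) * (ϖ * η ^ k) := by ring
      _ ≤ (η ^ 2 * ϖ) * 1 := mul_le_mul_of_nonneg_left c2 (by positivity)
      _ = η ^ 2 * ϖ := by ring

private theorem darboux_scale {s ϖ E Ex Ey Eyy ux uy uxx uxy uyy : ℝ} (hs : s ^ 2 = ϖ)
    (hD : (E * (s * uxx) - Ex * (s * ux) / 2 + E * Ey * (s * uy) / 2) * (s * uyy)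
      - E * (s * uxy) ^ 2 + Ey * (s * ux) * (s * uxy) =
      (Ey ^ 2 / 4 - E * Eyy / 2) * (1 - (s * uy) ^ 2) + Eyy / 2 * (s * ux) ^ 2) :
    ϖ * ((E * uxx - Ex * ux / 2 + E * Ey * uy / 2) * uyy - E * uxy ^ 2 + Ey * ux * uxy) =
      (Ey ^ 2 / 4 - E * Eyy / 2) * (1 - ϖ * uy ^ 2) + Eyy / 2 * (ϖ * ux ^ 2) := by
  subst hs
  linear_combination hD

private theorem mv_dp {f : ℝ × ℝ → ℝ} (hf : ContDiff ℝ ∞ f) {C : ℝ} (x : ℝ)
    (hC : ∀ z, |dp f z| ≤ C) (s t : ℝ) : |f (x, t) - f (x, s)| ≤ C * |t - s| := by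
  have h := Convex.norm_image_sub_le_of_norm_hasDerivWithin_le (𝕜 := ℝ)
    (f := fun t : ℝ => f (x, t)) (f' := fun t => dp f (x, t)) (C := C) (s := univ) (x := s)
    (y := t) (fun r _ => (hasDerivAt_slice_p (diff_of_smooth hf (x, r))).hasDerivWithinAt)
    (fun r _ => hC (x, r)) convex_univ (mem_univ _) (mem_univ _)
  exact h

end aux

/-- **Theorem C.**  `u = ⟪F, N0⟫/√ϖ` is not `C^12`-close to `y²/2` on the square.
Proof: extend `u` to the plane by `y²/2 + χ (u - y²/2)`; `legendre`; cut off `w` outside of the disc of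
radius `0.9` (to get `bdd`, for `ε` small); `darboux` gives `opE ϖ (Es n η) w = 0` on the disc;
`exists_bsol`, `no_bsol` with `ε = η/ϖ`, `κ = η^n/ϖ`, `b = η³` (`ϖ⁴ ≥ η` for `η ≤ ϖ₁⁴`). -/
theorem thmC (n : ℕ) (hn : 2 ≤ n) : ∃ δ : ℝ, 0 < δ ∧ ∀ ϖ₁ : ℝ, 0 < ϖ₁ → ∃ η₁ : ℝ, 0 < η₁ ∧
    ∀ ϖ η : ℝ, ϖ₁ ≤ ϖ → ϖ ≤ δ → 0 < η → η ≤ η₁ → ∀ F : ℝ × ℝ → E3, ContDiff ℝ ∞ F →
    (∀ z : ℝ × ℝ, |z.1| < 1 → |z.2| < 1 →
      inner ℝ (fderiv ℝ F z (1, 0)) (fderiv ℝ F z (1, 0)) = Es n η z ∧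
      inner ℝ (fderiv ℝ F z (1, 0)) (fderiv ℝ F z (0, 1)) = (0 : ℝ) ∧
      inner ℝ (fderiv ℝ F z (0, 1)) (fderiv ℝ F z (0, 1)) = (1 : ℝ)) →
    ∀ N0 : E3, ‖N0‖ = 1 → ∀ u : ℝ × ℝ → ℝ, (∀ z, u z = inner ℝ (F z) N0 / √ϖ) →
    dx u 0 = 0 → dp u 0 = 0 →
    (∀ a i : ℕ, a + i ≤ 12 → ∀ z : ℝ × ℝ, |z.1| < 1 → |z.2| < 1 →
      |dx^[a] (dp^[i] (fun z => u z - z.2 ^ 2 / 2)) z| ≤ δ) → False := by
  obtain ⟨δB, hδB, ε₁, hε₁, hB⟩ := no_bsol n
  set δL : ℝ := min δB (1 / 20) with hδL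
  have hδL0 : 0 < δL := lt_min hδB (by norm_num)
  have hδL1 : δL ≤ 1 / 20 := min_le_right _ _
  obtain ⟨δ', hδ', hδ'L, hleg⟩ := legendre δL hδL0
  obtain ⟨Cχ, hCχ, hcut⟩ := cut_mul 12
  obtain ⟨CB, hCB, hbB⟩ := cutB_bound
  have hCχ0 : 0 < Cχ := lt_of_lt_of_le one_pos hCχ
  refine ⟨δ' / Cχ, div_pos hδ' hCχ0, fun ϖ₁ hϖ₁ => ?_⟩
  have hδC : δ' / Cχ ≤ δ' := div_le_self hδ'.le hCχ
  refine ⟨min (min (ϖ₁ * ε₁) (ϖ₁ / 100)) (min (ϖ₁ ^ 4) (min (1 / 10) (1 / (4 * (CB + 1))))),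
    by positivity, ?_⟩
  intro ϖ η h1 h2 hη hηle F hF hiso N0 hN0 u hu hux huy hclose
  have hϖ0 : 0 < ϖ := hϖ₁.trans_le h1
  have hϖL : ϖ ≤ δL := (h2.trans hδC).trans hδ'L
  have hϖ1 : ϖ ≤ 1 := by linarith
  have hη1 : η ≤ ϖ₁ * ε₁ := hηle.trans ((min_le_left _ _).trans (min_le_left _ _))
  have hη2 : η ≤ ϖ₁ / 100 := hηle.trans ((min_le_left _ _).trans (min_le_right _ _))
  have hη3 : η ≤ ϖ₁ ^ 4 := hηle.trans ((min_le_right _ _).trans (min_le_left _ _))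
  have hη4 : η ≤ 1 / 10 :=
    hηle.trans ((min_le_right _ _).trans ((min_le_right _ _).trans (min_le_left _ _)))
  have hη5 : η ≤ 1 / (4 * (CB + 1)) :=
    hηle.trans ((min_le_right _ _).trans ((min_le_right _ _).trans (min_le_right _ _)))
  -- smoothness
  have hus : ContDiff ℝ ∞ u := by
    have e : u = fun z => inner ℝ (F z) N0 / √ϖ := funext hu
    rw [e]
    exact (hF.inner ℝ contDiff_const).div_const _
  set e : ℝ × ℝ → ℝ := fun z => u z - z.2 ^ 2 / 2 with he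
  have hes : ContDiff ℝ ∞ e := hus.sub cd_halfsq
  set e' : ℝ × ℝ → ℝ := fun z => cutA z * e z with he'
  have he's : ContDiff ℝ ∞ e' := cutA.contDiff.mul hes
  have hcl' : ∀ a i : ℕ, a + i ≤ 12 → ∀ z : ℝ × ℝ, |dx^[a] (dp^[i] e') z| ≤ δ' := by
    intro a i hai z
    have := hcut (δ' / Cχ) e (div_pos hδ' hCχ0).le hes hclose a i hai z
    rwa [mul_div_cancel₀ _ hCχ0.ne'] at this
  set ut : ℝ × ℝ → ℝ := fun z => z.2 ^ 2 / 2 + e' z with hut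
  have huts : ContDiff ℝ ∞ ut := cd_halfsq.add he's
  have hute : (fun z => ut z - z.2 ^ 2 / 2) = e' := by
    funext z
    simp only [hut]
    ring
  obtain ⟨w, hws, hwc, hrel⟩ := hleg ut huts (by rw [hute]; exact hcl')
  -- `ut = u` on a square
  have hΩ0 : IsOpen {z : ℝ × ℝ | |z.1| < 0.96 ∧ |z.2| < 0.96} := isOpen_sqr _
  have hEq0 : EqOn ut u {z : ℝ × ℝ | |z.1| < 0.96 ∧ |z.2| < 0.96} := by
    intro z hz
    simp only [hut, he', he, cutA_one hz.1.le hz.2.le]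
    ring
  have hdp_ut : ∀ z, dp ut z = z.2 + dp e' z := by
    intro z
    have := dp_add (f := fun z : ℝ × ℝ => z.2 ^ 2 / 2) (g := e') (z := z)
      (diff_of_smooth cd_halfsq z) (diff_of_smooth he's z)
    rw [dp_halfsq] at this
    exact this
  have h00 : (0 : ℝ × ℝ) ∈ {z : ℝ × ℝ | |z.1| < 0.96 ∧ |z.2| < 0.96} := by
    constructor <;> simp <;> norm_num
  have hux' : dx ut 0 = 0 := by rw [dx_congr hΩ0 hEq0 h00]; exact hux
  have huy' : dp ut 0 = 0 := by rw [dp_congr hΩ0 hEq0 h00]; exact huy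
  -- critical point
  have hcrit : dx w 0 = 0 ∧ dp w 0 = 0 := by
    obtain ⟨z, hz1, hz2, hz3, hz4, hz5, -⟩ := hrel 0
    have a1 : dp e' 0 = 0 := by
      have := hdp_ut 0
      rw [huy'] at this
      simpa using this.symm
    have a2 : z.2 + dp e' z = 0 := by rw [← hdp_ut, hz2]; rfl
    have a3 := mv_dp (cd_dp he's) (C := δ') 0 (fun z => by
      have := hcl' 0 2 (by norm_num) z
      simpa using this) 0 z.2
    have a4 : ((0 : ℝ), z.2) = z := by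
      ext
      · exact hz1.symm
      · rfl
    have a5 : ((0 : ℝ), (0 : ℝ)) = (0 : ℝ × ℝ) := rfl
    rw [a4, a5, a1, sub_zero, sub_zero] at a3
    have a6 : |z.2| = |dp e' z| := by
      have : z.2 = - dp e' z := by linarith
      rw [this, abs_neg]
    have a7 : |z.2| = 0 := by
      have b1 : |z.2| ≤ δ' * |z.2| := by rw [← a6] at a3; exact a3
      nlinarith [abs_nonneg z.2]
    have a8 : z.2 = 0 := abs_eq_zero.1 a7
    have a9 : z = 0 := by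
      ext
      · exact hz1
      · exact a8
    rw [a9] at hz4 hz5
    exact ⟨by rw [hz5, hux', neg_zero], hz4⟩
  -- cut off `w`
  have hw0 : ∀ z, |w z - z.2 ^ 2 / 2| ≤ 1 := by
    intro z
    have := hwc 0 0 (by norm_num) z
    simp only [Function.iterate_zero, id_eq] at this
    linarith
  have hw1 : ∀ z, |dp w z - z.2| ≤ 1 := by
    intro z
    have := hwc 0 1 (by norm_num) z
    simp only [Function.iterate_zero, id_eq, Function.iterate_one] at this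
    rw [dp_sub (diff_of_smooth hws z) (diff_of_smooth cd_halfsq z), dp_halfsq] at this
    linarith
  set wt : ℝ × ℝ → ℝ := fun z => cutB z * w z with hwt
  have hwts : ContDiff ℝ ∞ wt := cutB.contDiff.mul hws
  have hΩ1 : IsOpen {z : ℝ × ℝ | |z.1| < 1 ∧ |z.2| < 1} := isOpen_sqr _
  have hEq1 : EqOn wt w {z : ℝ × ℝ | |z.1| < 1 ∧ |z.2| < 1} := by
    intro z hz
    simp only [hwt, cutB_one hz.1.le hz.2.le, one_mul]
  have hdisc : ∀ z : ℝ × ℝ, z.1 ^ 2 + z.2 ^ 2 < 0.81 → |z.1| < 0.9 ∧ |z.2| < 0.9 :=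
    fun z hz => disc_sq hz
  have hdisc1 : ∀ z : ℝ × ℝ, z.1 ^ 2 + z.2 ^ 2 < 0.81 →
      z ∈ {z : ℝ × ℝ | |z.1| < 1 ∧ |z.2| < 1} := by
    intro z hz
    have := hdisc z hz
    exact ⟨by linarith [this.1], by linarith [this.2]⟩
  have h01 : (0 : ℝ × ℝ) ∈ {z : ℝ × ℝ | |z.1| < 1 ∧ |z.2| < 1} := by
    constructor <;> simp
  have hEes : ContDiff ℝ ∞ (Es n η) := contDiff_Es n η
  have hEpos : ∀ z ∈ {z : ℝ × ℝ | |z.1| < 1 ∧ |z.2| < 1}, 0 < Es n η z :=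
    fun z hz => Es_pos n hη hη4 hz.1.le hz.2.le
  -- the equation
  have hpde : ∀ q : ℝ × ℝ, q.1 ^ 2 + q.2 ^ 2 < 0.81 →
      opE ϖ (E1 ϖ (η / ϖ) (η ^ n / ϖ) (η ^ 3)) wt q = 0 := by
    intro q hq
    rw [← Es_eq hϖ0]
    have hqm := hdisc1 q hq
    obtain ⟨hq1, hq2⟩ := hdisc q hq
    obtain ⟨z, hz1, hz2, hz3, hz4, hz5, hz6, hz7, hz8⟩ := hrel q
    have hz0 : z ∈ {z : ℝ × ℝ | |z.1| < 0.96 ∧ |z.2| < 0.96} := by
      refine ⟨by rw [hz1]; linarith, ?_⟩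
      have c1 : |z.2| ≤ |z.2 - q.2| + |q.2| := by
        have := abs_add_le (z.2 - q.2) q.2
        simpa using this
      have : |z.2| < 0.96 := by
        have c2 : |z.2 - q.2| ≤ 1 / 20 := hz3.trans hδL1
        have c3 : (0.96 : ℝ) = 0.9 + 0.06 := by norm_num
        rw [c3]
        have c4 : (1 / 20 : ℝ) < 0.06 := by norm_num
        linarith
      exact this
    have hz01 : z ∈ {z : ℝ × ℝ | |z.1| < 1 ∧ |z.2| < 1} :=
      ⟨by have := hz0.1; norm_num at this ⊢; linarith,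
        by have := hz0.2; norm_num at this ⊢; linarith⟩
    have hD := darboux (E := Es n η) (F := F) hF hEes hΩ1 hEpos
      (fun z hz => (hiso z hz.1 hz.2).1) (fun z hz => (hiso z hz.1 hz.2).2.1)
      (fun z hz => (hiso z hz.1 hz.2).2.2) hN0 (U := fun z => √ϖ * u z) (fun z => by
        rw [hu z, mul_div_cancel₀ _ (Real.sqrt_pos.2 hϖ0).ne']) (z := z) hz01
    have s1 : ∀ {f : ℝ × ℝ → ℝ}, ContDiff ℝ ∞ f → dx (fun z => √ϖ * f z) = fun z => √ϖ * dx f z :=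
      fun {f} hf => by simpa using dx_iter_const_mul hf (√ϖ) 1
    have s2 : ∀ {f : ℝ × ℝ → ℝ}, ContDiff ℝ ∞ f → dp (fun z => √ϖ * f z) = fun z => √ϖ * dp f z :=
      fun {f} hf => by simpa using dp_iter_const_mul hf (√ϖ) 1
    rw [s1 hus, s2 hus, s1 (cd_dx hus), s2 (cd_dp hus), s2 (cd_dx hus)] at hD
    have hsq : √ϖ * √ϖ = ϖ := Real.mul_self_sqrt hϖ0.le
    -- derivatives of `ut` and `u` agree at `z`
    have t1 : dx ut z = dx u z := dx_congr hΩ0 hEq0 hz0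
    have t2 : dp ut z = dp u z := dp_congr hΩ0 hEq0 hz0
    have t3 : dp (dp ut) z = dp (dp u) z := dp_congr hΩ0 (dp_congr hΩ0 hEq0) hz0
    have t4 : dp (dx ut) z = dp (dx u) z := dp_congr hΩ0 (dx_congr hΩ0 hEq0) hz0
    have t5 : dx (dx ut) z = dx (dx u) z := dx_congr hΩ0 (dx_congr hΩ0 hEq0) hz0
    rw [t1] at hz5
    rw [t2] at hz2
    rw [t3] at hz6
    rw [t3, t4] at hz7
    rw [t3, t4, t5] at hz8
    have r1 : dx wt q = dx w q := dx_congr hΩ1 hEq1 hqm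
    have r2 : dp wt q = dp w q := dp_congr hΩ1 hEq1 hqm
    have r3 : dp (dp wt) q = dp (dp w) q := dp_congr hΩ1 (dp_congr hΩ1 hEq1) hqm
    have r4 : dp (dx wt) q = dp (dx w) q := dp_congr hΩ1 (dx_congr hΩ1 hEq1) hqm
    have r5 : dx (dx wt) q = dx (dx w) q := dx_congr hΩ1 (dx_congr hΩ1 hEq1) hqm
    have r6 : (q.1, dp w q) = z := by
      ext
      · exact hz1.symm
      · exact hz4
    simp only [opE]
    rw [r1, r2, r3, r4, r5, r6, ← hz2]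
    refine alg_final _ _ _ _ ϖ (dx u z) (dp u z) (dx (dx u) z) (dp (dx u) z) (dp (dp u) z) _ _ _ _
      (hEpos z hz01) hϖ0 ?_ hz5 hz6 hz7 hz8
    exact darboux_scale (Real.sq_sqrt hϖ0.le) hD
  -- parameters
  have p1 : η ≤ ϖ ^ 4 := hη3.trans (pow_le_pow_left₀ hϖ₁.le h1 4)
  have hεle : η / ϖ ≤ 1 / 100 := by
    rw [div_le_iff₀ hϖ0]
    linarith
  have hε1 : η / ϖ ≤ ε₁ := by
    rw [div_le_iff₀ hϖ0]
    nlinarith
  obtain ⟨hb1, hb2, hκ1, hκ2⟩ := params hn hϖ0 hϖ1 hη (by linarith) p1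
  have hbdd : ∀ z, |2 * ϖ * (η / ϖ) * P0 z.1 (dp wt z)| ≤ 1 / 2 := by
    intro z
    have c1 := hbB w hws hw0 hw1 z
    have c2 : 2 * ϖ * (η / ϖ) * P0 z.1 (dp wt z) = 2 * η * P0 z.1 (dp wt z) := by
      field_simp
    rw [c2, abs_mul, abs_of_pos (by positivity : (0 : ℝ) < 2 * η)]
    have c3 : η * (4 * (CB + 1)) ≤ 1 := by
      rw [le_div_iff₀ (by positivity)] at hη5
      exact hη5
    have c4 : 2 * η * |P0 z.1 (dp wt z)| ≤ 2 * η * CB :=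
      mul_le_mul_of_nonneg_left c1 (by positivity)
    nlinarith
  obtain ⟨S, hS⟩ := exists_bsol (n := n) (δ := δL) (ε := η / ϖ) (ϖ := ϖ) (b := η ^ 3)
    (κ := η ^ n / ϖ) (w := wt) (by linarith) (by positivity) hεle hϖ0 hϖL hϖ1 hb1 hb2 hwts hbdd
    (fun a i hai z hz => by
      have g1 : EqOn (fun z => wt z - z.2 ^ 2 / 2) (fun z => w z - z.2 ^ 2 / 2)
          {z : ℝ × ℝ | |z.1| < 1 ∧ |z.2| < 1} := fun z hz => by
        simp only
        rw [hEq1 hz]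
      rw [dx_iter_congr hΩ1 (dp_iter_congr hΩ1 g1 i) a (hdisc1 z hz)]
      exact hwc a i hai z)
    hκ1 hκ2 hpde
    ⟨by rw [dx_congr hΩ1 hEq1 h01]; exact hcrit.1, by rw [dp_congr hΩ1 hEq1 h01]; exact hcrit.2⟩
  obtain ⟨S', hS'⟩ := S.weaken (min_le_left δB (1 / 20))
  exact hB S' (by rw [hS', hS]; exact hε1)

end Crest.Agent.Iso
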